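import Crest.Agent.R300.LDefs

/-!
# R300 lower bound: symmetric binomial weights (task LBin)
-/

set_option autoImplicit false

namespace Crest.Agent.R300

open Finset

theorem bin_nonneg (a z : ℕ) : 0 ≤ bin a z := by
  unfold bin
  positivity

theorem bsh_nonneg (a j z : ℕ) : 0 ≤ bsh a j z := by
  unfold bsh
  split_ifs
  · exact bin_nonneg _ _
  · exact le_rfl

theorem bsh_zero (a z : ℕ) : bsh a 0 z = bin a z := by
  simp [bsh]

theorem sum_bin (a : ℕ) : ∑ z ∈ range (a + 1), bin a z = 1 := by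
  unfold bin
  rw [← Finset.sum_div, ← Nat.cast_sum, Nat.sum_range_choose]
  push_cast
  exact div_self (by positivity)

private theorem sum_bin_le (a : ℕ) (I : Finset ℕ) : ∑ z ∈ I, bin a z ≤ 1 := by
  classical
  have h1 : ∑ z ∈ I, bin a z = ∑ z ∈ I.filter (fun z => z < a + 1), bin a z := by
    rw [Finset.sum_filter_of_ne]
    intro z _ hz
    by_contra hcon
    apply hz
    unfold bin
    rw [Nat.choose_eq_zero_of_lt (by omega)]
    simp
  rw [h1, ← sum_bin a]
  apply Finset.sum_le_sum_of_subset_of_nonneg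
  · intro z hz
    exact Finset.mem_range.2 (Finset.mem_filter.1 hz).2
  · intro z _ _
    exact bin_nonneg _ _

/-- Any partial sum of the shifted weights is at most one. -/
theorem sum_bsh_le (a j : ℕ) (I : Finset ℕ) : ∑ z ∈ I, bsh a j z ≤ 1 := by
  classical
  have h1 : ∑ z ∈ I, bsh a j z = ∑ z ∈ I.filter (fun z => j ≤ z), bin a (z - j) := by
    rw [Finset.sum_filter]
    rfl
  have h2 : ∑ z ∈ I.filter (fun z => j ≤ z), bin a (z - j) =
      ∑ y ∈ (I.filter (fun z => j ≤ z)).image (fun z => z - j), bin a y := by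
    rw [Finset.sum_image]
    intro x hx y hy hxy
    have hx' := (Finset.mem_filter.1 hx).2
    have hy' := (Finset.mem_filter.1 hy).2
    simp only at hxy
    omega
  rw [h1, h2]
  exact sum_bin_le a _

private theorem central_sq (k : ℕ) :
    ((Nat.centralBinom k : ℝ) / 4 ^ k) ^ 2 * (2 * k + 1) ≤ 1 := by
  induction k with
  | zero => simp
  | succ k ih =>
    have h : ((k : ℝ) + 1) * Nat.centralBinom (k + 1) = 2 * (2 * k + 1) * Nat.centralBinom k := by
      exact_mod_cast Nat.succ_mul_centralBinom_succ k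
    have hk : (0 : ℝ) ≤ k := Nat.cast_nonneg k
    have h2 : (Nat.centralBinom (k + 1) : ℝ) / 4 ^ (k + 1) =
        (Nat.centralBinom k : ℝ) / 4 ^ k * ((2 * k + 1) / (2 * k + 2)) := by
      have h3 : (Nat.centralBinom (k + 1) : ℝ) =
          2 * (2 * k + 1) * Nat.centralBinom k / (k + 1) := by
        rw [eq_div_iff (by positivity)]
        linarith
      rw [h3, pow_succ]
      field_simp
      ring
    rw [h2, mul_pow]
    push_cast
    have h4 : ((2 * (k : ℝ) + 1) / (2 * k + 2)) ^ 2 * (2 * (k + 1) + 1) ≤ 2 * k + 1 := by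
      rw [div_pow, div_mul_eq_mul_div, div_le_iff₀ (by positivity)]
      nlinarith
    calc ((Nat.centralBinom k : ℝ) / 4 ^ k) ^ 2 * ((2 * (k : ℝ) + 1) / (2 * k + 2)) ^ 2 *
          (2 * (k + 1) + 1)
        = ((Nat.centralBinom k : ℝ) / 4 ^ k) ^ 2 * (((2 * (k : ℝ) + 1) / (2 * k + 2)) ^ 2 *
          (2 * (k + 1) + 1)) := by ring
      _ ≤ ((Nat.centralBinom k : ℝ) / 4 ^ k) ^ 2 * (2 * k + 1) := by gcongr
      _ ≤ 1 := ih

private theorem central_le (k : ℕ) :
    (Nat.centralBinom k : ℝ) / 4 ^ k ≤ 1 / Real.sqrt (2 * k + 1) := by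
  have hp : (0 : ℝ) < 2 * k + 1 := by positivity
  rw [le_div_iff₀ (Real.sqrt_pos.2 hp),
    ← pow_le_pow_iff_left₀ (by positivity) (by positivity) two_ne_zero, mul_pow,
    Real.sq_sqrt hp.le, one_pow]
  exact central_sq k

/-- The central binomial coefficient: `C(2k,k) / 4^k ≤ 1 / √(2k+1)` by induction, and
`C(2k+1,k) / 2^(2k+1) = C(2k+2,k+1) / 4^(k+1)`. -/
theorem bin_le (a z : ℕ) : bin a z ≤ 1 / Real.sqrt (a + 1) := by
  have hmid : bin a z ≤ bin a (a / 2) := by
    unfold bin
    gcongr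
    exact Nat.choose_le_middle z a
  refine hmid.trans ?_
  obtain ⟨k, hk | hk⟩ := Nat.even_or_odd' a
  · subst hk
    have h1 : bin (2 * k) (2 * k / 2) = (Nat.centralBinom k : ℝ) / 4 ^ k := by
      unfold bin
      rw [Nat.mul_div_cancel_left k (by norm_num), Nat.centralBinom_eq_two_mul_choose, pow_mul]
      norm_num
    rw [h1]
    have := central_le k
    push_cast
    exact this
  · subst hk
    have h0 : (2 * k + 1) / 2 = k := by omega
    have h2 : Nat.centralBinom (k + 1) = 2 * (2 * k + 1).choose k := by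
      rw [Nat.centralBinom_eq_two_mul_choose]
      have e : 2 * (k + 1) = (2 * k + 1) + 1 := by ring
      rw [e, Nat.choose_succ_succ']
      have := Nat.choose_symm_half k
      omega
    have h1 : bin (2 * k + 1) ((2 * k + 1) / 2) = (Nat.centralBinom (k + 1) : ℝ) / 4 ^ (k + 1) := by
      unfold bin
      rw [h0, h2, pow_succ, pow_succ, pow_mul]
      push_cast
      have : (2 : ℝ) ^ 2 = 4 := by norm_num
      rw [this]
      field_simp
      norm_num
    rw [h1]
    refine (central_le (k + 1)).trans ?_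
    push_cast
    gcongr
    linarith

private theorem mgf_eq (a : ℕ) (t : ℝ) :
    ∑ z ∈ range (a + 1), bin a z * Real.exp (t * ((z : ℝ) - a / 2)) = Real.cosh (t / 2) ^ a := by
  rw [Real.cosh_eq, div_pow, add_pow, Finset.sum_div]
  apply Finset.sum_congr rfl
  intro z hz
  have hz' : z ≤ a := Nat.lt_succ_iff.1 (Finset.mem_range.1 hz)
  rw [← Real.exp_nat_mul, ← Real.exp_nat_mul, ← Real.exp_add, Nat.cast_sub hz']
  have e : (z : ℝ) * (t / 2) + ((a : ℝ) - z) * (-(t / 2)) = t * ((z : ℝ) - a / 2) := by ring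
  rw [e]
  unfold bin
  ring

private theorem mgf_le (a : ℕ) (t : ℝ) :
    ∑ z ∈ range (a + 1), bin a z * Real.exp (t * ((z : ℝ) - a / 2)) ≤
      Real.exp (a * t ^ 2 / 8) := by
  rw [mgf_eq]
  calc Real.cosh (t / 2) ^ a ≤ Real.exp ((t / 2) ^ 2 / 2) ^ a :=
        pow_le_pow_left₀ (Real.cosh_pos _).le (Real.cosh_le_exp_half_sq _) a
    _ = Real.exp (a * t ^ 2 / 8) := by
        rw [← Real.exp_nat_mul]
        congr 1
        ring

/-- Hoeffding's inequality for the symmetric binomial law: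
`∑ bin a z * exp (t (z - a/2)) = cosh (t/2) ^ a ≤ exp (a t² / 8)` (`Real.cosh_le_exp_half_sq`),
then `t = ± 4 lam / a`. -/
theorem bin_tail (a : ℕ) {lam : ℝ} (hlam : 0 ≤ lam) :
    ∑ z ∈ (range (a + 1)).filter (fun z : ℕ => lam < |(z : ℝ) - a / 2|), bin a z ≤
      2 * Real.exp (-(2 * lam ^ 2 / a)) := by
  classical
  rcases Nat.eq_zero_or_pos a with rfl | ha
  · refine (sum_bin_le 0 _).trans ?_
    simp
  have ha' : (0 : ℝ) < a := by exact_mod_cast ha
  set t : ℝ := 4 * lam / a with ht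
  have ht0 : 0 ≤ t := by positivity
  have key : ∀ z ∈ (range (a + 1)).filter (fun z : ℕ => lam < |(z : ℝ) - a / 2|), bin a z ≤
      Real.exp (-(t * lam)) * (bin a z * Real.exp (t * ((z : ℝ) - a / 2)) +
        bin a z * Real.exp ((-t) * ((z : ℝ) - a / 2))) := by
    intro z hz
    have hz' := (Finset.mem_filter.1 hz).2
    have hb := bin_nonneg a z
    have h1 : 1 ≤ Real.exp (-(t * lam)) * (Real.exp (t * ((z : ℝ) - a / 2)) +
        Real.exp ((-t) * ((z : ℝ) - a / 2))) := by
      rw [mul_add, ← Real.exp_add, ← Real.exp_add]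
      rcases lt_abs.1 hz' with h | h
      · have : 1 ≤ Real.exp (-(t * lam) + t * ((z : ℝ) - a / 2)) := by
          apply Real.one_le_exp
          nlinarith
        have := Real.exp_pos (-(t * lam) + (-t) * ((z : ℝ) - a / 2))
        linarith
      · have : 1 ≤ Real.exp (-(t * lam) + (-t) * ((z : ℝ) - a / 2)) := by
          apply Real.one_le_exp
          nlinarith
        have := Real.exp_pos (-(t * lam) + t * ((z : ℝ) - a / 2))
        linarith
    calc bin a z = bin a z * 1 := (mul_one _).symm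
      _ ≤ bin a z * (Real.exp (-(t * lam)) * (Real.exp (t * ((z : ℝ) - a / 2)) +
        Real.exp ((-t) * ((z : ℝ) - a / 2)))) := mul_le_mul_of_nonneg_left h1 hb
      _ = _ := by ring
  refine (Finset.sum_le_sum key).trans ?_
  refine (Finset.sum_le_sum_of_subset_of_nonneg (Finset.filter_subset _ (range (a + 1))) ?_).trans ?_
  · intro z _ _
    have hb := bin_nonneg a z
    positivity
  rw [← Finset.mul_sum, Finset.sum_add_distrib]
  have m1 := mgf_le a t
  have m2 := mgf_le a (-t)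
  have e : (-t) ^ 2 = t ^ 2 := by ring
  rw [e] at m2
  have e2 : Real.exp (-(t * lam)) * Real.exp (a * t ^ 2 / 8) = Real.exp (-(2 * lam ^ 2 / a)) := by
    rw [← Real.exp_add]
    congr 1
    rw [ht]
    field_simp
    ring
  calc Real.exp (-(t * lam)) * (∑ z ∈ range (a + 1), bin a z * Real.exp (t * ((z : ℝ) - a / 2)) +
        ∑ z ∈ range (a + 1), bin a z * Real.exp ((-t) * ((z : ℝ) - a / 2)))
      ≤ Real.exp (-(t * lam)) * (Real.exp (a * t ^ 2 / 8) + Real.exp (a * t ^ 2 / 8)) := by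
        gcongr
    _ = 2 * (Real.exp (-(t * lam)) * Real.exp (a * t ^ 2 / 8)) := by ring
    _ = _ := by rw [e2]

/-- A window of `ρ` consecutive values carries all but `2 exp (-2 J)` of the weight.  Take
`z₀ = ⌈a / 2 - √(a J)⌉₊`; every `z` with `|z - a / 2| ≤ √(a J)` lies in `[z₀, z₀ + ρ)`.  For `a = 0`
take `z₀ = 0`. -/
theorem bin_window (a ρ : ℕ) {J : ℝ} (hJ : 0 ≤ J) (hρ : 2 * Real.sqrt (a * J) + 1 ≤ ρ) :
    ∃ z₀ : ℕ, 1 - 2 * Real.exp (-(2 * J)) ≤ ∑ i ∈ range ρ, bin a (z₀ + i) := by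
  classical
  have hs := Real.sqrt_nonneg (a * J)
  rcases Nat.eq_zero_or_pos a with rfl | ha
  · refine ⟨0, ?_⟩
    have hρ1 : 1 ≤ ρ := by
      have : (1 : ℝ) ≤ ρ := by linarith
      exact_mod_cast this
    have h1 : bin 0 (0 + 0) ≤ ∑ i ∈ range ρ, bin 0 (0 + i) :=
      Finset.single_le_sum (f := fun i => bin 0 (0 + i)) (fun i _ => bin_nonneg _ _)
        (Finset.mem_range.2 hρ1)
    have h2 : bin 0 (0 + 0) = 1 := by simp [bin]
    have := Real.exp_pos (-(2 * J))
    linarith
  have ha' : (0 : ℝ) < a := by exact_mod_cast ha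
  set lam := Real.sqrt (a * J) with hlam
  have hsq : lam ^ 2 = a * J := Real.sq_sqrt (by positivity)
  have ht := bin_tail a hs
  have e : 2 * lam ^ 2 / a = 2 * J := by
    rw [hsq]
    field_simp
  rw [e] at ht
  refine ⟨⌈(a : ℝ) / 2 - lam⌉₊, ?_⟩
  set z₀ := ⌈(a : ℝ) / 2 - lam⌉₊ with hz₀
  have hsplit := Finset.sum_filter_add_sum_filter_not (range (a + 1))
    (fun z : ℕ => lam < |(z : ℝ) - a / 2|) (fun z => bin a z)
  rw [sum_bin] at hsplit
  have h3 : ∑ i ∈ range ρ, bin a (z₀ + i) = ∑ z ∈ (range ρ).image (fun i => z₀ + i), bin a z := by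
    rw [Finset.sum_image]
    intro x _ y _ hxy
    simp only at hxy
    omega
  have h4 : ∑ z ∈ (range (a + 1)).filter (fun z : ℕ => ¬ lam < |(z : ℝ) - a / 2|), bin a z ≤
      ∑ z ∈ (range ρ).image (fun i => z₀ + i), bin a z := by
    apply Finset.sum_le_sum_of_subset_of_nonneg
    · intro z hz
      have hz' := not_lt.1 (Finset.mem_filter.1 hz).2
      obtain ⟨hl, hu⟩ := abs_le.1 hz'
      have h5 : z₀ ≤ z := Nat.ceil_le.2 (by linarith)
      have h6 : (a : ℝ) / 2 - lam ≤ z₀ := Nat.le_ceil _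
      have h7 : (z : ℝ) < z₀ + ρ := by linarith
      have h8 : z < z₀ + ρ := by exact_mod_cast h7
      exact Finset.mem_image.2 ⟨z - z₀, Finset.mem_range.2 (by omega), by omega⟩
    · intro z _ _
      exact bin_nonneg _ _
  rw [h3]
  linarith

private theorem bin_step (a k : ℕ) {Λ : ℝ} (hden : 0 < (a : ℝ) / 2 - Λ)
    (hk : |(k : ℝ) - a / 2| ≤ Λ) :
    |bin a k - bin a (k + 1)| ≤ (2 * Λ + 1) / (a / 2 - Λ) * bin a (k + 1) := by
  obtain ⟨hl, hu⟩ := abs_le.1 hk
  have hka : (k : ℝ) < a := by linarith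
  have hka' : k ≤ a := by exact_mod_cast hka.le
  have h : ((a.choose (k + 1) : ℕ) : ℝ) * (k + 1) = (a.choose k : ℝ) * ((a : ℝ) - k) := by
    have := Nat.choose_succ_right_eq a k
    rw [← Nat.cast_sub hka']
    exact_mod_cast this
  have hp : (0 : ℝ) < (a : ℝ) - k := by linarith
  have h2 : bin a k - bin a (k + 1) = (2 * k + 1 - a) / ((a : ℝ) - k) * bin a (k + 1) := by
    unfold bin
    have h3 : (a.choose k : ℝ) = (a.choose (k + 1) : ℝ) * (k + 1) / ((a : ℝ) - k) := by
      rw [eq_div_iff hp.ne']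
      linarith
    rw [h3]
    field_simp
    ring
  have hb := bin_nonneg a (k + 1)
  rw [h2, abs_mul, abs_of_nonneg hb, abs_div, abs_of_pos hp]
  apply mul_le_mul_of_nonneg_right _ hb
  have h4 : |2 * (k : ℝ) + 1 - a| ≤ 2 * Λ + 1 := by
    rw [abs_le]
    constructor <;> linarith
  have h5 : 0 ≤ 2 * Λ + 1 := (abs_nonneg _).trans h4
  exact div_le_div₀ h5 h4 hden (by linarith)

/-- Shifts by at most `j` hardly change the binomial weights on a set `I` of large weight.
Take `I = {z : |z - a/2| ≤ lam + j}`, `lam = √(a J / 2)`.  For `z ∉ I`, `|z - j' - a/2| > lam`, so the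
tail bound gives even `2 exp (-J)`.  If `j = 0` the first claim is trivial.  If `j ≥ 1`, then
`a ≥ 40000 J`, and `bin a (y - 1) / bin a y = y / (a - y + 1)` lies within a factor
`exp (± (4 Λ + 2) / (a - 2 Λ))` of `1` for `|y - a/2| ≤ Λ := lam + 2 j`; as
`j (4 Λ + 2) / (a - 2 Λ) ≤ θ / 2`, a product of `j' ≤ j` such ratios lies in
`[exp (-θ/2), exp (θ/2)] ⊆ [1 - θ, 1 + θ]`. -/
theorem bpack (a j : ℕ) {J θ : ℝ} (hJ : 1 ≤ J) (hθ : 0 < θ) (hθ1 : θ ≤ 1)
    (ha : 40000 * J * (j : ℝ) ^ 2 / θ ^ 2 ≤ a) :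
    ∃ I : Finset ℕ, I ⊆ range (a + 1) ∧
      (∀ z ∈ I, ∀ j' ≤ j, |bsh a j' z - bin a z| ≤ θ * bin a z) ∧
      ∀ j' ≤ j, ∑ z ∈ range (a + j' + 1) \ I, bsh a j' z ≤ 4 * Real.exp (-J) := by
  classical
  rcases Nat.eq_zero_or_pos j with rfl | hj
  · refine ⟨range (a + 1), subset_rfl, ?_, ?_⟩
    · intro z _ j' hj'
      obtain rfl : j' = 0 := by omega
      rw [bsh_zero, sub_self, abs_zero]
      exact mul_nonneg hθ.le (bin_nonneg _ _)
    · intro j' hj'
      obtain rfl : j' = 0 := by omega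
      simp only [add_zero, sdiff_self, Finset.bot_eq_empty, Finset.sum_empty]
      positivity
  have hj1 : (1 : ℝ) ≤ j := by exact_mod_cast hj
  have hθ2 : 0 < θ ^ 2 := by positivity
  have ha1 : 40000 * J * (j : ℝ) ^ 2 ≤ a * θ ^ 2 := by rwa [div_le_iff₀ hθ2] at ha
  have hJj : (j : ℝ) ^ 2 ≤ J * (j : ℝ) ^ 2 := by nlinarith
  have ha0 : (0 : ℝ) ≤ a := Nat.cast_nonneg a
  have hθθ : θ ^ 2 ≤ θ := by nlinarith
  have hj2 : 40000 * (j : ℝ) ^ 2 ≤ a * θ := by nlinarith
  have hjj : (j : ℝ) ≤ (j : ℝ) ^ 2 := by nlinarith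
  have haθ : a * θ ≤ a := by nlinarith
  have ha' : (0 : ℝ) < a := by nlinarith
  set lam := Real.sqrt (a * J / 2) with hlam
  have hl0 : 0 ≤ lam := Real.sqrt_nonneg _
  have hsq : lam ^ 2 = a * J / 2 := Real.sq_sqrt (by positivity)
  have hjl : j * lam ≤ a * θ / 200 := by
    rw [← pow_le_pow_iff_left₀ (by positivity) (by positivity) two_ne_zero, mul_pow, hsq]
    have := mul_le_mul_of_nonneg_left ha1 ha0
    nlinarith
  have hl1 : lam ≤ j * lam := by nlinarith
  set Λ : ℝ := lam + 2 * j with hΛ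
  have hΛa : Λ ≤ a / 100 := by linarith
  have hΛ0 : 0 ≤ Λ := by positivity
  set ε : ℝ := (2 * Λ + 1) / (a / 2 - Λ) with hε
  have hden : 0 < a / 2 - Λ := by linarith
  have hε0 : 0 ≤ ε := by positivity
  have hjε : 2 * j * ε ≤ θ := by
    rw [hε, ← mul_div_assoc, div_le_iff₀ hden]
    have h1 : θ * (a / 2 - Λ) ≥ θ * (a / 2 - a / 100) := by gcongr
    have h2 : 2 * j * (2 * Λ + 1) = 4 * (j * lam) + 8 * (j : ℝ) ^ 2 + 2 * j := by
      rw [hΛ]; ring
    rw [h2]
    have h3 : θ * (a / 2 - a / 100) = 49 / 100 * (a * θ) := by ring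
    have h4 : 0 ≤ a * θ := by positivity
    linarith
  clear_value ε Λ
  refine ⟨(range (a + 1)).filter (fun z : ℕ => |(z : ℝ) - a / 2| ≤ lam + j),
    Finset.filter_subset _ _, ?_, ?_⟩
  · intro z hz j' hj'
    obtain ⟨hl, hu⟩ := abs_le.1 (Finset.mem_filter.1 hz).2
    have hjz : j ≤ z := by
      have : (j : ℝ) ≤ z := by linarith
      exact_mod_cast this
    have hb := bin_nonneg a z
    have main : ∀ i, i ≤ j → |bin a (z - i) - bin a z| ≤ 2 * i * ε * bin a z := by
      intro i
      induction i with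
      | zero => intro _; simp
      | succ i ih =>
        intro hi
        have ih' := ih (by omega)
        have hi' : ((i : ℝ) + 1) ≤ j := by exact_mod_cast hi
        have hi0 : (0 : ℝ) ≤ i := Nat.cast_nonneg i
        have hk : z - i = (z - (i + 1)) + 1 := by omega
        have hkc : ((z - (i + 1) : ℕ) : ℝ) = z - (i + 1) := by
          rw [Nat.cast_sub (by omega)]
          push_cast
          ring
        have hstep := bin_step a (z - (i + 1)) (Λ := Λ) hden (by
          rw [hkc, abs_le]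
          constructor <;> linarith)
        rw [← hk, ← hε] at hstep
        have h2 : 2 * i * ε ≤ 1 := by
          have : 2 * (i : ℝ) * ε ≤ 2 * j * ε :=
            mul_le_mul_of_nonneg_right (by linarith) hε0
          linarith
        have h3 : bin a (z - i) ≤ 2 * bin a z := by
          have h5 := (abs_le.1 ih').2
          have h6 : 2 * i * ε * bin a z ≤ 1 * bin a z := mul_le_mul_of_nonneg_right h2 hb
          linarith
        have h4 : ε * bin a (z - i) ≤ ε * (2 * bin a z) := mul_le_mul_of_nonneg_left h3 hε0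
        calc |bin a (z - (i + 1)) - bin a z|
            ≤ |bin a (z - (i + 1)) - bin a (z - i)| + |bin a (z - i) - bin a z| := abs_sub_le _ _ _
          _ ≤ ε * (2 * bin a z) + 2 * i * ε * bin a z := by linarith
          _ = 2 * ((i + 1 : ℕ) : ℝ) * ε * bin a z := by push_cast; ring
    have hbsh : bsh a j' z = bin a (z - j') := by
      unfold bsh
      rw [if_pos (by omega)]
    rw [hbsh]
    refine (main j' hj').trans ?_
    have hj'' : (j' : ℝ) ≤ j := by exact_mod_cast hj'
    apply mul_le_mul_of_nonneg_right _ hb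
    have : 2 * (j' : ℝ) * ε ≤ 2 * j * ε := mul_le_mul_of_nonneg_right (by linarith) hε0
    linarith
  · intro j' hj'
    have hj'' : (j' : ℝ) ≤ j := by exact_mod_cast hj'
    have hj0 : (0 : ℝ) ≤ j' := Nat.cast_nonneg j'
    have ht := bin_tail a hl0
    have e : 2 * lam ^ 2 / a = J := by
      rw [hsq]
      field_simp
    rw [e] at ht
    set S := range (a + j' + 1) \ (range (a + 1)).filter
      (fun z : ℕ => |(z : ℝ) - a / 2| ≤ lam + j) with hS
    have h1 : ∑ z ∈ S, bsh a j' z = ∑ z ∈ S.filter (fun z => j' ≤ z), bin a (z - j') := by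
      rw [Finset.sum_filter]
      rfl
    have h2 : ∑ z ∈ S.filter (fun z => j' ≤ z), bin a (z - j') =
        ∑ y ∈ (S.filter (fun z => j' ≤ z)).image (fun z => z - j'), bin a y := by
      rw [Finset.sum_image]
      intro x hx y hy hxy
      have hx' := (Finset.mem_filter.1 hx).2
      have hy' := (Finset.mem_filter.1 hy).2
      simp only at hxy
      omega
    have h3 : ∑ y ∈ (S.filter (fun z => j' ≤ z)).image (fun z => z - j'), bin a y ≤
        ∑ z ∈ (range (a + 1)).filter (fun z : ℕ => lam < |(z : ℝ) - a / 2|), bin a z := by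
      apply Finset.sum_le_sum_of_subset_of_nonneg
      · intro y hy
        obtain ⟨z, hz, rfl⟩ := Finset.mem_image.1 hy
        obtain ⟨hzS, hjz⟩ := Finset.mem_filter.1 hz
        obtain ⟨hz1, hz2⟩ := Finset.mem_sdiff.1 hzS
        have hz1' := Finset.mem_range.1 hz1
        refine Finset.mem_filter.2 ⟨Finset.mem_range.2 (by omega), ?_⟩
        rw [Nat.cast_sub hjz]
        by_cases hza : z < a + 1
        · have h4 : lam + j < |(z : ℝ) - a / 2| := by
            by_contra hcon
            exact hz2 (Finset.mem_filter.2 ⟨Finset.mem_range.2 hza, not_lt.1 hcon⟩)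
          rcases lt_abs.1 h4 with h | h
          · exact lt_abs.2 (Or.inl (by linarith))
          · exact lt_abs.2 (Or.inr (by linarith))
        · have h4 : (a : ℝ) + 1 ≤ z := by exact_mod_cast not_lt.1 hza
          exact lt_abs.2 (Or.inl (by linarith))
      · intro z _ _
        exact bin_nonneg _ _
    rw [h1, h2]
    have := Real.exp_pos (-J)
    linarith

end Crest.Agent.R300
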