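import Crest.Agent.R300.LNear
import Crest.Agent.R300.LBin

/-!
# R300 lower bound: helper lemmas for `LGain`
-/

set_option autoImplicit false

namespace Crest.Agent.R300

open Finset

variable {Γ : Type} [Monoid Γ]

namespace LGain

open LNear

theorem l2_prob {P : Ms Γ} (hP : Prob P) : L2 P P 1 := L2.self hP.1 hP.2.le

theorem l2_left {E P R : Ms Γ} {σ : ℝ} (h : L2 E P σ) (hσ : 0 ≤ σ) (hP : NN P) (hR : NN R)
    (h1 : mass R ≤ 1) : L2 (R * E) (R * P) σ := by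
  have := (L2.self hR h1).mul h zero_le_one hσ hR hP
  rwa [one_mul] at this

theorem l2_right {E P R : Ms Γ} {σ : ℝ} (h : L2 E P σ) (hσ : 0 ≤ σ) (hP : NN P) (hR : NN R)
    (h1 : mass R ≤ 1) : L2 (E * R) (P * R) σ := by
  have := h.mul (L2.self hR h1) hσ zero_le_one hP hR
  rwa [mul_one] at this

/-- Orthogonality of windows indexed by a finite set. -/
theorem orth_set {B : Ms Γ} (hB : Prob B) {D : ℕ} (pos : ℕ → ℕ) (E : ℕ → Ms Γ) (σ : ℕ → ℝ)
    (S : Finset ℕ) : ∀ Y : ℕ, (∀ i ∈ S, 0 ≤ σ i) → (∀ i ∈ S, L2 (E i) (B ^ D) (σ i)) →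
    (∀ i ∈ S, mass (E i) = 0) → (∀ i ∈ S, ∀ j ∈ S, i < j → pos i + D ≤ pos j) →
    (∀ i ∈ S, pos i ≤ Y) →
    L2 (∑ i ∈ S, B ^ pos i * E i * B ^ (Y - pos i)) (B ^ (Y + D))
      (Real.sqrt (∑ i ∈ S, σ i ^ 2)) := by
  induction S using Finset.induction_on_max with
  | empty =>
    intro Y _ _ _ _ _
    rw [Finset.sum_empty]
    exact L2.zero _ (Real.sqrt_nonneg _)
  | insert n S hn ih =>
    intro Y hσ hE h0 hpos hY
    have hnS : n ∉ S := fun h => lt_irrefl _ (hn n h)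
    have hmem : n ∈ insert n S := mem_insert_self _ _
    have hsub : ∀ i ∈ S, i ∈ insert n S := fun i hi => mem_insert_of_mem hi
    have hlt : ∀ i ∈ S, pos i + D ≤ pos n := fun i hi => hpos i (hsub i hi) n hmem (hn i hi)
    have hA : L2 (∑ i ∈ S, B ^ pos i * E i * B ^ (pos n - D - pos i)) (B ^ pos n)
        (Real.sqrt (∑ i ∈ S, σ i ^ 2)) := by
      rcases S.eq_empty_or_nonempty with hS | ⟨i, hi⟩
      · rw [hS, Finset.sum_empty]
        exact L2.zero _ (Real.sqrt_nonneg _)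
      · have h1 := ih (pos n - D) (fun i hi => hσ i (hsub i hi)) (fun i hi => hE i (hsub i hi))
          (fun i hi => h0 i (hsub i hi))
          (fun i hi j hj => hpos i (hsub i hi) j (hsub j hj))
          (fun i hi => by have := hlt i hi; omega)
        have e : pos n - D + D = pos n := by have := hlt i hi; omega
        rwa [e] at h1
    have h2 := L2.orth hA (l2_prob (hB.pow (pos n))) (hE n hmem) (Real.sqrt_nonneg _) zero_le_one
      (hσ n hmem) (hB.pow _).1 (hB.pow D) (h0 n hmem)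
    have h3 := l2_right h2 (Real.sqrt_nonneg _) ((hB.pow _).mul (hB.pow _)).1
      (hB.pow (Y - pos n)).1 (hB.pow _).2.le
    have hYn := hY n hmem
    have e1 : B ^ pos n * B ^ D * B ^ (Y - pos n) = B ^ (Y + D) := by
      rw [← pow_add, ← pow_add]; congr 1; omega
    have e2 : ((∑ i ∈ S, B ^ pos i * E i * B ^ (pos n - D - pos i)) * B ^ D + B ^ pos n * E n) *
        B ^ (Y - pos n) = ∑ i ∈ insert n S, B ^ pos i * E i * B ^ (Y - pos i) := by
      rw [Finset.sum_insert hnS, add_mul, add_comm, Finset.sum_mul, Finset.sum_mul]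
      congr 1
      refine Finset.sum_congr rfl fun i hi => ?_
      rw [mul_assoc, mul_assoc, ← pow_add, ← pow_add]
      congr 2
      have := hlt i hi
      omega
    have e3 : Real.sqrt (∑ i ∈ S, σ i ^ 2) ^ 2 + 1 ^ 2 * σ n ^ 2 = ∑ i ∈ insert n S, σ i ^ 2 := by
      rw [Finset.sum_insert hnS, Real.sq_sqrt (Finset.sum_nonneg fun i _ => sq_nonneg _)]
      ring
    rwa [e1, e2, e3] at h3

/-- Reindexing a Bessel family along an injective map. -/
theorem fam_reindex {ι κ : Type} {I : Finset ι} {E : ι → Ms Γ} {P : Ms Γ} {σ : ℝ}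
    (h : ∀ c : ι → ℝ, L2 (∑ i ∈ I, c i • E i) P (σ * Real.sqrt (∑ i ∈ I, c i ^ 2)))
    (S : Finset κ) (g : κ → ι) (hg : ∀ y ∈ S, g y ∈ I)
    (hinj : ∀ y ∈ S, ∀ y' ∈ S, g y = g y' → y = y') (c : κ → ℝ) :
    L2 (∑ y ∈ S, c y • E (g y)) P (σ * Real.sqrt (∑ y ∈ S, c y ^ 2)) := by
  classical
  have h1 := h fun i => ∑ y ∈ S.filter (fun y => g y = i), c y
  have e1 : (∑ i ∈ I, (∑ y ∈ S.filter (fun y => g y = i), c y) • E i) =
      ∑ y ∈ S, c y • E (g y) := by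
    rw [← Finset.sum_fiberwise_of_maps_to hg]
    refine Finset.sum_congr rfl fun i _ => ?_
    rw [Finset.sum_smul]
    refine Finset.sum_congr rfl fun y hy => ?_
    rw [(Finset.mem_filter.1 hy).2]
  have e2 : (∑ i ∈ I, (∑ y ∈ S.filter (fun y => g y = i), c y) ^ 2) = ∑ y ∈ S, c y ^ 2 := by
    rw [← Finset.sum_fiberwise_of_maps_to hg]
    refine Finset.sum_congr rfl fun i _ => ?_
    rcases (S.filter (fun y => g y = i)).eq_empty_or_nonempty with h0 | ⟨y, hy⟩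
    · rw [h0]; simp
    · have : S.filter (fun y => g y = i) = {y} := by
        rw [Finset.eq_singleton_iff_unique_mem]
        refine ⟨hy, fun y' hy' => ?_⟩
        rw [Finset.mem_filter] at hy hy'
        exact hinj _ hy'.1 _ hy.1 (hy'.2.trans hy.2.symm)
      rw [this]; simp
  rwa [e1, e2] at h1

theorem le_smul {P : Ms Γ} (hP : NN P) {r r' : ℝ} (h : r ≤ r') : Le (r • P) (r' • P) := by
  intro w
  rw [c_smul, c_smul]
  exact mul_le_mul_of_nonneg_right h (hP w)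

theorem le_add_nn {P t : Ms Γ} (ht : NN t) : Le P (P + t) := by
  intro w
  rw [c_add]
  have := ht w
  linarith

theorem bsh_eq_zero {a j z : ℕ} (h : a + j < z) : bsh a j z = 0 := by
  unfold bsh bin
  rw [if_pos (by omega), Nat.choose_eq_zero_of_lt (by omega)]
  simp

theorem cut_nn {B : Ms Γ} (hB : Prob B) (a j : ℕ) (I : Finset ℕ) :
    NN (∑ z ∈ I, bsh a j z • B ^ z) :=
  NN.sum fun z _ => (hB.pow z).1.smul (bsh_nonneg a j z)

theorem cut_mass {B : Ms Γ} (hB : Prob B) (a j : ℕ) (I : Finset ℕ) :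
    mass (∑ z ∈ I, bsh a j z • B ^ z) = ∑ z ∈ I, bsh a j z := by
  rw [mass_sum]
  refine Finset.sum_congr rfl fun z _ => ?_
  rw [mass_smul, (hB.pow z).2, mul_one]

theorem cut_le {B : Ms Γ} (hB : Prob B) (a j : ℕ) (I : Finset ℕ) :
    Le (∑ z ∈ I, bsh a j z • B ^ z) (lazy B ^ a * B ^ j) := by
  rw [lazy_pow_mul]
  have e : ∑ z ∈ I, bsh a j z • B ^ z = ∑ z ∈ I ∩ range (a + j + 1), bsh a j z • B ^ z := by
    symm
    refine Finset.sum_subset inter_subset_left fun z hz hz' => ?_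
    have : a + j < z := by
      by_contra hc
      exact hz' (mem_inter.2 ⟨hz, mem_range.2 (by omega)⟩)
    rw [bsh_eq_zero this, zero_smul]
  rw [e, ← Finset.sum_sdiff (inter_subset_right (s₁ := I) (s₂ := range (a + j + 1))),
    add_comm (∑ z ∈ _ \ _, _)]
  exact le_add_nn (cut_nn hB a j _)

theorem sum_bsh {B : Ms Γ} (hB : Prob B) (a j : ℕ) :
    ∑ z ∈ range (a + j + 1), bsh a j z = 1 := by
  rw [← cut_mass hB, ← lazy_pow_mul]
  exact ((hB.lazy.pow a).mul (hB.pow j)).2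

theorem l1_of_le {P Q : Ms Γ} (h : Le P Q) : l1 (Q - P) = mass Q - mass P := by
  rw [(le_iff_nn.1 h).l1_eq, mass_sub]

theorem mass_le_left {B V t : Ms Γ} (hB : Prob B) {N a : ℕ} (ht : NN t)
    (e : B ^ N = V * lazy B ^ a + t) : mass V ≤ 1 := by
  have h := (hB.pow N).2
  rw [e, mass_add, mass_mul, (hB.lazy.pow a).2, mul_one] at h
  have := ht.mass_nonneg
  linarith

theorem mass_le_right {B V t : Ms Γ} (hB : Prob B) {N a : ℕ} (ht : NN t)
    (e : B ^ N = lazy B ^ a * V + t) : mass V ≤ 1 := by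
  have h := (hB.pow N).2
  rw [e, mass_add, mass_mul, (hB.lazy.pow a).2, one_mul] at h
  have := ht.mass_nonneg
  linarith

/-- The left slack: a window of the binomial mixture. -/
theorem left_part {B V t : Ms Γ} (hB : Prob B) {N a z₀ ρ : ℕ} {ε ε' : ℝ} (hV : NN V) (ht : NN t)
    (e : B ^ N = V * lazy B ^ a + t) (hε : mass t ≤ ε)
    (hε' : 1 - ε' ≤ ∑ i ∈ range ρ, bin a (z₀ + i)) :
    Le (V * ∑ i ∈ range ρ, bin a (z₀ + i) • B ^ (z₀ + i)) (B ^ N) ∧
      l1 (B ^ N - V * ∑ i ∈ range ρ, bin a (z₀ + i) • B ^ (z₀ + i)) ≤ ε + ε' := by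
  have e1 : ∑ i ∈ range ρ, bin a (z₀ + i) • B ^ (z₀ + i) =
      ∑ z ∈ Ico z₀ (z₀ + ρ), bsh a 0 z • B ^ z := by
    rw [Finset.sum_Ico_eq_sum_range, Nat.add_sub_cancel_left]
    simp only [bsh_zero]
  have e2 : ∑ i ∈ range ρ, bin a (z₀ + i) = ∑ z ∈ Ico z₀ (z₀ + ρ), bsh a 0 z := by
    rw [Finset.sum_Ico_eq_sum_range, Nat.add_sub_cancel_left]
    simp only [bsh_zero]
  rw [e1]
  rw [e2] at hε'
  have h1 := cut_le hB a 0 (Ico z₀ (z₀ + ρ))
  rw [pow_zero, mul_one] at h1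
  have h2 : Le (V * ∑ z ∈ Ico z₀ (z₀ + ρ), bsh a 0 z • B ^ z) (B ^ N) := by
    rw [e]
    exact ((Le.refl V).mul h1 (cut_nn hB _ _ _) hV).trans (le_add_nn ht)
  refine ⟨h2, ?_⟩
  have h3 := mass_le_left hB ht e
  have h4 := hV.mass_nonneg
  have h5 := sum_bsh_le a 0 (Ico z₀ (z₀ + ρ))
  rw [l1_of_le h2, e, mass_add, mass_mul, mass_mul, (hB.lazy.pow a).2, cut_mass hB]
  nlinarith

/-- The right slack, after a shift by `i`. -/
theorem right_part {B V t : Ms Γ} (hB : Prob B) {N a i : ℕ} {I : Finset ℕ} {ε ε' : ℝ} (hV : NN V)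
    (ht : NN t) (e : B ^ N = lazy B ^ a * V + t) (hε : mass t ≤ ε) (hI : I ⊆ range (a + 1))
    (hε' : ∑ z ∈ range (a + i + 1) \ I, bsh a i z ≤ ε') :
    Le ((∑ z ∈ I, bsh a i z • B ^ z) * V) (B ^ i * B ^ N) ∧
      l1 (B ^ i * B ^ N - (∑ z ∈ I, bsh a i z • B ^ z) * V) ≤ ε + ε' := by
  have e1 : B ^ i * B ^ N = lazy B ^ a * B ^ i * V + B ^ i * t := by
    rw [e, mul_add, ← mul_assoc, ((commute_lazy B).pow_pow i a).eq]
  have h2 : Le ((∑ z ∈ I, bsh a i z • B ^ z) * V) (B ^ i * B ^ N) := by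
    rw [e1]
    exact ((cut_le hB a i I).mul (Le.refl V) hV ((hB.lazy.pow a).mul (hB.pow i)).1).trans
      (le_add_nn ((hB.pow i).1.mul ht))
  refine ⟨h2, ?_⟩
  have h3 := mass_le_right hB ht e
  have h4 := hV.mass_nonneg
  have h5 := sum_bsh_le a i I
  have h6 := Finset.sum_sdiff (f := fun z => bsh a i z)
    (hI.trans (range_subset_range.2 (show a + 1 ≤ a + i + 1 by omega)))
  rw [sum_bsh hB] at h6
  rw [l1_of_le h2, e1, mass_add, mass_mul, mass_mul, mass_mul, mass_mul, (hB.lazy.pow a).2,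
    (hB.pow i).2, cut_mass hB]
  nlinarith

theorem sum_bin_le (a z₀ ρ : ℕ) : ∑ i ∈ range ρ, bin a (z₀ + i) ≤ 1 := by
  have h := sum_bsh_le a 0 (Ico z₀ (z₀ + ρ))
  rw [Finset.sum_Ico_eq_sum_range, Nat.add_sub_cancel_left] at h
  simpa only [bsh_zero] using h

theorem sum_bin_sq_le (a z₀ ρ : ℕ) :
    ∑ i ∈ range ρ, bin a (z₀ + i) ^ 2 ≤ 1 / Real.sqrt (a + 1) := by
  calc ∑ i ∈ range ρ, bin a (z₀ + i) ^ 2
      ≤ ∑ i ∈ range ρ, 1 / Real.sqrt (a + 1) * bin a (z₀ + i) :=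
        Finset.sum_le_sum fun i _ => by
          rw [sq]; exact mul_le_mul_of_nonneg_right (bin_le _ _) (bin_nonneg _ _)
    _ ≤ _ := by
        rw [← Finset.mul_sum]
        exact mul_le_of_le_one_right (by positivity) (sum_bin_le a z₀ ρ)

theorem ratio {x y : ℝ} (hy : 0 ≤ y) (h : |x - y| ≤ 1 / 2 * y) :
    x = y * (x / y) ∧ (x / y) ^ 2 ≤ 9 / 4 ∧ 1 / 2 * y ≤ x := by
  obtain ⟨h1, h2⟩ := abs_le.1 h
  rcases eq_or_lt_of_le hy with h0 | h0
  · subst h0
    have : x = 0 := by linarith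
    subst this
    norm_num
  · refine ⟨by field_simp, ?_, by linarith⟩
    rw [div_pow, div_le_iff₀ (by positivity)]
    nlinarith

end LGain

end Crest.Agent.R300
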