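import Crest.Agent.R300.LNear
import Crest.Agent.R300.LBin
import Crest.Agent.R300.LGainAux1

/-!
# R300 lower bound: the gain from an uncertain position (task LGain)
-/

set_option autoImplicit false

namespace Crest.Agent.R300

open Finset

variable {Γ : Type} [Monoid Γ]

/-- Measures of mass zero in disjoint windows are orthogonal.  Induction on `n` for
`S n = ∑_{i < n} B ^ (pos i) * E i * B ^ (Y - pos i)` and all `Y`; by `L2.orth` applied to
`S (n+1) = (S' * B ^ D + B ^ (pos n) * E n) * B ^ (Y - pos n)`, where `S'` is the sum for `n` and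
`Y' = pos n - D`, a measure relative to `B ^ (pos n)`. -/
theorem orth_windows {B : Ms Γ} (hB : Prob B) {D Y n : ℕ} (pos : ℕ → ℕ) (E : ℕ → Ms Γ)
    (σ : ℕ → ℝ) (hσ : ∀ i < n, 0 ≤ σ i) (hE : ∀ i < n, L2 (E i) (B ^ D) (σ i))
    (h0 : ∀ i < n, mass (E i) = 0) (hpos : ∀ i, i + 1 < n → pos i + D ≤ pos (i + 1))
    (hY : ∀ i < n, pos i ≤ Y) :
    L2 (∑ i ∈ range n, B ^ pos i * E i * B ^ (Y - pos i)) (B ^ (Y + D))
      (Real.sqrt (∑ i ∈ range n, σ i ^ 2)) := by
  refine LGain.orth_set hB pos E σ (range n) Y (fun i hi => hσ i (mem_range.1 hi))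
    (fun i hi => hE i (mem_range.1 hi)) (fun i hi => h0 i (mem_range.1 hi)) ?_
    (fun i hi => hY i (mem_range.1 hi))
  intro i _ j hj hij
  rw [mem_range] at hj
  induction j with
  | zero => omega
  | succ j ih =>
    have h1 := hpos j hj
    rcases Nat.lt_succ_iff_lt_or_eq.1 hij with h | h
    · have := ih (by omega) h
      omega
    · rw [h]; exact h1

/-- Long-range Bessel inequality.  Recentre the family (`F2.center`).  For `y ≤ Y + 2 s` let
`u = y / (2 s + 1)`, `pos u = min (u (2 s + 1)) Y`, `w = y - pos u ≤ 2 s`; then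
`B ^ y F B ^ (Y + 2 s - y) = B ^ (pos u) * shf B F s w * B ^ (Y - pos u)`.  Group the `y` by `u`, and the
`u` by their residue modulo `Q`: within a class `pos (u + Q) ≥ pos u + D` (for blocks that occur),
so `orth_windows` applies; add the `Q` classes with Cauchy–Schwarz. -/
theorem long_bessel {B F : Ms Γ} (hB : Prob B) {s D Q : ℕ} (Y : ℕ) {σ τ : ℝ} (hσ : 0 ≤ σ)
    (hτ : 0 ≤ τ) (hQ : 1 ≤ Q) (hD : D + 2 * s ≤ Q * (2 * s + 1)) (h0 : mass F = 0)
    (h : F2 (range (2 * s + 1)) (shf B F s) (B ^ D) σ τ) :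
    F2 (range (Y + 2 * s + 1)) (fun y => B ^ y * F * B ^ (Y + 2 * s - y)) (B ^ (Y + D))
      (Real.sqrt Q * (σ + τ * Real.sqrt (2 * s + 1))) (2 * τ) := by
  obtain ⟨E, h1, h2⟩ := h.center hτ (hB.pow D) fun w _ => by
    unfold shf
    rw [mass_mul, mass_mul, h0, mul_zero, zero_mul]
  rw [card_range] at h2
  push_cast at h2
  set σ' : ℝ := σ + τ * Real.sqrt (2 * s + 1) with hσ'
  have hσ0 : 0 ≤ σ' := add_nonneg hσ (mul_nonneg hτ (Real.sqrt_nonneg _))
  set L : ℕ := 2 * s + 1 with hL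
  have hL0 : 0 < L := by omega
  set pos : ℕ → ℕ := fun u => min (u * L) Y with hpos
  have hle : ∀ y, pos (y / L) ≤ y := fun y =>
    (min_le_left _ _).trans (Nat.div_mul_le_self y L)
  have hleY : ∀ u, pos u ≤ Y := fun u => min_le_right _ _
  have hw : ∀ y ∈ range (Y + 2 * s + 1), y - pos (y / L) ∈ range L := by
    intro y hy
    rw [mem_range] at hy ⊢
    have a1 := Nat.div_add_mod' y L
    have a2 := Nat.mod_lt y hL0
    simp only [hpos]
    omega
  refine ⟨fun y => B ^ pos (y / L) * E (y - pos (y / L)) * B ^ (Y - pos (y / L)), fun y hy => ?_,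
    fun c => ?_⟩
  · have e : B ^ y * F * B ^ (Y + 2 * s - y) =
        B ^ pos (y / L) * shf B F s (y - pos (y / L)) * B ^ (Y - pos (y / L)) := by
      unfold shf
      have a1 := hle y
      have a2 := hleY (y / L)
      have a3 := mem_range.1 (hw y hy)
      rw [← mul_assoc, ← mul_assoc, ← pow_add, mul_assoc _ (B ^ _) (B ^ _), ← pow_add]
      congr 2
      · congr 1; omega
      · omega
    simp only
    rw [e]
    exact LNear.l1_right (LNear.l1_left (h1 _ (hw y hy)).1 (hB.pow _)) (hB.pow _)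
  · set U : ℕ := (Y + 2 * s) / L + 1 with hU
    set T : ℕ → Finset ℕ := fun u => (range (Y + 2 * s + 1)).filter fun y => y / L = u with hT
    set G : ℕ → Ms Γ := fun u => ∑ y ∈ T u, c y • E (y - pos u) with hG
    set ν : ℕ → ℝ := fun u => σ' * Real.sqrt (∑ y ∈ T u, c y ^ 2) with hν
    have hmap : ∀ y ∈ range (Y + 2 * s + 1), y / L ∈ range U := by
      intro y hy
      rw [mem_range] at hy ⊢
      have := Nat.div_le_div_right (c := L) (show y ≤ Y + 2 * s by omega)
      omega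
    have hwT : ∀ u, ∀ y ∈ T u, y - pos u ∈ range L := by
      intro u y hy
      obtain ⟨a1, a2⟩ := mem_filter.1 hy
      rw [← a2]
      exact hw y a1
    have hGL : ∀ u, L2 (G u) (B ^ D) (ν u) := by
      intro u
      refine LGain.fam_reindex h2 (T u) (fun y => y - pos u) (hwT u) ?_ c
      intro y hy y' hy' e
      have a1 := hle y
      have a2 := hle y'
      rw [(mem_filter.1 hy).2] at a1
      rw [(mem_filter.1 hy').2] at a2
      omega
    have hG0 : ∀ u, mass (G u) = 0 := by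
      intro u
      simp only [hG]
      rw [mass_sum]
      refine Finset.sum_eq_zero fun y hy => ?_
      rw [mass_smul, (h1 _ (hwT u y hy)).2, mul_zero]
    have hν0 : ∀ u, 0 ≤ ν u := fun u => mul_nonneg hσ0 (Real.sqrt_nonneg _)
    have hmod : ∀ u ∈ range U, u % Q ∈ range Q := fun u _ => mem_range.2 (Nat.mod_lt u hQ)
    have e1 : (∑ y ∈ range (Y + 2 * s + 1),
        c y • (B ^ pos (y / L) * E (y - pos (y / L)) * B ^ (Y - pos (y / L)))) =
        ∑ r ∈ range Q, ∑ u ∈ (range U).filter (fun u => u % Q = r),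
          B ^ pos u * G u * B ^ (Y - pos u) := by
      rw [Finset.sum_fiberwise_of_maps_to hmod, ← Finset.sum_fiberwise_of_maps_to hmap]
      refine Finset.sum_congr rfl fun u _ => ?_
      simp only [hG]
      rw [Finset.mul_sum, Finset.sum_mul]
      refine Finset.sum_congr rfl fun y hy => ?_
      rw [(mem_filter.1 hy).2, mul_smul_comm, smul_mul_assoc]
    have hr : ∀ r ∈ range Q, L2 (∑ u ∈ (range U).filter (fun u => u % Q = r),
        B ^ pos u * G u * B ^ (Y - pos u)) (B ^ (Y + D))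
        (Real.sqrt (∑ u ∈ (range U).filter (fun u => u % Q = r), ν u ^ 2)) := by
      intro r _
      refine LGain.orth_set hB pos G ν _ Y (fun u _ => hν0 u) (fun u _ => hGL u)
        (fun u _ => hG0 u) ?_ fun u _ => hleY u
      intro u hu v hv huv
      obtain ⟨-, a2⟩ := mem_filter.1 hu
      obtain ⟨a3, a4⟩ := mem_filter.1 hv
      have a5 : u + Q ≤ v := by
        have a6 : Q ∣ v - u := (Nat.modEq_iff_dvd' huv.le).1 (a2.trans a4.symm)
        have := Nat.le_of_dvd (by omega) a6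
        omega
      have a7 : v * L ≤ Y + 2 * s := by
        rw [mem_range] at a3
        exact (Nat.le_div_iff_mul_le hL0).1 (by omega)
      have a8 : u * L + Q * L ≤ v * L := by
        rw [← add_mul]; exact Nat.mul_le_mul_right L a5
      simp only [hpos]
      omega
    simp only
    rw [e1]
    refine (L2.sum hr).mono ?_
    have e2 : ∑ r ∈ range Q, Real.sqrt (∑ u ∈ (range U).filter (fun u => u % Q = r), ν u ^ 2) ^ 2
        = σ' ^ 2 * ∑ y ∈ range (Y + 2 * s + 1), c y ^ 2 := by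
      rw [Finset.sum_congr rfl fun r _ => Real.sq_sqrt (Finset.sum_nonneg fun u _ => sq_nonneg _),
        Finset.sum_fiberwise_of_maps_to hmod, ← Finset.sum_fiberwise_of_maps_to hmap,
        Finset.mul_sum]
      refine Finset.sum_congr rfl fun u _ => ?_
      simp only [hν]
      rw [mul_pow, Real.sq_sqrt (Finset.sum_nonneg fun u _ => sq_nonneg _)]
    have h3 := LNear.sum_abs_le (range Q)
      fun r => Real.sqrt (∑ u ∈ (range U).filter (fun u => u % Q = r), ν u ^ 2)
    rw [e2, card_range, Real.sqrt_mul (sq_nonneg _), Real.sqrt_sq hσ0, ← mul_assoc] at h3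
    refine le_trans (Finset.sum_le_sum fun r _ => le_abs_self _) h3

/-- The gain lemma.  Let `Λ = lazy B`, `B ^ NL = V Λ ^ a + t`, `B ^ NR = Λ ^ a' V' + t'`, `z₀` from
`bin_window`, `I` from `bpack a' ρ` with `θ = 1/2`, `Y = 2 s' m + ρ`, and let `E y` be the
approximants of `F y = B ^ y F B ^ (Y + 2 s - y)` from `long_bessel`.  Since
`B ^ (z₀ + i + m w) F B ^ (m (2 s' - w) + (NR + ρ + 2 s)) = B ^ z₀ * F (i + m w) * B ^ i * B ^ NR`,
member `w` of the family equals, up to `l1` error `2 τ + lam (1 + 2 + 1 + 4) exp (-J)`,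
`∑_{z' ∈ I} bin a' z' • V B ^ z₀ (∑_{i < ρ} (bin a (z₀ + i) * r i z') • E (i + m w)) B ^ z' V'` with
`r i z' = bsh a' i z' / bin a' z' ∈ [1/2, 3/2]`.  The map `(i, w) ↦ i + m w` is injective
(`s' = 0` or `ρ ≤ m`), so for coefficients `c w` the inner double sum has norm at most
`√Q σ̃ ‖c‖ (3/2) √(max bin a)` (`∑ bin² ≤ max bin ≤ 1 / √(a+1)`) relative to `B ^ (Y + D)`.  `L2.mix`
over `z'` gives the same norm relative to `R = ∑_{z' ∈ I} bin a' z' • V B ^ z₀ B ^ (Y+D) B ^ z' V'`, and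
`R ≤ 2.8 • B ^ total`, because `Λ ^ a Λ ^ a' ≥ ∑_i bin a (z₀ + i) B ^ z₀ ∑_{z' ∈ I} (bin a' z' / 2) B ^ z'`
and `∑_i bin a (z₀ + i) ≥ 1 - 2 e⁻² ≥ 0.72`.  `1.5 √2.8 ≤ 4`. -/
theorem gain {B F : Ms Γ} (hB : Prob B) {s D Q m s' NL NR a a' ρ : ℕ} {σ τ lam J : ℝ}
    (hσ : 0 ≤ σ) (hτ : 0 ≤ τ) (hJ : 1 ≤ J) (hQ : 1 ≤ Q) (hD : D + 2 * s ≤ Q * (2 * s + 1))
    (h0 : mass F = 0) (hl : l1 F ≤ lam) (h : F2 (range (2 * s + 1)) (shf B F s) (B ^ D) σ τ)
    (hL : Slack B NL a (Real.exp (-J))) (hR : Slack B NR a' (Real.exp (-J)))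
    (hρ : 2 * Real.sqrt (a * J) + 1 ≤ ρ) (hm : s' = 0 ∨ ρ ≤ m)
    (ha' : 160000 * J * (ρ : ℝ) ^ 2 ≤ a') :
    F2 (range (2 * s' + 1))
      (fun w => B ^ (NL + m * w) * F * B ^ (m * (2 * s' - w) + (NR + ρ + 2 * s)))
      (B ^ (NL + NR + ρ + 2 * s' * m + D))
      (4 * Real.sqrt Q * (σ + τ * Real.sqrt (2 * s + 1)) / Real.sqrt (Real.sqrt (a + 1)))
      (2 * τ + 8 * lam * Real.exp (-J)) := by
  obtain ⟨⟨V, t, hV, ht, eL, htJ⟩, -⟩ := hL
  obtain ⟨-, ⟨V', t', hV', ht', eR, htJ'⟩⟩ := hR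
  obtain ⟨z₀, hz₀⟩ := bin_window a ρ (by linarith) hρ
  obtain ⟨I, hI, hI1, hI2⟩ := bpack a' ρ (θ := 1 / 2) hJ (by norm_num) (by norm_num)
    (by refine le_trans (le_of_eq ?_) ha'; ring)
  set Y : ℕ := 2 * s' * m + ρ with hY
  obtain ⟨E, hE1, hE2⟩ := long_bessel hB Y hσ hτ hQ hD h0 h
  set σ' : ℝ := Real.sqrt Q * (σ + τ * Real.sqrt (2 * s + 1)) with hσ'
  have hσ0 : 0 ≤ σ' :=
    mul_nonneg (Real.sqrt_nonneg _) (add_nonneg hσ (mul_nonneg hτ (Real.sqrt_nonneg _)))
  have hlam : 0 ≤ lam := (l1_nonneg _).trans hl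
  set ε : ℝ := Real.exp (-J) with hε
  have hε0 : 0 ≤ ε := (Real.exp_pos _).le
  have hε2 : Real.exp (-(2 * J)) ≤ ε := Real.exp_le_exp.2 (by linarith)
  have hε4 : Real.exp (-(2 * J)) ≤ 1 / 4 := by
    have a1 : (2 : ℝ) ≤ Real.exp J := by have := Real.add_one_le_exp J; linarith
    have a2 : Real.exp (-(2 * J)) * (Real.exp J * Real.exp J) = 1 := by
      rw [← Real.exp_add, ← Real.exp_add, ← Real.exp_zero]; congr 1; ring
    have a3 := (Real.exp_pos (-(2 * J))).le
    have a4 : (4 : ℝ) ≤ Real.exp J * Real.exp J := by nlinarith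
    nlinarith
  set b : ℕ → ℝ := fun i => bin a (z₀ + i) with hb
  have hb0 : ∀ i, 0 ≤ b i := fun i => bin_nonneg _ _
  have hb1 : ∑ i ∈ range ρ, b i ≤ 1 := LGain.sum_bin_le a z₀ ρ
  have hb2 : ∑ i ∈ range ρ, b i ^ 2 ≤ 1 / Real.sqrt (a + 1) := LGain.sum_bin_sq_le a z₀ ρ
  have hb3 : 1 / 2 ≤ ∑ i ∈ range ρ, b i := by linarith
  obtain ⟨hL1, hL2⟩ := LGain.left_part hB hV ht eL htJ (ε' := 2 * ε) (z₀ := z₀) (ρ := ρ)
    (by linarith)
  have hR' := fun i (hi : i ∈ range ρ) =>
    LGain.right_part hB hV' ht' eR htJ' hI (hI2 i (mem_range.1 hi).le)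
  set M : ℕ → Ms Γ := fun i => (∑ z ∈ I, bsh a' i z • B ^ z) * V' with hM
  have hMn : ∀ i, NN (M i) := fun i => (LGain.cut_nn hB _ _ _).mul hV'
  have hV1 := LGain.mass_le_left hB ht eL
  have hV1' := LGain.mass_le_right hB ht' eR
  set V₀ : Ms Γ := V * B ^ z₀ with hV₀
  have hV₀n : NN V₀ := hV.mul (hB.pow _).1
  have hV₀1 : mass V₀ ≤ 1 := by rw [hV₀, mass_mul, (hB.pow _).2, mul_one]; exact hV1
  have eV : V * ∑ i ∈ range ρ, bin a (z₀ + i) • B ^ (z₀ + i) =
      ∑ i ∈ range ρ, b i • (V₀ * B ^ i) := by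
    rw [Finset.mul_sum]
    refine Finset.sum_congr rfl fun i _ => ?_
    rw [mul_smul_comm, pow_add, ← mul_assoc]
  rw [eV] at hL1 hL2
  have hy : ∀ w ∈ range (2 * s' + 1), ∀ i ∈ range ρ, i + m * w + m * (2 * s' - w) < Y := by
    intro w hw i hi
    rw [mem_range] at hw hi
    rw [add_assoc, ← mul_add, Nat.add_sub_cancel' (by omega), hY, mul_comm m]
    omega
  have hy' : ∀ w ∈ range (2 * s' + 1), ∀ i ∈ range ρ, i + m * w ∈ range (Y + 2 * s + 1) := by
    intro w hw i hi
    have := hy w hw i hi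
    rw [mem_range]
    omega
  refine ⟨fun w => ∑ i ∈ range ρ, b i • (V₀ * E (i + m * w) * M i), fun w hw => ?_, fun c => ?_⟩
  · set H : Ms Γ := B ^ (m * w) * F * B ^ (m * (2 * s' - w) + (ρ + 2 * s)) * B ^ NR with hH
    have hH1 : l1 H ≤ lam := by
      refine (l1_mul_le _ _).trans ?_
      rw [(hB.pow _).l1_eq, mul_one]
      refine (l1_mul_le _ _).trans ?_
      rw [(hB.pow _).l1_eq, mul_one]
      refine (l1_mul_le _ _).trans ?_
      rw [(hB.pow _).l1_eq, one_mul]
      exact hl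
    have e1 : B ^ (NL + m * w) * F * B ^ (m * (2 * s' - w) + (NR + ρ + 2 * s)) = B ^ NL * H := by
      rw [show m * (2 * s' - w) + (NR + ρ + 2 * s) = m * (2 * s' - w) + (ρ + 2 * s) + NR by omega,
        pow_add B NL, pow_add B _ NR, hH]
      simp only [mul_assoc]
    have k1 : l1 (B ^ NL * H - (∑ i ∈ range ρ, b i • (V₀ * B ^ i)) * H) ≤ (ε + 2 * ε) * lam := by
      rw [← sub_mul]
      exact (l1_mul_le _ _).trans (mul_le_mul hL2 hH1 (l1_nonneg _) (by linarith))
    have k2 : ∀ i ∈ range ρ, l1 (V₀ * B ^ i * H - V₀ * E (i + m * w) * M i) ≤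
        2 * τ + lam * (ε + 4 * ε) := by
      intro i hi
      set Fy : Ms Γ := B ^ (i + m * w) * F * B ^ (Y + 2 * s - (i + m * w)) with hFy
      have hFy1 : l1 Fy ≤ lam := by
        refine (l1_mul_le _ _).trans ?_
        rw [(hB.pow _).l1_eq, mul_one]
        refine (l1_mul_le _ _).trans ?_
        rw [(hB.pow _).l1_eq, one_mul]
        exact hl
      have e2 : B ^ i * H = Fy * (B ^ i * B ^ NR) := by
        rw [hH, hFy, ← mul_assoc, ← mul_assoc, ← mul_assoc, ← pow_add, ← mul_assoc,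
          mul_assoc _ (B ^ _) (B ^ i), ← pow_add]
        congr 3
        have a1 := hy w hw i hi
        have a2 : m * w + m * (2 * s' - w) + ρ = Y := by
          rw [← mul_add, Nat.add_sub_cancel' (by have := mem_range.1 hw; omega), hY, mul_comm m]
        omega
      have e3 : V₀ * B ^ i * H - V₀ * E (i + m * w) * M i =
          V₀ * ((Fy - E (i + m * w)) * M i + Fy * (B ^ i * B ^ NR - M i)) := by
        rw [mul_assoc, e2]; noncomm_ring
      have a1 : l1 (M i) ≤ 1 := by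
        rw [(hMn i).l1_eq, ← ((hB.pow i).mul (hB.pow NR)).2]
        exact (hR' i hi).1.mass_le
      have a2 : l1 ((Fy - E (i + m * w)) * M i) ≤ 2 * τ := by
        refine (l1_mul_le _ _).trans ?_
        exact (mul_le_of_le_one_right (l1_nonneg _) a1).trans (hE1 _ (hy' w hw i hi))
      have a3 : l1 (Fy * (B ^ i * B ^ NR - M i)) ≤ lam * (ε + 4 * ε) :=
        (l1_mul_le _ _).trans (mul_le_mul hFy1 (hR' i hi).2 (l1_nonneg _) hlam)
      rw [e3]
      refine (l1_mul_le _ _).trans ?_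
      rw [hV₀n.l1_eq]
      exact (mul_le_of_le_one_left (l1_nonneg _) hV₀1).trans
        ((l1_add_le _ _).trans (add_le_add a2 a3))
    have k3 : l1 ((∑ i ∈ range ρ, b i • (V₀ * B ^ i)) * H -
        ∑ i ∈ range ρ, b i • (V₀ * E (i + m * w) * M i)) ≤ 2 * τ + lam * (ε + 4 * ε) := by
      rw [Finset.sum_mul, ← Finset.sum_sub_distrib]
      refine (l1_sum_le _ _).trans ?_
      have a1 : ∀ i ∈ range ρ, l1 (b i • (V₀ * B ^ i) * H - b i • (V₀ * E (i + m * w) * M i)) ≤
          b i * (2 * τ + lam * (ε + 4 * ε)) := by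
        intro i hi
        rw [smul_mul_assoc, ← smul_sub, l1_smul, abs_of_nonneg (hb0 i)]
        exact mul_le_mul_of_nonneg_left (k2 i hi) (hb0 i)
      refine (Finset.sum_le_sum a1).trans ?_
      rw [← Finset.sum_mul]
      exact mul_le_of_le_one_left (by positivity) hb1
    simp only
    rw [e1]
    refine (LNear.l1_tri _ _ _).trans ((add_le_add k1 k3).trans (le_of_eq ?_))
    ring
  · set r : ℕ → ℕ → ℝ := fun i z => bsh a' i z / bin a' z with hr
    have hr' : ∀ z ∈ I, ∀ i ∈ range ρ, bsh a' i z = bin a' z * r i z ∧ r i z ^ 2 ≤ 9 / 4 ∧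
        1 / 2 * bin a' z ≤ bsh a' i z := fun z hz i hi =>
      LGain.ratio (bin_nonneg _ _) (hI1 z hz i (mem_range.1 hi).le)
    set S : Finset (ℕ × ℕ) := range (2 * s' + 1) ×ˢ range ρ with hS
    set K : ℕ → Ms Γ := fun z => ∑ p ∈ S, (c p.1 * b p.2 * r p.2 z) • E (p.2 + m * p.1) with hK
    set C : ℝ := ∑ w ∈ range (2 * s' + 1), c w ^ 2 with hC
    have hC0 : 0 ≤ C := Finset.sum_nonneg fun _ _ => sq_nonneg _
    set A : ℝ := Real.sqrt (Real.sqrt (a + 1)) with hA
    have hA0 : 0 < A := by positivity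
    set ν : ℝ := σ' * (3 / 2 * Real.sqrt C / A) with hν
    have hν0 : 0 ≤ ν := by positivity
    have hKL : ∀ z ∈ I, L2 (K z) (B ^ (Y + D)) ν := by
      intro z hz
      refine (LGain.fam_reindex hE2 S (fun p => p.2 + m * p.1) ?_ ?_
        fun p => c p.1 * b p.2 * r p.2 z).mono ?_
      · intro p hp
        exact hy' _ (mem_product.1 hp).1 _ (mem_product.1 hp).2
      · rintro ⟨w, i⟩ hp ⟨w', i'⟩ hp' e
        obtain ⟨a1, a2⟩ := mem_product.1 hp
        obtain ⟨a3, a4⟩ := mem_product.1 hp'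
        simp only [mem_range] at a1 a2 a3 a4 e
        have a5 : w = w' := by
          rcases hm with hm | hm
          · omega
          · have a6 := congrArg (· / m) e
            have hm0 : 0 < m := by omega
            simp only [Nat.add_mul_div_left _ _ hm0] at a6
            rw [Nat.div_eq_of_lt (by omega), Nat.div_eq_of_lt (by omega)] at a6
            omega
        subst a5
        have a6 : i = i' := by omega
        rw [a6]
      · refine mul_le_mul_of_nonneg_left (Real.sqrt_le_iff.2 ⟨by positivity, ?_⟩) hσ0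
        have e1 : (3 / 2 * Real.sqrt C / A) ^ 2 = 9 / 4 * (C * (1 / Real.sqrt (a + 1))) := by
          rw [div_pow, mul_pow, Real.sq_sqrt hC0, hA, Real.sq_sqrt (Real.sqrt_nonneg _)]
          ring
        rw [e1]
        calc ∑ p ∈ S, (c p.1 * b p.2 * r p.2 z) ^ 2
            ≤ ∑ p ∈ S, 9 / 4 * (c p.1 ^ 2 * b p.2 ^ 2) := by
              refine Finset.sum_le_sum fun p hp => ?_
              have := (hr' z hz p.2 (mem_product.1 hp).2).2.1
              rw [mul_pow, mul_pow, mul_comm]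
              exact mul_le_mul_of_nonneg_right this (by positivity)
          _ = 9 / 4 * (C * ∑ i ∈ range ρ, b i ^ 2) := by
              rw [← Finset.mul_sum, hS, Finset.sum_product, hC, Finset.sum_mul_sum]
          _ ≤ _ := by gcongr
    have e1 : (∑ w ∈ range (2 * s' + 1), c w • ∑ i ∈ range ρ, b i • (V₀ * E (i + m * w) * M i)) =
        ∑ z ∈ I, bin a' z • (V₀ * K z * (B ^ z * V')) := by
      simp only [hK, hS, hM, Finset.sum_product, Finset.mul_sum, Finset.sum_mul, Finset.smul_sum,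
        mul_smul_comm, smul_mul_assoc, smul_smul]
      rw [Finset.sum_comm (s := I)]
      refine Finset.sum_congr rfl fun w _ => ?_
      rw [Finset.sum_comm (s := I)]
      refine Finset.sum_congr rfl fun i hi => Finset.sum_congr rfl fun z hz => ?_
      rw [(hr' z hz i hi).1]
      congr 1
      ring
    have hBV : ∀ z, NN (B ^ z * V') := fun z => (hB.pow z).1.mul hV'
    have h1 := L2.mix (I := I) (π := fun z => bin a' z) (σ := fun _ => ν)
      (E := fun z => V₀ * K z * (B ^ z * V')) (P := fun z => V₀ * B ^ (Y + D) * (B ^ z * V'))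
      (fun z _ => bin_nonneg _ _) (fun _ _ => hν0)
      (fun z _ => (hV₀n.mul (hB.pow _).1).mul (hBV z))
      fun z hz => LGain.l2_right (LGain.l2_left (hKL z hz) hν0 (hB.pow _).1 hV₀n hV₀1) hν0
        (hV₀n.mul (hB.pow _).1) (hBV z)
        (by rw [mass_mul, (hB.pow z).2, one_mul]; exact hV1')
    have h2 : Real.sqrt (∑ z ∈ I, bin a' z * ν ^ 2) ≤ ν := by
      refine Real.sqrt_le_iff.2 ⟨hν0, ?_⟩
      rw [← Finset.sum_mul]
      refine mul_le_of_le_one_left (sq_nonneg _) ?_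
      simpa only [bsh_zero] using sum_bsh_le a' 0 I
    set R : Ms Γ := ∑ z ∈ I, bin a' z • (V₀ * B ^ (Y + D) * (B ^ z * V')) with hR
    have hRn : NN R :=
      NN.sum fun z _ => ((hV₀n.mul (hB.pow _).1).mul (hBV z)).smul (bin_nonneg _ _)
    have h3 : Le R ((4 : ℝ) • B ^ (NL + NR + ρ + 2 * s' * m + D)) := by
      have a1 : ∀ i ∈ range ρ, Le ((1 / 2 : ℝ) • R) (V₀ * B ^ i * (B ^ (Y + D) * B ^ NR)) := by
        intro i hi
        have e2 : V₀ * B ^ i * (B ^ (Y + D) * B ^ NR) = V₀ * B ^ (Y + D) * (B ^ i * B ^ NR) := by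
          simp only [mul_assoc, ← pow_add]
          congr 2
          omega
        rw [e2]
        refine Le.trans ?_ ((Le.refl _).mul (hR' i hi).1 (hMn i) (hV₀n.mul (hB.pow _).1))
        rw [hR, Finset.smul_sum, Finset.sum_mul, Finset.mul_sum]
        refine Le.sum fun z hz => ?_
        rw [smul_smul, smul_mul_assoc, mul_smul_comm]
        exact LGain.le_smul ((hV₀n.mul (hB.pow _).1).mul (hBV z)) (hr' z hz i hi).2.2
      have a2 : Le ((1 / 4 : ℝ) • R) (B ^ (NL + NR + ρ + 2 * s' * m + D)) := by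
        have e2 : B ^ (NL + NR + ρ + 2 * s' * m + D) = B ^ NL * (B ^ (Y + D) * B ^ NR) := by
          rw [← pow_add, ← pow_add]
          congr 1
          omega
        rw [e2]
        refine Le.trans ?_ (hL1.mul (Le.refl _) ((hB.pow _).mul (hB.pow _)).1 (hB.pow _).1)
        rw [Finset.sum_mul]
        refine Le.trans ?_ (Le.sum (P := fun i => b i • (1 / 2 : ℝ) • R) fun i hi => ?_)
        · rw [← Finset.sum_smul, smul_smul]
          exact LGain.le_smul hRn (by linarith)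
        · rw [smul_mul_assoc]
          exact (a1 i hi).smul (hb0 i)
      have a3 := a2.smul (r := 4) (by norm_num)
      rwa [smul_smul, show (4 : ℝ) * (1 / 4) = 1 by norm_num, one_smul] at a3
    simp only
    rw [e1]
    refine ((h1.mono h2).ref hν0 (by norm_num) h3).mono ?_
    rw [show (4 : ℝ) = 2 ^ 2 by norm_num, Real.sqrt_sq (by norm_num)]
    have a1 : 0 ≤ σ' * (Real.sqrt C / A) := by positivity
    calc 2 * ν = 3 * (σ' * (Real.sqrt C / A)) := by rw [hν]; ring
      _ ≤ 4 * (σ' * (Real.sqrt C / A)) := by linarith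
      _ = _ := by rw [hσ']; ring

end Crest.Agent.R300
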