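import Crest.Agent.R300.LBin

/-!
# R300 lower bound: general binomial weights (task LBin2)
-/

set_option autoImplicit false

namespace Crest.Agent.R300

open Finset

theorem bp_nonneg (n j : ℕ) {θ : ℝ} (h0 : 0 ≤ θ) (h1 : θ ≤ 1) : 0 ≤ bp n θ j := by
  have : 0 ≤ 1 - θ := by linarith
  unfold bp; positivity

theorem bp_symm {n j : ℕ} (θ : ℝ) (hj : j ≤ n) : bp n θ j = bp n (1 - θ) (n - j) := by
  unfold bp
  rw [Nat.choose_symm hj, Nat.sub_sub_self hj, sub_sub_cancel]; ring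

theorem bp_eq_zero {n j : ℕ} (θ : ℝ) (hj : n < j) : bp n θ j = 0 := by
  unfold bp
  rw [Nat.choose_eq_zero_of_lt hj]; simp

theorem sum_bp (n : ℕ) (θ : ℝ) : ∑ j ∈ range (n + 1), bp n θ j = 1 := by
  have := add_pow θ (1 - θ) n
  rw [add_sub_cancel, one_pow] at this
  rw [this]
  exact sum_congr rfl fun j _ => by unfold bp; ring

theorem sum_bp_var (n : ℕ) (θ : ℝ) :
    ∑ j ∈ range (n + 1), bp n θ j * ((j : ℝ) - n * θ) ^ 2 = n * θ * (1 - θ) := by
  have := congrArg (Polynomial.eval θ) (bernsteinPolynomial.variance ℝ n)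
  simp only [Polynomial.eval_finsetSum, bernsteinPolynomial, Polynomial.eval_mul,
    Polynomial.eval_pow, Polynomial.eval_sub, Polynomial.eval_X,
    Polynomial.eval_natCast, Polynomial.eval_one, nsmul_eq_mul] at this
  rw [← this]
  exact sum_congr rfl fun j _ => by unfold bp; ring

private theorem bp_mix (n j : ℕ) (θ : ℝ) (hj : j ≤ n) :
    bp n θ j = ∑ k ∈ range (n + 1), bp n (2 * θ) k * bin k j := by
  have h1 : ∑ k ∈ range (n + 1), bp n (2 * θ) k * bin k j =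
      ∑ k ∈ Ico j (n + 1), bp n (2 * θ) k * bin k j := by
    symm
    refine sum_subset (fun k hk => ?_) fun k hk hk' => ?_
    · simp only [mem_Ico, mem_range] at hk ⊢; exact hk.2
    · have : k < j := by simp only [mem_Ico, mem_range] at hk hk'; omega
      simp [bin, Nat.choose_eq_zero_of_lt this]
  have h2 := add_pow θ (1 - 2 * θ) (n - j)
  rw [h1, sum_Ico_eq_sum_range, show n + 1 - j = n - j + 1 by omega, bp,
    show 1 - θ = θ + (1 - 2 * θ) by ring, h2, mul_sum]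
  refine sum_congr rfl fun i hi => ?_
  have hi' : j + i ≤ n := by have := mem_range.1 hi; omega
  have h3 := Nat.choose_mul (n := n) (k := j + i) (s := j) (by omega)
  rw [Nat.add_sub_cancel_left] at h3
  have h4 : (n.choose (j + i) : ℝ) * ((j + i).choose j : ℝ) = n.choose j * (n - j).choose i := by
    exact_mod_cast h3
  unfold bp bin
  rw [show n - (j + i) = n - j - i by omega, mul_pow]
  calc (n.choose j : ℝ) * θ ^ j * (θ ^ i * (1 - 2 * θ) ^ (n - j - i) * ((n - j).choose i : ℝ))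
      = (n.choose j * (n - j).choose i) * θ ^ (j + i) * (1 - 2 * θ) ^ (n - j - i) := by ring
    _ = _ := by rw [← h4]; field_simp

private theorem bp_inv (n : ℕ) {p : ℝ} (h0 : 0 < p) (h1 : p ≤ 1) :
    ∑ k ∈ range (n + 1), bp n p k / (k + 1) ≤ 1 / ((n + 1) * p) := by
  have h2 : ∀ k, bp n p k / (k + 1) = bp (n + 1) p (k + 1) / ((n + 1) * p) := fun k => by
    have h3 : ((n : ℝ) + 1) * n.choose k = (n + 1).choose (k + 1) * (k + 1) := by
      exact_mod_cast Nat.add_one_mul_choose_eq n k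
    unfold bp
    rw [Nat.add_sub_add_right, div_eq_div_iff (by positivity) (by positivity)]
    calc (n.choose k : ℝ) * p ^ k * (1 - p) ^ (n - k) * ((n + 1) * p)
        = (((n : ℝ) + 1) * n.choose k) * p ^ (k + 1) * (1 - p) ^ (n - k) := by ring
      _ = _ := by rw [h3]; ring
  simp only [h2]
  rw [← sum_div]
  gcongr
  have h4 := sum_bp (n + 1) p
  rw [sum_range_succ'] at h4
  have := bp_nonneg (n + 1) 0 h0.le h1
  linarith

/-- The maximal weight.  `Bin(n, θ)` is the mixture of `Bin(k, 1/2)` over `k ∼ Bin(n, 2θ)`, i.e.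
`bp n θ j = ∑ k, bp n (2θ) k * bin k j` (`Nat.choose_mul`, binomial theorem), `bin k j ≤ 1 / √(k+1)`
(central binomial coefficient; this is `bin_le` in `LBin.lean`, which may be imported), and by
Cauchy–Schwarz `E[1 / √(k+1)]² ≤ E[1 / (k+1)] ≤ 1 / ((n+1) 2θ)`. -/
theorem bp_le (n j : ℕ) {θ : ℝ} (h0 : 0 < θ) (h1 : θ ≤ 1 / 2) :
    bp n θ j ≤ 1 / Real.sqrt ((n + 1) * θ) := by
  by_cases hj : n < j
  · rw [bp_eq_zero θ hj]; positivity
  have hc : 0 < Real.sqrt ((n + 1) * θ) := by positivity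
  have hc2 : Real.sqrt ((n + 1) * θ) ^ 2 = (n + 1) * θ := Real.sq_sqrt (by positivity)
  set c := Real.sqrt ((n + 1) * θ)
  have h2 : ∀ k : ℕ, bin k j ≤ c / 2 * (1 / (k + 1)) + 1 / (2 * c) := fun k => by
    refine (bin_le k j).trans ?_
    have h3 : 0 < Real.sqrt (k + 1) := by positivity
    have h4 : Real.sqrt (k + 1) ^ 2 = k + 1 := Real.sq_sqrt (by positivity)
    set y := Real.sqrt (k + 1)
    rw [← h4]
    have : c / 2 * (1 / y ^ 2) + 1 / (2 * c) - 1 / y = (c - y) ^ 2 / (2 * c * y ^ 2) := by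
      field_simp; ring
    have h5 : 0 ≤ (c - y) ^ 2 / (2 * c * y ^ 2) := by positivity
    linarith
  have h3 := bp_inv n (p := 2 * θ) (by linarith) (by linarith)
  calc bp n θ j = ∑ k ∈ range (n + 1), bp n (2 * θ) k * bin k j := bp_mix n j θ (by omega)
    _ ≤ ∑ k ∈ range (n + 1), bp n (2 * θ) k * (c / 2 * (1 / (k + 1)) + 1 / (2 * c)) :=
        sum_le_sum fun k _ => mul_le_mul_of_nonneg_left (h2 k)
          (bp_nonneg n k (by linarith) (by linarith))
    _ = c / 2 * ∑ k ∈ range (n + 1), bp n (2 * θ) k / (k + 1) +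
          (∑ k ∈ range (n + 1), bp n (2 * θ) k) * (1 / (2 * c)) := by
        rw [mul_sum, sum_mul, ← sum_add_distrib]
        exact sum_congr rfl fun k _ => by ring
    _ ≤ c / 2 * (1 / ((n + 1) * (2 * θ))) + 1 * (1 / (2 * c)) := by rw [sum_bp]; gcongr
    _ = 3 / 4 * (1 / c) := by
        rw [show ((n : ℝ) + 1) * (2 * θ) = 2 * c ^ 2 by rw [hc2]; ring]
        field_simp; ring
    _ ≤ 1 / c := mul_le_of_le_one_left (by positivity) (by norm_num)

private theorem fact_le {m : ℕ} (hm : 1 ≤ m) :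
    (m.factorial : ℝ) ≤ Real.exp 1 * Real.sqrt m * (m / Real.exp 1) ^ m := by
  obtain ⟨k, rfl⟩ : ∃ k, m = k + 1 := ⟨m - 1, by omega⟩
  have h := Stirling.stirlingSeq'_antitone (Nat.zero_le k)
  simp only [Function.comp, Nat.succ_eq_add_one, zero_add, Stirling.stirlingSeq_one] at h
  rw [Stirling.stirlingSeq, div_le_iff₀ (by positivity), Real.sqrt_mul (by norm_num)] at h
  refine h.trans_eq ?_
  field_simp

private theorem le_fact (m : ℕ) : Real.sqrt m * (m / Real.exp 1) ^ m ≤ (m.factorial : ℝ) := by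
  refine le_trans ?_ (Stirling.le_factorial_stirling m)
  gcongr
  have := Real.pi_gt_three
  exact le_mul_of_one_le_left (by positivity) (by linarith)

private theorem pow_le_exp {x v : ℝ} (hx : 0 ≤ x) (hv : 0 < v) (j : ℕ) :
    x ^ j ≤ Real.exp (j * (x - v) / v) * v ^ j := by
  have h1 : x / v ≤ Real.exp ((x - v) / v) := by
    have := Real.add_one_le_exp ((x - v) / v)
    rwa [show (x - v) / v + 1 = x / v by field_simp; ring] at this
  calc x ^ j = (x / v) ^ j * v ^ j := by rw [← mul_pow, div_mul_cancel₀ _ hv.ne']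
    _ ≤ Real.exp ((x - v) / v) ^ j * v ^ j := by gcongr
    _ = _ := by rw [← Real.exp_nat_mul, mul_div_assoc]

private theorem bp_stirling {j k : ℕ} (hj : 1 ≤ j) (hk : 1 ≤ k) {θ : ℝ} (h0 : 0 < θ) (h1 : θ < 1) :
    Real.exp (-(j * (j - (j + k) * θ) / ((j + k) * θ) +
      k * (k - (j + k) * (1 - θ)) / ((j + k) * (1 - θ))) - 2) / Real.sqrt j ≤ bp (j + k) θ j := by
  have hj' : (1 : ℝ) ≤ j := by exact_mod_cast hj
  have hk' : (1 : ℝ) ≤ k := by exact_mod_cast hk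
  have h2 : 0 < 1 - θ := by linarith
  have a1 := pow_le_exp (x := j) (v := (j + k) * θ) (by positivity) (by positivity) j
  have a2 := pow_le_exp (x := k) (v := (j + k) * (1 - θ)) (by positivity) (by positivity) k
  have b1 := fact_le hj
  have b2 := fact_le hk
  have b3 := le_fact (j + k)
  have e := Real.exp_pos 1
  set E1 := (j : ℝ) * (j - (j + k) * θ) / ((j + k) * θ)
  set E2 := (k : ℝ) * (k - (j + k) * (1 - θ)) / ((j + k) * (1 - θ))
  have c1 : (j.factorial : ℝ) * k.factorial ≤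
      Real.exp (E1 + E2 + 2) * Real.sqrt j * (θ ^ j * (1 - θ) ^ k) * (j + k).factorial := by
    calc (j.factorial : ℝ) * k.factorial
        ≤ (Real.exp 1 * Real.sqrt j * (j / Real.exp 1) ^ j) *
          (Real.exp 1 * Real.sqrt k * (k / Real.exp 1) ^ k) := by gcongr
      _ = Real.exp 1 * Real.exp 1 * Real.sqrt j * Real.sqrt k * ((j : ℝ) ^ j * (k : ℝ) ^ k) /
          Real.exp 1 ^ (j + k) := by rw [div_pow, div_pow, pow_add]; field_simp
      _ ≤ Real.exp 1 * Real.exp 1 * Real.sqrt j * Real.sqrt ((j + k : ℕ) : ℝ) *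
          ((Real.exp E1 * ((j + k) * θ) ^ j) * (Real.exp E2 * ((j + k) * (1 - θ)) ^ k)) /
          Real.exp 1 ^ (j + k) := by
          gcongr
          omega
      _ = Real.exp (E1 + E2 + 2) * Real.sqrt j * (θ ^ j * (1 - θ) ^ k) *
          (Real.sqrt ((j + k : ℕ) : ℝ) * (((j + k : ℕ) : ℝ) / Real.exp 1) ^ (j + k)) := by
          rw [show E1 + E2 + 2 = E1 + E2 + 1 + 1 by ring, Real.exp_add, Real.exp_add, Real.exp_add,
            div_pow, mul_pow, mul_pow, Nat.cast_add, pow_add ((j : ℝ) + k)]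
          field_simp
      _ ≤ _ := by gcongr
  have c2 : ((j + k).choose j : ℝ) * j.factorial * k.factorial = (j + k).factorial := by
    have := Nat.choose_mul_factorial_mul_factorial (Nat.le_add_right j k)
    rw [Nat.add_sub_cancel_left] at this
    exact_mod_cast this
  have f1 : (0 : ℝ) < j.factorial := by exact_mod_cast j.factorial_pos
  have f2 : (0 : ℝ) < k.factorial := by exact_mod_cast k.factorial_pos
  rw [← c2] at c1
  have c3 : 1 ≤ Real.exp (E1 + E2 + 2) * Real.sqrt j * bp (j + k) θ j := by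
    refine le_of_mul_le_mul_right ?_ (mul_pos f1 f2)
    rw [one_mul]
    refine c1.trans_eq ?_
    rw [bp, Nat.add_sub_cancel_left]; ring
  rw [div_le_iff₀ (by positivity), show -(E1 + E2) - 2 = -(E1 + E2 + 2) by ring, Real.exp_neg,
    inv_le_iff_one_le_mul₀ (Real.exp_pos _)]
  exact c3.trans_eq (by ring)

/-- A local lower bound.  Let `v = n θ`.  By Chebyshev (`sum_bp_var`) the at most `4 √v + 1`
integers within `2 √v` of `v` carry weight `≥ 3/4`, so one of them, `j₀`, has weight `≥ 0.18 / √v`.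
For `|i - v| ≤ D ≤ v / 4` the ratio
`bp (i+1) / bp i = (1 - δ / (n (1 - θ))) / (1 + (δ + 1) / v)`, `δ = i - v`, lies in
`[exp (-3 (D+1) / v), exp (3 (D+1) / v)]`.  With `D = max |j - v| (2 √v) ≥ 20` and
`|j - j₀| ≤ 2 D` the loss is at most `exp (7 D² / v) ≤ exp (7 (j - v)² / v + 28)`. -/
theorem bp_ge (n j : ℕ) {θ : ℝ} (h0 : 0 < θ) (h1 : θ ≤ 1 / 2) (hv : 100 ≤ n * θ)
    (hj : |(j : ℝ) - n * θ| ≤ n * θ / 4) :
    Real.exp (-(20 * ((j : ℝ) - n * θ) ^ 2 / (n * θ)) - 40) / Real.sqrt (n * θ) ≤ bp n θ j := by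
  obtain ⟨hj1, hj2⟩ := abs_le.1 hj
  have hn : (n : ℝ) * θ ≤ n * (1 / 2) := by gcongr
  have h2 : 1 ≤ j := by
    have : (1 : ℝ) ≤ j := by linarith
    exact_mod_cast this
  have h3 : j + 1 ≤ n := by
    have : (j : ℝ) + 1 ≤ n := by linarith
    exact_mod_cast this
  obtain ⟨k, rfl⟩ : ∃ k, n = j + k := ⟨n - j, by omega⟩
  refine le_trans ?_ (bp_stirling h2 (by omega) h0 (by linarith))
  push_cast at hj1 hj2 hn hv ⊢
  set v := ((j : ℝ) + k) * θ with hvdef
  have hw : ((j : ℝ) + k) * (1 - θ) = j + k - v := by rw [hvdef]; ring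
  have hv0 : 0 < v := by linarith
  have hw0 : v ≤ j + k - v := by linarith
  rw [hw]
  have e : (j : ℝ) * (j - v) / v + k * (k - (j + k - v)) / (j + k - v) =
      (j - v) ^ 2 / v + (j - v) ^ 2 / (j + k - v) := by
    have : (j : ℝ) + k - v ≠ 0 := by linarith
    field_simp
    ring
  have h4 : ((j : ℝ) - v) ^ 2 / (j + k - v) ≤ (j - v) ^ 2 / v := by gcongr
  have h5 : 0 ≤ ((j : ℝ) - v) ^ 2 / v := by positivity
  have h6 : Real.sqrt j ≤ Real.exp 1 * Real.sqrt v := by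
    have h7 : (2 : ℝ) ≤ Real.exp 1 := by have := Real.add_one_le_exp 1; linarith
    calc Real.sqrt j ≤ Real.sqrt (2 ^ 2 * v) := Real.sqrt_le_sqrt (by linarith)
      _ = 2 * Real.sqrt v := by rw [Real.sqrt_mul (by norm_num), Real.sqrt_sq (by norm_num)]
      _ ≤ _ := by gcongr
  have h7 : 0 < Real.sqrt j := Real.sqrt_pos.2 (by linarith)
  rw [e, div_le_div_iff₀ (by positivity) h7]
  calc Real.exp (-(20 * ((j : ℝ) - v) ^ 2 / v) - 40) * Real.sqrt j
      ≤ Real.exp (-(20 * ((j : ℝ) - v) ^ 2 / v) - 40) * (Real.exp 1 * Real.sqrt v) := by gcongr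
    _ = Real.exp (-(20 * (((j : ℝ) - v) ^ 2 / v)) - 40 + 1) * Real.sqrt v := by
        rw [Real.exp_add, mul_div_assoc]; ring
    _ ≤ _ := by gcongr; linarith

private theorem sqrt_step (m : ℕ) :
    1 / Real.sqrt ((m + 1 : ℕ) : ℝ) ≤ 2 * (Real.sqrt ((m + 1 : ℕ) : ℝ) - Real.sqrt m) := by
  have h1 : 0 < Real.sqrt ((m + 1 : ℕ) : ℝ) := by positivity
  have h2 : Real.sqrt ((m + 1 : ℕ) : ℝ) ^ 2 = m + 1 := by
    rw [Real.sq_sqrt (by positivity)]; push_cast; ring
  have h3 : Real.sqrt m ^ 2 = m := Real.sq_sqrt (by positivity)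
  rw [div_le_iff₀ h1]
  nlinarith [sq_nonneg (Real.sqrt ((m + 1 : ℕ) : ℝ) - Real.sqrt m)]

private theorem sum_inv_sqrt (m : ℕ) : ∑ a ∈ Icc 1 m, 1 / Real.sqrt a ≤ 2 * Real.sqrt m := by
  induction m with
  | zero => simp
  | succ m ih =>
    rw [sum_Icc_succ_top (by omega)]
    have := sqrt_step m
    linarith

private theorem sum_exp_sqrt {s : ℝ} (hs : 0 ≤ s) (m : ℕ) :
    s * ∑ a ∈ Icc 1 m, Real.exp (-(s ^ 2 * a)) / Real.sqrt a ≤ 4 * (1 - 1 / (1 + s * Real.sqrt m)) := by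
  induction m with
  | zero => simp
  | succ m ih =>
    rw [sum_Icc_succ_top (by omega), mul_add]
    have h0 := sqrt_step m
    have h1 : 0 < Real.sqrt ((m + 1 : ℕ) : ℝ) := by positivity
    have h2 : Real.sqrt ((m + 1 : ℕ) : ℝ) ^ 2 = ((m + 1 : ℕ) : ℝ) := Real.sq_sqrt (by positivity)
    have h3 : 0 ≤ Real.sqrt m := Real.sqrt_nonneg _
    have h4 : Real.sqrt m ≤ Real.sqrt ((m + 1 : ℕ) : ℝ) := Real.sqrt_le_sqrt (by push_cast; linarith)
    set y := Real.sqrt ((m + 1 : ℕ) : ℝ)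
    set x := Real.sqrt m
    have h5 : Real.exp (-(s ^ 2 * ((m + 1 : ℕ) : ℝ))) ≤ 2 / (1 + s * y) ^ 2 := by
      rw [← h2, Real.exp_neg, inv_eq_one_div, div_le_div_iff₀ (Real.exp_pos _) (by positivity)]
      have := Real.add_one_le_exp (s ^ 2 * y ^ 2)
      nlinarith [sq_nonneg (s * y - 1)]
    have h6 : s * (Real.exp (-(s ^ 2 * ((m + 1 : ℕ) : ℝ))) / y) ≤
        4 * (1 / (1 + s * x) - 1 / (1 + s * y)) := by
      calc s * (Real.exp (-(s ^ 2 * ((m + 1 : ℕ) : ℝ))) / y)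
          = s * (Real.exp (-(s ^ 2 * ((m + 1 : ℕ) : ℝ))) * (1 / y)) := by ring
        _ ≤ s * (2 / (1 + s * y) ^ 2 * (2 * (y - x))) := by gcongr
        _ = 4 * (s * (y - x)) / ((1 + s * y) * (1 + s * y)) := by field_simp; ring
        _ ≤ 4 * (s * (y - x)) / ((1 + s * x) * (1 + s * y)) := by
            have : 0 ≤ y - x := by linarith
            gcongr
        _ = _ := by field_simp; ring
    linarith

private theorem conv_term {t : ℝ} (ht : 0 ≤ t) {a b : ℕ} (ha : 1 ≤ a) (hb : 1 ≤ b) :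
    Real.exp (-(t * a)) / (Real.sqrt a * Real.sqrt b) ≤ Real.sqrt 2 / Real.sqrt (a + b) *
      (Real.exp (-(t * a)) / Real.sqrt a + Real.exp (-(t * (a + b) / 2)) * (1 / Real.sqrt b)) := by
  have ha' : (1 : ℝ) ≤ a := by exact_mod_cast ha
  have hb' : (1 : ℝ) ≤ b := by exact_mod_cast hb
  have h1 : 0 < Real.sqrt a := by positivity
  have h2 : 0 < Real.sqrt b := by positivity
  have key : ∀ c : ℝ, 0 < c → a + b ≤ 2 * c → 1 / Real.sqrt c ≤ Real.sqrt 2 / Real.sqrt (a + b) := by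
    intro c hc h
    rw [div_le_div_iff₀ (by positivity) (by positivity), one_mul, ← Real.sqrt_mul (by norm_num)]
    exact Real.sqrt_le_sqrt h
  rcases le_total (a : ℝ) b with h | h
  · calc Real.exp (-(t * a)) / (Real.sqrt a * Real.sqrt b)
        = 1 / Real.sqrt b * (Real.exp (-(t * a)) / Real.sqrt a + 0) := by field_simp; ring
      _ ≤ _ := by
        have h3 := key b (by linarith) (by linarith)
        gcongr ?_ * (_ + ?_)
        positivity
  · calc Real.exp (-(t * a)) / (Real.sqrt a * Real.sqrt b)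
        = 1 / Real.sqrt a * (0 + Real.exp (-(t * a)) * (1 / Real.sqrt b)) := by field_simp; ring
      _ ≤ _ := by
        have h3 := key a (by linarith) (by linarith)
        gcongr ?_ * (?_ + Real.exp (-?_) * _)
        · positivity
        · nlinarith

private theorem conv_le {s : ℝ} (hs : 0 ≤ s) (m : ℕ) :
    s * ∑ a ∈ Icc 1 m, Real.exp (-(s ^ 2 * a)) / (Real.sqrt a * Real.sqrt ((m + 1 - a : ℕ) : ℝ)) ≤
      8 / Real.sqrt ((m + 1 : ℕ) : ℝ) := by
  have h1 : ∑ a ∈ Icc 1 m, 1 / Real.sqrt ((m + 1 - a : ℕ) : ℝ) = ∑ a ∈ Icc 1 m, 1 / Real.sqrt a :=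
    sum_nbij' (fun a => m + 1 - a) (fun a => m + 1 - a)
      (fun a ha => by simp only [mem_Icc] at ha ⊢; omega)
      (fun a ha => by simp only [mem_Icc] at ha ⊢; omega)
      (fun a ha => by simp only [mem_Icc] at ha ⊢; omega)
      (fun a ha => by simp only [mem_Icc] at ha ⊢; omega) fun _ _ => rfl
  have h2 := sum_exp_sqrt hs m
  have h3 : 0 ≤ 1 / (1 + s * Real.sqrt m) := by positivity
  have hy : 0 < Real.sqrt ((m + 1 : ℕ) : ℝ) := by positivity
  have hy2 : Real.sqrt ((m + 1 : ℕ) : ℝ) ^ 2 = ((m + 1 : ℕ) : ℝ) := Real.sq_sqrt (by positivity)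
  have h4 : Real.sqrt m ≤ Real.sqrt ((m + 1 : ℕ) : ℝ) := Real.sqrt_le_sqrt (by push_cast; linarith)
  have h5 : Real.sqrt 2 * (s * Real.sqrt ((m + 1 : ℕ) : ℝ)) ≤
      Real.exp (s ^ 2 * ((m + 1 : ℕ) : ℝ) / 2) := by
    have := Real.add_one_le_exp (s ^ 2 * ((m + 1 : ℕ) : ℝ) / 2)
    have h6 : Real.sqrt 2 ^ 2 = 2 := Real.sq_sqrt (by norm_num)
    rw [← hy2] at this ⊢
    rw [Real.sqrt_sq hy.le]
    nlinarith [sq_nonneg (s * Real.sqrt ((m + 1 : ℕ) : ℝ) - Real.sqrt 2)]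
  have h6 : Real.sqrt 2 ≤ 3 / 2 := Real.sqrt_le_iff.2 ⟨by norm_num, by norm_num⟩
  calc s * ∑ a ∈ Icc 1 m, Real.exp (-(s ^ 2 * a)) / (Real.sqrt a * Real.sqrt ((m + 1 - a : ℕ) : ℝ))
      ≤ s * ∑ a ∈ Icc 1 m, Real.sqrt 2 / Real.sqrt ((m + 1 : ℕ) : ℝ) *
          (Real.exp (-(s ^ 2 * a)) / Real.sqrt a +
            Real.exp (-(s ^ 2 * ((m + 1 : ℕ) : ℝ) / 2)) * (1 / Real.sqrt ((m + 1 - a : ℕ) : ℝ))) := by
        refine mul_le_mul_of_nonneg_left (sum_le_sum fun a ha => ?_) hs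
        rw [mem_Icc] at ha
        have := conv_term (sq_nonneg s) ha.1 (show 1 ≤ m + 1 - a by omega)
        rwa [← Nat.cast_add, show a + (m + 1 - a) = m + 1 by omega] at this
    _ = (Real.sqrt 2 * (s * ∑ a ∈ Icc 1 m, Real.exp (-(s ^ 2 * a)) / Real.sqrt a) +
          Real.sqrt 2 * s * Real.exp (-(s ^ 2 * ((m + 1 : ℕ) : ℝ) / 2)) *
            ∑ a ∈ Icc 1 m, 1 / Real.sqrt a) / Real.sqrt ((m + 1 : ℕ) : ℝ) := by
        rw [← mul_sum, sum_add_distrib, ← mul_sum, h1]; ring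
    _ ≤ (3 / 2 * 4 + Real.sqrt 2 * s * Real.exp (-(s ^ 2 * ((m + 1 : ℕ) : ℝ) / 2)) *
            (2 * Real.sqrt ((m + 1 : ℕ) : ℝ))) / Real.sqrt ((m + 1 : ℕ) : ℝ) := by
        gcongr
        · linarith
        · exact (sum_inv_sqrt m).trans (by linarith)
    _ ≤ _ := by
        gcongr
        have h7 : Real.sqrt 2 * (s * Real.sqrt ((m + 1 : ℕ) : ℝ)) *
            Real.exp (-(s ^ 2 * ((m + 1 : ℕ) : ℝ) / 2)) ≤ 1 := by
          rw [Real.exp_neg, ← div_eq_mul_inv, div_le_one (Real.exp_pos _)]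
          exact h5
        nlinarith

/-- The renewal inequality.  Put `A = 2 (1 + κ)`, `t = 256 κ² β²`; strong induction on `i`.  The term
`a = i` contributes `κ β / √i`.  The terms `a < i` contribute at most
`κ A β² exp (t i) ∑_{1 ≤ a < i} exp (-t a) / (√a √(i - a))`, and (if `t > 0`, otherwise `κ β = 0`)
this sum is at most `8 / √(t i)`: for `a ≤ i / 2` use `1 / √(i - a) ≤ √(2 / i)` and
`∑_{a ≥ 1} exp (-t a) / √a ≤ 3 / √t` (split at `a ≤ 1 / t`, sum `≤ 2 / √t`, and `a > 1 / t`, sum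
`≤ √t ∑_{a ≥ 1} exp (-t a) ≤ 1 / √t`); for `a > i / 2` bound by
`exp (-t i / 2) √(2 / i) 2 √(i / 2)` and use `√x exp (-t x / 2) ≤ 1 / √t`.  Finally
`8 κ β / √t = 1 / 2`. -/
theorem renewal {h : ℕ → ℝ} {κ β : ℝ} (hκ : 0 ≤ κ) (hβ : 0 ≤ β) {n : ℕ} (h0 : h 0 ≤ 1)
    (hrec : ∀ i, 1 ≤ i → i ≤ n → h i ≤ β / Real.sqrt i +
      κ * ∑ a ∈ Icc 1 i, β / Real.sqrt a * h (i - a)) :
    ∀ i, 1 ≤ i → i ≤ n →
      h i ≤ 2 * (1 + κ) * Real.exp (256 * κ ^ 2 * β ^ 2 * i) * β / Real.sqrt i := by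
  intro i
  induction i using Nat.strong_induction_on with
  | _ i ih =>
    intro h1 h2
    obtain ⟨m, rfl⟩ : ∃ m, i = m + 1 := ⟨i - 1, by omega⟩
    have hc := conv_le (s := 16 * κ * β) (by positivity) m
    rw [show (16 * κ * β) ^ 2 = 256 * κ ^ 2 * β ^ 2 by ring] at hc
    set t := 256 * κ ^ 2 * β ^ 2
    have ht : 0 ≤ t := by positivity
    have hy : 0 < Real.sqrt ((m + 1 : ℕ) : ℝ) := by positivity
    have hE : 1 ≤ Real.exp (t * ((m + 1 : ℕ) : ℝ)) := Real.one_le_exp (by positivity)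
    have h3 : ∑ a ∈ Icc 1 m, β / Real.sqrt a * h (m + 1 - a) ≤
        2 * (1 + κ) * Real.exp (t * ((m + 1 : ℕ) : ℝ)) * β ^ 2 * ∑ a ∈ Icc 1 m,
          Real.exp (-(t * a)) / (Real.sqrt a * Real.sqrt ((m + 1 - a : ℕ) : ℝ)) := by
      rw [mul_sum]
      refine sum_le_sum fun a ha => ?_
      rw [mem_Icc] at ha
      refine (mul_le_mul_of_nonneg_left (ih (m + 1 - a) (by omega) (by omega) (by omega))
        (by positivity)).trans_eq ?_
      rw [show t * ((m + 1 - a : ℕ) : ℝ) = t * ((m + 1 : ℕ) : ℝ) + -(t * a) by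
        rw [Nat.cast_sub (by omega)]; ring, Real.exp_add]
      ring
    have h4 := hrec (m + 1) h1 h2
    rw [sum_Icc_succ_top (by omega), Nat.sub_self] at h4
    set y := Real.sqrt ((m + 1 : ℕ) : ℝ)
    set E := Real.exp (t * ((m + 1 : ℕ) : ℝ))
    set S := ∑ a ∈ Icc 1 m, Real.exp (-(t * a)) / (Real.sqrt a * Real.sqrt ((m + 1 - a : ℕ) : ℝ))
    calc h (m + 1) ≤ β / y + κ * (2 * (1 + κ) * E * β ^ 2 * S + β / y * 1) := by
          refine h4.trans ?_
          gcongr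
      _ = (1 + κ) * 1 * β / y + (1 + κ) * E * β / 8 * (16 * κ * β * S) := by ring
      _ ≤ (1 + κ) * E * β / y + (1 + κ) * E * β / 8 * (8 / y) := by gcongr
      _ = _ := by ring

end Crest.Agent.R300
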