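import Crest.Agent.R300.LMark2
import Crest.Agent.R300.LBin2

/-!
# R300 lower bound: laws of the lengths of the hidden chain (task LMark3)

The length is a monoid map, so `lenP (E * F) J = pr F (fun v => lenP E (J - |v|))` (when `|v| ≤ J`),
`lenP (hC q ^ n) J = bp n (1 - q²) J = bp n q² (n - J)`; the order of the factors does not matter for
the length.  It may be convenient to push everything forward to `Ms (Multiplicative ℕ)`, which is
commutative (`MonoidAlgebra.mapDomainAlgHom`), or to define mean and variance of the length via `pr`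
(both are additive under products of probability measures).
-/

set_option autoImplicit false

namespace Crest.Agent.R300

open Finset

namespace LM3

/-- the length of a word -/
def ln (h : W) : ℕ := h.toList.length

theorem ln_mul (a b : W) : ln (a * b) = ln a + ln b := by
  simp [ln, FreeMonoid.toList_mul]

theorem ln_one : ln 1 = 0 := rfl

theorem ln_of (a : Bool) : ln (FreeMonoid.of a) = 1 := rfl

theorem ln_pow (a : Bool) (j : ℕ) : ln (FreeMonoid.of a ^ j) = j := by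
  induction j with
  | zero => rfl
  | succ j ih => rw [pow_succ, ln_mul, ih, ln_of]

/-- same law of the length -/
def Eqv (E F : Ms W) : Prop :=
  ∀ ψ : ℕ → ℝ, (pr E fun h => ψ (ln h)) = pr F fun h => ψ (ln h)

theorem Eqv.refl (E : Ms W) : Eqv E E := fun _ => rfl

theorem Eqv.trans {E F G : Ms W} (h : Eqv E F) (h' : Eqv F G) : Eqv E G :=
  fun ψ => (h ψ).trans (h' ψ)

theorem Eqv.mul {E E' F F' : Ms W} (h : Eqv E E') (h' : Eqv F F') : Eqv (E * F) (E' * F') := by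
  intro ψ
  simp only [pr_mul, ln_mul]
  rw [h fun i => pr F fun b => ψ (i + ln b)]
  congr 1
  funext a
  exact h' fun j => ψ (ln a + j)

theorem Eqv.comm (E F : Ms W) : Eqv (E * F) (F * E) := by
  intro ψ
  simp only [pr_mul, ln_mul]
  rw [pr_swap]
  simp only [add_comm]

theorem eqv_hH (q : ℝ) (m g : ℕ) : Eqv (hH q m g) (hC q ^ (m * g) * letter q true ^ g) := by
  induction g with
  | zero => simpa [hH] using Eqv.refl 1
  | succ g ih =>
    have e1 : hH q m (g + 1) = hH q m g * (hC q ^ m * letter q true) := pow_succ _ _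
    have e2 : hC q ^ (m * g) * letter q true ^ g * (hC q ^ m * letter q true) =
        hC q ^ (m * g) * (letter q true ^ g * hC q ^ m) * letter q true := by
      simp only [mul_assoc]
    have e3 : hC q ^ (m * (g + 1)) * letter q true ^ (g + 1) =
        hC q ^ (m * g) * (hC q ^ m * letter q true ^ g) * letter q true := by
      rw [Nat.mul_succ, pow_add, pow_succ]
      simp only [mul_assoc]
    rw [e1, e3]
    refine (ih.mul (Eqv.refl _)).trans ?_
    rw [e2]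
    exact ((Eqv.refl _).mul (Eqv.comm _ _)).mul (Eqv.refl _)

theorem eqv_hA (q : ℝ) (m : ℕ) {a : ℕ} (ha : 1 ≤ a) {k : ℕ} (hk : k ≤ m * a) :
    Eqv (hH q m (a - 1) * hC q ^ m) (hC q ^ k * (hC q ^ (m * a - k) * letter q true ^ (a - 1))) := by
  obtain ⟨b, rfl⟩ : ∃ b, a = b + 1 := ⟨a - 1, by omega⟩
  rw [Nat.add_sub_cancel, ← mul_assoc, ← pow_add, Nat.add_sub_cancel' hk, Nat.mul_succ, pow_add]
  refine ((eqv_hH q m b).mul (Eqv.refl _)).trans ?_
  rw [mul_assoc, mul_assoc]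
  exact (Eqv.refl _).mul (Eqv.comm _ _)

/-- mean and variance of the length -/
def MV (E : Ms W) (μ v : ℝ) : Prop :=
  Prob E ∧ ∀ t : ℝ, (pr E fun h => ((ln h : ℝ) - t) ^ 2) = v + (μ - t) ^ 2

theorem pr_cadd {E : Ms W} (hE : Prob E) (c : ℝ) (φ : W → ℝ) :
    (pr E fun h => c + φ h) = c + pr E φ := by
  rw [pr_fun_add, pr_const, hE.2, one_mul]

theorem MV.mul {E F : Ms W} {μ v μ' v' : ℝ} (h : MV E μ v) (h' : MV F μ' v') :
    MV (E * F) (μ + μ') (v + v') := by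
  refine ⟨h.1.mul h'.1, fun t => ?_⟩
  have e : ∀ a : W, (pr F fun b => ((ln (a * b) : ℝ) - t) ^ 2) =
      v' + ((ln a : ℝ) - (t - μ')) ^ 2 := by
    intro a
    have := h'.2 (t - ln a)
    rw [show (μ' - (t - ln a)) ^ 2 = ((ln a : ℝ) - (t - μ')) ^ 2 by ring] at this
    rw [← this]
    congr 1
    funext b
    rw [ln_mul]; push_cast; ring
  rw [pr_mul]
  simp only [e]
  rw [pr_cadd h.1, h.2]
  ring

theorem MV.pow {E : Ms W} {μ v : ℝ} (h : MV E μ v) (n : ℕ) : MV (E ^ n) (n * μ) (n * v) := by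
  induction n with
  | zero => exact ⟨by simpa using Prob.one, fun t => by simp [ln_one]⟩
  | succ n ih =>
    rw [pow_succ]
    convert ih.mul h using 1 <;> push_cast <;> ring

theorem mv_letter {r : ℝ} (h0 : 0 ≤ r) (h1 : r ≤ 1) (a : Bool) :
    MV (r • (1 : Ms W) + (1 - r) • X a) (1 - r) (r * (1 - r)) := by
  have hX : NN (X a) := fun w => by
    rw [coeff_eq_pr, X, pr_single, one_mul]; exact ind_nonneg _ _
  refine ⟨⟨(NN.one.smul h0).add (hX.smul (by linarith)), ?_⟩, fun t => ?_⟩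
  · rw [mass, pr_add, pr_smul, pr_smul, pr_one, X, pr_single]; ring
  · rw [pr_add, pr_smul, pr_smul, pr_one, X, pr_single, ln_one, ln_of]; push_cast; ring

theorem mv_hC {q : ℝ} (h0 : 0 ≤ q) (h1 : q ≤ 1) : MV (hC q) (1 - q ^ 2) (q ^ 2 * (1 - q ^ 2)) :=
  mv_letter (sq_nonneg q) (by nlinarith) false

theorem mv_D {q : ℝ} (h0 : 0 ≤ q) (h1 : q ≤ 1) : MV (letter q true) (1 - q) (q * (1 - q)) :=
  mv_letter h0 h1 true

/-- second moment of a difference of lengths -/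
theorem MV.diff {E F : Ms W} {μ v μ' v' : ℝ} (h : MV E μ v) (h' : MV F μ' v') :
    (pr E fun b => pr F fun c => ((ln b : ℝ) - ln c - (μ - μ')) ^ 2) = v + v' := by
  have e : ∀ b : W, (pr F fun c => ((ln b : ℝ) - ln c - (μ - μ')) ^ 2) =
      v' + ((ln b : ℝ) - μ) ^ 2 := by
    intro b
    have := h'.2 (ln b - (μ - μ'))
    rw [show (μ' - (ln b - (μ - μ'))) ^ 2 = ((ln b : ℝ) - μ) ^ 2 by ring] at this
    rw [← this]
    congr 1
    funext c
    ring
  simp only [e]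
  rw [pr_cadd h.1, h.2]
  ring

/-- indicator of an equality of reals -/
noncomputable def eqi (s t : ℝ) : ℝ := if s = t then 1 else 0

theorem eqi_nonneg (s t : ℝ) : 0 ≤ eqi s t := by unfold eqi; split_ifs <;> norm_num

theorem eqi_congr {s t s' t' : ℝ} (h : s - t = s' - t') : eqi s t = eqi s' t' := by
  unfold eqi
  refine if_congr ⟨fun e => ?_, fun e => ?_⟩ rfl rfl <;> linarith

theorem eqi_nat (a b : ℕ) : eqi a b = if a = b then 1 else 0 := by
  unfold eqi; simp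

/-- maximal weight of the length law -/
def MX (E : Ms W) (β : ℝ) : Prop := ∀ t : ℝ, (pr E fun h => eqi (ln h) t) ≤ β

theorem MX.mono {E : Ms W} {β β' : ℝ} (h : MX E β) (hβ : β ≤ β') : MX E β' :=
  fun t => (h t).trans hβ

theorem MX.eqv {E F : Ms W} {β : ℝ} (h : MX F β) (e : Eqv E F) : MX E β :=
  fun t => (e fun i => eqi i t).trans_le (h t)

theorem pr_le_const {E : Ms W} (hE : Prob E) {φ : W → ℝ} {c : ℝ} (h : ∀ w, φ w ≤ c) :
    pr E φ ≤ c := by
  have := hE.1.pr_mono (ψ := fun _ => c) h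
  rwa [pr_const, hE.2, one_mul] at this

theorem MX.mul {E F : Ms W} {β : ℝ} (h : MX E β) (hF : Prob F) : MX (E * F) β := by
  intro t
  rw [pr_mul, pr_swap]
  refine pr_le_const hF fun b => le_trans (le_of_eq ?_) (h (t - ln b))
  congr 1
  funext a
  refine eqi_congr ?_
  rw [ln_mul]; push_cast; ring

theorem pr_hC_pow (q : ℝ) (n : ℕ) (ψ : ℕ → ℝ) :
    (pr (hC q ^ n) fun h => ψ (ln h)) = ∑ j ∈ range (n + 1), bp n (1 - q ^ 2) j * ψ j := by
  rw [hC, add_comm, (((Commute.one_right _).smul_right _).smul_left _).add_pow, pr_sum]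
  refine Finset.sum_congr rfl fun j _ => ?_
  rw [smul_pow, smul_pow, one_pow, ← nsmul_eq_mul', ← Nat.cast_smul_eq_nsmul ℝ, mul_smul_comm,
    mul_one, pr_smul, pr_smul, pr_smul, X, MonoidAlgebra.single_pow, pr_single, ln_pow, bp]
  ring

theorem len_hC_pow (q : ℝ) (n J : ℕ) :
    (pr (hC q ^ n) fun h => eqi (ln h) J) = bp n (1 - q ^ 2) J := by
  rw [pr_hC_pow q n fun i => eqi i J]
  simp only [eqi_nat, mul_ite, mul_one, mul_zero, Finset.sum_ite_eq', mem_range]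
  split_ifs with h
  · rfl
  · exact (bp_eq_zero _ (by omega)).symm

theorem mx_hC_pow {q : ℝ} (hq : 0 < q) (hq1 : q ≤ 1 / 2) (n : ℕ) :
    MX (hC q ^ n) (1 / Real.sqrt ((n + 1) * q ^ 2)) := by
  intro t
  by_cases ht : ∃ J : ℕ, t = J
  · obtain ⟨J, rfl⟩ := ht
    rw [len_hC_pow]
    rcases le_or_gt J n with h | h
    · rw [bp_symm _ h, sub_sub_cancel]
      exact bp_le _ _ (by positivity) (by nlinarith)
    · rw [bp_eq_zero _ h]; positivity
  · refine pr_le_const ((mv_hC hq.le (by linarith)).1.pow n) fun w => ?_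
    rw [eqi, if_neg fun e => ht ⟨_, e.symm⟩]
    positivity

theorem sqrt_eq {q : ℝ} (hq : 0 < q) (x y : ℝ) (hx : 0 ≤ x) :
    Real.sqrt (x * y * q ^ 2) = q * Real.sqrt x * Real.sqrt y := by
  rw [Real.sqrt_mul' _ (sq_nonneg q), Real.sqrt_sq hq.le, Real.sqrt_mul hx]; ring

theorem mx_hC_pow' {q : ℝ} (hq : 0 < q) (hq1 : q ≤ 1 / 2) {m g k : ℕ} (hm : 1 ≤ m) (hg : 1 ≤ g)
    {c : ℝ} (hc : 0 < c) (hk : (m : ℝ) * g ≤ c ^ 2 * (k + 1)) :
    MX (hC q ^ k) (c * (1 / (q * Real.sqrt m) / Real.sqrt g)) := by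
  refine (mx_hC_pow hq hq1 k).mono ?_
  have hm' : (0 : ℝ) < m := by exact_mod_cast hm
  have hg' : (0 : ℝ) < g := by exact_mod_cast hg
  rw [div_div, ← sqrt_eq hq _ _ hm'.le, mul_one_div,
    div_le_div_iff₀ (by positivity) (by positivity), one_mul, ← Real.sqrt_sq hc.le,
    ← Real.sqrt_mul (sq_nonneg _)]
  refine Real.sqrt_le_sqrt ?_
  rw [← mul_assoc]
  exact mul_le_mul_of_nonneg_right hk (sq_nonneg q)

theorem coin_eq (H H' : Ms W) :
    coin 1 H H' = pr H fun h => pr H' fun h' => eqi (ln h) (ln h') := by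
  simp only [coin, one_pow, eqi_nat, ln]

theorem coin_off {A E₁ E₂ E' : Ms W} {μ₁ μ₂ μ' v₁ v₂ v' β : ℝ} (hA : Eqv A (E₁ * E₂))
    (h₁ : MV E₁ μ₁ v₁) (h₂ : MV E₂ μ₂ v₂) (h' : MV E' μ' v') (x₁ : MX E₁ β) (x₂ : MX E₂ β) :
    (μ₁ + μ₂ - μ') ^ 2 * coin 1 A E' ≤ 2 * β * (v₁ + v₂ + v') := by
  rw [coin_eq, hA fun i => pr E' fun h' => eqi i (ln h'), pr_mul, ← pr_fun_mul]
  have key : ∀ a b c : W, (μ₁ + μ₂ - μ') ^ 2 * eqi (ln (a * b)) (ln c) ≤
      2 * (((ln a : ℝ) - μ₁) ^ 2 * eqi (ln b) (ln c - ln a)) +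
        2 * (((ln b : ℝ) - ln c - (μ₂ - μ')) ^ 2 * eqi (ln a) (ln c - ln b)) := by
    intro a b c
    rw [eqi_congr (s := ln b) (s' := ln (a * b)) (t' := ln c) (by rw [ln_mul]; push_cast; ring),
      eqi_congr (s := ln a) (s' := ln (a * b)) (t' := ln c) (by rw [ln_mul]; push_cast; ring)]
    unfold eqi
    split_ifs with h
    · rw [ln_mul] at h
      push_cast at h
      rw [← h]
      nlinarith [sq_nonneg ((ln a : ℝ) - μ₁ - (ln b - (ln a + ln b) - (μ₂ - μ')))]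
    · simp
  have t1 : (pr E₁ fun a => pr E₂ fun b => pr E' fun c =>
      ((ln a : ℝ) - μ₁) ^ 2 * eqi (ln b) (ln c - ln a)) ≤ β * v₁ := by
    have e := h₁.2 μ₁
    rw [sub_self, zero_pow two_ne_zero, add_zero] at e
    rw [← e, ← pr_fun_mul]
    refine h₁.1.1.pr_mono fun a => ?_
    rw [pr_swap]
    refine pr_le_const h'.1 fun c => ?_
    rw [pr_fun_mul, mul_comm]
    exact mul_le_mul_of_nonneg_right (x₂ _) (sq_nonneg _)
  have t2 : (pr E₁ fun a => pr E₂ fun b => pr E' fun c =>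
      ((ln b : ℝ) - ln c - (μ₂ - μ')) ^ 2 * eqi (ln a) (ln c - ln b)) ≤ β * (v₂ + v') := by
    rw [← h₂.diff h', ← pr_fun_mul, pr_swap]
    refine h₂.1.1.pr_mono fun b => ?_
    rw [← pr_fun_mul, pr_swap]
    refine h'.1.1.pr_mono fun c => ?_
    rw [pr_fun_mul, mul_comm]
    exact mul_le_mul_of_nonneg_right (x₁ _) (sq_nonneg _)
  have t3 : (pr E₁ fun a => (μ₁ + μ₂ - μ') ^ 2 * pr E₂ fun b => pr E' fun c =>
      eqi (ln (a * b)) (ln c)) ≤ pr E₁ fun a => pr E₂ fun b => pr E' fun c =>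
      (2 * (((ln a : ℝ) - μ₁) ^ 2 * eqi (ln b) (ln c - ln a)) +
        2 * (((ln b : ℝ) - ln c - (μ₂ - μ')) ^ 2 * eqi (ln a) (ln c - ln b))) := by
    refine h₁.1.1.pr_mono fun a => ?_
    rw [← pr_fun_mul]
    refine h₂.1.1.pr_mono fun b => ?_
    rw [← pr_fun_mul]
    exact h'.1.1.pr_mono fun c => key a b c
  simp only [pr_fun_add, pr_fun_mul _ 2] at t3
  linarith

theorem sum_inv_sq (S : Finset ℕ) (f : ℕ → ℕ) (hf : Set.InjOn f (S.filter fun i => f i ≠ 0)) :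
    ∑ i ∈ S, (((f i : ℝ)) ^ 2)⁻¹ ≤ 2 := by
  rw [← Finset.sum_filter_of_ne (p := fun i => f i ≠ 0) (fun i _ h e => h (by simp [e])),
    ← Finset.sum_image (f := fun d : ℕ => ((d : ℝ) ^ 2)⁻¹) hf]
  obtain ⟨N, hN⟩ := Finset.exists_nat_subset_range ((S.filter fun i => f i ≠ 0).image f)
  have h := sum_Ioo_inv_sq_le (α := ℝ) 0 N
  refine le_trans (Finset.sum_le_sum_of_subset_of_nonneg (fun d hd => ?_)
    fun _ _ _ => by positivity) (h.trans (by norm_num))
  have h1 := mem_range.1 (hN hd)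
  obtain ⟨i, hi, rfl⟩ := mem_image.1 hd
  exact mem_Ioo.2 ⟨Nat.pos_of_ne_zero (mem_filter.1 hi).2, h1⟩

theorem mv_hA {q : ℝ} (h0 : 0 ≤ q) (h1 : q ≤ 1) (m : ℕ) {a : ℕ} (ha : 1 ≤ a) :
    MV (hH q m (a - 1) * hC q ^ m) (a * (m * (1 - q ^ 2) + (1 - q)) - (1 - q))
      (a * (m * (q ^ 2 * (1 - q ^ 2)) + q * (1 - q)) - q * (1 - q)) := by
  convert ((((mv_hC h0 h1).pow m).mul (mv_D h0 h1)).pow (a - 1)).mul ((mv_hC h0 h1).pow m) using 1
  · rfl
  · rw [Nat.cast_sub ha]; push_cast; ring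
  · rw [Nat.cast_sub ha]; push_cast; ring

theorem coin_ne {q : ℝ} (hq : 0 < q) (hq1 : q ≤ 1 / 2) {m n a a' : ℕ} (hm : 16 ≤ q * m)
    (hn : (n : ℝ) ≤ q * m / 4) (ha : 1 ≤ a) (han : a ≤ n) (ha' : 1 ≤ a') (han' : a' ≤ n) :
    ((a : ℝ) - a') ^ 2 * coin 1 (hH q m (a - 1) * hC q ^ m) (hH q m (a' - 1) * hC q ^ m) ≤
      1 / (q * Real.sqrt m) / Real.sqrt a := by
  have hq' : q ≤ 1 := by linarith
  have hm0 : (32 : ℝ) ≤ m := by nlinarith
  have hm1 : 1 ≤ m := by
    have : (1 : ℝ) ≤ m := by linarith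
    exact_mod_cast this
  set β := 1 / (q * Real.sqrt m) / Real.sqrt a with hβ
  have hβ0 : 0 ≤ β := by positivity
  have hk : m * a / 2 ≤ m * a := Nat.div_le_self _ _
  have hk1 : (m : ℝ) * a ≤ 2 ^ 2 * ((m * a / 2 : ℕ) + 1) := by
    have : m * a ≤ 2 ^ 2 * (m * a / 2 + 1) := by omega
    exact_mod_cast this
  have hk2 : (m : ℝ) * a ≤ 2 ^ 2 * ((m * a - m * a / 2 : ℕ) + 1) := by
    have : m * a ≤ 2 ^ 2 * (m * a - m * a / 2 + 1) := by omega
    exact_mod_cast this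
  have h := coin_off (eqv_hA q m ha hk) ((mv_hC hq.le hq').pow _)
    (((mv_hC hq.le hq').pow _).mul ((mv_D hq.le hq').pow _)) (mv_hA hq.le hq' m ha')
    (mx_hC_pow' hq hq1 hm1 ha two_pos hk1)
    ((mx_hC_pow' hq hq1 hm1 ha two_pos hk2).mul ((mv_D hq.le hq').pow _).1)
  rw [Nat.cast_sub hk, Nat.cast_sub ha, ← hβ] at h
  push_cast at h
  have hc : 0 ≤ coin 1 (hH q m (a - 1) * hC q ^ m) (hH q m (a' - 1) * hC q ^ m) :=
    coin_nonneg zero_le_one (mv_hA hq.le hq' m ha).1.1 (mv_hA hq.le hq' m ha').1.1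
  set P := coin 1 (hH q m (a - 1) * hC q ^ m) (hH q m (a' - 1) * hC q ^ m)
  set u := m * (1 - q ^ 2) + (1 - q) with hu
  set w := m * (q ^ 2 * (1 - q ^ 2)) + q * (1 - q) with hw
  have h2 : u ^ 2 * (((a : ℝ) - a') ^ 2 * P) ≤ 4 * β * ((a + a') * w - 2 * (q * (1 - q))) := by
    refine le_trans (le_of_eq ?_) (h.trans (le_of_eq ?_))
    · rw [hu]; ring
    · rw [hw]; ring
  have hq2 : q ^ 2 ≤ 1 / 4 := (pow_le_pow_left₀ hq.le hq1 2).trans (by norm_num)
  have h3 : 3 / 4 * (m : ℝ) ≤ u := by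
    have : (m : ℝ) * (3 / 4) ≤ m * (1 - q ^ 2) :=
      mul_le_mul_of_nonneg_left (by linarith) (by positivity)
    rw [hu]; linarith
  have h4 : (3 / 4 * (m : ℝ)) ^ 2 ≤ u ^ 2 := pow_le_pow_left₀ (by positivity) h3 2
  have han1 : (a : ℝ) ≤ n := by exact_mod_cast han
  have han2 : (a' : ℝ) ≤ n := by exact_mod_cast han'
  have hw0 : 0 ≤ w := by
    rw [hw]
    have : 0 ≤ 1 - q ^ 2 := by linarith
    have : 0 ≤ 1 - q := by linarith
    positivity
  have hw1 : w ≤ 2 * q * (q * m) := by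
    have e1 : (m : ℝ) * (q ^ 2 * (1 - q ^ 2)) ≤ m * q ^ 2 :=
      mul_le_mul_of_nonneg_left (by linarith [sq_nonneg (q ^ 2)]) (by positivity)
    have e2 : q * (1 - q) ≤ q * (q * m) := mul_le_mul_of_nonneg_left (by linarith) hq.le
    rw [hw]; linarith
  have h5 : (a + a') * w ≤ (m : ℝ) ^ 2 / 8 := by
    calc (a + a') * w ≤ (q * m / 2) * (2 * q * (q * m)) :=
          mul_le_mul (by linarith) hw1 hw0 (by positivity)
      _ = q ^ 3 * m ^ 2 := by ring
      _ ≤ (1 / 2) ^ 3 * m ^ 2 :=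
          mul_le_mul_of_nonneg_right (pow_le_pow_left₀ hq.le hq1 3) (by positivity)
      _ = _ := by ring
  have h6 : 0 ≤ q * (1 - q) := mul_nonneg hq.le (by linarith)
  have h7 : (3 / 4 * (m : ℝ)) ^ 2 * (((a : ℝ) - a') ^ 2 * P) ≤ (3 / 4 * (m : ℝ)) ^ 2 * β := by
    refine (mul_le_mul_of_nonneg_right h4 (by positivity)).trans (h2.trans ?_)
    calc 4 * β * ((a + a') * w - 2 * (q * (1 - q))) ≤ 4 * β * ((m : ℝ) ^ 2 / 8) :=
          mul_le_mul_of_nonneg_left (by linarith) (by positivity)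
      _ ≤ _ := by linarith [mul_nonneg hβ0 (sq_nonneg (m : ℝ))]
  exact le_of_mul_le_mul_left h7 (by positivity)

end LM3

open LM3

/-- The length law of `hH q m g` is that of `hC q ^ (m g)` convolved with a probability measure, so it
is bounded by `max bp (m g) q² ≤ 1 / √((m g + 1) q²)` (`bp_le`, `bp_symm`). -/
theorem lenP_hH_le {q : ℝ} (hq : 0 < q) (hq1 : q ≤ 1 / 2) {m g : ℕ} (hm : 1 ≤ m) (hg : 1 ≤ g)
    (J : ℕ) : lenP (hH q m g) J ≤ 1 / (q * Real.sqrt m) / Real.sqrt g := by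
  have h := ((mx_hC_pow' (k := m * g) hq hq1 hm hg one_pos (by push_cast; linarith)).mul
    ((mv_D hq.le (by linarith)).pow g).1).eqv (eqv_hH q m g) J
  simp only [eqi_nat, one_mul] at h
  exact h

/-- Coincidence of defects.  For `a' = a` use the maximal weight `1 / (q √(m a))` of `hC q ^ (m a)`.
For `a' ≠ a`, split the length of the first chain as `x₁ + x₂` with `x₁ ∼ hC q ^ ⌊m a / 2⌋` and `x₂`
containing `hC q ^ ⌈m a / 2⌉`; both have maximal weight `β₁ ≤ √2 / (q √(m a))`.  The means of the two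
chains differ by `Δ = |a - a'| (m (1 - q²) + 1 - q) ≥ (3/4) m |a - a'|`, the variances add up to
`v ≤ (a + a') (m q² + q) ≤ q³ m²` (as `G + 1 ≤ q m / 4`, `q m ≥ 1`).  If `x₁ + x₂ = x'` then `x₁` or
`x₂ - x'` deviates from its mean by `≥ Δ / 2`; Chebyshev for that variable and the maximal weight of
the other one give probability `≤ 4 β₁ v / Δ² ≤ 1.3 / (q √(m a) (a - a')²)`; `∑_{d ≠ 0} 1/d² ≤ 4`. -/
theorem sum_coin_le {q : ℝ} (hq : 0 < q) (hq1 : q ≤ 1 / 2) {m n a : ℕ} (hm : 16 ≤ q * m)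
    (hn : (n : ℝ) ≤ q * m / 4) (ha : 1 ≤ a) (han : a ≤ n) :
    ∑ a' ∈ Icc 1 n, coin 1 (hH q m (a - 1) * hC q ^ m) (hH q m (a' - 1) * hC q ^ m) ≤
      7 / (q * Real.sqrt m) / Real.sqrt a := by
  have hq' : q ≤ 1 := by linarith
  have hm1 : 1 ≤ m := by
    have : (1 : ℝ) ≤ m := by nlinarith
    exact_mod_cast this
  set β := 1 / (q * Real.sqrt m) / Real.sqrt a with hβ
  have hβ0 : 0 ≤ β := by positivity
  have key : ∀ a' ∈ Icc 1 n, coin 1 (hH q m (a - 1) * hC q ^ m) (hH q m (a' - 1) * hC q ^ m) ≤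
      β * ((if a' = a then 1 else 0) + ((((a - a' : ℕ) : ℝ)) ^ 2)⁻¹ +
        ((((a' - a : ℕ) : ℝ)) ^ 2)⁻¹) := by
    intro a' ha'
    obtain ⟨h1, h2⟩ := mem_Icc.1 ha'
    have h3 := coin_ne hq hq1 hm hn ha han h1 h2
    rcases lt_trichotomy a' a with h | h | h
    · rw [if_neg h.ne, Nat.sub_eq_zero_of_le h.le, Nat.cast_sub h.le]
      have : (0 : ℝ) < (a : ℝ) - a' := sub_pos.2 (by exact_mod_cast h)
      simp only [Nat.cast_zero, ne_eq, OfNat.ofNat_ne_zero, not_false_eq_true, zero_pow, inv_zero,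
        add_zero, zero_add]
      rw [← div_eq_mul_inv, le_div_iff₀ (by positivity), mul_comm]
      exact h3
    · subst h
      simp only [if_true, Nat.sub_self, Nat.cast_zero, ne_eq, OfNat.ofNat_ne_zero,
        not_false_eq_true, zero_pow, inv_zero, add_zero, mul_one]
      have hx : MX (hH q m (a' - 1) * hC q ^ m) β := by
        have := ((mx_hC_pow' (k := m * a') hq hq1 hm1 ha one_pos (by push_cast; linarith)).mul
          (((mv_hC hq.le hq').pow (m * a' - m * a')).mul ((mv_D hq.le hq').pow (a' - 1))).1).eqv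
          (eqv_hA q m ha le_rfl)
        rwa [one_mul] at this
      rw [coin_eq, pr_swap]
      exact pr_le_const (mv_hA hq.le hq' m ha).1 fun w => hx _
    · rw [if_neg h.ne', Nat.sub_eq_zero_of_le h.le, Nat.cast_sub h.le]
      have : (0 : ℝ) < (a' : ℝ) - a := sub_pos.2 (by exact_mod_cast h)
      simp only [Nat.cast_zero, ne_eq, OfNat.ofNat_ne_zero, not_false_eq_true, zero_pow, inv_zero,
        add_zero, zero_add]
      rw [← div_eq_mul_inv, le_div_iff₀ (by positivity), mul_comm, ← neg_sub, neg_sq]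
      exact h3
  refine (Finset.sum_le_sum key).trans ?_
  rw [← Finset.mul_sum, Finset.sum_add_distrib, Finset.sum_add_distrib, Finset.sum_ite_eq',
    if_pos (mem_Icc.2 ⟨ha, han⟩)]
  have h1 := sum_inv_sq (Icc 1 n) (fun i => a - i) fun i hi j hj e => by
    have := (mem_filter.1 (mem_coe.1 hi)).2
    have := (mem_filter.1 (mem_coe.1 hj)).2
    simp only at *
    omega
  have h2 := sum_inv_sq (Icc 1 n) (fun i => i - a) fun i hi j hj e => by
    have := (mem_filter.1 (mem_coe.1 hi)).2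
    have := (mem_filter.1 (mem_coe.1 hj)).2
    simp only at *
    omega
  have e : 7 / (q * Real.sqrt m) / Real.sqrt a = β * 7 := by rw [hβ]; ring
  rw [e]
  exact mul_le_mul_of_nonneg_left (by linarith) hβ0

/-- The lengths agree with reasonable probability.  Let `n = m (G + 1)`, write the length of
`hH q m (G+1)` as `X' + R'` with `X' ∼ hC q ^ n`, `R' ∼ letter q true ^ (G+1)`, and let `Y` be the length of
`hH q m G`.  `Z = Y - R'` has mean `m G (1 - q²) - (1 - q)` and variance `≤ q³ m²`, so by Chebyshev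
`|Z - E Z| ≤ m` with probability `≥ 3/4` (`4 q³ ≤ 1`); then `j = n - Z` satisfies
`|j - n q²| ≤ 3 m ≤ n q² / 4` (`n q² ≥ q³ m² / 8`, `q³ m ≥ 10000`), and `bp_ge` gives
`P(X' = Z) ≥ exp (-1440 / q³ - 40) / (q √(m (G+1)))`. -/
theorem coin_len_ge {q : ℝ} (hq : 0 < q) (hq1 : q ≤ 1 / 2) {m G : ℕ} (hm : 10000 ≤ q ^ 3 * m)
    (hG : q * m / 8 ≤ G) (hG' : (G : ℝ) + 1 ≤ q * m / 4) :
    3 / 4 * Real.exp (-(1440 / q ^ 3) - 40) / (q * Real.sqrt m) / Real.sqrt (G + 1) ≤
      coin 1 (hH q m G) (hH q m (G + 1)) := by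
  have hq' : q ≤ 1 := by linarith
  have hq2 : q ^ 2 ≤ 1 / 4 := by nlinarith
  have hq3 : q ^ 3 ≤ 1 / 8 := (pow_le_pow_left₀ hq.le hq1 3).trans (by norm_num)
  have hm0 : (0 : ℝ) ≤ m := Nat.cast_nonneg m
  have hqm : 40000 ≤ q * m := by
    have : q ^ 3 * m = q ^ 2 * (q * m) := by ring
    nlinarith [mul_nonneg hq.le hm0]
  have hm1 : (80000 : ℝ) ≤ m := by nlinarith
  have hG1 : (5000 : ℝ) ≤ G := by linarith
  set n := m * (G + 1) with hn
  have hn' : (n : ℝ) = m * (G + 1) := by rw [hn]; push_cast; ring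
  have hv : q ^ 3 * m ^ 2 / 8 ≤ n * q ^ 2 := by
    rw [hn']
    calc q ^ 3 * m ^ 2 / 8 = m * (q * m / 8) * q ^ 2 := by ring
      _ ≤ m * (G + 1) * q ^ 2 := by gcongr; linarith
  have hv' : 1250 * (m : ℝ) ≤ n * q ^ 2 := by linarith [mul_le_mul_of_nonneg_right hm hm0]
  set b := Real.exp (-(1440 / q ^ 3) - 40) / (q * Real.sqrt m) / Real.sqrt (G + 1) with hb
  have hb0 : 0 ≤ b := by positivity
  have hY := (((mv_hC hq.le hq').pow m).mul (mv_D hq.le hq')).pow G
  have hR := (mv_D hq.le hq').pow (G + 1)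
  have hd := hY.diff hR
  set μ := (G : ℝ) * (m * (1 - q ^ 2) + (1 - q)) - ((G + 1 : ℕ) : ℝ) * (1 - q) with hμ
  have hμ' : μ = m * G * (1 - q ^ 2) - (1 - q) := by rw [hμ]; push_cast; ring
  have key : ∀ y r : W, b + (-(b / m ^ 2)) * ((ln y : ℝ) - ln r - μ) ^ 2 ≤
      pr (hC q ^ n) fun x => eqi (ln y) (ln (x * r)) := by
    intro y r
    have h0 : 0 ≤ pr (hC q ^ n) fun x => eqi (ln y) (ln (x * r)) :=
      ((mv_hC hq.le hq').pow n).1.1.pr_nonneg fun _ => eqi_nonneg _ _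
    rcases le_or_gt |(ln y : ℝ) - ln r - μ| m with h | h
    · obtain ⟨h1, h2⟩ := abs_le.1 h
      have hmG : (m : ℝ) * G * (3 / 4) ≤ m * G * (1 - q ^ 2) :=
        mul_le_mul_of_nonneg_left (by linarith) (by positivity)
      have hmG' : (m : ℝ) * G * (1 - q ^ 2) ≤ m * G :=
        mul_le_of_le_one_right (by positivity) (by linarith [sq_nonneg q])
      have hmG2 : (m : ℝ) * 5000 ≤ m * G := mul_le_mul_of_nonneg_left hG1 hm0
      have h3 : ln r ≤ ln y := by
        have : (ln r : ℝ) ≤ ln y := by linarith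
        exact_mod_cast this
      have h4 : ln y - ln r ≤ n := by
        have : ((ln y - ln r : ℕ) : ℝ) ≤ n := by rw [Nat.cast_sub h3, hn']; linarith
        exact_mod_cast this
      have h5 : (pr (hC q ^ n) fun x => eqi (ln y) (ln (x * r))) =
          bp n (q ^ 2) (n - (ln y - ln r)) := by
        rw [← sub_sub_cancel 1 (q ^ 2), ← bp_symm _ h4, ← len_hC_pow]
        congr 1
        funext x
        unfold eqi
        rw [ln_mul, Nat.cast_sub h3]
        push_cast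
        refine if_congr ⟨fun e => ?_, fun e => ?_⟩ rfl rfl <;> linarith
      have h6 : |((n - (ln y - ln r) : ℕ) : ℝ) - n * q ^ 2| ≤ 3 * m := by
        rw [Nat.cast_sub h4, Nat.cast_sub h3, hn', abs_le]
        have : (m : ℝ) * q ^ 2 ≤ m := mul_le_of_le_one_right hm0 (by linarith)
        have : 0 ≤ (m : ℝ) * q ^ 2 := by positivity
        constructor <;> linarith
      have h7 := bp_ge n (n - (ln y - ln r)) (θ := q ^ 2) (by positivity) (by linarith)
        (by linarith) (by linarith)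
      have h8 : 20 * (((n - (ln y - ln r) : ℕ) : ℝ) - n * q ^ 2) ^ 2 / (n * q ^ 2) ≤
          1440 / q ^ 3 := by
        rw [div_le_div_iff₀ (by linarith) (by positivity), ← sq_abs]
        have := pow_le_pow_left₀ (abs_nonneg _) h6 2
        have := mul_le_mul_of_nonneg_right this (pow_pos hq 3).le
        linarith
      have h9 : b ≤ bp n (q ^ 2) (n - (ln y - ln r)) := by
        refine le_trans ?_ h7
        rw [hb, div_div, ← sqrt_eq hq _ _ hm0, ← hn']
        exact div_le_div_of_nonneg_right (Real.exp_le_exp.2 (by linarith)) (Real.sqrt_nonneg _)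
      rw [h5]
      have : 0 ≤ b / m ^ 2 * ((ln y : ℝ) - ln r - μ) ^ 2 := by positivity
      linarith
    · refine le_trans ?_ h0
      have h1 : (m : ℝ) ^ 2 ≤ ((ln y : ℝ) - ln r - μ) ^ 2 := by
        rw [← sq_abs ((ln y : ℝ) - ln r - μ)]
        exact pow_le_pow_left₀ hm0 h.le 2
      have h2 := mul_le_mul_of_nonneg_left h1 (show 0 ≤ b / m ^ 2 by positivity)
      rw [div_mul_cancel₀ _ (by positivity)] at h2
      linarith
  have h1 : (pr (hH q m G) fun y => pr (letter q true ^ (G + 1)) fun r =>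
      b + (-(b / m ^ 2)) * ((ln y : ℝ) - ln r - μ) ^ 2) ≤ coin 1 (hH q m G) (hH q m (G + 1)) := by
    rw [coin_eq]
    refine hY.1.1.pr_mono fun y => ?_
    rw [eqv_hH q m (G + 1) fun i => eqi (ln y) i, pr_mul, pr_swap]
    exact hR.1.1.pr_mono fun r => key y r
  simp only [pr_cadd hR.1, pr_fun_mul] at h1
  rw [pr_cadd (E := hH q m G) hY.1, pr_fun_mul] at h1
  refine le_trans ?_ h1
  rw [show (pr (hH q m G) fun y => pr (letter q true ^ (G + 1)) fun r =>
    ((ln y : ℝ) - ln r - μ) ^ 2) = _ from hd]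
  push_cast
  have h2 : (G : ℝ) * (m * (q ^ 2 * (1 - q ^ 2)) + q * (1 - q)) + (G + 1) * (q * (1 - q)) ≤
      m ^ 2 / 4 := by
    have e1 : (m : ℝ) * (q ^ 2 * (1 - q ^ 2)) ≤ q * (q * m) := by
      linarith [mul_nonneg hm0 (sq_nonneg (q ^ 2))]
    have e2 : q * (1 - q) ≤ q * (q * m) := mul_le_mul_of_nonneg_left (by linarith) hq.le
    have e0 : 0 ≤ q * (q * m) := by positivity
    calc (G : ℝ) * (m * (q ^ 2 * (1 - q ^ 2)) + q * (1 - q)) + (G + 1) * (q * (1 - q))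
        ≤ G * (q * (q * m) + q * (q * m)) + (G + 1) * (q * (q * m)) := by gcongr
      _ ≤ (G + 1) * (3 * (q * (q * m))) := by linarith
      _ ≤ (q * m / 4) * (3 * (q * (q * m))) := mul_le_mul_of_nonneg_right hG' (by positivity)
      _ = 3 / 4 * q ^ 3 * m ^ 2 := by ring
      _ ≤ 3 / 4 * (1 / 8) * m ^ 2 := by gcongr
      _ ≤ _ := by linarith [sq_nonneg (m : ℝ)]
  have h3 := mul_le_mul_of_nonneg_left h2 (show 0 ≤ b / m ^ 2 by positivity)
  have h4 : b / m ^ 2 * ((m : ℝ) ^ 2 / 4) = b / 4 := by field_simp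
  have h5 : 3 / 4 * Real.exp (-(1440 / q ^ 3) - 40) / (q * Real.sqrt m) / Real.sqrt (G + 1) =
      3 / 4 * b := by rw [hb]; ring
  linarith

end Crest.Agent.R300
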