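import Crest.Agent.R300.LNear
import Crest.Agent.R300.LBin

/-!
# R300 lower bound: slack, commutators, shifts (task LSlip)
-/

set_option autoImplicit false

namespace Crest.Agent.R300

open Finset

variable {Γ : Type} [Monoid Γ]

theorem Slack.mono {B : Ms Γ} (hB : Prob B) {N N' a a' : ℕ} {τ τ' : ℝ} (h : Slack B N a τ)
    (hN : N ≤ N') (ha : a' ≤ a) (hτ : τ ≤ τ') : Slack B N' a' τ' := by
  obtain ⟨k, rfl⟩ := Nat.exists_eq_add_of_le hN
  obtain ⟨d, rfl⟩ := Nat.exists_eq_add_of_le ha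
  obtain ⟨⟨V, t, hV, ht, e, hm⟩, ⟨V', t', hV', ht', e', hm'⟩⟩ := h
  have hk := hB.pow k
  have hL := (hB.lazy.pow d).1
  refine ⟨⟨B ^ k * V * lazy B ^ d, B ^ k * t, (hk.1.mul hV).mul hL, hk.1.mul ht, ?_, ?_⟩,
    ⟨lazy B ^ d * V' * B ^ k, t' * B ^ k, (hL.mul hV').mul hk.1, ht'.mul hk.1, ?_, ?_⟩⟩
  · rw [add_comm N k, pow_add, e, add_comm a' d, pow_add]; noncomm_ring
  · rw [mass_mul, hk.2, one_mul]; exact hm.trans hτ
  · rw [pow_add, e', pow_add]; noncomm_ring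
  · rw [mass_mul, hk.2, mul_one]; exact hm'.trans hτ

private theorem slack_step {v c x : ℝ} {m₁ m₂ : ℝ} (hc : c ≤ v) (hv0 : 0 ≤ v) (hv1 : v ≤ 1)
    (hx : 0 ≤ x) (h₁ : m₁ ≤ x) (h₂ : m₂ ≤ 2 * x) :
    v * m₁ + (1 - v) * m₂ ≤ 2 * x * (1 - c / 2) := by
  have e1 := mul_le_mul_of_nonneg_left h₁ hv0
  have e2 := mul_le_mul_of_nonneg_left h₂ (sub_nonneg.2 hv1)
  nlinarith [mul_le_mul_of_nonneg_left hc hx]

private theorem slack_right {P L V R : Ms Γ} (hP : Prob P) (hL : Prob L) (hc : Commute P L)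
    (hV : NN V) (hR : NN R) (e : P = V * L + R) {c : ℝ} (hcv : c ≤ mass V) (μ : ℕ) :
    ∀ a : ℕ, ∃ V' t, NN V' ∧ NN t ∧ P ^ μ = V' * L ^ a + t ∧ mass t ≤ 2 ^ a * (1 - c / 2) ^ μ := by
  have hm : mass V + mass R = 1 := by
    have := hP.2
    rw [e, mass_add, mass_mul, hL.2, mul_one] at this
    exact this
  have hv0 := hV.mass_nonneg
  have hv1 : mass V ≤ 1 := by linarith [hR.mass_nonneg]
  have hq : 0 ≤ 1 - c / 2 := by linarith
  induction μ with
  | zero =>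
    intro a
    refine ⟨0, 1, NN.zero, NN.one, by simp, ?_⟩
    rw [mass_one, pow_zero, mul_one]
    exact one_le_pow₀ (by norm_num)
  | succ μ ih =>
    intro a
    cases a with
    | zero =>
      exact ⟨P ^ (μ + 1), 0, (hP.pow _).1, NN.zero, by simp, by rw [mass_zero]; positivity⟩
    | succ a =>
      obtain ⟨V₁, t₁, hV₁, ht₁, e₁, hm₁⟩ := ih a
      obtain ⟨V₂, t₂, hV₂, ht₂, e₂, hm₂⟩ := ih (a + 1)
      refine ⟨V * V₁ + R * V₂, V * t₁ * L + R * t₂, (hV.mul hV₁).add (hR.mul hV₂),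
        ((hV.mul ht₁).mul hL.1).add (hR.mul ht₂), ?_, ?_⟩
      · have h1 : P ^ (μ + 1) = V * P ^ μ * L + R * P ^ μ := by
          rw [pow_succ', mul_assoc V, (hc.pow_left μ).eq, ← mul_assoc, ← add_mul, ← e]
        rw [h1]
        conv_lhs => rw [e₁]
        conv_lhs => enter [2]; rw [← e₁, e₂]
        rw [pow_succ L a]
        noncomm_ring
      · rw [mass_add, mass_mul, mass_mul, mass_mul, hL.2, mul_one,
          show mass R = 1 - mass V by linarith]
        have := slack_step hcv hv0 hv1 (x := 2 ^ a * (1 - c / 2) ^ μ) (by positivity) hm₁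
          (m₂ := mass t₂) (by rw [pow_succ] at hm₂; linarith)
        refine this.trans (le_of_eq ?_)
        ring

private theorem slack_left {P L V R : Ms Γ} (hP : Prob P) (hL : Prob L) (hc : Commute P L)
    (hV : NN V) (hR : NN R) (e : P = L * V + R) {c : ℝ} (hcv : c ≤ mass V) (μ : ℕ) :
    ∀ a : ℕ, ∃ V' t, NN V' ∧ NN t ∧ P ^ μ = L ^ a * V' + t ∧ mass t ≤ 2 ^ a * (1 - c / 2) ^ μ := by
  have hm : mass V + mass R = 1 := by
    have := hP.2
    rw [e, mass_add, mass_mul, hL.2, one_mul] at this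
    exact this
  have hv0 := hV.mass_nonneg
  have hv1 : mass V ≤ 1 := by linarith [hR.mass_nonneg]
  have hq : 0 ≤ 1 - c / 2 := by linarith
  induction μ with
  | zero =>
    intro a
    refine ⟨0, 1, NN.zero, NN.one, by simp, ?_⟩
    rw [mass_one, pow_zero, mul_one]
    exact one_le_pow₀ (by norm_num)
  | succ μ ih =>
    intro a
    cases a with
    | zero =>
      exact ⟨P ^ (μ + 1), 0, (hP.pow _).1, NN.zero, by simp, by rw [mass_zero]; positivity⟩
    | succ a =>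
      obtain ⟨V₁, t₁, hV₁, ht₁, e₁, hm₁⟩ := ih a
      obtain ⟨V₂, t₂, hV₂, ht₂, e₂, hm₂⟩ := ih (a + 1)
      refine ⟨V₁ * V + V₂ * R, L * t₁ * V + t₂ * R, (hV₁.mul hV).add (hV₂.mul hR),
        ((hL.1.mul ht₁).mul hV).add (ht₂.mul hR), ?_, ?_⟩
      · have h1 : P ^ (μ + 1) = L * P ^ μ * V + P ^ μ * R := by
          rw [pow_succ, ← (hc.pow_left μ).eq, mul_assoc, ← mul_add, ← e]
        rw [h1]
        conv_lhs => rw [e₁]
        conv_lhs => enter [2]; rw [← e₁, e₂]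
        rw [pow_succ' L a]
        noncomm_ring
      · rw [mass_add, mass_mul, mass_mul, mass_mul, hL.2, one_mul,
          show mass R = 1 - mass V by linarith]
        have := slack_step hcv hv0 hv1 (x := 2 ^ a * (1 - c / 2) ^ μ) (by positivity) hm₁
          (m₂ := mass t₂) (by rw [pow_succ] at hm₂; linarith)
        rw [mul_comm (mass t₁), mul_comm (mass t₂)]
        refine this.trans (le_of_eq ?_)
        ring

private theorem half_le {X Y P : Ms Γ} (h₁ : Le X P) (h₂ : Le Y P) :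
    Le ((1 / 2 : ℝ) • (X + Y)) P := fun w => by
  have := h₁ w
  have := h₂ w
  rw [LNear.c_smul, LNear.c_add]
  linarith

/-- Let `V ≤ B ^ G`, `V ≤ B ^ (G+1)`, `v = mass V ≥ c`, `Λ = lazy B`.  Since also `V B ≤ B ^ (G+1)`,
`B ^ (G+1) = V Λ + R` with `R ≥ 0` of mass `1 - v`.  Induction on `μ` (for all `a`):
`B ^ ((G+1) μ) = V' Λ ^ a + t` with `mass t ≤ 2 ^ a (1 - c/2) ^ μ`, because
`B ^ ((G+1)(μ+1)) = V B ^ ((G+1) μ) Λ + R B ^ ((G+1) μ)` (`Λ` commutes with `B`); use the claim for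
`a - 1` in the first term and for `a` in the second (for `a = 0` take `t = 0`; for `μ = 0` take
`t = 1`).  With `μ = ⌈2 (⌈a⌉ + J) / c⌉` the mass is at most `exp (-J)`.  The left version is
symmetric (`B V ≤ B ^ (G+1)`).  Finish with `Slack.mono`. -/
theorem slack_of_slip {B : Ms Γ} (hB : Prob B) {G N : ℕ} {c a J : ℝ} (h : Slip B G c)
    (hc : 0 < c) (ha : 0 ≤ a) (hJ : 0 ≤ J) (hN : slackN G c a J ≤ N) :
    Slack B N ⌈a⌉₊ (Real.exp (-J)) := by
  obtain ⟨V, hV, h1, h2, hcv⟩ := h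
  have hP := hB.pow (G + 1)
  have hcomm : Commute (B ^ (G + 1)) (lazy B) := (commute_lazy B).pow_left _
  have hr : Le (V * lazy B) (B ^ (G + 1)) := by
    have : V * lazy B = (1 / 2 : ℝ) • (V + V * B) := by
      rw [lazy, mul_smul_comm, mul_add, mul_one]
    rw [this]
    refine half_le h2 ?_
    rw [pow_succ]
    exact h1.mul (Le.refl B) hB.1 (hB.pow G).1
  have hl : Le (lazy B * V) (B ^ (G + 1)) := by
    have : lazy B * V = (1 / 2 : ℝ) • (V + B * V) := by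
      rw [lazy, smul_mul_assoc, add_mul, one_mul]
    rw [this]
    refine half_le h2 ?_
    rw [pow_succ']
    exact (Le.refl B).mul h1 hV hB.1
  have hc1 : c ≤ 1 := hcv.trans (h1.mass_le.trans (hB.pow G).2.le)
  set A : ℕ := ⌈a⌉₊ with hA
  set μ : ℕ := ⌈2 * (A + J) / c⌉₊ with hμ
  have hμ1 : 2 * (A + J) / c ≤ μ := Nat.le_ceil _
  have hμ2 : (μ : ℝ) ≤ 2 * (A + J) / c + 1 := (Nat.ceil_lt_add_one (by positivity)).le
  have hA2 : (A : ℝ) ≤ a + 1 := (Nat.ceil_lt_add_one ha).le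
  have hle : (G + 1) * μ ≤ N := by
    have : (((G + 1) * μ : ℕ) : ℝ) ≤ N := by
      refine le_trans ?_ hN
      rw [slackN]
      push_cast
      refine mul_le_mul_of_nonneg_left (hμ2.trans ?_) (by positivity)
      gcongr
    exact_mod_cast this
  have hbound : (2 : ℝ) ^ A * (1 - c / 2) ^ μ ≤ Real.exp (-J) := by
    have e1 : (2 : ℝ) ^ A ≤ Real.exp A := by
      rw [← Real.exp_one_pow]
      exact pow_le_pow_left₀ (by norm_num) (by linarith [Real.add_one_le_exp 1]) _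
    have e2 : (1 - c / 2) ^ μ ≤ Real.exp (μ * (-(c / 2))) := by
      rw [Real.exp_nat_mul]
      exact pow_le_pow_left₀ (by linarith) (by linarith [Real.add_one_le_exp (-(c / 2))]) _
    calc (2 : ℝ) ^ A * (1 - c / 2) ^ μ ≤ Real.exp A * Real.exp (μ * (-(c / 2))) :=
          mul_le_mul e1 e2 (pow_nonneg (by linarith) _) (Real.exp_pos _).le
      _ = Real.exp (A + μ * (-(c / 2))) := (Real.exp_add _ _).symm
      _ ≤ Real.exp (-J) := by
          refine Real.exp_le_exp.2 ?_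
          rw [div_le_iff₀ hc] at hμ1
          linarith
  have key : Slack B ((G + 1) * μ) A (Real.exp (-J)) := by
    constructor
    · obtain ⟨V', t, a1, a2, a3, a4⟩ := slack_right hP hB.lazy hcomm hV (le_iff_nn.1 hr)
        (by abel) hcv μ A
      exact ⟨V', t, a1, a2, by rw [pow_mul, a3], a4.trans hbound⟩
    · obtain ⟨V', t, a1, a2, a3, a4⟩ := slack_left hP hB.lazy hcomm hV (le_iff_nn.1 hl)
        (by abel) hcv μ A
      exact ⟨V', t, a1, a2, by rw [pow_mul, a3], a4.trans hbound⟩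
  exact key.mono hB hle le_rfl le_rfl

/-- The part of `lazy T ^ a * T ^ j` with exponents in `I`. -/
private noncomputable def part (T : Ms Γ) (a j : ℕ) (I : Finset ℕ) : Ms Γ :=
  ∑ z ∈ I, bsh a j z • T ^ z

private theorem part_nn {T : Ms Γ} (hT : Prob T) (a j : ℕ) (I : Finset ℕ) : NN (part T a j I) :=
  NN.sum fun z _ => (hT.pow z).1.smul (bsh_nonneg a j z)

private theorem mass_part {T : Ms Γ} (hT : Prob T) (a j : ℕ) (I : Finset ℕ) :
    mass (part T a j I) = ∑ z ∈ I, bsh a j z := by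
  rw [part, mass_sum]
  exact Finset.sum_congr rfl fun z _ => by rw [mass_smul, (hT.pow z).2, mul_one]

private theorem l1_part {T : Ms Γ} (hT : Prob T) (a j : ℕ) (I : Finset ℕ) :
    l1 (part T a j I) = ∑ z ∈ I, bsh a j z := by
  rw [(part_nn hT a j I).l1_eq, mass_part hT]

private theorem part_split (T : Ms Γ) (a j : ℕ) {I : Finset ℕ} (hI : I ⊆ range (a + 1)) :
    lazy T ^ a * T ^ j = part T a j I + part T a j (range (a + j + 1) \ I) := by
  rw [lazy_pow_mul, part, part, add_comm (∑ z ∈ I, _), Finset.sum_sdiff]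
  exact hI.trans (Finset.range_subset_range.2 (by omega))

private theorem le_add_nn {P Q : Ms Γ} (hQ : NN Q) : Le P (P + Q) := fun w => by
  have := hQ w
  rw [LNear.c_add]
  linarith

private theorem mass_le_of_slack {T V L t : Ms Γ} (hT : mass T = 1) (hL : mass L = 1) (ht : NN t)
    (e : T = V * L + t ∨ T = L * V + t) : mass V ≤ 1 := by
  have := ht.mass_nonneg
  rcases e with e | e
  · rw [e, mass_add, mass_mul, hL] at hT; linarith
  · rw [e, mass_add, mass_mul, hL] at hT; linarith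

private theorem l1_mul3 {X Y Z : Ms Γ} {x y z : ℝ} (hx : l1 X ≤ x) (hy : l1 Y ≤ y) (hz : l1 Z ≤ z) :
    l1 (X * Y * Z) ≤ x * y * z :=
  (l1_mul_le _ _).trans (mul_le_mul ((l1_mul_le _ _).trans
    (mul_le_mul hx hy (l1_nonneg _) ((l1_nonneg _).trans hx))) hz (l1_nonneg _)
    (mul_nonneg ((l1_nonneg _).trans hx) ((l1_nonneg _).trans hy)))

private theorem part_mul_part (T X : Ms Γ) (a j j' : ℕ) (I : Finset ℕ) :
    part T a j I * X * part T a j' I =
      ∑ p ∈ I ×ˢ I, (bsh a j p.1 * bsh a j' p.2) • (T ^ p.1 * X * T ^ p.2) := by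
  rw [Finset.sum_product, part, part, Finset.sum_mul, Finset.sum_mul]
  refine Finset.sum_congr rfl fun z _ => ?_
  rw [Finset.mul_sum]
  refine Finset.sum_congr rfl fun z' _ => ?_
  rw [smul_mul_assoc, smul_mul_assoc, mul_smul_comm, smul_smul]

/-- The common core of `comm_ni` and `comm_n2`. -/
private theorem comm_core {T : Ms Γ} (hT : Prob T) {N a h : ℕ} (D : ℕ) {J θ : ℝ} (hJ : 1 ≤ J)
    (hθ : 0 < θ) (hθ1 : θ ≤ 1 / 2) (hs : Slack T N a (Real.exp (-J)))
    (ha : 40000 * J * (h : ℝ) ^ 2 / θ ^ 2 ≤ a) :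
    ∃ (V V' : Ms Γ) (I : Finset (ℕ × ℕ)) (κ π : ℕ × ℕ → ℝ), NN V ∧ NN V' ∧ mass V ≤ 1 ∧
      mass V' ≤ 1 ∧ (∀ p ∈ I, 0 ≤ π p) ∧ (∀ p ∈ I, |κ p| ≤ 4 * θ * π p) ∧ ∑ p ∈ I, π p ≤ 1 ∧
      Le (V * (∑ p ∈ I, π p • (T ^ p.1 * T ^ D * T ^ p.2)) * V') (T ^ (2 * N + D + h)) ∧
      ∀ (E E₀ : Ms Γ) (τ η : ℝ), l1 (E - E₀) ≤ τ → l1 E₀ ≤ η →
        l1 (T ^ N * (E * T ^ h - T ^ h * E) * T ^ N -
          V * (∑ p ∈ I, κ p • (T ^ p.1 * E₀ * T ^ p.2)) * V') ≤
          2 * τ + 20 * η * Real.exp (-J) := by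
  obtain ⟨⟨V, t, hV, ht, e, hm⟩, ⟨V', t', hV', ht', e', hm'⟩⟩ := hs
  obtain ⟨I, hI, hI1, hI2⟩ := bpack a h hJ hθ (by linarith) ha
  have hL := hT.lazy.pow a
  have hV1 : mass V ≤ 1 := mass_le_of_slack (hT.pow N).2 hL.2 ht (Or.inl e)
  have hV1' : mass V' ≤ 1 := mass_le_of_slack (hT.pow N).2 hL.2 ht' (Or.inr e')
  set L := lazy T ^ a with hLdef
  set A := part T a 0 I with hA
  set A' := part T a 0 (range (a + 0 + 1) \ I) with hA'
  set B := part T a h I with hB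
  set B' := part T a h (range (a + h + 1) \ I) with hB'
  have eA : L = A + A' := by
    have := part_split T a 0 hI
    rwa [pow_zero, mul_one] at this
  have eB : L * T ^ h = B + B' := part_split T a h hI
  have hcomm : T ^ h * L = L * T ^ h := ((commute_lazy T).pow_pow h a).eq
  refine ⟨V, V', I ×ˢ I, fun p => bsh a 0 p.1 * bsh a h p.2 - bsh a h p.1 * bsh a 0 p.2,
    fun p => bsh a 0 p.1 * bsh a h p.2, hV, hV', hV1, hV1',
    fun p _ => mul_nonneg (bsh_nonneg _ _ _) (bsh_nonneg _ _ _), fun p hp => ?_, ?_, ?_, ?_⟩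
  · obtain ⟨hp1, hp2⟩ := Finset.mem_product.1 hp
    have h1 := abs_le.1 (hI1 _ hp1 h le_rfl)
    have h2 := abs_le.1 (hI1 _ hp2 h le_rfl)
    simp only [bsh_zero]
    have b1 := bin_nonneg a p.1
    have b2 := bin_nonneg a p.2
    set x := bin a p.1
    set y := bin a p.2
    set x' := bsh a h p.1
    set y' := bsh a h p.2
    have h3 : y ≤ 2 * y' := by nlinarith
    have h4 : θ * x * y ≤ θ * x * (2 * y') := mul_le_mul_of_nonneg_left h3 (by positivity)
    have h5 := mul_le_mul_of_nonneg_left h2.1 b1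
    have h6 := mul_le_mul_of_nonneg_left h2.2 b1
    have h7 := mul_le_mul_of_nonneg_right h1.1 b2
    have h8 := mul_le_mul_of_nonneg_right h1.2 b2
    rw [abs_le]
    constructor <;> nlinarith
  · rw [Finset.sum_product, ← Finset.sum_mul_sum]
    exact mul_le_one₀ (sum_bsh_le _ _ _) (Finset.sum_nonneg fun _ _ => bsh_nonneg _ _ _)
      (sum_bsh_le _ _ _)
  · rw [← part_mul_part, ← hA, ← hB]
    have hAL : Le A L := by rw [eA]; exact le_add_nn (part_nn hT _ _ _)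
    have hBL : Le B (T ^ h * L) := by rw [hcomm, eB]; exact le_add_nn (part_nn hT _ _ _)
    have h1 : Le (V * A) (T ^ N) :=
      ((Le.refl V).mul hAL (part_nn hT _ _ _) hV).trans (by rw [e]; exact le_add_nn ht)
    have h2 : Le (B * V') (T ^ h * T ^ N) := by
      refine (hBL.mul (Le.refl V') hV' ((hT.pow h).1.mul hL.1)).trans ?_
      rw [mul_assoc]
      exact (Le.refl _).mul (by rw [e']; exact le_add_nn ht') (hL.1.mul hV') (hT.pow h).1
    have h3 := (h1.mul (Le.refl (T ^ D)) (hT.pow D).1 (hT.pow N).1).mul h2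
      ((part_nn hT _ _ _).mul hV') ((hT.pow N).mul (hT.pow D)).1
    have e1 : V * (A * T ^ D * B) * V' = V * A * T ^ D * (B * V') := by noncomm_ring
    have e2 : T ^ (2 * N + D + h) = T ^ N * T ^ D * (T ^ h * T ^ N) := by
      rw [← pow_add, ← pow_add, ← pow_add]; congr 1; ring
    rw [e1, e2]
    exact h3
  · intro E E₀ τ η hE hE₀
    have hη : 0 ≤ η := (l1_nonneg _).trans hE₀
    have e0 : ∑ p ∈ I ×ˢ I, (bsh a 0 p.1 * bsh a h p.2 - bsh a h p.1 * bsh a 0 p.2) •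
        (T ^ p.1 * E₀ * T ^ p.2) = A * E₀ * B - B * E₀ * A := by
      rw [hA, hB, part_mul_part, part_mul_part, ← Finset.sum_sub_distrib]
      exact Finset.sum_congr rfl fun p _ => sub_smul _ _ _
    rw [e0]
    set ε := Real.exp (-J) with hε
    set X := E₀ * T ^ h - T ^ h * E₀ with hX
    set Y := (E - E₀) * T ^ h - T ^ h * (E - E₀) with hY
    have hh := (hT.pow h).l1_eq
    have hN := (hT.pow N).l1_eq.le
    have lc : ∀ (F : Ms Γ) (x : ℝ), l1 F ≤ x → l1 (F * T ^ h - T ^ h * F) ≤ 2 * x := by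
      intro F x hx
      have h1 := l1_mul_le F (T ^ h)
      have h2 := l1_mul_le (T ^ h) F
      rw [hh] at h1 h2
      linarith [l1_sub_le (F * T ^ h) (T ^ h * F)]
    have lX : l1 X ≤ 2 * η := lc _ _ hE₀
    have lY : l1 Y ≤ 2 * τ := lc _ _ hE
    have lt : l1 t ≤ ε := ht.l1_eq.le.trans hm
    have lt' : l1 t' ≤ ε := ht'.l1_eq.le.trans hm'
    have lV : l1 V ≤ 1 := hV.l1_eq.le.trans hV1
    have lV' : l1 V' ≤ 1 := hV'.l1_eq.le.trans hV1'
    have lVL : l1 (V * L) ≤ 1 := by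
      have := l1_mul_le V L
      rw [hL.l1_eq] at this
      linarith
    have lA : l1 A ≤ 1 := (l1_part hT _ _ _).le.trans (sum_bsh_le _ _ _)
    have lB : l1 B ≤ 1 := (l1_part hT _ _ _).le.trans (sum_bsh_le _ _ _)
    have lA' : l1 A' ≤ 4 * ε := (l1_part hT _ _ _).le.trans (hI2 0 (Nat.zero_le _))
    have lB' : l1 B' ≤ 4 * ε := (l1_part hT _ _ _).le.trans (hI2 h le_rfl)
    have lL : l1 L ≤ 1 := hL.l1_eq.le
    have lLh : l1 (L * T ^ h) ≤ 1 := (hL.mul (hT.pow h)).l1_eq.le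
    have e1 : L * X * L - (A * E₀ * B - B * E₀ * A) =
        A' * E₀ * (L * T ^ h) + A * E₀ * B' - (B' * E₀ * L + B * E₀ * A') := by
      have f1 : L * X * L = L * E₀ * (L * T ^ h) - L * T ^ h * E₀ * L := by
        rw [← hcomm, hX]; nth_rewrite 2 [hcomm]; noncomm_ring
      have f2 : L * E₀ * (L * T ^ h) = A' * E₀ * (L * T ^ h) + A * E₀ * B' + A * E₀ * B := by
        nth_rewrite 1 [eA]
        rw [add_mul, add_mul]
        nth_rewrite 1 [eB]
        noncomm_ring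
      have f3 : L * T ^ h * E₀ * L = B' * E₀ * L + B * E₀ * A' + B * E₀ * A := by
        rw [eB, add_mul, add_mul]
        nth_rewrite 1 [eA]
        noncomm_ring
      rw [f1, f2, f3]
      abel
    have l1' : l1 (L * X * L - (A * E₀ * B - B * E₀ * A)) ≤ 16 * η * ε := by
      rw [e1]
      have g1 := l1_mul3 lA' hE₀ lLh
      have g2 := l1_mul3 lA hE₀ lB'
      have g3 := l1_mul3 lB' hE₀ lL
      have g4 := l1_mul3 lB hE₀ lA'
      have g5 := l1_sub_le (A' * E₀ * (L * T ^ h) + A * E₀ * B') (B' * E₀ * L + B * E₀ * A')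
      have g6 := l1_add_le (A' * E₀ * (L * T ^ h)) (A * E₀ * B')
      have g7 := l1_add_le (B' * E₀ * L) (B * E₀ * A')
      linarith
    have e2 : T ^ N * (E * T ^ h - T ^ h * E) * T ^ N - V * (A * E₀ * B - B * E₀ * A) * V' =
        T ^ N * Y * T ^ N + (t * X * T ^ N + (V * L * X * t' +
          V * (L * X * L - (A * E₀ * B - B * E₀ * A)) * V')) := by
      have f1 : E * T ^ h - T ^ h * E = Y + X := by rw [hX, hY]; noncomm_ring
      have f2 : T ^ N * X * T ^ N = t * X * T ^ N + (V * L * X * t' + V * (L * X * L) * V') := by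
        nth_rewrite 1 [e]
        rw [add_mul, add_mul]
        nth_rewrite 1 [e']
        noncomm_ring
      rw [f1, mul_add, add_mul, f2]
      noncomm_ring
    rw [e2]
    have g1 := l1_mul3 hN lY hN
    have g2 := l1_mul3 lt lX hN
    have g3 := l1_mul3 lVL lX lt'
    have g4 := l1_mul3 lV l1' lV'
    have g5 := l1_add_le (T ^ N * Y * T ^ N) (t * X * T ^ N + (V * L * X * t' +
          V * (L * X * L - (A * E₀ * B - B * E₀ * A)) * V'))
    have g6 := l1_add_le (t * X * T ^ N) (V * L * X * t' +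
          V * (L * X * L - (A * E₀ * B - B * E₀ * A)) * V')
    have g7 := l1_add_le (V * L * X * t') (V * (L * X * L - (A * E₀ * B - B * E₀ * A)) * V')
    linarith

/-- Commutators with powers of the background are small.  Let `E₀` be the approximant,
`l1 E₀ ≤ η`.  Write `T ^ N = V Λ ^ a + t = Λ ^ a V' + t'`.  Up to `l1` error `2 τ + 4 η exp (-J)`
the measure is `V (Λ ^ a E₀ Λ ^ a T ^ h - Λ ^ a T ^ h E₀ Λ ^ a) V'`, and by `lazy_pow_mul` the bracket is
`∑_{z, z'} (bin z * bsh h z' - bsh h z * bin z') • T ^ z E₀ T ^ z'`.  With `I` from `bpack`, the terms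
outside `I × I` have total weight `≤ 16 exp (-J)`, and on `I × I` the coefficient is at most
`2 θ bin z * bin z' ≤ 4 θ bin z * bsh h z'`.  `Linf.mix`, and
`V (∑ bin z * bsh h z' • T ^ (z + D + z')) V' ≤ V Λ ^ a T ^ (D + h) Λ ^ a V' ≤ T ^ (2 N + D + h)`. -/
theorem comm_ni {T E : Ms Γ} (hT : Prob T) {N a D h : ℕ} {J θ η τ : ℝ} (hJ : 1 ≤ J) (hθ : 0 < θ)
    (hθ1 : θ ≤ 1 / 2) (hη : 0 ≤ η) (hs : Slack T N a (Real.exp (-J)))
    (ha : 40000 * J * (h : ℝ) ^ 2 / θ ^ 2 ≤ a) (hE : NI E (T ^ D) η τ) :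
    NI (T ^ N * (E * T ^ h - T ^ h * E) * T ^ N) (T ^ (2 * N + D + h)) (4 * θ * η)
      (2 * τ + 20 * η * Real.exp (-J)) := by
  obtain ⟨V, V', I, κ, π, hV, hV', -, -, hπ, hκ, -, hle, herr⟩ := comm_core hT D hJ hθ hθ1 hs ha
  obtain ⟨E₀, h1, h2⟩ := hE
  have hD := hT.pow D
  have hP : ∀ p : ℕ × ℕ, NN (T ^ p.1 * T ^ D * T ^ p.2) := fun p =>
    (((hT.pow _).mul hD).mul (hT.pow _)).1
  refine ⟨_, ?_, herr E E₀ τ η h2 (h1.l1_le hη hD.1 hD.2.le)⟩
  have h3 : ∀ p ∈ I, Linf (T ^ p.1 * E₀ * T ^ p.2) (T ^ p.1 * T ^ D * T ^ p.2) η := by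
    intro p _
    have := ((Linf.self (hT.pow p.1).1).mul h1 zero_le_one hη (hT.pow _).1 hD.1).mul
      (Linf.self (hT.pow p.2).1) (by positivity) zero_le_one ((hT.pow _).mul hD).1 (hT.pow _).1
    simpa using this
  have h4 := Linf.mix hη hκ (fun p _ => hP p) h3
  have hS : NN (∑ p ∈ I, π p • (T ^ p.1 * T ^ D * T ^ p.2)) :=
    NN.sum fun p hp => (hP p).smul (hπ p hp)
  have h5 := ((Linf.self hV).mul h4 zero_le_one (by positivity) hV hS).mul (Linf.self hV')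
    (by positivity) zero_le_one (hV.mul hS) hV'
  have h6 := h5.ref (c := 1) (by positivity) (by rwa [one_smul])
  simpa using h6

/-- The same in `L²`, with `L2.mix` (write `κ • F = π • ((κ / π) • F)`) and `L2.ref`. -/
theorem comm_n2 {T E : Ms Γ} (hT : Prob T) {N a D h : ℕ} {J θ σ τ : ℝ} (hJ : 1 ≤ J) (hθ : 0 < θ)
    (hθ1 : θ ≤ 1 / 2) (hσ : 0 ≤ σ) (hs : Slack T N a (Real.exp (-J)))
    (ha : 40000 * J * (h : ℝ) ^ 2 / θ ^ 2 ≤ a) (hE : N2 E (T ^ D) σ τ) :
    N2 (T ^ N * (E * T ^ h - T ^ h * E) * T ^ N) (T ^ (2 * N + D + h)) (4 * θ * σ)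
      (2 * τ + 20 * σ * Real.exp (-J)) := by
  obtain ⟨V, V', I, κ, π, hV, hV', hV1, hV1', hπ, hκ, hπ1, hle, herr⟩ :=
    comm_core hT D hJ hθ hθ1 hs ha
  obtain ⟨E₀, h1, h2⟩ := hE
  have hD := hT.pow D
  have hP : ∀ p : ℕ × ℕ, NN (T ^ p.1 * T ^ D * T ^ p.2) := fun p =>
    (((hT.pow _).mul hD).mul (hT.pow _)).1
  refine ⟨_, ?_, herr E E₀ τ σ h2 (h1.l1_le hσ hD.1 hD.2.le)⟩
  have h3 : ∀ p ∈ I, L2 ((κ p / π p) • (T ^ p.1 * E₀ * T ^ p.2)) (T ^ p.1 * T ^ D * T ^ p.2)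
      (4 * θ * σ) := by
    intro p hp
    have := ((L2.self (hT.pow p.1).1 (hT.pow _).2.le).mul h1 zero_le_one hσ (hT.pow _).1 hD.1).mul
      (L2.self (hT.pow p.2).1 (hT.pow _).2.le) (by positivity) zero_le_one ((hT.pow _).mul hD).1
      (hT.pow _).1
    refine (this.smul (κ p / π p)).mono ?_
    rw [one_mul, mul_one]
    refine mul_le_mul_of_nonneg_right ?_ hσ
    rw [abs_div, abs_of_nonneg (hπ p hp)]
    exact div_le_of_le_mul₀ (hπ p hp) (by positivity) (hκ p hp)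
  have h4 := L2.mix hπ (fun _ _ => by positivity) (fun p _ => hP p) h3
  have e1 : ∑ p ∈ I, π p • (κ p / π p) • (T ^ p.1 * E₀ * T ^ p.2) =
      ∑ p ∈ I, κ p • (T ^ p.1 * E₀ * T ^ p.2) := by
    refine Finset.sum_congr rfl fun p hp => ?_
    rw [smul_smul]
    congr 1
    by_cases h0 : π p = 0
    · have := hκ p hp
      rw [h0, mul_zero] at this
      rw [h0, zero_mul, abs_nonpos_iff.1 this]
    · field_simp
  have h4' : L2 (∑ p ∈ I, κ p • (T ^ p.1 * E₀ * T ^ p.2))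
      (∑ p ∈ I, π p • (T ^ p.1 * T ^ D * T ^ p.2)) (4 * θ * σ) := by
    rw [e1] at h4
    refine h4.mono ?_
    rw [Real.sqrt_le_left (by positivity), ← Finset.sum_mul]
    exact mul_le_of_le_one_left (sq_nonneg _) hπ1
  have hS : NN (∑ p ∈ I, π p • (T ^ p.1 * T ^ D * T ^ p.2)) :=
    NN.sum fun p hp => (hP p).smul (hπ p hp)
  have h5 := ((L2.self hV hV1).mul h4' zero_le_one (by positivity) hV hS).mul (L2.self hV' hV1')
    (by positivity) zero_le_one (hV.mul hS) hV'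
  have h6 := h5.ref (c := 1) (by positivity) zero_le_one (by rwa [one_smul])
  simpa using h6

/-- `P₀ = ∑_{z ∈ I} bsh a h z • T ^ z V' ≤ 2 Λ ^ a V' ≤ 2 T ^ N` (`bpack` with `θ = 1`). -/
theorem dom_shift {T : Ms Γ} (hT : Prob T) {N a h : ℕ} {J : ℝ} (hJ : 1 ≤ J)
    (hs : Slack T N a (Real.exp (-J))) (ha : 40000 * J * (h : ℝ) ^ 2 ≤ a) :
    Dom (T ^ (N + h)) (T ^ N) 2 (5 * Real.exp (-J)) := by
  obtain ⟨-, ⟨V, t, hV, ht, e, hm⟩⟩ := hs
  obtain ⟨I, hI, hI1, hI2⟩ := bpack a h hJ one_pos le_rfl (by simpa using ha)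
  have hL := hT.lazy.pow a
  have hV1 : mass V ≤ 1 := mass_le_of_slack (hT.pow N).2 hL.2 ht (Or.inr e)
  have hcomm : T ^ h * lazy T ^ a = lazy T ^ a * T ^ h := ((commute_lazy T).pow_pow h a).eq
  have e1 : T ^ (N + h) = part T a h I * V +
      (part T a h (range (a + h + 1) \ I) * V + T ^ h * t) := by
    rw [add_comm N h, pow_add, e, mul_add, ← mul_assoc, hcomm, part_split T a h hI]
    noncomm_ring
  have hR : NN (part T a h (range (a + h + 1) \ I) * V + T ^ h * t) :=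
    ((part_nn hT _ _ _).mul hV).add ((hT.pow h).1.mul ht)
  refine ⟨part T a h I * V, (part_nn hT _ _ _).mul hV, ?_, ?_, ?_⟩
  · conv_rhs => rw [e1]
    exact le_add_nn hR
  · have h1 : Le (part T a h I) ((2 : ℝ) • part T a 0 I) := by
      rw [part, part, Finset.smul_sum]
      refine Le.sum fun z hz w => ?_
      have := (abs_le.1 (hI1 z hz h le_rfl)).2
      rw [smul_smul, LNear.c_smul, LNear.c_smul, bsh_zero]
      exact mul_le_mul_of_nonneg_right (by linarith) ((hT.pow z).1 w)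
    have h2 : Le (part T a 0 I) (lazy T ^ a) := by
      have := part_split T a 0 hI
      rw [pow_zero, mul_one] at this
      rw [this]
      exact le_add_nn (part_nn hT _ _ _)
    have h3 := (h1.trans (h2.smul zero_le_two)).mul (Le.refl V) hV (hL.1.smul zero_le_two)
    rw [smul_mul_assoc] at h3
    exact h3.trans (Le.smul (by rw [e]; exact le_add_nn ht) zero_le_two)
  · conv_lhs => rw [e1]
    rw [add_sub_cancel_left, hR.l1_eq, mass_add, mass_mul, mass_mul, (hT.pow h).2, mass_part hT]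
    have h1 := hI2 h le_rfl
    have h2 := mul_le_mul h1 hV1 hV.mass_nonneg (by positivity)
    linarith

/-- `T ^ (N+h) - T ^ N = ∑ (bsh a h z - bin a z) • T ^ z V' + (T ^ h - 1) t'`. -/
theorem l1_shift {T : Ms Γ} (hT : Prob T) {N a h : ℕ} {J θ : ℝ} (hJ : 1 ≤ J) (hθ : 0 < θ)
    (hθ1 : θ ≤ 1) (hs : Slack T N a (Real.exp (-J)))
    (ha : 40000 * J * (h : ℝ) ^ 2 / θ ^ 2 ≤ a) :
    l1 (T ^ (N + h) - T ^ N) ≤ θ + 10 * Real.exp (-J) := by
  obtain ⟨-, ⟨V, t, hV, ht, e, hm⟩⟩ := hs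
  obtain ⟨I, hI, hI1, hI2⟩ := bpack a h hJ hθ hθ1 ha
  have hL := hT.lazy.pow a
  have hV1 : mass V ≤ 1 := mass_le_of_slack (hT.pow N).2 hL.2 ht (Or.inr e)
  have lV : l1 V ≤ 1 := hV.l1_eq.le.trans hV1
  have lt : l1 t ≤ Real.exp (-J) := ht.l1_eq.le.trans hm
  have hcomm : T ^ h * lazy T ^ a = lazy T ^ a * T ^ h := ((commute_lazy T).pow_pow h a).eq
  have eA := part_split T a 0 hI
  rw [pow_zero, mul_one] at eA
  set A := part T a 0 I with hA
  set A' := part T a 0 (range (a + 0 + 1) \ I) with hA'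
  set B := part T a h I with hB
  set B' := part T a h (range (a + h + 1) \ I) with hB'
  have e1 : T ^ (N + h) - T ^ N = (B - A + (B' - A')) * V + (T ^ h * t - t) := by
    rw [add_comm N h, pow_add, e, mul_add, ← mul_assoc, hcomm, part_split T a h hI, eA]
    noncomm_ring
  have lA' : l1 A' ≤ 4 * Real.exp (-J) := (l1_part hT _ _ _).le.trans (hI2 0 (Nat.zero_le _))
  have lB' : l1 B' ≤ 4 * Real.exp (-J) := (l1_part hT _ _ _).le.trans (hI2 h le_rfl)
  have lBA : l1 (B - A) ≤ θ := by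
    rw [hA, hB, part, part, ← Finset.sum_sub_distrib]
    refine (l1_sum_le _ _).trans ?_
    calc ∑ z ∈ I, l1 (bsh a h z • T ^ z - bsh a 0 z • T ^ z) ≤ ∑ z ∈ I, θ * bsh a 0 z := by
          refine Finset.sum_le_sum fun z hz => ?_
          rw [← sub_smul, l1_smul, (hT.pow z).l1_eq, mul_one, bsh_zero]
          exact hI1 z hz h le_rfl
      _ ≤ θ := by
          rw [← Finset.mul_sum]
          exact mul_le_of_le_one_right hθ.le (sum_bsh_le _ _ _)
  rw [e1]
  have g1 := l1_add_le ((B - A + (B' - A')) * V) (T ^ h * t - t)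
  have g2 := (l1_mul_le (B - A + (B' - A')) V).trans
    (mul_le_of_le_one_right (l1_nonneg _) lV)
  have g3 := l1_add_le (B - A) (B' - A')
  have g4 := l1_sub_le B' A'
  have g5 := l1_sub_le (T ^ h * t) t
  have g6 := l1_mul_le (T ^ h) t
  rw [(hT.pow h).l1_eq] at g6
  linarith

/-- Iterate `comm_ni`: with `E j = T ^ (j N₀) * omg T o j * T ^ (j N₀)` one has
`E (j+1) = T ^ N₀ (E j * T ^ 2^j - T ^ 2^j * E j) T ^ N₀`; the error satisfies
`τ_j + 20 η exp (-J) ≤ 2 ^ j (τ + 20 η exp (-J))`.  Then multiply by the remaining powers of `T`. -/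
theorem omega_ni {T o : Ms Γ} (hT : Prob T) {N₀ a M x y : ℕ} {J θ η τ : ℝ} (hJ : 1 ≤ J)
    (hθ : 0 < θ) (hθ1 : θ ≤ 1 / 4) (hη : 0 ≤ η) (hτ : 0 ≤ τ) (hs : Slack T N₀ a (Real.exp (-J)))
    (ha : 40000 * J * 4 ^ M / θ ^ 2 ≤ a) (ho : NI o T η τ) (hx : M * N₀ ≤ x) (hy : M * N₀ ≤ y) :
    NI (T ^ x * omg T o M * T ^ y) (T ^ (x + y + 2 ^ M)) ((4 * θ) ^ M * η)
      (2 ^ M * (τ + 20 * η * Real.exp (-J))) := by
  set ε := Real.exp (-J) with hε
  have hε0 : 0 < ε := Real.exp_pos _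
  have key : ∀ j ≤ M, NI (T ^ (j * N₀) * omg T o j * T ^ (j * N₀)) (T ^ (2 * (j * N₀) + 2 ^ j))
      ((4 * θ) ^ j * η) (2 ^ j * (τ + 20 * η * ε) - 20 * η * ε) := by
    intro j hj
    induction j with
    | zero => simpa [omg] using ho
    | succ j ih =>
      have ha' : 40000 * J * ((2 ^ j : ℕ) : ℝ) ^ 2 / θ ^ 2 ≤ a := by
        refine le_trans ?_ ha
        have : ((2 ^ j : ℕ) : ℝ) ^ 2 ≤ 4 ^ M := by
          push_cast
          rw [← pow_mul, mul_comm, pow_mul]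
          norm_num
          exact pow_le_pow_right₀ (by norm_num) (by omega)
        gcongr
      have h1 := comm_ni hT hJ hθ (by linarith) (by positivity) hs ha' (ih (by omega))
      have e1 : T ^ N₀ * (T ^ (j * N₀) * omg T o j * T ^ (j * N₀) * T ^ 2 ^ j -
          T ^ 2 ^ j * (T ^ (j * N₀) * omg T o j * T ^ (j * N₀))) * T ^ N₀ =
          T ^ ((j + 1) * N₀) * omg T o (j + 1) * T ^ ((j + 1) * N₀) := by
        have c1 : T ^ (j * N₀) * T ^ 2 ^ j = T ^ 2 ^ j * T ^ (j * N₀) :=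
          ((Commute.refl T).pow_pow _ _).eq
        have c2 : T ^ ((j + 1) * N₀) = T ^ N₀ * T ^ (j * N₀) := by
          rw [← pow_add]; congr 1; ring
        have c3 : T ^ ((j + 1) * N₀) = T ^ (j * N₀) * T ^ N₀ := by
          rw [← pow_add]; congr 1; ring
        have c4 : T ^ (j * N₀) * omg T o j * T ^ (j * N₀) * T ^ 2 ^ j =
            T ^ (j * N₀) * (omg T o j * T ^ 2 ^ j) * T ^ (j * N₀) := by
          rw [mul_assoc _ (T ^ (j * N₀)), c1]; noncomm_ring
        have c5 : T ^ 2 ^ j * (T ^ (j * N₀) * omg T o j * T ^ (j * N₀)) =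
            T ^ (j * N₀) * (T ^ 2 ^ j * omg T o j) * T ^ (j * N₀) := by
          rw [← mul_assoc, ← mul_assoc, ← c1]; noncomm_ring
        nth_rewrite 1 [c2]
        rw [c3, omg, c4, c5]
        noncomm_ring
      have e2 : 2 * N₀ + (2 * (j * N₀) + 2 ^ j) + 2 ^ j = 2 * ((j + 1) * N₀) + 2 ^ (j + 1) := by
        ring
      rw [e1, e2] at h1
      refine h1.mono (hT.pow _).1 (le_of_eq (by ring)) ?_
      have h2 : (4 * θ) ^ j ≤ 1 := pow_le_one₀ (by positivity) (by linarith)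
      have h3 : (4 * θ) ^ j * η * ε ≤ η * ε := by
        rw [mul_assoc]
        exact mul_le_of_le_one_left (by positivity) h2
      rw [pow_succ]
      linarith
  obtain ⟨x, rfl⟩ := Nat.exists_eq_add_of_le hx
  obtain ⟨y, rfl⟩ := Nat.exists_eq_add_of_le hy
  have h1 := ((key M le_rfl).mul_left (by positivity) (hT.pow _).1 (hT.pow x)).mul_right
    (by positivity) ((hT.pow x).mul (hT.pow _)).1 (hT.pow y)
  have e1 : T ^ x * (T ^ (M * N₀) * omg T o M * T ^ (M * N₀)) * T ^ y =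
      T ^ (M * N₀ + x) * omg T o M * T ^ (M * N₀ + y) := by
    rw [add_comm _ x, pow_add, pow_add]; noncomm_ring
  have e2 : T ^ x * T ^ (2 * (M * N₀) + 2 ^ M) * T ^ y =
      T ^ (M * N₀ + x + (M * N₀ + y) + 2 ^ M) := by
    rw [← pow_add, ← pow_add]; congr 1; ring
  rw [e1, e2] at h1
  refine h1.mono (hT.pow _).1 le_rfl ?_
  have : 0 ≤ 20 * η * ε := by positivity
  linarith

end Crest.Agent.R300
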