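import Crest.Agent.R300.LMark1
import Crest.Agent.R300.LMark3
import Crest.Agent.R300.LGain
import Crest.Agent.R300.LSlip

/-!
# R300 lower bound: the first stage (task LBase)
-/

set_option autoImplicit false

namespace Crest.Agent.R300

open Finset

private theorem coin_one_le {H H' : Ms W} (hH' : Prob H') {β : ℝ} (hβ : ∀ J, lenP H J ≤ β) :
    coin 1 H H' ≤ β := by
  have e : coin 1 H H' = pr H' fun h' => lenP H h'.toList.length := by
    unfold coin lenP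
    rw [pr_swap]
    simp only [one_pow]
  rw [e]
  refine (hH'.1.pr_mono fun h' => hβ _).trans ?_
  rw [pr_const, hH'.2, one_mul]

/-- The renewal bound for the exponential moments of the number of coincidences. -/
private theorem coin_bound {q : ℝ} (hq : 0 < q) (hq1 : q ≤ 1 / 2) {m n : ℕ} (hm : 16 ≤ q * m)
    (hn : (n : ℝ) ≤ q * m / 4) {κ : ℝ} (hκ : 1 ≤ κ) {i i' : ℕ} (hi : 1 ≤ i) (hin : i ≤ n)
    (hi' : i' ≤ n) :
    coin κ (hH q m i) (hH q m i') ≤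
      2 * (1 + κ) * Real.exp (256 * κ ^ 2 * (7 / (q * Real.sqrt m)) ^ 2 * i) *
        (7 / (q * Real.sqrt m)) / Real.sqrt i := by
  have hq1' : q ≤ 1 := by linarith
  have hm1 : 1 ≤ m := by
    rcases Nat.eq_zero_or_pos m with h | h
    · rw [h] at hm; norm_num at hm
    · exact h
  have hmpos : (0 : ℝ) < m := by exact_mod_cast hm1
  have hu : 0 < q * Real.sqrt m := mul_pos hq (Real.sqrt_pos.2 hmpos)
  set β : ℝ := 7 / (q * Real.sqrt m) with hβ
  have hβ0 : 0 ≤ β := by positivity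
  have hne : (range (n + 1)).Nonempty := ⟨0, by simp⟩
  set h : ℕ → ℝ := fun i => (range (n + 1)).sup' hne fun i' => coin κ (hH q m i) (hH q m i')
    with hh
  have hP : ∀ g, Prob (hH q m g) := fun g => prob_hH hq.le hq1' m g
  have hle : ∀ i i', i' ≤ n → coin κ (hH q m i) (hH q m i') ≤ h i := fun i i' hi' =>
    Finset.le_sup' (fun i' => coin κ (hH q m i) (hH q m i')) (mem_range.2 (Nat.lt_succ_of_le hi'))
  have hnn : ∀ i, 0 ≤ h i := fun i =>
    (coin_nonneg (by linarith) (hP i).1 (hP 0).1).trans (hle i 0 (Nat.zero_le _))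
  refine (hle i i' hi').trans (renewal (h := h) (n := n) (by linarith) hβ0 ?_ ?_ i hi hin)
  · refine Finset.sup'_le _ _ fun i' _ => ?_
    have : hH q m 0 = 1 := pow_zero _
    rw [this]
    exact coin_one_left (hP i')
  · intro i hi hin
    refine Finset.sup'_le _ _ fun i' hi' => ?_
    have hi'n : i' ≤ n := Nat.lt_succ_iff.1 (mem_range.1 hi')
    rw [coin_rec]
    have hQ : ∀ a, Prob (hH q m (a - 1) * hC q ^ m) := fun a =>
      (hP _).mul ((prob_hC hq.le hq1').pow m)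
    refine add_le_add ?_ ?_
    · refine (coin_one_le (hP i') (lenP_hH_le hq hq1 hm1 hi)).trans ?_
      gcongr
      rw [hβ]
      gcongr
      norm_num
    · have h1 : ∀ a ∈ Icc 1 i, ∑ a' ∈ Icc 1 i',
          coin 1 (hH q m (a - 1) * hC q ^ m) (hH q m (a' - 1) * hC q ^ m) *
            coin κ (hH q m (i - a)) (hH q m (i' - a')) ≤ β / Real.sqrt a * h (i - a) := by
        intro a ha
        rw [mem_Icc] at ha
        calc _ ≤ ∑ a' ∈ Icc 1 i',
              coin 1 (hH q m (a - 1) * hC q ^ m) (hH q m (a' - 1) * hC q ^ m) * h (i - a) :=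
              Finset.sum_le_sum fun a' _ => mul_le_mul_of_nonneg_left
                (hle _ _ ((Nat.sub_le _ _).trans hi'n))
                (coin_nonneg zero_le_one (hQ a).1 (hQ a').1)
          _ = (∑ a' ∈ Icc 1 i',
              coin 1 (hH q m (a - 1) * hC q ^ m) (hH q m (a' - 1) * hC q ^ m)) * h (i - a) := by
              rw [Finset.sum_mul]
          _ ≤ _ := by
              refine mul_le_mul_of_nonneg_right ?_ (hnn _)
              refine le_trans ?_ (sum_coin_le hq hq1 hm hn ha.1 (ha.2.trans hin))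
              exact Finset.sum_le_sum_of_subset_of_nonneg (Icc_subset_Icc_right hi'n)
                fun a' _ _ => coin_nonneg zero_le_one (hQ a).1 (hQ a').1
      have h2 : 0 ≤ ∑ a ∈ Icc 1 i, ∑ a' ∈ Icc 1 i',
          coin 1 (hH q m (a - 1) * hC q ^ m) (hH q m (a' - 1) * hC q ^ m) *
            coin κ (hH q m (i - a)) (hH q m (i' - a')) :=
        Finset.sum_nonneg fun a _ => Finset.sum_nonneg fun a' _ =>
          mul_nonneg (coin_nonneg zero_le_one (hQ a).1 (hQ a').1)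
            (coin_nonneg (by linarith) (hP _).1 (hP _).1)
      have h3 : (κ - 1) * (1 - q) ^ 2 ≤ κ := by
        have : (1 - q) ^ 2 ≤ 1 := by nlinarith
        nlinarith
      exact mul_le_mul h3 (Finset.sum_le_sum h1) h2 (by linarith)

private theorem slip_num {q u v G E : ℝ} (hq : 0 < q) (hq1 : q ≤ 1 / 2) (hu : 0 < u) (hG : 1 ≤ G)
    (hv : 0 ≤ v) (hE : E ≤ 2 * (2 * (2 / q) * Real.exp (7056 / q ^ 3) * (7 * u) / Real.sqrt G))
    (h : (3 / 4 * Real.exp (-(1440 / q ^ 3) - 40) * u / Real.sqrt (G + 1)) ^ 2 ≤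
      v * (u / Real.sqrt G * E)) :
    Real.exp (-(20000 / q ^ 3)) ≤ v := by
  have hG0 : 0 < G := by linarith
  have hs : 0 < Real.sqrt G := Real.sqrt_pos.2 hG0
  have h1 : v * (u / Real.sqrt G * E) ≤ v * (56 / q * Real.exp (7056 / q ^ 3) * u ^ 2 / G) := by
    refine mul_le_mul_of_nonneg_left ?_ hv
    refine (mul_le_mul_of_nonneg_left hE (by positivity)).trans (le_of_eq ?_)
    have : G = Real.sqrt G ^ 2 := (Real.sq_sqrt hG0.le).symm
    conv_rhs => rw [this]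
    field_simp
    ring
  have h2 : 9 / 32 * Real.exp (-(2880 / q ^ 3) - 80) * u ^ 2 / G ≤
      (3 / 4 * Real.exp (-(1440 / q ^ 3) - 40) * u / Real.sqrt (G + 1)) ^ 2 := by
    rw [div_pow, Real.sq_sqrt (by linarith), mul_pow, mul_pow, ← Real.exp_nat_mul]
    have e : ((2 : ℕ) : ℝ) * (-(1440 / q ^ 3) - 40) = -(2880 / q ^ 3) - 80 := by
      push_cast; ring
    rw [e, div_le_div_iff₀ hG0 (by linarith)]
    have : 0 ≤ Real.exp (-(2880 / q ^ 3) - 80) * u ^ 2 := by positivity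
    nlinarith
  have h3 := (h2.trans h).trans h1
  have h4 : 9 / 32 * Real.exp (-(2880 / q ^ 3) - 80) ≤ v * (56 / q * Real.exp (7056 / q ^ 3)) := by
    have hw : 0 < u ^ 2 / G := by positivity
    refine le_of_mul_le_mul_right ?_ hw
    calc _ = 9 / 32 * Real.exp (-(2880 / q ^ 3) - 80) * u ^ 2 / G := by ring
      _ ≤ _ := h3
      _ = _ := by ring
  have hq3 : 0 < q ^ 3 := by positivity
  have hq8 : q ^ 3 ≤ 1 / 8 := by
    calc q ^ 3 ≤ (1 / 2) ^ 3 := by gcongr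
      _ = 1 / 8 := by norm_num
  have h5 : Real.exp (-(20000 / q ^ 3)) * (56 / q * Real.exp (7056 / q ^ 3)) ≤
      9 / 32 * Real.exp (-(2880 / q ^ 3) - 80) := by
    have e1 : Real.exp (-(2880 / q ^ 3) - 80) = Real.exp (-(20000 / q ^ 3)) *
        Real.exp (7056 / q ^ 3) * Real.exp (10064 / q ^ 3 - 80) := by
      rw [← Real.exp_add, ← Real.exp_add]; congr 1; ring
    have e2 : 200 / q ≤ Real.exp (10064 / q ^ 3 - 80) := by
      refine le_trans ?_ (Real.add_one_le_exp _)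
      have a1 : 80 ≤ 10 / q ^ 3 := by rw [le_div_iff₀ hq3]; linarith
      have a2 : 200 / q ≤ 10054 / q ^ 3 := by
        rw [div_le_div_iff₀ hq hq3]
        have : q ^ 3 ≤ q := pow_le_of_le_one hq.le (by linarith) (by norm_num)
        nlinarith
      have a3 : 10064 / q ^ 3 = 10 / q ^ 3 + 10054 / q ^ 3 := by ring
      linarith
    rw [e1]
    have e3 : 0 < Real.exp (-(20000 / q ^ 3)) * Real.exp (7056 / q ^ 3) := by positivity
    have e4 : 56 / q ≤ 9 / 32 * (200 / q) := by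
      have : 0 < 1 / q := by positivity
      have b1 : 56 / q = 56 * (1 / q) := by ring
      have b2 : 200 / q = 200 * (1 / q) := by ring
      rw [b1, b2]; linarith
    nlinarith
  exact le_of_mul_le_mul_right (h5.trans h4) (by positivity)

/-- Let `π = q / (1 + q)`, `κ = 1 / π ≤ 3 / (2 q)`, `β = 7 / (q √m)`, `n = G + 1`.  For `i ≤ n` put
`h i = max_{i' ≤ n} coin κ (hH q m i) (hH q m i')`.  By `coin_rec`, `coin_one_eq`, `lenP_hH_le` (for
`coin 1 H H' ≤ max lenP H`, swap the two integrals), `sum_coin_le` and `coin_one_left`, `h` satisfies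
the hypotheses of `renewal`; `256 κ² β² n ≤ 7056 / q³`.  Then `overlap_chan` with `coin_len_ge`
(`β / √G` bounds both length laws) gives an overlap
`≥ (9/16) exp (-2880/q³ - 80) (G / (G+1)) / (28 (1 + κ) exp (7056 / q³)) ≥ exp (-20000 / q³)`.
Transfer by `exists_hom_base` and
`Slip.map` (`chan π` is an algebra map). -/
theorem slip_base {q : ℝ} (hq : 0 < q) (hq1 : q ≤ 1 / 2) {m G : ℕ} (hm : 10000 ≤ q ^ 3 * m)
    (hG : q * m / 8 ≤ G) (hG' : (G : ℝ) + 1 ≤ q * m / 4) :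
    Slip (law q [false, true] ^ m * law q [true]) G (Real.exp (-(20000 / q ^ 3))) := by
  have hq1' : q ≤ 1 := by linarith
  have hm0 : (0 : ℝ) ≤ m := Nat.cast_nonneg m
  have hqm : 10000 ≤ q * m := by
    exact hm.trans (mul_le_mul_of_nonneg_right (pow_le_of_le_one hq.le hq1' (by norm_num)) hm0)
  have hmpos : (0 : ℝ) < m := by
    by_contra h
    have : (m : ℝ) = 0 := le_antisymm (not_lt.1 h) hm0
    rw [this] at hqm; norm_num at hqm
  have hm1 : 1 ≤ m := by exact_mod_cast hmpos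
  have hG1r : (1 : ℝ) ≤ G := by linarith
  have hG1 : 1 ≤ G := by exact_mod_cast hG1r
  set π : ℝ := q / (1 + q) with hπ
  have hπ0 : 0 < π := by positivity
  have hπ1 : π < 1 := by rw [hπ, div_lt_one (by linarith)]; linarith
  have hκ1 : 1 ≤ 1 / π := by rw [le_div_iff₀ hπ0]; linarith
  have hκ : 1 / π ≤ 3 / (2 * q) := by
    rw [hπ, one_div_div, div_le_div_iff₀ hq (by positivity)]
    nlinarith
  have hP : ∀ g, Prob (hH q m g) := fun g => prob_hH hq.le hq1' m g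
  have hs : 0 < Real.sqrt m := Real.sqrt_pos.2 hmpos
  have hsG : 0 < Real.sqrt G := Real.sqrt_pos.2 (by linarith)
  have hsG' : Real.sqrt G ≤ Real.sqrt ((G + 1 : ℕ) : ℝ) := by
    apply Real.sqrt_le_sqrt; push_cast; linarith
  obtain ⟨V, hV, hV1, hV2, hV3⟩ := overlap_chan hπ0 hπ1 (hP G) (hP (G + 1))
    (β := 1 / (q * Real.sqrt m) / Real.sqrt G) (lenP_hH_le hq hq1 hm1 hG1) fun J =>
      (lenP_hH_le hq hq1 hm1 (Nat.le_add_left 1 G) J).trans (by gcongr)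
  have hslip : Slip (chan π (hC q ^ m * letter q true)) G (Real.exp (-(20000 / q ^ 3))) := by
    refine ⟨V, hV, by rw [← map_pow]; exact hV1, by rw [← map_pow]; exact hV2, ?_⟩
    have hn : ((G + 1 : ℕ) : ℝ) ≤ q * m / 4 := by push_cast; exact hG'
    have hb : ∀ i : ℕ, G ≤ i → i ≤ G + 1 → coin (1 / π) (hH q m i) (hH q m i) ≤
        2 * (2 / q) * Real.exp (7056 / q ^ 3) * (7 * (1 / (q * Real.sqrt m))) / Real.sqrt G := by
      intro i h1 h2
      refine (coin_bound hq hq1 (by linarith) hn hκ1 (hG1.trans h1) h2 h2).trans ?_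
      have a1 : 1 + 1 / π ≤ 2 / q := by
        have : 1 ≤ 1 / (2 * q) := by rw [le_div_iff₀ (by positivity)]; linarith
        have e : 2 / q = 1 / (2 * q) + 3 / (2 * q) := by field_simp; ring
        linarith
      have a2 : 256 * (1 / π) ^ 2 * (7 / (q * Real.sqrt m)) ^ 2 * i ≤ 7056 / q ^ 3 := by
        have hi : (i : ℝ) ≤ q * m / 4 := le_trans (by exact_mod_cast h2) hn
        calc _ ≤ 256 * (3 / (2 * q)) ^ 2 * (7 / (q * Real.sqrt m)) ^ 2 * (q * m / 4) := by gcongr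
          _ = _ := by
            rw [div_pow 7, mul_pow q, Real.sq_sqrt hm0]
            field_simp
            ring
      have a3 : Real.sqrt G ≤ Real.sqrt i := Real.sqrt_le_sqrt (by exact_mod_cast h1)
      have a4 : 7 / (q * Real.sqrt m) = 7 * (1 / (q * Real.sqrt m)) := by ring
      rw [← a4]
      gcongr
    refine slip_num (u := 1 / (q * Real.sqrt m)) (G := G)
      (E := coin (1 / π) (hH q m G) (hH q m G) + coin (1 / π) (hH q m (G + 1)) (hH q m (G + 1)))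
      hq hq1 (by positivity) hG1r hV.mass_nonneg ?_ (le_trans ?_ hV3)
    · have b1 := hb G le_rfl (Nat.le_succ G)
      have b2 := hb (G + 1) (Nat.le_succ G) le_rfl
      linarith
    · refine pow_le_pow_left₀ (by positivity) (le_trans (le_of_eq ?_)
        (coin_len_ge hq hq1 hm hG hG')) 2
      ring
  obtain ⟨Ψ, hΨ, h1, h2⟩ := exists_hom_base hq (by linarith : q < 1)
  have := hslip.map Ψ hΨ
  rwa [map_mul, map_mul, map_pow, map_pow, h1, h2] at this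

section
variable {Γ : Type} [Monoid Γ]

private theorem comm_alg (C E : Ms Γ) (n y h : ℕ) :
    C ^ n * (C ^ y * E * C ^ y * C ^ h - C ^ h * (C ^ y * E * C ^ y)) * C ^ n =
      C ^ (n + y) * (E * C ^ h - C ^ h * E) * C ^ (n + y) := by
  have e1 : C ^ y * (C ^ h * C ^ n) = C ^ h * C ^ (n + y) := by
    rw [← pow_add, ← pow_add, ← pow_add]; congr 1; ring
  have e2 : C ^ n * C ^ h * C ^ y = C ^ (n + y) * C ^ h := by
    rw [← pow_add, ← pow_add, ← pow_add]; congr 1; ring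
  have e3 : C ^ y * C ^ n = C ^ (n + y) := by rw [← pow_add, add_comm]
  have a1 : C ^ n * (C ^ y * E * C ^ y * C ^ h) * C ^ n =
      C ^ (n + y) * (E * C ^ h) * C ^ (n + y) := by
    calc _ = (C ^ n * C ^ y) * E * (C ^ y * (C ^ h * C ^ n)) := by simp only [mul_assoc]
      _ = _ := by rw [e1, ← pow_add]; simp only [mul_assoc]
  have a2 : C ^ n * (C ^ h * (C ^ y * E * C ^ y)) * C ^ n =
      C ^ (n + y) * (C ^ h * E) * C ^ (n + y) := by
    calc _ = (C ^ n * C ^ h * C ^ y) * E * (C ^ y * C ^ n) := by simp only [mul_assoc]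
      _ = _ := by rw [e2, e3]; simp only [mul_assoc]
  rw [mul_sub, sub_mul, mul_sub, sub_mul, a1, a2]

private theorem comm_n2' {C E : Ms Γ} (hC : Prob C) {n y a D h : ℕ} {J θ σ τ : ℝ} (hJ : 1 ≤ J)
    (hθ : 0 < θ) (hθ1 : θ ≤ 1 / 2) (hσ : 0 ≤ σ) (hs : Slack C n a (Real.exp (-J)))
    (ha : 40000 * J * (h : ℝ) ^ 2 / θ ^ 2 ≤ a)
    (hE : N2 (C ^ y * E * C ^ y) (C ^ (2 * y + D)) σ τ) :
    N2 (C ^ (n + y) * (E * C ^ h - C ^ h * E) * C ^ (n + y)) (C ^ (2 * (n + y) + (D + h)))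
      (4 * θ * σ) (2 * τ + 20 * σ * Real.exp (-J)) := by
  have := comm_n2 hC hJ hθ hθ1 hσ hs ha hE
  rwa [comm_alg, show 2 * n + (2 * y + D) + h = 2 * (n + y) + (D + h) by ring] at this

private theorem comm_ni' {C E : Ms Γ} (hC : Prob C) {n y a D h : ℕ} {J θ σ τ : ℝ} (hJ : 1 ≤ J)
    (hθ : 0 < θ) (hθ1 : θ ≤ 1 / 2) (hσ : 0 ≤ σ) (hs : Slack C n a (Real.exp (-J)))
    (ha : 40000 * J * (h : ℝ) ^ 2 / θ ^ 2 ≤ a)
    (hE : NI (C ^ y * E * C ^ y) (C ^ (2 * y + D)) σ τ) :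
    NI (C ^ (n + y) * (E * C ^ h - C ^ h * E) * C ^ (n + y)) (C ^ (2 * (n + y) + (D + h)))
      (4 * θ * σ) (2 * τ + 20 * σ * Real.exp (-J)) := by
  have := comm_ni hC hJ hθ hθ1 hσ hs ha hE
  rwa [comm_alg, show 2 * n + (2 * y + D) + h = 2 * (n + y) + (D + h) by ring] at this

end

private theorem odd_alg {R : Type} [Ring R] [Algebra ℝ R] (C D : R) (k : ℕ) :
    (1 / 2 : ℝ) • (C ^ (k + 2) * D * C ^ k - C ^ k * D * C ^ (k + 2)) =
      (-(1 / 2) : ℝ) • (C ^ k * ((D - C) * C ^ 2 - C ^ 2 * (D - C)) * C ^ k) := by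
  have e : C ^ k * ((D - C) * C ^ 2 - C ^ 2 * (D - C)) * C ^ k =
      -(C ^ (k + 2) * D * C ^ k - C ^ k * D * C ^ (k + 2)) := by
    have e1 : (D - C) * C ^ 2 - C ^ 2 * (D - C) = D * C ^ 2 - C ^ 2 * D := by noncomm_ring
    have e2 : C ^ (k + 2) = C ^ 2 * C ^ k := by rw [← pow_add, add_comm]
    have e3 : C ^ k * (D * C ^ 2) * C ^ k = C ^ k * D * C ^ (k + 2) := by
      rw [e2]; simp only [mul_assoc]
    have e4 : C ^ k * (C ^ 2 * D) * C ^ k = C ^ (k + 2) * D * C ^ k := by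
      rw [pow_add]; simp only [mul_assoc]
    rw [e1, mul_sub, sub_mul, neg_sub, e3, e4]
  rw [e, neg_smul, smul_neg, neg_neg]

private theorem even_alg {R : Type} [Ring R] [Algebra ℝ R] (C D : R) (k : ℕ) :
    (1 / 2 : ℝ) • (C ^ k * D * C ^ (k + 2) + C ^ (k + 2) * D * C ^ k) -
        C ^ (k + 1) * D * C ^ (k + 1) =
      (1 / 2 : ℝ) • (C ^ k * (((D - C) * C ^ 1 - C ^ 1 * (D - C)) * C ^ 1 -
        C ^ 1 * ((D - C) * C ^ 1 - C ^ 1 * (D - C))) * C ^ k) := by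
  have e1 : ((D - C) * C ^ 1 - C ^ 1 * (D - C)) * C ^ 1 -
        C ^ 1 * ((D - C) * C ^ 1 - C ^ 1 * (D - C)) =
      D * C ^ 2 + C ^ 2 * D - (C * D * C + C * D * C) := by noncomm_ring
  have e2 : C ^ (k + 2) = C ^ 2 * C ^ k := by rw [← pow_add, add_comm]
  have e3 : C ^ k * (D * C ^ 2) * C ^ k = C ^ k * D * C ^ (k + 2) := by
    rw [e2]; simp only [mul_assoc]
  have e4 : C ^ k * (C ^ 2 * D) * C ^ k = C ^ (k + 2) * D * C ^ k := by
    rw [pow_add]; simp only [mul_assoc]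
  have e5 : C ^ k * (C * D * C) * C ^ k = C ^ (k + 1) * D * C ^ (k + 1) := by
    conv_rhs => rw [pow_succ C k]; arg 2; rw [← pow_succ, pow_succ']
    simp only [mul_assoc]
  rw [e1, mul_sub, sub_mul, mul_add, add_mul, mul_add, add_mul, e3, e4, e5, smul_sub,
    ← two_smul ℝ, smul_smul]
  norm_num

private theorem rep_add (w : List Bool) (a b : ℕ) : rep w (a + b) = rep w a ++ rep w b := by
  simp only [rep, List.replicate_add, List.flatten_append]

private theorem words_ne (k : ℕ) :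
    rep [false, true] k ++ [true] ++ rep [false, true] (k + 2) ≠
      rep [false, true] (k + 2) ++ [true] ++ rep [false, true] k := by
  intro h
  conv_rhs at h => rw [rep_add]
  simp only [List.append_assoc] at h
  have := List.append_cancel_left h
  simp [rep] at this

private theorem law_C (q : ℝ) :
    law q [false, true] = q • law q [true] + (1 - q) • (X false * law q [true]) := by
  rw [law_cons q false, letter, add_mul, smul_mul_assoc, smul_mul_assoc, one_mul]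

private theorem law_D (q : ℝ) : law q [true] = q • (1 : Ms W) + (1 - q) • X true := by
  rw [law_cons, law_nil, mul_one, letter]

private theorem le_C {q : ℝ} (h0 : 0 ≤ q) (h1 : q ≤ 1) :
    Le (q • law q [true]) (law q [false, true]) := by
  rw [le_iff_nn, law_C, add_sub_cancel_left]
  exact ((prob_X false).1.mul (prob_law h0 h1 _).1).smul (by linarith)

private theorem le_D {q : ℝ} (h1 : q ≤ 1) : Le (q • (1 : Ms W)) (law q [true]) := by
  rw [le_iff_nn, law_D, add_sub_cancel_left]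
  exact (prob_X true).1.smul (by linarith)

private theorem slip_C {q : ℝ} (h0 : 0 ≤ q) (h1 : q ≤ 1) :
    Slip (law q [false, true]) 0 (q ^ 2) := by
  refine ⟨(q ^ 2) • (1 : Ms W), NN.one.smul (by positivity), ?_, ?_, ?_⟩
  · rw [pow_zero, le_iff_nn]
    have : (1 : Ms W) - (q ^ 2) • (1 : Ms W) = (1 - q ^ 2) • (1 : Ms W) := by
      rw [sub_smul, one_smul]
    rw [this]
    exact NN.one.smul (by nlinarith)
  · rw [zero_add, pow_one]
    refine Le.trans ?_ (le_C h0 h1)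
    rw [sq, ← smul_smul]
    exact (le_D h1).smul h0
  · rw [mass_smul, mass_one, mul_one]

private theorem linf_D {q : ℝ} (h0 : 0 < q) (h1 : q ≤ 1) :
    Linf (law q [true] - law q [false, true]) (law q [false, true]) (1 / q) := by
  intro w
  have a1 := le_C h0.le h1 w
  have a2 := (prob_law h0.le h1 [true]).1 w
  have a3 := (prob_law h0.le h1 [false, true]).1 w
  rw [LNear.c_smul] at a1
  rw [LNear.c_sub, abs_le, one_div, ← div_eq_inv_mul]
  have a4 : (law q [false, true]).coeff w ≤ (law q [false, true]).coeff w / q := by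
    rw [le_div_iff₀ h0]; nlinarith
  have a5 : (law q [true]).coeff w ≤ (law q [false, true]).coeff w / q := by
    rw [le_div_iff₀ h0]; linarith
  constructor <;> linarith

private theorem dom_T {q : ℝ} (h0 : 0 < q) (h1 : q ≤ 1) (N : ℕ) :
    Dom (law q [false, true] ^ (2 * N))
      (law q [false, true] ^ N * law q [true] * law q [false, true] ^ N) (1 / q) 0 := by
  have hC := (prob_law h0.le h1 [false, true]).pow N
  refine Dom.of_le ((prob_law h0.le h1 [false, true]).pow _).1 ?_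
  have a1 : Le (law q [false, true] ^ N * (q • (1 : Ms W)) * law q [false, true] ^ N)
      (law q [false, true] ^ N * law q [true] * law q [false, true] ^ N) :=
    ((Le.refl _).mul (le_D h1) (NN.one.smul h0.le) hC.1).mul (Le.refl _) hC.1
      (hC.1.mul (prob_law h0.le h1 _).1)
  have a2 := a1.smul (r := 1 / q) (by positivity)
  rwa [mul_smul_comm, smul_mul_assoc, smul_smul, one_div_mul_cancel h0.ne', one_smul, mul_one,
    ← pow_add, ← two_mul] at a2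

private theorem slack_C {q : ℝ} (h0 : 0 < q) (h1 : q ≤ 1) {n : ℕ} {a J : ℝ} (ha : 0 ≤ a)
    (hJ : 0 ≤ J) (hn : 2 * (a + 1 + J) / q ^ 2 + 1 ≤ n) :
    Slack (law q [false, true]) n ⌈a⌉₊ (Real.exp (-J)) := by
  refine slack_of_slip (prob_law h0.le h1 _) (slip_C h0.le h1) (by positivity) ha hJ ?_
  unfold slackN
  rw [Nat.cast_zero, zero_add, one_mul]
  exact hn

private theorem slack_big {q : ℝ} (h0 : 0 < q) (h1 : q ≤ 1) {J N : ℝ} (hJ : 1 ≤ J)
    (hN : 2 * 10 ^ 9 * J ^ 2 ≤ N * q ^ 2) {n : ℕ} (hn : N / 5 ≤ n) :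
    Slack (law q [false, true]) n ⌈N * q ^ 2 / 20⌉₊ (Real.exp (-J)) := by
  have hq2 : 0 < q ^ 2 := by positivity
  have hq3 : q ^ 2 ≤ 1 := by nlinarith
  have hJ2 : J ≤ J ^ 2 := by nlinarith
  refine slack_C h0 h1 (by nlinarith) (by linarith) (le_trans ?_ hn)
  have : 2 * (N * q ^ 2 / 20 + 1 + J) / q ^ 2 ≤ N / 5 - 1 := by
    rw [div_le_iff₀ hq2]; nlinarith
  linarith

private theorem gain_C {q : ℝ} (h0 : 0 < q) (h1 : q ≤ 1) {J N s : ℝ} (hJ : 1 ≤ J)
    (hN : 2 * 10 ^ 9 * J ^ 2 ≤ N * q ^ 2) (hs : 0 < s) (hsN : s ^ 4 = N) :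
    ∃ σ : ℝ, 0 ≤ σ ∧ σ ≤ 4 / q ∧ σ ≤ 800 * Real.sqrt J / (q * Real.sqrt q * s) ∧
      ∀ y : ℕ, N / 4 ≤ y →
        N2 (law q [false, true] ^ y * (law q [true] - law q [false, true]) *
          law q [false, true] ^ y) (law q [false, true] ^ (2 * y + 1)) σ (16 * Real.exp (-J)) := by
  have hC := prob_law h0.le h1 [false, true]
  have hD := prob_law h0.le h1 [true]
  have hq2 : 0 < q ^ 2 := by positivity
  have hq3 : q ^ 2 ≤ 1 := by nlinarith
  have hJ0 : 0 < J := by linarith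
  have hJ2 : 1 ≤ J ^ 2 := by nlinarith
  have hN0 : 0 < N := by rw [← hsN]; positivity
  set x : ℝ := N * q ^ 2 / (200 ^ 4 * J ^ 2) with hx
  have hx1 : 1 ≤ x := by rw [hx, le_div_iff₀ (by positivity)]; nlinarith
  have hxe : x * (200 ^ 4 * J ^ 2) = N * q ^ 2 := by rw [hx]; field_simp
  set a : ℕ := ⌈x⌉₊ with ha
  have ha1 : x ≤ a := Nat.le_ceil x
  have ha2 : (a : ℝ) ≤ 2 * x := by
    have := (Nat.ceil_lt_add_one (by linarith : (0 : ℝ) ≤ x)).le
    linarith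
  have haJ : 1 ≤ (a : ℝ) * J := by nlinarith
  have hr1 : 1 ≤ Real.sqrt (a * J) := Real.one_le_sqrt.2 haJ
  set ρ : ℕ := ⌈2 * Real.sqrt (a * J) + 1⌉₊ with hρ
  have hρ1 : 2 * Real.sqrt (a * J) + 1 ≤ ρ := Nat.le_ceil _
  have hρ2 : (ρ : ℝ) ≤ 4 * Real.sqrt (a * J) := by
    have := (Nat.ceil_lt_add_one (by linarith : (0 : ℝ) ≤ 2 * Real.sqrt (a * J) + 1)).le
    linarith
  have hρ3 : (ρ : ℝ) ^ 2 ≤ 32 * x * J := by
    calc (ρ : ℝ) ^ 2 ≤ (4 * Real.sqrt (a * J)) ^ 2 := by gcongr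
      _ = 16 * (a * J) := by rw [mul_pow, Real.sq_sqrt (by linarith)]; norm_num
      _ ≤ _ := by nlinarith
  have hρ4 : 160000 * J * (ρ : ℝ) ^ 2 ≤ N * q ^ 2 / 20 := by
    calc 160000 * J * (ρ : ℝ) ^ 2 ≤ 160000 * J * (32 * x * J) := by gcongr
      _ = x * (200 ^ 4 * J ^ 2) * (32 / 10000) := by ring
      _ ≤ _ := by rw [hxe]; nlinarith
  have hρ5 : (ρ : ℝ) ≤ N / 20 := by
    have b1 : (1 : ℝ) ≤ ρ := by linarith
    have b2 : (ρ : ℝ) ≤ (ρ : ℝ) ^ 2 := by nlinarith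
    have b3 : (ρ : ℝ) ^ 2 ≤ 160000 * J * (ρ : ℝ) ^ 2 := by nlinarith
    nlinarith
  have hw : 1 ≤ Real.sqrt (Real.sqrt (a + 1)) :=
    Real.one_le_sqrt.2 (Real.one_le_sqrt.2 (by linarith))
  have hj : 0 < Real.sqrt J := Real.sqrt_pos.2 hJ0
  have hu : 0 < Real.sqrt q := Real.sqrt_pos.2 h0
  have hw2 : s * Real.sqrt q / (200 * Real.sqrt J) ≤ Real.sqrt (Real.sqrt (a + 1)) := by
    refine Real.le_sqrt_of_sq_le (Real.le_sqrt_of_sq_le ?_)
    have : ((s * Real.sqrt q / (200 * Real.sqrt J)) ^ 2) ^ 2 = x := by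
      rw [div_pow, mul_pow, mul_pow, Real.sq_sqrt h0.le, Real.sq_sqrt hJ0.le, hx, ← hsN]
      field_simp
    rw [this]; linarith
  refine ⟨4 / q / Real.sqrt (Real.sqrt (a + 1)), by positivity, div_le_self (by positivity) hw,
    ?_, fun y hy => ?_⟩
  · calc _ ≤ 4 / q / (s * Real.sqrt q / (200 * Real.sqrt J)) := by gcongr
      _ = _ := by field_simp; norm_num
  · have hρy : ρ ≤ y := by
      have : (ρ : ℝ) ≤ y := by linarith
      exact_mod_cast this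
    have hL : Slack (law q [false, true]) y a (Real.exp (-J)) := by
      refine (slack_big h0 h1 hJ hN (n := y) (by linarith)).mono hC le_rfl ?_ le_rfl
      refine Nat.ceil_mono ?_
      have : x ≤ x * (200 ^ 4 * J ^ 2) / 20 := by nlinarith
      rwa [hxe] at this
    have hR := slack_big h0 h1 hJ hN (n := y - ρ) (by rw [Nat.cast_sub hρy]; linarith)
    have hF : F2 (range (2 * 0 + 1))
        (shf (law q [false, true]) (law q [true] - law q [false, true]) 0)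
        (law q [false, true] ^ 1) (1 / q) 0 := by
      refine (n2_iff_f2 (E := law q [true] - law q [false, true]) ?_).1 ?_
      · simp [shf]
      · rw [pow_one]
        exact ⟨_, (linf_D h0 h1).l2 (by positivity) hC.1 hC.2.le, by rw [sub_self, l1_zero]⟩
    have hl : l1 (law q [true] - law q [false, true]) ≤ 2 := by
      refine (l1_sub_le _ _).trans ?_
      rw [hC.l1_eq, hD.l1_eq]; norm_num
    have hg := (gain (s := 0) (D := 1) (Q := 1) (m := 0) (s' := 0) (ρ := ρ) hC (by positivity)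
      le_rfl hJ le_rfl (by norm_num) (by rw [mass_sub, hC.2, hD.2, sub_self]) hl hF hL hR hρ1
      (Or.inl rfl) (hρ4.trans (Nat.le_ceil _))).n2 (i := 0) (by simp)
    have e1 : 0 * (2 * 0 - 0) + (y - ρ + ρ + 2 * 0) = y := by omega
    have e2 : y + (y - ρ) + ρ + 2 * 0 * 0 + 1 = 2 * y + 1 := by omega
    have e3 : y + 0 * 0 = y := by omega
    rw [e1, e2, e3] at hg
    refine hg.mono (le_of_eq ?_) (le_of_eq (by ring))
    rw [Nat.cast_one, Real.sqrt_one]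
    ring

private theorem err_le {q e e' A B : ℝ} (h0 : 0 < q) (h1 : q ≤ 1) (he' : 0 ≤ e') (hA : A ≤ 500)
    (hB : B ≤ 500) (h : e ≤ A * e' + B / q * e') : e ≤ 1000 * e' / q ^ 2 := by
  have hq2 : 0 < q ^ 2 := by positivity
  have a1 : 1 ≤ 1 / q ^ 2 := by rw [le_div_iff₀ hq2]; nlinarith
  have a2 : 1 / q ≤ 1 / q ^ 2 := by
    rw [div_le_div_iff₀ h0 hq2]; nlinarith
  have a3 : 0 ≤ 1 / q := by positivity
  have a4 : A + B / q ≤ 1000 * (1 / q ^ 2) := by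
    have : B / q = B * (1 / q) := by ring
    rw [this]; nlinarith
  calc e ≤ (A + B / q) * e' := by linarith
    _ ≤ 1000 * (1 / q ^ 2) * e' := by gcongr
    _ = _ := by ring

private theorem struct4 {C D T : Ms W} (hC : Prob C) {n y k a : ℕ} {J θ σ η c t : ℝ}
    (hk : k = n + (n + y)) (hJ : 1 ≤ J) (hθ : 0 < θ) (hθ1 : θ ≤ 1 / 2) (hσ : 0 ≤ σ) (hη : 0 ≤ η)
    (hc : 0 ≤ c) (hS : Slack C n a (Real.exp (-J)))
    (hA : ∀ h : ℕ, h ≤ 2 → 40000 * J * (h : ℝ) ^ 2 / θ ^ 2 ≤ a)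
    (hdom : Dom (C ^ (2 * k + 3)) T c t)
    (hg : ∀ z : ℕ, y ≤ z →
      N2 (C ^ z * (D - C) * C ^ z) (C ^ (2 * z + 1)) σ (16 * Real.exp (-J)))
    (hI : NI (D - C) C η 0) {o f : Ms W}
    (ho : o = (1 / 2 : ℝ) • (C ^ (k + 2) * D * C ^ k - C ^ k * D * C ^ (k + 2)))
    (hf : f = (1 / 2 : ℝ) • (C ^ k * D * C ^ (k + 2) + C ^ (k + 2) * D * C ^ k) -
      C ^ (k + 1) * D * C ^ (k + 1)) :
    N2 o T (Real.sqrt c * (2 * θ * σ))
      ((16 + 10 * σ) * Real.exp (-J) + 2 * θ * σ * Real.sqrt t) ∧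
    N2 f T (Real.sqrt c * (8 * θ ^ 2 * σ))
      ((32 + 20 * σ + 40 * θ * σ) * Real.exp (-J) + 8 * θ ^ 2 * σ * Real.sqrt t) ∧
    NI o T (c * (2 * θ * η)) (10 * η * Real.exp (-J) + 2 * θ * η * t) ∧
    NI f T (c * (8 * θ ^ 2 * η)) ((20 * η + 40 * θ * η) * Real.exp (-J) + 8 * θ ^ 2 * η * t) := by
  have hI' : ∀ y : ℕ, NI (C ^ y * (D - C) * C ^ y) (C ^ (2 * y + 1)) η 0 := by
    intro y
    have i2 := (hI.mul_left hη hC.1 (hC.pow y)).mul_right hη ((hC.pow y).mul hC).1 (hC.pow y)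
    rwa [← pow_succ, ← pow_add, show y + 1 + y = 2 * y + 1 by ring] at i2
  rw [odd_alg] at ho
  rw [even_alg] at hf
  have hP := (hC.pow (2 * k + 3)).1
  have ab1 : |(-(1 / 2) : ℝ)| = 1 / 2 := by norm_num
  have ab2 : |(1 / 2 : ℝ)| = 1 / 2 := by norm_num
  have hθσ : 0 ≤ 4 * θ * σ := by positivity
  have hθη : 0 ≤ 4 * θ * η := by positivity
  refine ⟨?_, ?_, ?_, ?_⟩
  · have b1 := (comm_n2' hC hJ hθ hθ1 hσ hS (hA 2 le_rfl) (hg (n + y) (Nat.le_add_left y n))).smul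
      (-(1 / 2))
    rw [← hk, ← ho, ab1] at b1
    exact (b1.dom (by positivity) hc hP hdom).mono (le_of_eq (by ring)) (le_of_eq (by ring))
  · have b0 := comm_n2' hC hJ hθ hθ1 hσ hS (hA 1 (by norm_num)) (hg y le_rfl)
    have b1 := (comm_n2' hC hJ hθ hθ1 hθσ hS (hA 1 (by norm_num)) b0).smul (1 / 2)
    rw [← hk, ← hf, ab2] at b1
    exact (b1.dom (by positivity) hc hP hdom).mono (le_of_eq (by ring)) (le_of_eq (by ring))
  · have b1 := (comm_ni' hC hJ hθ hθ1 hη hS (hA 2 le_rfl) (hI' (n + y))).smul (-(1 / 2))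
    rw [← hk, ← ho, ab1] at b1
    have b2 := b1.dom (by positivity) hP hdom
    convert b2 using 1 <;> ring
  · have b0 := comm_ni' hC hJ hθ hθ1 hη hS (hA 1 (by norm_num)) (hI' y)
    have b1 := (comm_ni' hC hJ hθ hθ1 hθη hS (hA 1 (by norm_num)) b0).smul (1 / 2)
    rw [← hk, ← hf, ab2] at b1
    have b2 := b1.dom (by positivity) hP hdom
    convert b2 using 1 <;> ring

private theorem num_err {q J θ σ : ℝ} (h0 : 0 < q) (h1 : q ≤ 1) (hJ : 1 ≤ J) (hθ : 0 < θ)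
    (hθ1 : θ ≤ 1 / 2) (hσ : 0 ≤ σ) (hσ1 : σ ≤ 4 / q) :
    (16 + 10 * σ) * Real.exp (-J) + 2 * θ * σ * Real.sqrt (5 * Real.exp (-J) + 2 * 0) ≤
      1000 * Real.exp (-(J / 2)) / q ^ 2 ∧
    (32 + 20 * σ + 40 * θ * σ) * Real.exp (-J) +
      8 * θ ^ 2 * σ * Real.sqrt (5 * Real.exp (-J) + 2 * 0) ≤ 1000 * Real.exp (-(J / 2)) / q ^ 2 ∧
    10 * (1 / q) * Real.exp (-J) + 2 * θ * (1 / q) * (5 * Real.exp (-J) + 2 * 0) ≤
      1000 * Real.exp (-(J / 2)) / q ^ 2 ∧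
    (20 * (1 / q) + 40 * θ * (1 / q)) * Real.exp (-J) +
      8 * θ ^ 2 * (1 / q) * (5 * Real.exp (-J) + 2 * 0) ≤ 1000 * Real.exp (-(J / 2)) / q ^ 2 := by
  obtain ⟨e, he⟩ : ∃ e : ℝ, e = Real.exp (-(J / 2)) := ⟨_, rfl⟩
  have he0 : 0 < e := by rw [he]; positivity
  have he1 : e ≤ 1 := by rw [he]; exact Real.exp_le_one_iff.2 (by linarith)
  have hee : Real.exp (-J) = e ^ 2 := by
    rw [he, ← Real.exp_nat_mul]; congr 1; push_cast; ring
  have he2 : Real.exp (-J) ≤ e := by rw [hee, sq]; exact mul_le_of_le_one_right he0.le he1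
  have he3 : Real.sqrt (5 * Real.exp (-J) + 2 * 0) ≤ 3 * e := by
    rw [hee]; refine Real.sqrt_le_iff.2 ⟨by positivity, by nlinarith⟩
  have he4 : 5 * Real.exp (-J) + 2 * 0 ≤ 5 * e := by linarith
  have hE0 : 0 ≤ Real.exp (-J) := (Real.exp_pos _).le
  rw [← he]
  refine ⟨err_le (A := 16) (B := 52) h0 h1 he0.le (by norm_num) (by norm_num) ?_,
    err_le (A := 32) (B := 184) h0 h1 he0.le (by norm_num) (by norm_num) ?_,
    err_le (A := 0) (B := 15) h0 h1 he0.le (by norm_num) (by norm_num) ?_,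
    err_le (A := 0) (B := 50) h0 h1 he0.le (by norm_num) (by norm_num) ?_⟩
  · calc _ ≤ (16 + 10 * (4 / q)) * e + 2 * (1 / 2) * (4 / q) * (3 * e) := by gcongr
      _ = _ := by ring
  · calc _ ≤ (32 + 20 * (4 / q) + 40 * (1 / 2) * (4 / q)) * e +
          8 * (1 / 2) ^ 2 * (4 / q) * (3 * e) := by gcongr
      _ = _ := by ring
  · calc _ ≤ 10 * (1 / q) * e + 2 * (1 / 2) * (1 / q) * (5 * e) := by gcongr
      _ = _ := by ring
  · calc _ ≤ (20 * (1 / q) + 40 * (1 / 2) * (1 / q)) * e +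
          8 * (1 / 2) ^ 2 * (1 / q) * (5 * e) := by gcongr
      _ = _ := by ring

private theorem num_main {q J θ σ s : ℝ} (h0 : 0 < q) (hJ : 1 ≤ J) (hs : 0 < s)
    (hθ : θ = 2000 * Real.sqrt J / (q * s ^ 2)) (hθ1 : θ ≤ 1 / 2) (hσ : 0 ≤ σ)
    (hσ2 : σ ≤ 800 * Real.sqrt J / (q * Real.sqrt q * s)) :
    Real.sqrt (2 * (1 / q)) * (2 * θ * σ) ≤ 10 ^ 11 * J / q ^ 3 * (s ^ 3)⁻¹ ∧
    Real.sqrt (2 * (1 / q)) * (8 * θ ^ 2 * σ) ≤ 10 ^ 11 * J ^ 2 / q ^ 4 * (s ^ 5)⁻¹ ∧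
    2 * (1 / q) * (2 * θ * (1 / q)) ≤ 10 ^ 11 * J / q ^ 3 * (s ^ 2)⁻¹ ∧
    2 * (1 / q) * (8 * θ ^ 2 * (1 / q)) ≤ 10 ^ 11 * J / q ^ 3 * (s ^ 2)⁻¹ := by
  have hJ0 : 0 < J := by linarith
  obtain ⟨j, hj0, hj⟩ : ∃ j : ℝ, 0 < j ∧ j = Real.sqrt J := ⟨_, Real.sqrt_pos.2 hJ0, rfl⟩
  obtain ⟨u, hu0, hu⟩ : ∃ u : ℝ, 0 < u ∧ u = Real.sqrt q := ⟨_, Real.sqrt_pos.2 h0, rfl⟩
  have hjJ : j ^ 2 = J := by rw [hj, Real.sq_sqrt hJ0.le]
  have huq : u ^ 2 = q := by rw [hu, Real.sq_sqrt h0.le]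
  rw [← hj, ← hu] at hσ2
  rw [← hj] at hθ
  have hj1 : j ≤ J := by
    have : 1 ≤ j := by rw [hj]; exact Real.one_le_sqrt.2 hJ
    nlinarith
  have hθ0 : 0 < θ := by rw [hθ]; positivity
  have hc : Real.sqrt (2 * (1 / q)) ≤ 3 / (2 * u) := by
    refine Real.sqrt_le_iff.2 ⟨by positivity, ?_⟩
    rw [div_pow, mul_pow, huq, mul_one_div, div_le_div_iff₀ h0 (by positivity)]
    nlinarith
  have h3 : 2 * (1 / q) * (2 * θ * (1 / q)) ≤ 8000 * J / q ^ 3 * (s ^ 2)⁻¹ := by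
    calc _ = 8000 * j / q ^ 3 * (s ^ 2)⁻¹ := by rw [hθ]; field_simp; norm_num
      _ ≤ _ := by gcongr
  refine ⟨?_, ?_, h3.trans (by gcongr; norm_num), ?_⟩
  · calc _ ≤ 3 / (2 * u) * (2 * θ * (800 * j / (q * u * s))) := by gcongr
      _ = 4800000 * J / q ^ 3 * (s ^ 3)⁻¹ := by
        rw [hθ, ← hjJ, show q ^ 3 = q ^ 2 * u ^ 2 by rw [huq]; ring]
        field_simp; norm_num
      _ ≤ _ := by gcongr; norm_num
  · calc _ ≤ 3 / (2 * u) * (8 * θ ^ 2 * (800 * j / (q * u * s))) := by gcongr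
      _ = 38400000000 * (J * j) / q ^ 4 * (s ^ 5)⁻¹ := by
        rw [hθ, ← hjJ, show q ^ 4 = q ^ 3 * u ^ 2 by rw [huq]; ring]
        field_simp; norm_num
      _ ≤ 10 ^ 11 * (J * J) / q ^ 4 * (s ^ 5)⁻¹ := by gcongr; norm_num
      _ = _ := by ring
  · calc _ = 4 * θ * (2 * (1 / q) * (2 * θ * (1 / q))) := by ring
      _ ≤ 4 * (1 / 2) * (8000 * J / q ^ 3 * (s ^ 2)⁻¹) := by gcongr
      _ = 16000 * J / q ^ 3 * (s ^ 2)⁻¹ := by ring
      _ ≤ _ := by gcongr; norm_num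

private theorem four_bounds {q : ℝ} (h0 : 0 < q) (hq1 : q ≤ 1 / 2) {J s : ℝ} (hJ : 1 ≤ J) {k : ℕ}
    (hN : 10 ^ 9 * J ^ 2 / q ^ 3 ≤ ((k + 1 : ℕ) : ℝ)) (hs : 0 < s)
    (hsN : s ^ 4 = ((k + 1 : ℕ) : ℝ)) {C D T o f : Ms W} (hCe : C = law q [false, true])
    (hDe : D = law q [true]) (hT : T = C ^ (k + 1) * D * C ^ (k + 1))
    (ho : o = (1 / 2 : ℝ) • (C ^ (k + 2) * D * C ^ k - C ^ k * D * C ^ (k + 2)))
    (hf : f = (1 / 2 : ℝ) • (C ^ k * D * C ^ (k + 2) + C ^ (k + 2) * D * C ^ k) - T) :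
    N2 o T (10 ^ 11 * J / q ^ 3 * (s ^ 3)⁻¹) (1000 * Real.exp (-(J / 2)) / q ^ 2) ∧
    N2 f T (10 ^ 11 * J ^ 2 / q ^ 4 * (s ^ 5)⁻¹) (1000 * Real.exp (-(J / 2)) / q ^ 2) ∧
    NI o T (10 ^ 11 * J / q ^ 3 * (s ^ 2)⁻¹) (1000 * Real.exp (-(J / 2)) / q ^ 2) ∧
    NI f T (10 ^ 11 * J / q ^ 3 * (s ^ 2)⁻¹) (1000 * Real.exp (-(J / 2)) / q ^ 2) := by
  have h1 : q ≤ 1 := by linarith
  obtain ⟨N, hNdef⟩ : ∃ N : ℝ, N = ((k + 1 : ℕ) : ℝ) := ⟨_, rfl⟩
  rw [← hNdef] at hN hsN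
  have hJ0 : 0 < J := by linarith
  have hq2 : 0 < q ^ 2 := by positivity
  have hN0 : 0 < N := by rw [← hsN]; positivity
  have hN2 : 2 * 10 ^ 9 * J ^ 2 ≤ N * q ^ 2 := by
    rw [div_le_iff₀ (by positivity)] at hN
    have : N * q ^ 3 ≤ N * q ^ 2 * (1 / 2) := by
      rw [show N * q ^ 3 = N * q ^ 2 * q by ring]; gcongr
    linarith
  have hJ2 : J ≤ J ^ 2 := by nlinarith
  have hNbig : 100 ≤ N := by
    have : N * q ^ 2 ≤ N := mul_le_of_le_one_right hN0.le (by nlinarith)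
    linarith
  obtain ⟨θ, hθ⟩ : ∃ θ : ℝ, θ = 2000 * Real.sqrt J / (q * s ^ 2) := ⟨_, rfl⟩
  have hθ0 : 0 < θ := by rw [hθ]; positivity
  have hθ2 : θ ^ 2 * (N * q ^ 2) = 4000000 * J := by
    rw [hθ, ← hsN, div_pow, mul_pow, Real.sq_sqrt hJ0.le]; field_simp; norm_num
  have hθ1 : θ ≤ 1 / 2 := by
    refine (pow_le_pow_iff_left₀ hθ0.le (by norm_num) two_ne_zero).1 ?_
    refine le_of_mul_le_mul_right ?_ (mul_pos hN0 hq2)
    rw [hθ2]; linarith
  have hA : ∀ h : ℕ, h ≤ 2 → 40000 * J * (h : ℝ) ^ 2 / θ ^ 2 ≤ (⌈N * q ^ 2 / 20⌉₊ : ℕ) := by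
    intro h hh
    refine le_trans ?_ (Nat.le_ceil _)
    have b1 : (h : ℝ) ≤ 2 := by exact_mod_cast hh
    rw [div_le_iff₀ (by positivity)]
    calc _ ≤ 40000 * J * 2 ^ 2 := by gcongr
      _ ≤ θ ^ 2 * (N * q ^ 2) / 20 := by rw [hθ2]; linarith
      _ = _ := by ring
  obtain ⟨n, y, hk, hny, hn⟩ : ∃ n y : ℕ, k = n + (n + y) ∧ n ≤ y ∧ N / 4 ≤ n := by
    refine ⟨k / 3, k - 2 * (k / 3), by omega, by omega, ?_⟩
    have b1 : (100 : ℕ) ≤ k + 1 := by rw [hNdef] at hNbig; exact_mod_cast hNbig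
    have b2 : k + 1 ≤ 4 * (k / 3) := by omega
    have b3 : N ≤ 4 * ((k / 3 : ℕ) : ℝ) := by rw [hNdef]; exact_mod_cast b2
    linarith
  have hy : N / 4 ≤ y := hn.trans (by exact_mod_cast hny)
  have hC : Prob C := hCe ▸ prob_law h0.le h1 _
  have hD : Prob D := hDe ▸ prob_law h0.le h1 _
  have hTp : Prob T := hT ▸ ((hC.pow _).mul hD).mul (hC.pow _)
  obtain ⟨σ, hσ0, hσ1, hσ2, hg⟩ := gain_C h0 h1 hJ hN2 hs hsN
  rw [← hCe, ← hDe] at hg
  have hS : ∀ n : ℕ, N / 5 ≤ n → Slack C n ⌈N * q ^ 2 / 20⌉₊ (Real.exp (-J)) :=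
    fun n hn => hCe ▸ slack_big h0 h1 hJ hN2 hn
  have hdom : Dom (C ^ (2 * k + 3)) T (2 * (1 / q)) (5 * Real.exp (-J) + 2 * 0) := by
    have d1 : Dom (C ^ (2 * (k + 1) + 1)) (C ^ (2 * (k + 1))) 2 (5 * Real.exp (-J)) := by
      refine dom_shift hC hJ (hS _ ?_) (le_trans ?_ (Nat.le_ceil _))
      · rw [hNdef]; push_cast; linarith [Nat.cast_nonneg (α := ℝ) k]
      · push_cast; linarith
    have d2 : Dom (C ^ (2 * (k + 1))) T (1 / q) 0 := by
      rw [hT, hCe, hDe]; exact dom_T h0 h1 _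
    exact d1.trans d2 (by norm_num)
  have hI : NI (D - C) C (1 / q) 0 :=
    ⟨D - C, by rw [hCe, hDe]; exact linf_D h0 h1, by rw [sub_self, l1_zero]⟩
  rw [hT] at hf
  obtain ⟨r1, r2, r3, r4⟩ := struct4 hC hk hJ hθ0 hθ1 hσ0 (by positivity) (by positivity)
    (hS n (by linarith)) hA hdom (fun z hz => hg z (hy.trans (by exact_mod_cast hz))) hI ho hf
  obtain ⟨e1, e2, e3, e4⟩ := num_err h0 h1 hJ hθ0 hθ1 hσ0 hσ1
  obtain ⟨m1, m2, m3, m4⟩ := num_main h0 hJ hs hθ hθ1 hσ0 hσ2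
  exact ⟨r1.mono m1 e1, r2.mono m2 e2, r3.mono hTp.1 m3 e3, r4.mono hTp.1 m4 e4⟩

/-- The first stage.  `C = law q [false, true]`, `D = law q [true]`, `D' = D - C`,
`t = c^N d c^N`, `x₀ = c^(N-1) d c^(N+1)`, `x₁ = c^(N+1) d c^(N-1)` (different: compare the letter at
position `2 N - 2`).  `Slip C 0 q²` (`V = q² • 1`).  `Linf D' C (1 / q)` (expand
`C = q² + q p X₀ + q p X₁ + p² X₀ X₁`), `mass D' = 0`, `l1 D' ≤ 2`.  One has
`o = -(1/2) C^(N-1) (D' C² - C² D') C^(N-1)` and `f = (1/2) C^(N-1) (K C - C K) C^(N-1)` with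
`K = D' C - C D'`.  Let `n = (N - 1) / 3 ≥ N / 4`, `θ = 1000 √J / (q √n) ≤ 1/10`,
`a = ⌊n q² / (10^8 J²)⌋`, `ρ = ⌈2 √(a J) + 1⌉`.  `gain` (with `s = s' = 0`, `D = Q = 1`) shows that
`C ^ x D' C ^ y` has norm `400 √J / (q √q n^(1/4))` relative to `C ^ (x + y + 1)` for `x, y ≥ n`; each
commutator costs a factor `4 θ` (`comm_n2`, `comm_ni` with `N := n`, `h ≤ 2`,
`a₀ = ⌈160000 J / θ²⌉ = ⌈0.16 q² n⌉`); powers of `C` commute with `C`, so they can be moved inside the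
commutators.  All measures are relative to `C ^ (2 N + 1)`; pass to `C ^ (2 N)` by `dom_shift` and to
`T = C ^ N D C ^ N ≥ q C ^ (2 N)` by `Dom.of_le`.  The slip of `T = (C ^ N D) C ^ N` follows from
`slip_base` (`m = 2 N`) and `Slip.conj`. -/
theorem pre_base {q : ℝ} (hq : 0 < q) (hq1 : q ≤ 1 / 2) {J : ℝ} (hJ : 1 ≤ J) {N : ℕ}
    (hN : 10 ^ 9 * J ^ 2 / q ^ 3 ≤ N) :
    ∃ (t x₀ x₁ : List Bool) (G : ℕ), t.length = 4 * N + 1 ∧ G + 1 ≤ N ∧
      Pre q t t x₀ x₁ 1 0 G G (Real.exp (-(20000 / q ^ 3))) (Real.exp (-(20000 / q ^ 3)))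
        (10 ^ 11 * J / q ^ 3 * (N : ℝ) ^ (-(3 / 4) : ℝ))
        (10 ^ 11 * J ^ 2 / q ^ 4 * (N : ℝ) ^ (-(5 / 4) : ℝ))
        (1000 * Real.exp (-(J / 2)) / q ^ 2)
        (10 ^ 11 * J / q ^ 3 * (N : ℝ) ^ (-(1 / 2) : ℝ)) 0
        (1000 * Real.exp (-(J / 2)) / q ^ 2) := by
  have h1 : q ≤ 1 := by linarith
  have hq3 : 0 < q ^ 3 := by positivity
  have hN3 : 10 ^ 9 ≤ q ^ 3 * N := by
    rw [div_le_iff₀ hq3] at hN
    nlinarith
  have hN0 : (0 : ℝ) ≤ N := Nat.cast_nonneg N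
  have hN1 : 10 ^ 9 ≤ q * N :=
    hN3.trans (mul_le_mul_of_nonneg_right (pow_le_of_le_one hq.le h1 (by norm_num)) hN0)
  have hN4 : q * N ≤ N / 2 := by nlinarith
  have hNpos : (0 : ℝ) < N := by linarith
  obtain ⟨k, rfl⟩ : ∃ k, N = k + 1 := Nat.exists_eq_succ_of_ne_zero (by
    rintro rfl
    simp at hNpos)
  obtain ⟨s, hs⟩ : ∃ s : ℝ, s = ((k + 1 : ℕ) : ℝ) ^ (1 / 4 : ℝ) := ⟨_, rfl⟩
  have hs0 : 0 < s := by rw [hs]; positivity
  have hpow : ∀ i : ℕ, ((k + 1 : ℕ) : ℝ) ^ ((i : ℝ) / 4) = s ^ i := by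
    intro i
    rw [hs, ← Real.rpow_natCast, ← Real.rpow_mul hN0]
    congr 1; ring
  have hs4 : s ^ 4 = ((k + 1 : ℕ) : ℝ) := by
    rw [← hpow]; norm_num
  have p3 : ((k + 1 : ℕ) : ℝ) ^ (-(3 / 4) : ℝ) = (s ^ 3)⁻¹ := by
    rw [Real.rpow_neg hN0, ← hpow]; norm_num
  have p5 : ((k + 1 : ℕ) : ℝ) ^ (-(5 / 4) : ℝ) = (s ^ 5)⁻¹ := by
    rw [Real.rpow_neg hN0, ← hpow]; norm_num
  have p2 : ((k + 1 : ℕ) : ℝ) ^ (-(1 / 2) : ℝ) = (s ^ 2)⁻¹ := by
    rw [Real.rpow_neg hN0, ← hpow]; norm_num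
  rw [p3, p5, p2]
  obtain ⟨G, hG1, hG2⟩ : ∃ G : ℕ, q * ((k + 1 : ℕ) : ℝ) / 4 ≤ G ∧
      (G : ℝ) ≤ q * ((k + 1 : ℕ) : ℝ) / 4 + 1 :=
    ⟨_, Nat.le_ceil _, (Nat.ceil_lt_add_one (by positivity)).le⟩
  have hC := prob_law hq.le h1 [false, true]
  have hD := prob_law hq.le h1 [true]
  have hlaw : ∀ a b : ℕ, law q (rep [false, true] a ++ [true] ++ rep [false, true] b) =
      law q [false, true] ^ a * law q [true] * law q [false, true] ^ b := by
    intro a b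
    rw [law_append, law_append, law_rep, law_rep]
  have hprob : ∀ a b : ℕ, Prob (law q [false, true] ^ a * law q [true] * law q [false, true] ^ b) :=
    fun a b => ((hC.pow a).mul hD).mul (hC.pow b)
  have hslip : Slip (law q (rep [false, true] (k + 1) ++ [true] ++ rep [false, true] (k + 1)))
      (G + 1) (Real.exp (-(20000 / q ^ 3))) := by
    rw [hlaw]
    refine Slip.conj ((hC.pow _).mul hD) (hC.pow _) ?_
    rw [← mul_assoc, ← pow_add]
    refine slip_base hq hq1 ?_ ?_ ?_ <;> rw [Nat.cast_add (k + 1)] <;> linarith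
  obtain ⟨r1, r2, r3, r4⟩ := four_bounds hq hq1 hJ hN hs0 hs4 rfl rfl rfl rfl rfl
  have hτ : 0 ≤ 1000 * Real.exp (-(J / 2)) / q ^ 2 := by positivity
  refine ⟨rep [false, true] (k + 1) ++ [true] ++ rep [false, true] (k + 1),
    rep [false, true] k ++ [true] ++ rep [false, true] (k + 2),
    rep [false, true] (k + 2) ++ [true] ++ rep [false, true] k, G + 1, ?_, ?_,
    ⟨?_, ?_, words_ne k, by norm_num, hslip, hslip, ?_, ?_, ?_, ?_, ?_, ?_⟩⟩
  · simp only [List.length_append, length_rep, List.length_cons, List.length_nil]; ring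
  · have : ((G + 1 + 1 : ℕ) : ℝ) ≤ ((k + 1 : ℕ) : ℝ) := by
      rw [Nat.cast_add, Nat.cast_add, Nat.cast_one]; linarith
    exact_mod_cast this
  · simp only [List.length_append, length_rep, List.length_cons, List.length_nil]; ring
  · simp only [List.length_append, length_rep, List.length_cons, List.length_nil]; ring
  · simp only [hlaw]
    refine ⟨_, by rw [pow_zero, one_mul, mul_one], ?_, (n2_iff_f2 ?_).1 (by rw [pow_one]; exact r1)⟩
    · rw [l1_smul]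
      have := l1_sub_le (law q [false, true] ^ (k + 2) * law q [true] * law q [false, true] ^ k)
        (law q [false, true] ^ k * law q [true] * law q [false, true] ^ (k + 2))
      rw [(hprob _ _).l1_eq, (hprob _ _).l1_eq] at this
      rw [abs_of_pos (by norm_num)]
      linarith
    · rw [shf, Nat.zero_sub, pow_zero, one_mul, mul_one]
  · simp only [hlaw]
    refine ⟨_, by rw [pow_zero, one_mul, mul_one], ?_, (n2_iff_f2 ?_).1 (by rw [pow_one]; exact r2)⟩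
    · refine (l1_sub_le _ _).trans ?_
      rw [l1_smul, (hprob _ _).l1_eq]
      have := l1_add_le (law q [false, true] ^ k * law q [true] * law q [false, true] ^ (k + 2))
        (law q [false, true] ^ (k + 2) * law q [true] * law q [false, true] ^ k)
      rw [(hprob _ _).l1_eq, (hprob _ _).l1_eq] at this
      rw [abs_of_pos (by norm_num)]
      linarith
    · rw [shf, Nat.zero_sub, pow_zero, one_mul, mul_one]
  · simp only [hlaw]; exact r3
  · simp only [hlaw]; exact r4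
  · rw [pow_one, sub_self]
    exact ⟨0, L2.zero _ hτ, by rw [sub_self, l1_zero]; exact hτ⟩
  · rw [pow_one, sub_self]
    exact ⟨0, fun w => by simp, by rw [sub_self, l1_zero]; exact hτ⟩

end Crest.Agent.R300
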