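import Crest.Agent.R300.LDefs

/-!
# R300 lower bound: basic calculus of `pr, mass, l1, NN, Le, Prob, L2, Linf` (task LCalc)

All statements are elementary.  The workhorse is `pr_mul` (Fubini for the convolution) and the
representation `pr E φ = ∑ w ∈ s, E.coeff w * φ w` for any finset `s ⊇ support`.
-/

set_option autoImplicit false
set_option linter.unusedVariables false

namespace Crest.Agent.R300

open Finset

variable {Γ : Type} [Monoid Γ]

theorem pr_eq_sum (E : Ms Γ) (φ : Γ → ℝ) {s : Finset Γ} (hs : E.coeff.support ⊆ s) :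
    pr E φ = ∑ w ∈ s, E.coeff w * φ w := by
  unfold pr
  exact Finsupp.sum_of_support_subset _ hs _ (fun _ _ => zero_mul _)

theorem l1_eq_sum (E : Ms Γ) {s : Finset Γ} (hs : E.coeff.support ⊆ s) :
    l1 E = ∑ w ∈ s, |E.coeff w| := by
  unfold l1
  exact Finsupp.sum_of_support_subset _ hs _ (fun _ _ => abs_zero)

@[simp] theorem pr_zero (φ : Γ → ℝ) : pr (0 : Ms Γ) φ = 0 := by
  simp [pr]

@[simp] theorem pr_single (w : Γ) (r : ℝ) (φ : Γ → ℝ) :
    pr (MonoidAlgebra.single w r) φ = r * φ w := by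
  simp [pr]

@[simp] theorem pr_one (φ : Γ → ℝ) : pr (1 : Ms Γ) φ = φ 1 := by
  rw [MonoidAlgebra.one_def, pr_single, one_mul]

theorem pr_add (E F : Ms Γ) (φ : Γ → ℝ) : pr (E + F) φ = pr E φ + pr F φ := by
  unfold pr
  rw [MonoidAlgebra.coeff_add, Finsupp.sum_add_index' (fun _ => zero_mul _)
    (fun _ _ _ => add_mul _ _ _)]

theorem pr_smul (r : ℝ) (E : Ms Γ) (φ : Γ → ℝ) : pr (r • E) φ = r * pr E φ := by
  rw [pr_eq_sum (r • E) φ (s := E.coeff.support) Finsupp.support_smul, pr_eq_sum E φ subset_rfl,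
    Finset.mul_sum]
  refine Finset.sum_congr rfl fun w _ => ?_
  rw [MonoidAlgebra.coeff_smul_apply, smul_eq_mul, mul_assoc]

theorem pr_neg (E : Ms Γ) (φ : Γ → ℝ) : pr (-E) φ = -pr E φ := by
  rw [← neg_one_smul ℝ E, pr_smul, neg_one_mul]

theorem pr_sub (E F : Ms Γ) (φ : Γ → ℝ) : pr (E - F) φ = pr E φ - pr F φ := by
  rw [sub_eq_add_neg, pr_add, pr_neg, sub_eq_add_neg]

theorem pr_sum {ι : Type} (I : Finset ι) (E : ι → Ms Γ) (φ : Γ → ℝ) :
    pr (∑ i ∈ I, E i) φ = ∑ i ∈ I, pr (E i) φ := by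
  classical
  induction I using Finset.induction_on with
  | empty => simp
  | insert i I hi ih => rw [Finset.sum_insert hi, Finset.sum_insert hi, pr_add, ih]

theorem pr_fun_add (E : Ms Γ) (φ ψ : Γ → ℝ) :
    pr E (fun w => φ w + ψ w) = pr E φ + pr E ψ := by
  simp only [pr, Finsupp.sum, mul_add, Finset.sum_add_distrib]

theorem pr_fun_mul (E : Ms Γ) (r : ℝ) (φ : Γ → ℝ) :
    pr E (fun w => r * φ w) = r * pr E φ := by
  simp only [pr, Finsupp.sum, Finset.mul_sum]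
  exact Finset.sum_congr rfl fun _ _ => by ring

theorem pr_fun_sum {ι : Type} (I : Finset ι) (E : Ms Γ) (φ : ι → Γ → ℝ) :
    pr E (fun w => ∑ i ∈ I, φ i w) = ∑ i ∈ I, pr E (φ i) := by
  simp only [pr, Finsupp.sum, Finset.mul_sum]
  exact Finset.sum_comm

/-- Fubini for the convolution. -/
theorem pr_mul (E F : Ms Γ) (φ : Γ → ℝ) :
    pr (E * F) φ = pr E fun a => pr F fun b => φ (a * b) := by
  rw [MonoidAlgebra.mul_def, Finsupp.sum, pr_sum, pr_eq_sum E _ subset_rfl]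
  refine Finset.sum_congr rfl fun a _ => ?_
  rw [Finsupp.sum, pr_sum, pr_eq_sum F _ subset_rfl, Finset.mul_sum]
  refine Finset.sum_congr rfl fun b _ => ?_
  rw [pr_single, mul_assoc]

theorem pr_swap {Γ' : Type} [Monoid Γ'] (E : Ms Γ) (F : Ms Γ') (φ : Γ → Γ' → ℝ) :
    (pr E fun a => pr F fun b => φ a b) = pr F fun b => pr E fun a => φ a b := by
  simp only [pr, Finsupp.sum, Finset.mul_sum]
  rw [Finset.sum_comm]
  exact Finset.sum_congr rfl fun _ _ => Finset.sum_congr rfl fun _ _ => by ring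

theorem NN.pr_nonneg {P : Ms Γ} (hP : NN P) {φ : Γ → ℝ} (hφ : ∀ w, 0 ≤ φ w) : 0 ≤ pr P φ := by
  exact Finset.sum_nonneg fun w _ => mul_nonneg (hP w) (hφ w)

theorem NN.pr_mono {P : Ms Γ} (hP : NN P) {φ ψ : Γ → ℝ} (h : ∀ w, φ w ≤ ψ w) :
    pr P φ ≤ pr P ψ := by
  exact Finset.sum_le_sum fun w _ => mul_le_mul_of_nonneg_left (h w) (hP w)

theorem Le.pr_le {P Q : Ms Γ} (h : Le P Q) {φ : Γ → ℝ} (hφ : ∀ w, 0 ≤ φ w) :
    pr P φ ≤ pr Q φ := by
  classical
  rw [pr_eq_sum P φ (s := P.coeff.support ∪ Q.coeff.support) subset_union_left,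
    pr_eq_sum Q φ (s := P.coeff.support ∪ Q.coeff.support) subset_union_right]
  exact Finset.sum_le_sum fun w _ => mul_le_mul_of_nonneg_right (h w) (hφ w)

theorem abs_pr_le (E : Ms Γ) {φ : Γ → ℝ} {M : ℝ} (h : ∀ w, |φ w| ≤ M) :
    |pr E φ| ≤ l1 E * M := by
  rw [pr_eq_sum E φ subset_rfl, l1_eq_sum E subset_rfl, Finset.sum_mul]
  refine (Finset.abs_sum_le_sum_abs _ _).trans (Finset.sum_le_sum fun w _ => ?_)
  rw [abs_mul]
  exact mul_le_mul_of_nonneg_left (h w) (abs_nonneg _)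

/-- Cauchy–Schwarz. -/
theorem NN.pr_mul_le {P : Ms Γ} (hP : NN P) (φ ψ : Γ → ℝ) :
    |pr P fun w => φ w * ψ w| ≤
      Real.sqrt (pr P fun w => φ w ^ 2) * Real.sqrt (pr P fun w => ψ w ^ 2) := by
  have key : ∀ φ ψ : Γ → ℝ, (pr P fun w => φ w * ψ w) ≤
      Real.sqrt (pr P fun w => φ w ^ 2) * Real.sqrt (pr P fun w => ψ w ^ 2) := by
    intro φ ψ
    have h := Real.sum_mul_le_sqrt_mul_sqrt P.coeff.support
      (fun w => Real.sqrt (P.coeff w) * φ w) (fun w => Real.sqrt (P.coeff w) * ψ w)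
    have e1 : ∀ (f : Γ → ℝ) (w : Γ), (Real.sqrt (P.coeff w) * f w) ^ 2 = P.coeff w * f w ^ 2 := by
      intro f w; rw [mul_pow, Real.sq_sqrt (hP w)]
    have e2 : ∀ w, Real.sqrt (P.coeff w) * φ w * (Real.sqrt (P.coeff w) * ψ w)
        = P.coeff w * (φ w * ψ w) := by
      intro w
      calc _ = (Real.sqrt (P.coeff w) * Real.sqrt (P.coeff w)) * (φ w * ψ w) := by ring
        _ = _ := by rw [Real.mul_self_sqrt (hP w)]
    simp only [e1, e2] at h
    exact h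
  rw [abs_le]
  refine ⟨?_, key φ ψ⟩
  have h := key (fun w => -φ w) ψ
  have e : (pr P fun w => -φ w * ψ w) = -pr P fun w => φ w * ψ w := by
    rw [← neg_one_mul, ← pr_fun_mul]; congr 1; funext w; ring
  simp only [neg_sq] at h
  rw [e] at h
  linarith

theorem pr_const (E : Ms Γ) (c : ℝ) : pr E (fun _ => c) = mass E * c := by
  have := pr_fun_mul E c fun _ => 1
  simp only [mul_one] at this
  rw [this, mul_comm, mass]

open Classical in
/-- The indicator of a point. -/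
noncomputable def ind (w v : Γ) : ℝ := if v = w then 1 else 0

omit [Monoid Γ] in
theorem ind_nonneg (w v : Γ) : 0 ≤ ind w v := by unfold ind; split_ifs <;> norm_num

omit [Monoid Γ] in
theorem ind_sq (w v : Γ) : ind w v ^ 2 = ind w v := by unfold ind; split_ifs <;> norm_num

omit [Monoid Γ] in
theorem abs_ind (w v : Γ) : |ind w v| = ind w v := abs_of_nonneg (ind_nonneg w v)

theorem coeff_eq_pr (E : Ms Γ) (w : Γ) : E.coeff w = pr E (ind w) := by
  classical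
  rw [pr_eq_sum E _ (s := insert w E.coeff.support) (subset_insert _ _),
    Finset.sum_eq_single_of_mem w (mem_insert_self _ _)]
  · simp [ind]
  · intro v _ hv
    simp [ind, hv]

theorem pr_le_l1 (E : Ms Γ) {φ : Γ → ℝ} (h : ∀ w, |φ w| ≤ 1) : pr E φ ≤ l1 E := by
  have := abs_pr_le E h
  rw [mul_one] at this
  exact (le_abs_self _).trans this

theorem l1_le_of_pr {E : Ms Γ} {M : ℝ} (h : ∀ φ : Γ → ℝ, (∀ w, |φ w| ≤ 1) → pr E φ ≤ M) :
    l1 E ≤ M := by
  refine le_trans (le_of_eq ?_) (h (fun w => if 0 ≤ E.coeff w then 1 else -1) fun w => ?_)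
  · rw [l1_eq_sum E subset_rfl, pr_eq_sum E _ subset_rfl]
    refine Finset.sum_congr rfl fun w _ => ?_
    split_ifs with hw
    · rw [abs_of_nonneg hw, mul_one]
    · rw [abs_of_neg (not_le.1 hw), mul_neg_one]
  · split_ifs <;> simp

/-- The total variation measure. -/
noncomputable def absM (E : Ms Γ) : Ms Γ :=
  MonoidAlgebra.ofCoeff (E.coeff.mapRange (fun r => |r|) abs_zero)

theorem coeff_absM (E : Ms Γ) (w : Γ) : (absM E).coeff w = |E.coeff w| := rfl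

theorem mass_absM (E : Ms Γ) : mass (absM E) = l1 E := by
  have hs : (absM E).coeff.support ⊆ E.coeff.support := Finsupp.support_mapRange (hf := abs_zero)
  rw [mass, pr_eq_sum (absM E) _ hs, l1_eq_sum E subset_rfl]
  exact Finset.sum_congr rfl fun w _ => by rw [coeff_absM, mul_one]

@[simp] theorem mass_zero : mass (0 : Ms Γ) = 0 := by
  simp [mass]

@[simp] theorem mass_one : mass (1 : Ms Γ) = 1 := by
  simp [mass]

theorem mass_add (E F : Ms Γ) : mass (E + F) = mass E + mass F := by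
  exact pr_add _ _ _

theorem mass_sub (E F : Ms Γ) : mass (E - F) = mass E - mass F := by
  exact pr_sub _ _ _

theorem mass_smul (r : ℝ) (E : Ms Γ) : mass (r • E) = r * mass E := by
  exact pr_smul _ _ _

theorem mass_mul (E F : Ms Γ) : mass (E * F) = mass E * mass F := by
  unfold mass
  rw [pr_mul]
  exact (pr_const E _).trans rfl

theorem mass_pow (E : Ms Γ) (k : ℕ) : mass (E ^ k) = mass E ^ k := by
  induction k with
  | zero => simp
  | succ k ih => rw [pow_succ, mass_mul, ih, pow_succ]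

theorem mass_sum {ι : Type} (I : Finset ι) (E : ι → Ms Γ) :
    mass (∑ i ∈ I, E i) = ∑ i ∈ I, mass (E i) := by
  exact pr_sum _ _ _

theorem l1_nonneg (E : Ms Γ) : 0 ≤ l1 E := by
  exact Finset.sum_nonneg fun _ _ => abs_nonneg _

@[simp] theorem l1_zero : l1 (0 : Ms Γ) = 0 := by
  simp [l1]

theorem l1_add_le (E F : Ms Γ) : l1 (E + F) ≤ l1 E + l1 F := by
  refine l1_le_of_pr fun φ hφ => ?_
  rw [pr_add]
  exact add_le_add (pr_le_l1 E hφ) (pr_le_l1 F hφ)

theorem l1_neg (E : Ms Γ) : l1 (-E) = l1 E := by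
  rw [l1_eq_sum (-E) (s := E.coeff.support) (by simp), l1_eq_sum E subset_rfl]
  simp

theorem l1_sub_le (E F : Ms Γ) : l1 (E - F) ≤ l1 E + l1 F := by
  rw [sub_eq_add_neg, ← l1_neg F]; exact l1_add_le _ _

theorem l1_sub_comm (E F : Ms Γ) : l1 (E - F) = l1 (F - E) := by
  rw [← l1_neg, neg_sub]

theorem l1_smul (r : ℝ) (E : Ms Γ) : l1 (r • E) = |r| * l1 E := by
  rw [l1_eq_sum (r • E) (s := E.coeff.support) Finsupp.support_smul, l1_eq_sum E subset_rfl,
    Finset.mul_sum]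
  refine Finset.sum_congr rfl fun w _ => ?_
  rw [MonoidAlgebra.coeff_smul_apply, smul_eq_mul, abs_mul]

theorem l1_sum_le {ι : Type} (I : Finset ι) (E : ι → Ms Γ) :
    l1 (∑ i ∈ I, E i) ≤ ∑ i ∈ I, l1 (E i) := by
  refine l1_le_of_pr fun φ hφ => ?_
  rw [pr_sum]
  exact Finset.sum_le_sum fun i _ => pr_le_l1 _ hφ

theorem l1_mul_le (E F : Ms Γ) : l1 (E * F) ≤ l1 E * l1 F := by
  refine l1_le_of_pr fun φ hφ => ?_
  rw [pr_mul]
  refine (le_abs_self _).trans (abs_pr_le E fun a => ?_)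
  simpa using abs_pr_le F (φ := fun b => φ (a * b)) (M := 1) fun b => hφ _

theorem l1_pow_le (E : Ms Γ) (k : ℕ) : l1 (E ^ k) ≤ l1 E ^ k := by
  induction k with
  | zero =>
    rw [pow_zero, pow_zero]
    exact l1_le_of_pr fun φ hφ => by rw [pr_one]; exact (le_abs_self _).trans (hφ 1)
  | succ k ih =>
    rw [pow_succ, pow_succ]
    exact (l1_mul_le _ _).trans (mul_le_mul_of_nonneg_right ih (l1_nonneg _))

theorem abs_mass_le (E : Ms Γ) : |mass E| ≤ l1 E := by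
  simpa [mass] using abs_pr_le E (φ := fun _ => 1) (M := 1) fun _ => by simp

theorem NN.l1_eq {P : Ms Γ} (hP : NN P) : l1 P = mass P := by
  rw [l1_eq_sum P subset_rfl, mass, pr_eq_sum P _ subset_rfl]
  exact Finset.sum_congr rfl fun w _ => by rw [abs_of_nonneg (hP w), mul_one]

theorem l1_le_of_abs_le {E F : Ms Γ} (h : ∀ w, |E.coeff w| ≤ |F.coeff w|) : l1 E ≤ l1 F := by
  classical
  rw [l1_eq_sum E (s := E.coeff.support ∪ F.coeff.support) subset_union_left,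
    l1_eq_sum F (s := E.coeff.support ∪ F.coeff.support) subset_union_right]
  exact Finset.sum_le_sum fun w _ => h w

/-- `‖E ^ k - F ^ k‖ ≤ k ‖E - F‖ M ^ k` when both norms are at most `M`, `1 ≤ M`. -/
theorem l1_pow_sub_pow (E F : Ms Γ) {M : ℝ} (hM : 1 ≤ M) (hE : l1 E ≤ M) (hF : l1 F ≤ M)
    (k : ℕ) : l1 (E ^ k - F ^ k) ≤ k * l1 (E - F) * M ^ k := by
  induction k with
  | zero => simp
  | succ k ih =>
    have e : E ^ (k + 1) - F ^ (k + 1) = E ^ k * (E - F) + (E ^ k - F ^ k) * F := by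
      rw [pow_succ, pow_succ]; noncomm_ring
    have hd := l1_nonneg (E - F)
    have hMk : 0 ≤ M ^ k := by positivity
    have h1 : l1 (E ^ k * (E - F)) ≤ M ^ k * l1 (E - F) :=
      (l1_mul_le _ _).trans (mul_le_mul_of_nonneg_right
        ((l1_pow_le E k).trans (pow_le_pow_left₀ (l1_nonneg E) hE k)) hd)
    have h2 : l1 ((E ^ k - F ^ k) * F) ≤ k * l1 (E - F) * M ^ k * M :=
      (l1_mul_le _ _).trans (mul_le_mul ih hF (l1_nonneg F) (by positivity))
    have h3 : M ^ k * l1 (E - F) ≤ M ^ k * l1 (E - F) * M :=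
      le_mul_of_one_le_right (by positivity) hM
    rw [e]
    refine (l1_add_le _ _).trans ?_
    push_cast
    rw [pow_succ]
    nlinarith

theorem NN.zero : NN (0 : Ms Γ) := by
  intro w; simp

theorem NN.one : NN (1 : Ms Γ) := by
  intro w
  rw [coeff_eq_pr, pr_one]
  exact ind_nonneg _ _

theorem NN.add {P Q : Ms Γ} (hP : NN P) (hQ : NN Q) : NN (P + Q) := by
  intro w
  rw [MonoidAlgebra.coeff_add, Finsupp.add_apply]
  exact add_nonneg (hP w) (hQ w)

theorem NN.smul {P : Ms Γ} (hP : NN P) {r : ℝ} (hr : 0 ≤ r) : NN (r • P) := by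
  intro w
  rw [MonoidAlgebra.coeff_smul_apply, smul_eq_mul]
  exact mul_nonneg hr (hP w)

theorem NN.mul {P Q : Ms Γ} (hP : NN P) (hQ : NN Q) : NN (P * Q) := by
  intro w
  rw [coeff_eq_pr, pr_mul]
  exact hP.pr_nonneg fun a => hQ.pr_nonneg fun b => ind_nonneg _ _

theorem NN.pow {P : Ms Γ} (hP : NN P) (k : ℕ) : NN (P ^ k) := by
  induction k with
  | zero => rw [pow_zero]; exact NN.one
  | succ k ih => rw [pow_succ]; exact ih.mul hP

theorem NN.sum {ι : Type} {I : Finset ι} {P : ι → Ms Γ} (h : ∀ i ∈ I, NN (P i)) :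
    NN (∑ i ∈ I, P i) := by
  intro w
  rw [MonoidAlgebra.coeff_sum, Finsupp.finsetSum_apply]
  exact Finset.sum_nonneg fun i hi => h i hi w

theorem NN.mass_nonneg {P : Ms Γ} (hP : NN P) : 0 ≤ mass P := by
  exact hP.pr_nonneg fun _ => zero_le_one

theorem le_iff_nn {P Q : Ms Γ} : Le P Q ↔ NN (Q - P) := by
  simp [Le, NN]

theorem Le.refl (P : Ms Γ) : Le P P := fun _ => le_rfl

theorem Le.trans {P Q R : Ms Γ} (h₁ : Le P Q) (h₂ : Le Q R) : Le P R :=
  fun w => (h₁ w).trans (h₂ w)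

theorem Le.add {P Q P' Q' : Ms Γ} (h₁ : Le P Q) (h₂ : Le P' Q') : Le (P + P') (Q + Q') := by
  intro w
  simp only [MonoidAlgebra.coeff_add, Finsupp.add_apply]
  exact add_le_add (h₁ w) (h₂ w)

theorem Le.smul {P Q : Ms Γ} (h : Le P Q) {r : ℝ} (hr : 0 ≤ r) : Le (r • P) (r • Q) := by
  intro w
  simp only [MonoidAlgebra.coeff_smul_apply, smul_eq_mul]
  exact mul_le_mul_of_nonneg_left (h w) hr

theorem Le.sum {ι : Type} {I : Finset ι} {P Q : ι → Ms Γ} (h : ∀ i ∈ I, Le (P i) (Q i)) :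
    Le (∑ i ∈ I, P i) (∑ i ∈ I, Q i) := by
  intro w
  simp only [MonoidAlgebra.coeff_sum, Finsupp.finsetSum_apply]
  exact Finset.sum_le_sum fun i hi => h i hi w

theorem Le.mul {P Q P' Q' : Ms Γ} (h₁ : Le P Q) (h₂ : Le P' Q') (hP' : NN P') (hQ : NN Q) :
    Le (P * P') (Q * Q') := by
  rw [le_iff_nn] at *
  have e : Q * Q' - P * P' = Q * (Q' - P') + (Q - P) * P' := by noncomm_ring
  rw [e]
  exact (hQ.mul h₂).add (h₁.mul hP')

theorem Le.pow {P Q : Ms Γ} (h : Le P Q) (hP : NN P) (k : ℕ) : Le (P ^ k) (Q ^ k) := by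
  have hQ : NN Q := fun w => (hP w).trans (h w)
  induction k with
  | zero => simpa using Le.refl _
  | succ k ih => rw [pow_succ, pow_succ]; exact ih.mul h hP (hQ.pow k)

theorem Le.mass_le {P Q : Ms Γ} (h : Le P Q) : mass P ≤ mass Q := by
  exact h.pr_le fun _ => zero_le_one

theorem Prob.one : Prob (1 : Ms Γ) := by
  exact ⟨NN.one, mass_one⟩

theorem Prob.mul {P Q : Ms Γ} (hP : Prob P) (hQ : Prob Q) : Prob (P * Q) := by
  exact ⟨hP.1.mul hQ.1, by rw [mass_mul, hP.2, hQ.2, mul_one]⟩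

theorem Prob.pow {P : Ms Γ} (hP : Prob P) (k : ℕ) : Prob (P ^ k) := by
  exact ⟨hP.1.pow k, by rw [mass_pow, hP.2, one_pow]⟩

theorem Prob.l1_eq {P : Ms Γ} (hP : Prob P) : l1 P = 1 := by
  rw [hP.1.l1_eq, hP.2]

theorem Prob.lazy {P : Ms Γ} (hP : Prob P) : Prob (lazy P) := by
  refine ⟨(NN.one.add hP.1).smul (by norm_num), ?_⟩
  unfold R300.lazy
  rw [mass_smul, mass_add, mass_one, hP.2]; norm_num

/-- The pointwise minimum of two probability measures. -/
theorem exists_min {P Q : Ms Γ} (hP : Prob P) (hQ : Prob Q) :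
    ∃ V, NN V ∧ Le V P ∧ Le V Q ∧ mass V = 1 - l1 (P - Q) / 2 := by
  have hc : ∀ w, ((1 / 2 : ℝ) • (P + Q - absM (P - Q))).coeff w = min (P.coeff w) (Q.coeff w) := by
    intro w
    rw [MonoidAlgebra.coeff_smul_apply, smul_eq_mul, MonoidAlgebra.coeff_sub, Finsupp.sub_apply,
      MonoidAlgebra.coeff_add, Finsupp.add_apply, coeff_absM, MonoidAlgebra.coeff_sub,
      Finsupp.sub_apply]
    rcases le_total (P.coeff w) (Q.coeff w) with h | h
    · rw [min_eq_left h, abs_of_nonpos (by linarith)]; ring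
    · rw [min_eq_right h, abs_of_nonneg (by linarith)]; ring
  refine ⟨(1 / 2 : ℝ) • (P + Q - absM (P - Q)), fun w => ?_, fun w => ?_, fun w => ?_, ?_⟩
  · rw [hc]; exact le_min (hP.1 w) (hQ.1 w)
  · rw [hc]; exact min_le_left _ _
  · rw [hc]; exact min_le_right _ _
  · rw [mass_smul, mass_sub, mass_add, hP.2, hQ.2, mass_absM]; ring

/-- The binomial expansion of `lazy B ^ a * B ^ j`. -/
theorem lazy_pow_mul (B : Ms Γ) (a j : ℕ) :
    lazy B ^ a * B ^ j = ∑ z ∈ range (a + j + 1), bsh a j z • B ^ z := by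
  rw [show a + j + 1 = j + (a + 1) by ring, Finset.sum_range_add, Finset.sum_eq_zero, zero_add]
  · unfold lazy
    rw [smul_pow, add_comm 1 B, (Commute.one_right B).add_pow, smul_mul_assoc, Finset.sum_mul,
      Finset.smul_sum]
    refine Finset.sum_congr rfl fun m _ => ?_
    rw [bsh, if_pos (Nat.le_add_right _ _), Nat.add_sub_cancel_left, bin, one_pow, mul_one,
      ← nsmul_eq_mul', smul_mul_assoc, ← pow_add, add_comm m j, ← Nat.cast_smul_eq_nsmul ℝ,
      smul_smul]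
    congr 1
    rw [one_div, inv_pow, div_eq_mul_inv, mul_comm]
  · intro z hz
    rw [bsh, if_neg (by simpa using hz), zero_smul]

theorem commute_lazy (B : Ms Γ) : Commute B (lazy B) := by
  exact ((Commute.one_right B).add_right (Commute.refl B)).smul_right _

/-! ### `L2` and `Linf` -/

theorem L2.sq_le {E P : Ms Γ} {σ : ℝ} (h : L2 E P σ) (hP : NN P) (φ : Γ → ℝ) :
    pr E φ ^ 2 ≤ σ ^ 2 * pr P fun w => φ w ^ 2 := by
  have h1 := pow_le_pow_left₀ (abs_nonneg _) (h φ) 2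
  rwa [sq_abs, mul_pow, Real.sq_sqrt (hP.pr_nonneg fun w => sq_nonneg _)] at h1

theorem pr_density {E P : Ms Γ} (h0 : ∀ w, P.coeff w = 0 → E.coeff w = 0) (φ : Γ → ℝ) :
    pr E φ = pr P fun w => E.coeff w / P.coeff w * φ w := by
  have hs : E.coeff.support ⊆ P.coeff.support := fun w hw => by
    rw [Finsupp.mem_support_iff] at hw ⊢
    exact fun h => hw (h0 w h)
  rw [pr_eq_sum E φ hs, pr_eq_sum P _ subset_rfl]
  refine Finset.sum_congr rfl fun w hw => ?_
  have := Finsupp.mem_support_iff.1 hw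
  field_simp

theorem Linf.abs_pr_le {E P : Ms Γ} {η : ℝ} (h : Linf E P η) (φ : Γ → ℝ) :
    |pr E φ| ≤ η * pr P fun w => |φ w| := by
  classical
  rw [pr_eq_sum E φ (s := E.coeff.support ∪ P.coeff.support) subset_union_left,
    pr_eq_sum P _ (s := E.coeff.support ∪ P.coeff.support) subset_union_right, Finset.mul_sum]
  refine (Finset.abs_sum_le_sum_abs _ _).trans (Finset.sum_le_sum fun w _ => ?_)
  rw [abs_mul, ← mul_assoc]
  exact mul_le_mul_of_nonneg_right (h w) (abs_nonneg _)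

theorem L2.mono {E P : Ms Γ} {σ σ' : ℝ} (h : L2 E P σ) (hσ : σ ≤ σ') : L2 E P σ' := by
  exact fun φ => (h φ).trans (mul_le_mul_of_nonneg_right hσ (Real.sqrt_nonneg _))

theorem L2.zero (P : Ms Γ) {σ : ℝ} (hσ : 0 ≤ σ) : L2 0 P σ := by
  intro φ
  rw [pr_zero, abs_zero]
  exact mul_nonneg hσ (Real.sqrt_nonneg _)

theorem L2.add {E F P : Ms Γ} {σ σ' : ℝ} (h : L2 E P σ) (h' : L2 F P σ') :
    L2 (E + F) P (σ + σ') := by
  intro φ
  rw [pr_add, add_mul]
  exact (abs_add_le _ _).trans (add_le_add (h φ) (h' φ))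

theorem L2.smul {E P : Ms Γ} {σ : ℝ} (h : L2 E P σ) (r : ℝ) : L2 (r • E) P (|r| * σ) := by
  intro φ
  rw [pr_smul, abs_mul, mul_assoc]
  exact mul_le_mul_of_nonneg_left (h φ) (abs_nonneg _)

theorem L2.neg {E P : Ms Γ} {σ : ℝ} (h : L2 E P σ) : L2 (-E) P σ := by
  intro φ
  rw [pr_neg, abs_neg]
  exact h φ

theorem L2.sum {ι : Type} {I : Finset ι} {E : ι → Ms Γ} {P : Ms Γ} {σ : ι → ℝ}
    (h : ∀ i ∈ I, L2 (E i) P (σ i)) : L2 (∑ i ∈ I, E i) P (∑ i ∈ I, σ i) := by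
  intro φ
  rw [pr_sum, Finset.sum_mul]
  exact (Finset.abs_sum_le_sum_abs _ _).trans (Finset.sum_le_sum fun i hi => h i hi φ)

/-- Change of reference measure. -/
theorem L2.ref {E P Q : Ms Γ} {σ c : ℝ} (h : L2 E P σ) (hσ : 0 ≤ σ) (hc : 0 ≤ c)
    (hPQ : Le P (c • Q)) : L2 E Q (Real.sqrt c * σ) := by
  intro φ
  refine (h φ).trans ?_
  have h1 := hPQ.pr_le (φ := fun w => φ w ^ 2) fun w => sq_nonneg _
  rw [pr_smul] at h1
  have h2 := Real.sqrt_le_sqrt h1
  rw [Real.sqrt_mul hc] at h2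
  calc σ * Real.sqrt (pr P fun w => φ w ^ 2)
      ≤ σ * (Real.sqrt c * Real.sqrt (pr Q fun w => φ w ^ 2)) := mul_le_mul_of_nonneg_left h2 hσ
    _ = _ := by ring

theorem L2.self {P : Ms Γ} (hP : NN P) (h1 : mass P ≤ 1) : L2 P P 1 := by
  intro φ
  have h := hP.pr_mul_le (fun _ => 1) φ
  simp only [one_mul, one_pow] at h
  refine h.trans (mul_le_mul_of_nonneg_right ?_ (Real.sqrt_nonneg _))
  exact Real.sqrt_le_one.2 h1

/-- Apply the first bound to `a ↦ pr E' (φ (a * ·))` and use `pr_mul`. -/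
theorem L2.mul {E E' P P' : Ms Γ} {σ σ' : ℝ} (h : L2 E P σ) (h' : L2 E' P' σ') (hσ : 0 ≤ σ)
    (hσ' : 0 ≤ σ') (hP : NN P) (hP' : NN P') : L2 (E * E') (P * P') (σ * σ') := by
  intro φ
  rw [pr_mul, pr_mul, mul_assoc]
  refine (h _).trans (mul_le_mul_of_nonneg_left ?_ hσ)
  rw [← Real.sqrt_sq hσ', ← Real.sqrt_mul (sq_nonneg _), ← pr_fun_mul]
  exact Real.sqrt_le_sqrt (hP.pr_mono fun a => h'.sq_le hP' _)

theorem L2.l1_le {E P : Ms Γ} {σ : ℝ} (h : L2 E P σ) (hσ : 0 ≤ σ) (hP : NN P)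
    (h1 : mass P ≤ 1) : l1 E ≤ σ := by
  refine l1_le_of_pr fun φ hφ => (le_abs_self _).trans ((h φ).trans ?_)
  refine mul_le_of_le_one_right hσ (Real.sqrt_le_one.2 (le_trans (hP.pr_mono fun w => ?_) h1))
  rw [← sq_abs]
  exact pow_le_one₀ (abs_nonneg _) (hφ w)

/-- The primal form: take `φ = E / P`, and `φ = single point` for the support. -/
theorem L2.primal {E P : Ms Γ} {σ : ℝ} (h : L2 E P σ) (hσ : 0 ≤ σ) (hP : NN P) :
    (∀ w, P.coeff w = 0 → E.coeff w = 0) ∧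
      (pr P fun w => (E.coeff w / P.coeff w) ^ 2) ≤ σ ^ 2 := by
  have h0 : ∀ w, P.coeff w = 0 → E.coeff w = 0 := by
    intro w hw
    have h1 := h (ind w)
    simp only [ind_sq] at h1
    rw [← coeff_eq_pr, show (fun v => ind w v) = ind w from rfl, ← coeff_eq_pr, hw, Real.sqrt_zero,
      mul_zero] at h1
    exact abs_nonpos_iff.1 h1
  refine ⟨h0, ?_⟩
  have h1 := h fun w => E.coeff w / P.coeff w
  rw [pr_density h0] at h1
  simp only [← sq] at h1
  have hS := hP.pr_nonneg (φ := fun w => (E.coeff w / P.coeff w) ^ 2) fun w => sq_nonneg _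
  generalize (pr P fun w => (E.coeff w / P.coeff w) ^ 2) = S at *
  rw [abs_of_nonneg hS] at h1
  have h2 := Real.sq_sqrt hS
  have h3 := Real.sqrt_nonneg S
  nlinarith [sq_nonneg (Real.sqrt S - σ)]

theorem L2.of_primal {E P : Ms Γ} {σ : ℝ} (hσ : 0 ≤ σ) (hP : NN P)
    (h0 : ∀ w, P.coeff w = 0 → E.coeff w = 0)
    (h : (pr P fun w => (E.coeff w / P.coeff w) ^ 2) ≤ σ ^ 2) : L2 E P σ := by
  intro φ
  rw [pr_density h0]
  refine (hP.pr_mul_le _ _).trans (mul_le_mul_of_nonneg_right ?_ (Real.sqrt_nonneg _))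
  exact Real.sqrt_le_iff.2 ⟨hσ, h⟩

/-- Orthogonality.  Write `φ̄ a = pr P' (φ (a * ·))`; the first term pairs `A` with `φ̄`, the second
(as `mass E = 0`) pairs `Q ⊗ E` with `φ (a * b) - φ̄ a`; Pythagoras
`‖φ‖² = ‖φ̄‖² + ‖φ - φ̄‖²` in `L²(P ⊗ P')` and Cauchy–Schwarz in `ℝ²`. -/
theorem L2.orth {A Q E P P' : Ms Γ} {α γ β : ℝ} (hA : L2 A P α) (hQ : L2 Q P γ)
    (hE : L2 E P' β) (hα : 0 ≤ α) (hγ : 0 ≤ γ) (hβ : 0 ≤ β) (hP : NN P) (hP' : Prob P')
    (h0 : mass E = 0) : L2 (A * P' + Q * E) (P * P') (Real.sqrt (α ^ 2 + γ ^ 2 * β ^ 2)) := by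
  intro φ
  set m : Γ → ℝ := fun a => pr P' fun b => φ (a * b) with hm
  set v : Γ → ℝ := fun a => pr P' fun b => (φ (a * b) - m a) ^ 2 with hv
  have hv0 : ∀ a, 0 ≤ v a := fun a => hP'.1.pr_nonneg fun b => sq_nonneg _
  have hpy : ∀ a, (pr P' fun b => φ (a * b) ^ 2) = m a ^ 2 + v a := by
    intro a
    have e : (fun b => (φ (a * b) - m a) ^ 2) =
        fun b => φ (a * b) ^ 2 + ((-2 * m a) * φ (a * b) + m a ^ 2) := by
      funext b; ring
    simp only [hv]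
    rw [e, pr_fun_add, pr_fun_add, pr_fun_mul, pr_const, hP'.2]
    simp only [hm]
    ring
  have hE' : ∀ a, (pr E fun b => φ (a * b)) ^ 2 ≤ β ^ 2 * v a := by
    intro a
    have e : (pr E fun b => φ (a * b)) = pr E fun b => φ (a * b) - m a := by
      have e' : (fun b => φ (a * b) - m a) = fun b => φ (a * b) + -m a := by
        funext b; ring
      rw [e', pr_fun_add, pr_const, h0, zero_mul, add_zero]
    rw [e]
    exact hE.sq_le hP'.1 _
  set x : ℝ := pr P fun a => m a ^ 2 with hx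
  set y : ℝ := pr P v with hy
  have hx0 : 0 ≤ x := hP.pr_nonneg fun a => sq_nonneg _
  have hy0 : 0 ≤ y := hP.pr_nonneg hv0
  have hT : (pr (P * P') fun w => φ w ^ 2) = x + y := by
    rw [pr_mul]
    simp only [hpy]
    exact pr_fun_add _ _ _
  have h1 : |pr (A * P') φ| ≤ α * Real.sqrt x := by rw [pr_mul]; exact hA m
  have h2 : |pr (Q * E) φ| ≤ γ * β * Real.sqrt y := by
    rw [pr_mul, mul_assoc]
    refine (hQ _).trans (mul_le_mul_of_nonneg_left ?_ hγ)
    rw [← Real.sqrt_sq hβ, ← Real.sqrt_mul (sq_nonneg _), hy, ← pr_fun_mul]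
    exact Real.sqrt_le_sqrt (hP.pr_mono hE')
  rw [pr_add, hT]
  refine (abs_add_le _ _).trans ((add_le_add h1 h2).trans ?_)
  rw [← Real.sqrt_mul (by positivity)]
  refine Real.le_sqrt_of_sq_le ?_
  have e1 := Real.sq_sqrt hx0
  have e2 := Real.sq_sqrt hy0
  generalize Real.sqrt x = s at *
  generalize Real.sqrt y = t at *
  rw [← e1, ← e2]
  nlinarith [sq_nonneg (α * t - γ * β * s)]

/-- Mixtures. -/
theorem L2.mix {ι : Type} {I : Finset ι} {E P : ι → Ms Γ} {π σ : ι → ℝ}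
    (hπ : ∀ i ∈ I, 0 ≤ π i) (hσ : ∀ i ∈ I, 0 ≤ σ i) (hP : ∀ i ∈ I, NN (P i))
    (h : ∀ i ∈ I, L2 (E i) (P i) (σ i)) :
    L2 (∑ i ∈ I, π i • E i) (∑ i ∈ I, π i • P i) (Real.sqrt (∑ i ∈ I, π i * σ i ^ 2)) := by
  intro φ
  simp only [pr_sum, pr_smul]
  have h1 := Real.sum_mul_le_sqrt_mul_sqrt I (fun i => Real.sqrt (π i) * σ i)
    (fun i => Real.sqrt (π i) * Real.sqrt (pr (P i) fun w => φ w ^ 2))
  have e1 : ∑ i ∈ I, (Real.sqrt (π i) * σ i) ^ 2 = ∑ i ∈ I, π i * σ i ^ 2 :=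
    Finset.sum_congr rfl fun i hi => by rw [mul_pow, Real.sq_sqrt (hπ i hi)]
  have e2 : ∑ i ∈ I, (Real.sqrt (π i) * Real.sqrt (pr (P i) fun w => φ w ^ 2)) ^ 2
      = ∑ i ∈ I, π i * pr (P i) fun w => φ w ^ 2 :=
    Finset.sum_congr rfl fun i hi => by
      rw [mul_pow, Real.sq_sqrt (hπ i hi), Real.sq_sqrt ((hP i hi).pr_nonneg fun w => sq_nonneg _)]
  rw [e1, e2] at h1
  refine (Finset.abs_sum_le_sum_abs _ _).trans (le_trans (Finset.sum_le_sum fun i hi => ?_) h1)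
  rw [abs_mul, abs_of_nonneg (hπ i hi)]
  calc π i * |pr (E i) φ| ≤ π i * (σ i * Real.sqrt (pr (P i) fun w => φ w ^ 2)) :=
        mul_le_mul_of_nonneg_left (h i hi φ) (hπ i hi)
    _ = (Real.sqrt (π i) * Real.sqrt (π i)) * (σ i * Real.sqrt (pr (P i) fun w => φ w ^ 2)) := by
        rw [Real.mul_self_sqrt (hπ i hi)]
    _ = _ := by ring

theorem Linf.mono {E P : Ms Γ} {η η' : ℝ} (h : Linf E P η) (hP : NN P) (hη : η ≤ η') :
    Linf E P η' := by
  exact fun w => (h w).trans (mul_le_mul_of_nonneg_right hη (hP w))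

theorem Linf.add {E F P : Ms Γ} {η η' : ℝ} (h : Linf E P η) (h' : Linf F P η') :
    Linf (E + F) P (η + η') := by
  intro w
  rw [MonoidAlgebra.coeff_add, Finsupp.add_apply, add_mul]
  exact (abs_add_le _ _).trans (add_le_add (h w) (h' w))

theorem Linf.smul {E P : Ms Γ} {η : ℝ} (h : Linf E P η) (r : ℝ) : Linf (r • E) P (|r| * η) := by
  intro w
  rw [MonoidAlgebra.coeff_smul_apply, smul_eq_mul, abs_mul, mul_assoc]
  exact mul_le_mul_of_nonneg_left (h w) (abs_nonneg _)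

theorem Linf.neg {E P : Ms Γ} {η : ℝ} (h : Linf E P η) : Linf (-E) P η := by
  intro w
  simpa using h w

theorem Linf.self {P : Ms Γ} (hP : NN P) : Linf P P 1 := by
  intro w
  rw [abs_of_nonneg (hP w), one_mul]

theorem Linf.ref {E P Q : Ms Γ} {η c : ℝ} (h : Linf E P η) (hη : 0 ≤ η) (hPQ : Le P (c • Q)) :
    Linf E Q (c * η) := by
  intro w
  have h1 := hPQ w
  rw [MonoidAlgebra.coeff_smul_apply, smul_eq_mul] at h1
  calc |E.coeff w| ≤ η * P.coeff w := h w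
    _ ≤ η * (c * Q.coeff w) := mul_le_mul_of_nonneg_left h1 hη
    _ = _ := by ring

theorem Linf.mul {E E' P P' : Ms Γ} {η η' : ℝ} (h : Linf E P η) (h' : Linf E' P' η')
    (hη : 0 ≤ η) (hη' : 0 ≤ η') (hP : NN P) (hP' : NN P') :
    Linf (E * E') (P * P') (η * η') := by
  intro w
  rw [coeff_eq_pr, coeff_eq_pr, pr_mul, pr_mul, mul_assoc]
  refine (h.abs_pr_le _).trans (mul_le_mul_of_nonneg_left ?_ hη)
  rw [← pr_fun_mul]
  refine hP.pr_mono fun a => (h'.abs_pr_le _).trans (le_of_eq ?_)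
  simp only [abs_ind]

theorem Linf.mix {ι : Type} {I : Finset ι} {E P : ι → Ms Γ} {κ π : ι → ℝ} {η θ : ℝ}
    (hη : 0 ≤ η) (hκ : ∀ i ∈ I, |κ i| ≤ θ * π i) (hP : ∀ i ∈ I, NN (P i))
    (h : ∀ i ∈ I, Linf (E i) (P i) η) :
    Linf (∑ i ∈ I, κ i • E i) (∑ i ∈ I, π i • P i) (θ * η) := by
  intro w
  simp only [MonoidAlgebra.coeff_sum, Finsupp.finsetSum_apply, MonoidAlgebra.coeff_smul_apply,
    smul_eq_mul]
  rw [Finset.mul_sum]
  refine (Finset.abs_sum_le_sum_abs _ _).trans (Finset.sum_le_sum fun i hi => ?_)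
  rw [abs_mul]
  calc |κ i| * |(E i).coeff w| ≤ (θ * π i) * (η * (P i).coeff w) :=
        mul_le_mul (hκ i hi) (h i hi w) (abs_nonneg _) ((abs_nonneg _).trans (hκ i hi))
    _ = _ := by ring

theorem Linf.l2 {E P : Ms Γ} {η : ℝ} (h : Linf E P η) (hη : 0 ≤ η) (hP : NN P)
    (h1 : mass P ≤ 1) : L2 E P η := by
  intro φ
  refine (h.abs_pr_le φ).trans (mul_le_mul_of_nonneg_left ?_ hη)
  have h2 := L2.self hP h1 fun w => |φ w|
  simp only [sq_abs, one_mul] at h2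
  exact (le_abs_self _).trans h2

theorem Linf.l1_le {E P : Ms Γ} {η : ℝ} (h : Linf E P η) (hη : 0 ≤ η) (hP : NN P)
    (h1 : mass P ≤ 1) : l1 E ≤ η := by
  exact (h.l2 hη hP h1).l1_le hη hP h1

/-! ### Markov kernels (data processing) -/

section
variable {Γ' : Type} [Monoid Γ'] {Ψ : Ms Γ →ₗ[ℝ] Ms Γ'}

theorem Markov.pr (hΨ : Markov Ψ) (E : Ms Γ) (φ : Γ' → ℝ) :
    pr (Ψ E) φ = pr E fun w => pr (Ψ (MonoidAlgebra.single w 1)) φ := by
  conv_lhs => rw [← E.sum_coeff_single, Finsupp.sum, map_sum, pr_sum]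
  rw [pr_eq_sum E _ subset_rfl]
  refine Finset.sum_congr rfl fun w _ => ?_
  rw [← pr_smul, ← map_smul, MonoidAlgebra.smul_single, smul_eq_mul, mul_one]

theorem Markov.nn (hΨ : Markov Ψ) {P : Ms Γ} (hP : NN P) : NN (Ψ P) := by
  intro w
  rw [coeff_eq_pr, hΨ.pr]
  exact hP.pr_nonneg fun a => (hΨ a).1.pr_nonneg (ind_nonneg w)

theorem Markov.le (hΨ : Markov Ψ) {P Q : Ms Γ} (h : Le P Q) : Le (Ψ P) (Ψ Q) := by
  rw [le_iff_nn, ← map_sub]
  exact hΨ.nn (le_iff_nn.1 h)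

theorem Markov.mass (hΨ : Markov Ψ) (E : Ms Γ) : mass (Ψ E) = mass E := by
  unfold R300.mass
  rw [hΨ.pr]
  congr 1
  funext w
  exact (hΨ w).2

theorem Markov.l1_le (hΨ : Markov Ψ) (E : Ms Γ) : l1 (Ψ E) ≤ l1 E := by
  refine l1_le_of_pr fun φ hφ => ?_
  rw [hΨ.pr]
  refine pr_le_l1 E fun w => ?_
  have := abs_pr_le (Ψ (MonoidAlgebra.single w 1)) hφ
  rwa [(hΨ w).l1_eq, one_mul] at this

theorem Markov.l2 (hΨ : Markov Ψ) {E P : Ms Γ} {σ : ℝ} (h : L2 E P σ) (hσ : 0 ≤ σ)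
    (hP : NN P) : L2 (Ψ E) (Ψ P) σ := by
  intro φ
  rw [hΨ.pr, hΨ.pr]
  refine (h _).trans (mul_le_mul_of_nonneg_left (Real.sqrt_le_sqrt (hP.pr_mono fun w => ?_)) hσ)
  simpa using (L2.self (hΨ w).1 (hΨ w).2.le).sq_le (hΨ w).1 φ

theorem Markov.n2 (hΨ : Markov Ψ) {E P : Ms Γ} {σ τ : ℝ} (h : N2 E P σ τ) (hσ : 0 ≤ σ)
    (hP : NN P) : N2 (Ψ E) (Ψ P) σ τ := by
  obtain ⟨E₀, h1, h2⟩ := h
  exact ⟨Ψ E₀, hΨ.l2 h1 hσ hP, by rw [← map_sub]; exact (hΨ.l1_le _).trans h2⟩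

end

/-- An algebra map out of the free monoid algebra which sends the two letters to probability
measures is a Markov kernel. -/
theorem markov_lift {Γ' : Type} [Monoid Γ'] (Y : Bool → Ms Γ') (hY : ∀ a, Prob (Y a)) :
    Markov (MonoidAlgebra.lift ℝ (Ms Γ') W (FreeMonoid.lift Y)).toLinearMap := by
  intro w
  rw [AlgHom.toLinearMap_apply, MonoidAlgebra.lift_single, one_smul]
  induction w using FreeMonoid.inductionOn' with
  | one => rw [map_one]; exact Prob.one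
  | of_mul a w ih => rw [map_mul, FreeMonoid.lift_eval_of]; exact (hY a).mul ih

theorem lift_X {Γ' : Type} [Monoid Γ'] (Y : Bool → Ms Γ') (a : Bool) :
    MonoidAlgebra.lift ℝ (Ms Γ') W (FreeMonoid.lift Y) (X a) = Y a := by
  rw [X, MonoidAlgebra.lift_single, one_smul, FreeMonoid.lift_eval_of]

theorem Slip.map {Γ' : Type} [Monoid Γ'] (Ψ : Ms Γ →ₐ[ℝ] Ms Γ') (hΨ : Markov Ψ.toLinearMap)
    {B : Ms Γ} {G : ℕ} {c : ℝ} (h : Slip B G c) : Slip (Ψ B) G c := by
  obtain ⟨V, h1, h2, h3, h4⟩ := h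
  refine ⟨Ψ V, hΨ.nn h1, ?_, ?_, ?_⟩
  · rw [← map_pow]; exact hΨ.le h2
  · rw [← map_pow]; exact hΨ.le h3
  · exact h4.trans (hΨ.mass V).ge

/-- `(P Q) ^ (G + 1) = P (Q P) ^ G Q`. -/
theorem Slip.conj {P Q : Ms Γ} (hP : Prob P) (hQ : Prob Q) {G : ℕ} {c : ℝ}
    (h : Slip (Q * P) G c) : Slip (P * Q) (G + 1) c := by
  obtain ⟨V, h1, h2, h3, h4⟩ := h
  have e : ∀ k : ℕ, (P * Q) ^ (k + 1) = P * (Q * P) ^ k * Q := by
    intro k
    induction k with
    | zero => simp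
    | succ k ih => rw [pow_succ, ih, pow_succ]; simp only [mul_assoc]
  have hQP := (hQ.mul hP).1
  refine ⟨P * V * Q, (hP.1.mul h1).mul hQ.1, ?_, ?_, ?_⟩
  · rw [e]
    exact ((Le.refl P).mul h2 h1 hP.1).mul (Le.refl Q) hQ.1 (hP.1.mul (hQP.pow _))
  · rw [e]
    exact ((Le.refl P).mul h3 h1 hP.1).mul (Le.refl Q) hQ.1 (hP.1.mul (hQP.pow _))
  · rw [mass_mul, mass_mul, hP.2, hQ.2, one_mul, mul_one]; exact h4

/-! ### laws of words -/

theorem prob_X (a : Bool) : Prob (X a) := by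
  refine ⟨fun w => ?_, ?_⟩
  · rw [coeff_eq_pr, X, pr_single, one_mul]; exact ind_nonneg _ _
  · rw [mass, X, pr_single, one_mul]

theorem prob_letter {q : ℝ} (h0 : 0 ≤ q) (h1 : q ≤ 1) (a : Bool) : Prob (letter q a) := by
  refine ⟨(NN.one.smul h0).add ((prob_X a).1.smul (by linarith)), ?_⟩
  rw [letter, mass_add, mass_smul, mass_smul, mass_one, (prob_X a).2]; ring

@[simp] theorem law_nil (q : ℝ) : law q [] = 1 := by
  simp [law]

theorem law_cons (q : ℝ) (a : Bool) (w : List Bool) : law q (a :: w) = letter q a * law q w := by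
  simp [law]

theorem law_append (q : ℝ) (u v : List Bool) : law q (u ++ v) = law q u * law q v := by
  simp [law]

theorem prob_law {q : ℝ} (h0 : 0 ≤ q) (h1 : q ≤ 1) (w : List Bool) : Prob (law q w) := by
  induction w with
  | nil => rw [law_nil]; exact Prob.one
  | cons a w ih => rw [law_cons]; exact (prob_letter h0 h1 a).mul ih

theorem law_rep (q : ℝ) (w : List Bool) (k : ℕ) : law q (rep w k) = law q w ^ k := by
  induction k with
  | zero => simp [rep]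
  | succ k ih =>
    have : rep w (k + 1) = w ++ rep w k := by simp [rep, List.replicate_succ]
    rw [this, law_append, ih, pow_succ']

theorem length_rep (w : List Bool) (k : ℕ) : (rep w k).length = k * w.length := by
  simp [rep]

theorem law_tmW (q : ℝ) (x₀ x₁ : List Bool) (j : ℕ) :
    law q (tmW x₀ x₁ j).1 = (tmM (law q x₀) (law q x₁) j).1 ∧
      law q (tmW x₀ x₁ j).2 = (tmM (law q x₀) (law q x₁) j).2 := by
  induction j with
  | zero => exact ⟨rfl, rfl⟩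
  | succ j ih => simp only [tmW, tmM, law_append, ih.1, ih.2, and_self]

theorem length_tmW {x₀ x₁ : List Bool} (h : x₀.length = x₁.length) (j : ℕ) :
    (tmW x₀ x₁ j).1.length = 2 ^ j * x₀.length ∧ (tmW x₀ x₁ j).2.length = 2 ^ j * x₀.length := by
  induction j with
  | zero => simp [tmW, h]
  | succ j ih =>
    simp only [tmW, List.length_append, ih.1, ih.2]
    constructor <;> ring

theorem tmW_ne {x₀ x₁ : List Bool} (h : x₀.length = x₁.length) (hne : x₀ ≠ x₁) (j : ℕ) :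
    (tmW x₀ x₁ j).1 ≠ (tmW x₀ x₁ j).2 := by
  induction j with
  | zero => exact hne
  | succ j ih =>
    intro he
    simp only [tmW] at he
    have hl := length_tmW h j
    exact ih (List.append_inj he (hl.1.trans hl.2.symm)).1

end Crest.Agent.R300
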