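import Mathlib

/-!
# R300 (trace reconstruction), lower bound: definitions

Finitely supported signed measures on a monoid `Γ` are elements of the monoid algebra `Ms Γ`;
the product is convolution.  For `Γ = FreeMonoid Bool` the law of the deletion trace of a word is
the product of the laws of its letters (`law`).
-/

set_option autoImplicit false

namespace Crest.Agent.R300

open Finset

/-- Finitely supported signed measures on `Γ`; the product is the convolution. -/
abbrev Ms (Γ : Type) [Monoid Γ] := MonoidAlgebra ℝ Γ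

/-- Bit strings under concatenation. -/
abbrev W := FreeMonoid Bool

section
variable {Γ : Type} [Monoid Γ]

/-- The integral of `φ` against the signed measure `E`. -/
noncomputable def pr (E : Ms Γ) (φ : Γ → ℝ) : ℝ := E.coeff.sum fun w r => r * φ w

/-- Total (signed) mass. -/
noncomputable def mass (E : Ms Γ) : ℝ := pr E fun _ => 1

/-- Total variation norm. -/
noncomputable def l1 (E : Ms Γ) : ℝ := E.coeff.sum fun _ r => |r|

/-- Nonnegative measure. -/
def NN (E : Ms Γ) : Prop := ∀ w, 0 ≤ E.coeff w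

/-- Pointwise order. -/
def Le (E F : Ms Γ) : Prop := ∀ w, E.coeff w ≤ F.coeff w

/-- Probability measure. -/
def Prob (P : Ms Γ) : Prop := NN P ∧ mass P = 1

/-- The density `E / P` has `L²(P)` norm at most `σ` (dual form). -/
def L2 (E P : Ms Γ) (σ : ℝ) : Prop :=
  ∀ φ : Γ → ℝ, |pr E φ| ≤ σ * Real.sqrt (pr P fun w => φ w ^ 2)

/-- The density `E / P` is bounded by `η`. -/
def Linf (E P : Ms Γ) (η : ℝ) : Prop := ∀ w, |E.coeff w| ≤ η * P.coeff w

/-- `Linf` up to an error of total variation `τ`. -/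
def NI (E P : Ms Γ) (η τ : ℝ) : Prop := ∃ E₀, Linf E₀ P η ∧ l1 (E - E₀) ≤ τ

/-- `L2` up to an error of total variation `τ`. -/
def N2 (E P : Ms Γ) (σ τ : ℝ) : Prop := ∃ E₀, L2 E₀ P σ ∧ l1 (E - E₀) ≤ τ

/-- A Bessel family: up to errors `τ`, the densities `F i / P` satisfy
`‖∑ c i • F i‖ ≤ σ ‖c‖₂`. -/
def F2 {ι : Type} (I : Finset ι) (F : ι → Ms Γ) (P : Ms Γ) (σ τ : ℝ) : Prop :=
  ∃ E : ι → Ms Γ, (∀ i ∈ I, l1 (F i - E i) ≤ τ) ∧
    ∀ c : ι → ℝ, L2 (∑ i ∈ I, c i • E i) P (σ * Real.sqrt (∑ i ∈ I, c i ^ 2))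

/-- `P ≤ c Q` up to an error of mass `t`. -/
def Dom (P Q : Ms Γ) (c t : ℝ) : Prop :=
  ∃ P₀, NN P₀ ∧ Le P₀ P ∧ Le P₀ (c • Q) ∧ l1 (P - P₀) ≤ t

/-- `B ^ G` and `B ^ (G + 1)` overlap in mass at least `c`. -/
def Slip (B : Ms Γ) (G : ℕ) (c : ℝ) : Prop :=
  ∃ V, NN V ∧ Le V (B ^ G) ∧ Le V (B ^ (G + 1)) ∧ c ≤ mass V

/-- The lazy version `(1 + B) / 2` of `B`. -/
noncomputable def lazy (B : Ms Γ) : Ms Γ := (1 / 2 : ℝ) • (1 + B)

/-- `B ^ N` contains `a` lazy steps at its right end, and at its left end, up to mass `τ`. -/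
def Slack (B : Ms Γ) (N a : ℕ) (τ : ℝ) : Prop :=
  (∃ V t, NN V ∧ NN t ∧ B ^ N = V * lazy B ^ a + t ∧ mass t ≤ τ) ∧
  (∃ V t, NN V ∧ NN t ∧ B ^ N = lazy B ^ a * V + t ∧ mass t ≤ τ)

/-- A Markov kernel as a linear map. -/
def Markov {Γ' : Type} [Monoid Γ'] (Ψ : Ms Γ →ₗ[ℝ] Ms Γ') : Prop :=
  ∀ w, Prob (Ψ (MonoidAlgebra.single w 1))

/-- The family of shifts of `F` inside a window of `2 s` copies of `B`. -/
noncomputable def shf (B F : Ms Γ) (s : ℕ) (w : ℕ) : Ms Γ := B ^ w * F * B ^ (2 * s - w)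

/-- Thue–Morse products of two measures. -/
noncomputable def tmM (A₀ A₁ : Ms Γ) : ℕ → Ms Γ × Ms Γ
  | 0 => (A₀, A₁)
  | j + 1 => ((tmM A₀ A₁ j).1 * (tmM A₀ A₁ j).2, (tmM A₀ A₁ j).2 * (tmM A₀ A₁ j).1)

/-- The first-order odd part of the Thue–Morse products: iterated commutators with `T ^ 2 ^ j`. -/
noncomputable def omg (T o : Ms Γ) : ℕ → Ms Γ
  | 0 => o
  | j + 1 => omg T o j * T ^ 2 ^ j - T ^ 2 ^ j * omg T o j

end

/-- Symmetric binomial weights. -/
noncomputable def bin (a z : ℕ) : ℝ := (a.choose z : ℝ) / 2 ^ a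

/-- Shifted symmetric binomial weights (coefficients of `lazy B ^ a * B ^ j`). -/
noncomputable def bsh (a j z : ℕ) : ℝ := if j ≤ z then bin a (z - j) else 0

/-- General binomial weights. -/
noncomputable def bp (n : ℕ) (θ : ℝ) (j : ℕ) : ℝ := (n.choose j : ℝ) * θ ^ j * (1 - θ) ^ (n - j)

/-- The point mass at the one-letter string. -/
noncomputable def X (a : Bool) : Ms W := MonoidAlgebra.single (FreeMonoid.of a) 1

/-- The law of the trace of a single letter at deletion probability `q`. -/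
noncomputable def letter (q : ℝ) (a : Bool) : Ms W := q • (1 : Ms W) + (1 - q) • X a

/-- The law of the trace of a word at deletion probability `q`. -/
noncomputable def law (q : ℝ) (w : List Bool) : Ms W := (w.map (letter q)).prod

/-- `k` copies of a word. -/
def rep (w : List Bool) (k : ℕ) : List Bool := (List.replicate k w).flatten

/-- Thue–Morse concatenations of two words. -/
def tmW (x₀ x₁ : List Bool) : ℕ → List Bool × List Bool
  | 0 => (x₀, x₁)
  | j + 1 => ((tmW x₀ x₁ j).1 ++ (tmW x₀ x₁ j).2, (tmW x₀ x₁ j).2 ++ (tmW x₀ x₁ j).1)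

/-- The data of one stage of the construction.  `t` is the background word, `x₀ ≠ x₁` are two
perturbations of it, and `t` is itself a perturbation of `m` copies of the finer background `b`.
The odd part `o = (x₁ - x₀) / 2` and the even part `f = (x₀ + x₁) / 2 - t` form Bessel families
under shifts by up to `s` copies of `b`. -/
structure Pre (q : ℝ) (b t x₀ x₁ : List Bool) (m s GB G : ℕ)
    (cB c σo σf σg ηo ηg τ : ℝ) : Prop where
  len₀ : x₀.length = t.length
  len₁ : x₁.length = t.length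
  ne : x₀ ≠ x₁
  sm : 2 * s ≤ m
  slipB : Slip (law q b) GB cB
  slipT : Slip (law q t) G c
  odd : ∃ ot, (1 / 2 : ℝ) • (law q x₁ - law q x₀) = law q b ^ s * ot * law q b ^ s ∧ l1 ot ≤ 2 ∧
    F2 (range (2 * s + 1)) (shf (law q b) ot s) (law q b ^ m) σo τ
  even : ∃ ft, (1 / 2 : ℝ) • (law q x₀ + law q x₁) - law q t = law q b ^ s * ft * law q b ^ s ∧
    l1 ft ≤ 2 ∧ F2 (range (2 * s + 1)) (shf (law q b) ft s) (law q b ^ m) σf τ
  oddI : NI ((1 / 2 : ℝ) • (law q x₁ - law q x₀)) (law q t) ηo τ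
  evenI : NI ((1 / 2 : ℝ) • (law q x₀ + law q x₁) - law q t) (law q t) ηo τ
  g2 : N2 (law q t - law q b ^ m) (law q b ^ m) σg τ
  gI : NI (law q t - law q b ^ m) (law q b ^ m) ηg τ

/-- The number of copies of `B` that give `a` lazy steps up to mass `exp (-J)` when
`Slip B G c`. -/
noncomputable def slackN (G : ℕ) (c a J : ℝ) : ℝ := (G + 1) * (2 * (a + 1 + J) / c + 1)

/-- `E = B ^ s * E' * B ^ s + err`, where the shifts of `E'` form a Bessel family of norm `α`
relative to `B ^ D` and `err` has norm `β`. -/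
def HE {Γ : Type} [Monoid Γ] (B : Ms Γ) (s D : ℕ) (E : Ms Γ) (α β τ lam : ℝ) : Prop :=
  ∃ E' err, E = B ^ s * E' * B ^ s + err ∧ l1 E' ≤ lam ∧ mass E' = 0 ∧
    F2 (range (2 * s + 1)) (shf B E' s) (B ^ D) α τ ∧ N2 err (B ^ D) β τ

/-- Odd part of the Thue–Morse products. -/
noncomputable def tmOd {Γ : Type} [Monoid Γ] (A₀ A₁ : Ms Γ) (j : ℕ) : Ms Γ :=
  (1 / 2 : ℝ) • ((tmM A₀ A₁ j).2 - (tmM A₀ A₁ j).1)

/-- Even part of the Thue–Morse products, relative to the background `T`. -/
noncomputable def tmEv {Γ : Type} [Monoid Γ] (T A₀ A₁ : Ms Γ) (j : ℕ) : Ms Γ :=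
  (1 / 2 : ℝ) • ((tmM A₀ A₁ j).1 + (tmM A₀ A₁ j).2) - T ^ 2 ^ j

/-- Number of positions where both strings have the letter `true`. -/
def inter (h h' : List Bool) : ℕ := (List.zipWith (fun a b => a && b) h h').count true

/-- `E[κ ^ |h ∧ h'| ; |h| = |h'|]` for independent `h ∼ H`, `h' ∼ H'`. -/
noncomputable def coin (κ : ℝ) (H H' : Ms W) : ℝ :=
  pr H fun h => pr H' fun h' =>
    if h.toList.length = h'.toList.length then κ ^ inter h.toList h'.toList else 0

/-- The probability that the length is `J`. -/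
noncomputable def lenP (H : Ms W) (J : ℕ) : ℝ :=
  pr H fun h => if h.toList.length = J then 1 else 0

/-- The hidden block `Ĉ = q² + (1 - q²) X₀`. -/
noncomputable def hC (q : ℝ) : Ms W := (q ^ 2) • (1 : Ms W) + (1 - q ^ 2) • X false

/-- The hidden chain `(Ĉ ^ m D̂) ^ g` with `D̂ = q + (1 - q) X₁`. -/
noncomputable def hH (q : ℝ) (m g : ℕ) : Ms W := (hC q ^ m * letter q true) ^ g

/-- The channel that turns a hidden `false` into `true` with probability `π`. -/
noncomputable def chan (π : ℝ) : Ms W →ₐ[ℝ] Ms W :=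
  MonoidAlgebra.lift ℝ (Ms W) W
    (FreeMonoid.lift fun a => if a then X true else π • X true + (1 - π) • X false)

/-! Realize the equation lemmas of the recursive definitions once, in this module. -/
theorem tmM_eqns_realized : True := by
  have := @tmM.eq_def
  have := @tmM.eq_1
  have := @tmM.eq_2
  trivial

theorem omg_eqns_realized : True := by
  have := @omg.eq_def
  have := @omg.eq_1
  have := @omg.eq_2
  trivial

theorem tmW_eqns_realized : True := by
  have := @tmW.eq_def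
  have := @tmW.eq_1
  have := @tmW.eq_2
  trivial

end Crest.Agent.R300
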