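import Crest.Agent.R300.LGlob

/-!
# R300 lower bound: the step with the full gain (task LScaleH)
-/

set_option autoImplicit false

namespace Crest.Agent.R300

/-- The junk bookkeeping: `Z = 1000 ^ M`, `T = 2 ^ M`, `u = 1 / c₀`. -/
private structure HCtx (ε Λ Z T J u : ℝ) : Prop where
  hε : 0 < ε
  hε1 : ε ≤ 1 / 300
  hΛ : 1 ≤ Λ
  hT : 1 ≤ T
  hTZ : T * T ≤ Z
  hJ : 4 ≤ J
  hu : 2 ≤ u
  hK : 10 ^ 40 * (Z ^ 2 * J ^ 4 * u) ≤ Λ ^ (ε / 100)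

section
variable {ε Λ Z T J u : ℝ}

private lemma HCtx.TZ (h : HCtx ε Λ Z T J u) : T ≤ Z := by nlinarith [h.hT, h.hTZ]

private lemma HCtx.Z1 (h : HCtx ε Λ Z T J u) : 1 ≤ Z := h.hT.trans h.TZ

private lemma HCtx.pos (h : HCtx ε Λ Z T J u) (x : ℝ) : 0 < Λ ^ x :=
  Real.rpow_pos_of_pos (by linarith [h.hΛ]) x

private lemma HCtx.add (h : HCtx ε Λ Z T J u) (x y : ℝ) : Λ ^ (x + y) = Λ ^ x * Λ ^ y :=
  Real.rpow_add (by linarith [h.hΛ]) x y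

private lemma HCtx.mono (h : HCtx ε Λ Z T J u) {x y : ℝ} (hxy : x ≤ y) : Λ ^ x ≤ Λ ^ y :=
  Real.rpow_le_rpow_of_exponent_le h.hΛ hxy

private lemma HCtx.one_le (h : HCtx ε Λ Z T J u) {x : ℝ} (hx : 0 ≤ x) : 1 ≤ Λ ^ x :=
  Real.one_le_rpow h.hΛ hx

private lemma HCtx.le_one (h : HCtx ε Λ Z T J u) {x : ℝ} (hx : x ≤ 0) : Λ ^ x ≤ 1 :=
  Real.rpow_le_one_of_one_le_of_nonpos h.hΛ hx

/-- absorbing junk -/
private lemma HCtx.bd (h : HCtx ε Λ Z T J u) (c : ℝ) (i j k : ℕ) (α : ℝ) {a β : ℝ}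
    (ha : a ≤ c * (Z ^ i * J ^ j * u ^ k) * Λ ^ α) (hαβ : α + ε / 100 ≤ β)
    (hc : c ≤ 10 ^ 40 := by norm_num) (hi : i ≤ 2 := by norm_num) (hj : j ≤ 4 := by norm_num)
    (hk : k ≤ 1 := by norm_num) : a ≤ Λ ^ β := by
  have hZ := h.Z1
  have hJ : 1 ≤ J := by linarith [h.hJ]
  have hu : 1 ≤ u := by linarith [h.hu]
  have h1 : Z ^ i * J ^ j * u ^ k ≤ Z ^ 2 * J ^ 4 * u := by
    have a1 : Z ^ i ≤ Z ^ 2 := pow_le_pow_right₀ hZ hi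
    have a2 : J ^ j ≤ J ^ 4 := pow_le_pow_right₀ hJ hj
    have a3 : u ^ k ≤ u := (pow_le_pow_right₀ hu hk).trans_eq (pow_one u)
    gcongr
  have h2 : c * (Z ^ i * J ^ j * u ^ k) ≤ Λ ^ (ε / 100) := by
    refine le_trans ?_ h.hK
    exact mul_le_mul hc h1 (by positivity) (by norm_num)
  calc a ≤ Λ ^ (ε / 100) * Λ ^ α := ha.trans (mul_le_mul_of_nonneg_right h2 (h.pos α).le)
    _ = Λ ^ (α + ε / 100) := by rw [h.add, mul_comm]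
    _ ≤ Λ ^ β := h.mono hαβ

private lemma HCtx.bd1 (h : HCtx ε Λ Z T J u) (c : ℝ) (i j k : ℕ) (α : ℝ) {a : ℝ}
    (ha : a ≤ c * (Z ^ i * J ^ j * u ^ k) * Λ ^ α) (hαβ : α + ε / 100 ≤ 0)
    (hc : c ≤ 10 ^ 40 := by norm_num) (hi : i ≤ 2 := by norm_num) (hj : j ≤ 4 := by norm_num)
    (hk : k ≤ 1 := by norm_num) : a ≤ 1 :=
  (h.bd c i j k α ha hαβ hc hi hj hk).trans_eq (Real.rpow_zero Λ)

private lemma HCtx.MN (h : HCtx ε Λ Z T J u) {M N₀ G1 : ℝ} (hM0 : 0 ≤ M) (hM : M ≤ Z)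
    (hG : G1 ≤ Λ ^ ((2 + ε) * (1 + ε / 4)))
    (hN₀ : N₀ ≤ G1 * (2 * (40000 * J * (T * T) * Λ ^ (2 * (2 + ε) * ε / 5) + 1 + J) * u + 1) + 1) :
    2 * M * N₀ ≤ Λ ^ ((2 + ε) * (1 + 3 * ε / 4)) := by
  have hε := h.hε
  have hZ := h.Z1
  have hJ := h.hJ
  have hu := h.hu
  have hT := h.hT
  have hH : 1 ≤ Λ ^ (2 * (2 + ε) * ε / 5) := h.one_le (by positivity)
  have hg : 1 ≤ Λ ^ ((2 + ε) * (1 + ε / 4)) := h.one_le (by positivity)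
  refine h.bd 200000 2 1 1 ((2 + ε) * (1 + ε / 4) + 2 * (2 + ε) * ε / 5) ?_ (by nlinarith)
  rw [h.add]
  set H := Λ ^ (2 * (2 + ε) * ε / 5)
  set g := Λ ^ ((2 + ε) * (1 + ε / 4))
  have h1 : J * u ≤ J * Z * H * u := by
    have : 1 * 1 ≤ Z * H := mul_le_mul hZ hH zero_le_one (by linarith)
    nlinarith [mul_pos (by linarith : 0 < J) (by linarith : 0 < u)]
  have h2 : J * (T * T) * H * u ≤ J * Z * H * u := by gcongr; exact h.hTZ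
  have h3 : 2 * (40000 * J * (T * T) * H + 1 + J) * u + 2 ≤ 100000 * (J * Z * H * u) := by
    nlinarith
  have h4 : N₀ ≤ g * (100000 * (J * Z * H * u)) := by
    have a1 : 0 ≤ 2 * (40000 * J * (T * T) * H + 1 + J) * u + 1 := by positivity
    have a2 := mul_le_mul_of_nonneg_right hG a1
    have a3 := mul_le_mul_of_nonneg_left h3 (by linarith : 0 ≤ g)
    linarith
  calc 2 * M * N₀ ≤ 2 * M * (g * (100000 * (J * Z * H * u))) := by gcongr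
    _ ≤ 2 * Z * (g * (100000 * (J * Z * H * u))) := by gcongr
    _ = _ := by ring

private lemma HCtx.LR (h : HCtx ε Λ Z T J u) {m A G1 : ℝ} (hm1 : 1 ≤ m)
    (hm : m ≤ 4 * Λ ^ (1 + 3 * ε / 4)) (hG : G1 ≤ Λ ^ (1 + ε / 4)) (hA0 : 0 ≤ A)
    (hA : A ≤ 160000 * J * m ^ 2) :
    G1 * (2 * (A + 1 + J) * u + 1) + 2 * m ≤ m * Λ ^ ((2 + ε) * (1 + 3 * ε / 4)) / 2 := by
  have hε := h.hε
  have hJ := h.hJ
  have hu := h.hu
  have hg : 1 ≤ Λ ^ (1 + ε / 4) := h.one_le (by positivity)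
  have h0 : 1000000 * (J * u) * Λ ^ (1 + ε / 4) * m ≤ Λ ^ ((2 + ε) * (1 + 3 * ε / 4)) := by
    refine h.bd 4000000 0 1 1 (1 + ε / 4 + (1 + 3 * ε / 4)) ?_ (by nlinarith only [hε])
    rw [h.add (1 + ε / 4)]
    calc 1000000 * (J * u) * Λ ^ (1 + ε / 4) * m ≤
        1000000 * (J * u) * Λ ^ (1 + ε / 4) * (4 * Λ ^ (1 + 3 * ε / 4)) := by gcongr
      _ = _ := by ring
  set g := Λ ^ (1 + ε / 4)
  have hm2 : m ≤ m ^ 2 := by nlinarith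
  have hJu : 8 ≤ J * u := by nlinarith
  have h1 : J * u * 1 ≤ J * u * m ^ 2 := by gcongr; linarith
  have h2 : A * u ≤ 160000 * J * m ^ 2 * u := by gcongr
  have h3 : 2 * (A + 1 + J) * u + 1 ≤ 400000 * (J * u * m ^ 2) := by nlinarith
  have h4 : G1 * (2 * (A + 1 + J) * u + 1) ≤ g * (400000 * (J * u * m ^ 2)) :=
    mul_le_mul hG h3 (by positivity) (by linarith)
  have h5 : 1 * (8 * m) ≤ g * (J * u * m ^ 2) := by gcongr
  have h6 := mul_le_mul_of_nonneg_left h0 (by linarith : 0 ≤ m)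
  nlinarith

private lemma HCtx.sig (h : HCtx ε Λ Z T J u) {B b b' bg sQ τ ss w sN ss' ω η : ℝ} (hB : 6 ≤ B)
    (hb : 1 ≤ b) (hbg : 26 / 5 ≤ bg) (hb'0 : 0 ≤ b') (hb'B : b' ≤ B)
    (hb' : b' * (2 + ε) ^ 2 ≤ 2 * b * (2 + ε) + 1 - ε) (hsQ0 : 0 ≤ sQ) (hsQ : sQ ≤ 5 * Z)
    (hτ0 : 0 ≤ τ) (hτ : τ ≤ Λ ^ (-((2 + ε) ^ 2 * (B + 10)))) (hss0 : 0 ≤ ss)
    (hss : ss ≤ 8 * Λ ^ (2 : ℝ)) (hw1 : 1 ≤ w) (hw : Λ ^ (1 / 2 : ℝ) ≤ 10 * J * w)
    (hsN0 : 0 ≤ sN * ss') (hsN : sN * ss' ≤ 4 * Λ ^ ((2 + ε) * (1 + 3 * ε / 4)))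
    (hss' : ss' ≤ 4 * Λ ^ ((2 + ε) * (1 + 3 * ε / 4))) (hω0 : 0 ≤ ω)
    (hω : ω ≤ Λ ^ (-(19 * (2 + ε) * (B + 10)))) (hη0 : 0 ≤ η) (hη : η ≤ 1) {σ σg : ℝ}
    (hσ : σ = Λ ^ (-((2 + ε) * b / 2))) (hσg : σg = Λ ^ (-(bg / 2))) :
    2 * Z * (4 * sQ * (σ * (σ + σ ^ 2) + τ * ss) / w + 16 * σg * (σ * (σ + σ ^ 2)) * sN * ss') +
      ss' * (ω * η) ≤ Λ ^ (-((2 + ε) ^ 2 * b' / 2)) := by
  have hε := h.hε
  have hε1 := h.hε1
  have hZ := h.Z1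
  have hJ := h.hJ
  have hσ0 : 0 < σ := hσ ▸ h.pos _
  have hσg0 : 0 < σg := hσg ▸ h.pos _
  have hσ1 : σ ≤ 1 := hσ ▸ h.le_one (by nlinarith only [hε, hb])
  have hr : (2 + ε) * (1 + 3 * ε / 4) ≤ 201 / 100 := by nlinarith only [hε, hε1]
  have hσ2 : σ * (σ + σ ^ 2) ≤ 2 * Λ ^ (-((2 + ε) * b)) := by
    have e : Λ ^ (-((2 + ε) * b)) = σ * σ := by
      rw [hσ, ← h.add]
      congr 1
      ring
    rw [e]
    nlinarith only [mul_pos hσ0 hσ0, hσ1]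
  have hw' : 1 / w ≤ 10 * J * Λ ^ (-(1 / 2) : ℝ) := by
    rw [Real.rpow_neg (by linarith [h.hΛ]), ← div_eq_mul_inv,
      div_le_div_iff₀ (by linarith) (h.pos _)]
    linarith
  have hw'' : 1 / w ≤ 1 := by rw [div_le_one (by linarith)]; exact hw1
  have he : 4 ≤ (2 + ε) ^ 2 := by nlinarith only [hε]
  have a2 : 4 * (B + 10 - b' / 2) ≤ (2 + ε) ^ 2 * (B + 10 - b' / 2) :=
    mul_le_mul_of_nonneg_right he (by linarith)
  have t1 : 4 * (2 * Z * (4 * sQ * (σ * (σ + σ ^ 2)) * (1 / w))) ≤ Λ ^ (-((2 + ε) ^ 2 * b' / 2)) := by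
    refine h.bd 3200 2 1 0 (-((2 + ε) * b) + -(1 / 2)) ?_ (by linarith only [hb', hε])
    rw [h.add]
    have := h.pos (-((2 + ε) * b))
    calc 4 * (2 * Z * (4 * sQ * (σ * (σ + σ ^ 2)) * (1 / w))) ≤
        4 * (2 * Z * (4 * (5 * Z) * (2 * Λ ^ (-((2 + ε) * b))) *
          (10 * J * Λ ^ (-(1 / 2) : ℝ)))) := by gcongr
      _ = _ := by ring
  have t2 : 4 * (2 * Z * (4 * sQ * (τ * ss) * (1 / w))) ≤ Λ ^ (-((2 + ε) ^ 2 * b' / 2)) := by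
    refine h.bd 1280 2 0 0 (-((2 + ε) ^ 2 * (B + 10)) + 2) ?_
      (by linarith only [a2, hε1, hb'B, hB])
    rw [h.add]
    have := h.pos (-((2 + ε) ^ 2 * (B + 10)))
    have := h.pos 2
    calc 4 * (2 * Z * (4 * sQ * (τ * ss) * (1 / w))) ≤
        4 * (2 * Z * (4 * (5 * Z) * (Λ ^ (-((2 + ε) ^ 2 * (B + 10))) * (8 * Λ ^ (2 : ℝ))) * 1)) := by
          gcongr
      _ = _ := by ring
  have t3 : 4 * (2 * Z * (16 * σg * (σ * (σ + σ ^ 2)) * (sN * ss'))) ≤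
      Λ ^ (-((2 + ε) ^ 2 * b' / 2)) := by
    refine h.bd 1024 1 0 0 (-(bg / 2) + -((2 + ε) * b) + (2 + ε) * (1 + 3 * ε / 4)) ?_
      (by linarith only [hr, hb', hbg, hε])
    rw [h.add, h.add, ← hσg]
    have := h.pos (-((2 + ε) * b))
    calc 4 * (2 * Z * (16 * σg * (σ * (σ + σ ^ 2)) * (sN * ss'))) ≤
        4 * (2 * Z * (16 * σg * (2 * Λ ^ (-((2 + ε) * b))) *
          (4 * Λ ^ ((2 + ε) * (1 + 3 * ε / 4))))) := by gcongr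
      _ = _ := by ring
  have t4 : 4 * (ss' * (ω * η)) ≤ Λ ^ (-((2 + ε) ^ 2 * b' / 2)) := by
    have a1 : (2 + ε) ^ 2 * b' ≤ 5 * B := 
      mul_le_mul (by nlinarith only [hε, hε1]) hb'B hb'0 (by norm_num)
    refine h.bd 16 0 0 0 ((2 + ε) * (1 + 3 * ε / 4) + -(19 * (2 + ε) * (B + 10))) ?_
      (by nlinarith only [a1, hr, hε, hε1, hB])
    rw [h.add]
    have := h.pos ((2 + ε) * (1 + 3 * ε / 4))
    have := h.pos (-(19 * (2 + ε) * (B + 10)))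
    calc 4 * (ss' * (ω * η)) ≤ 4 * (4 * Λ ^ ((2 + ε) * (1 + 3 * ε / 4)) *
        (Λ ^ (-(19 * (2 + ε) * (B + 10))) * 1)) := by gcongr
      _ = _ := by ring
  have e : 2 * Z * (4 * sQ * (σ * (σ + σ ^ 2) + τ * ss) / w +
      16 * σg * (σ * (σ + σ ^ 2)) * sN * ss') + ss' * (ω * η) =
      2 * Z * (4 * sQ * (σ * (σ + σ ^ 2)) * (1 / w)) + 2 * Z * (4 * sQ * (τ * ss) * (1 / w)) +
        2 * Z * (16 * σg * (σ * (σ + σ ^ 2)) * (sN * ss')) + ss' * (ω * η) := by ring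
  rw [e]
  linarith only [t1, t2, t3, t4]

private lemma HCtx.sigg (h : HCtx ε Λ Z T J u) {B b bg' bg sQ τ ss w sN ω η : ℝ} (hB : 6 ≤ B)
    (hb : 1 ≤ b) (hbg : 26 / 5 ≤ bg) (hbg' : bg' ≤ b - ε) (hbg'B : bg' ≤ B)
    (hsQ0 : 0 ≤ sQ) (hsQ : sQ ≤ 5 * Z)
    (hτ0 : 0 ≤ τ) (hτ : τ ≤ Λ ^ (-((2 + ε) ^ 2 * (B + 10)))) (hss0 : 0 ≤ ss)
    (hss : ss ≤ 8 * Λ ^ (2 : ℝ)) (hw1 : 1 ≤ w)
    (hsN0 : 0 ≤ sN) (hsN : sN ≤ 4 * Λ ^ ((2 + ε) * (1 + 3 * ε / 4)))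
    (hω : ω ≤ Λ ^ (-(19 * (2 + ε) * (B + 10)))) (hη0 : 0 ≤ η) (hη : η ≤ 1) {σ σg : ℝ}
    (hσ : σ = Λ ^ (-((2 + ε) * b / 2))) (hσg : σg = Λ ^ (-(bg / 2))) :
    4 * Z * (4 * sQ * ((σ + σ ^ 2) + τ * ss) / w + 16 * σg * (σ + σ ^ 2) * sN) +
      ω * η ≤ Λ ^ (-((2 + ε) * bg' / 2)) := by
  have hε := h.hε
  have hε1 := h.hε1
  have hZ := h.Z1
  have hJ := h.hJ
  have hσ0 : 0 < σ := hσ ▸ h.pos _
  have hσg0 : 0 < σg := hσg ▸ h.pos _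
  have hσ1 : σ ≤ 1 := hσ ▸ h.le_one (by nlinarith only [hε, hb])
  have hr : (2 + ε) * (1 + 3 * ε / 4) ≤ 201 / 100 := by nlinarith only [hε, hε1]
  have hσ2 : σ + σ ^ 2 ≤ 2 * σ := by nlinarith only [hσ0, hσ1]
  have hw'' : 1 / w ≤ 1 := by rw [div_le_one (by linarith)]; exact hw1
  have he : 4 ≤ (2 + ε) ^ 2 := by nlinarith only [hε]
  have a0 : (2 + ε) * bg' ≤ (2 + ε) * (b - ε) := by gcongr
  have a1 : (2 + ε) * bg' ≤ 3 * B := by nlinarith only [hε, hε1, hbg'B, hB]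
  have a2 : 4 * (B + 10) ≤ (2 + ε) ^ 2 * (B + 10) := mul_le_mul_of_nonneg_right he (by linarith)
  have t1 : 4 * (4 * Z * (4 * sQ * (σ + σ ^ 2) * (1 / w))) ≤ Λ ^ (-((2 + ε) * bg' / 2)) := by
    refine h.bd 640 2 0 0 (-((2 + ε) * b / 2)) ?_ (by nlinarith only [a0, hε])
    rw [← hσ]
    calc 4 * (4 * Z * (4 * sQ * (σ + σ ^ 2) * (1 / w))) ≤
        4 * (4 * Z * (4 * (5 * Z) * (2 * σ) * 1)) := by gcongr
      _ = _ := by ring
  have t2 : 4 * (4 * Z * (4 * sQ * (τ * ss) * (1 / w))) ≤ Λ ^ (-((2 + ε) * bg' / 2)) := by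
    refine h.bd 2560 2 0 0 (-((2 + ε) ^ 2 * (B + 10)) + 2) ?_
      (by linarith only [a1, a2, hε1, hB])
    rw [h.add]
    have := h.pos (-((2 + ε) ^ 2 * (B + 10)))
    have := h.pos 2
    calc 4 * (4 * Z * (4 * sQ * (τ * ss) * (1 / w))) ≤
        4 * (4 * Z * (4 * (5 * Z) * (Λ ^ (-((2 + ε) ^ 2 * (B + 10))) * (8 * Λ ^ (2 : ℝ))) * 1)) := by
          gcongr
      _ = _ := by ring
  have t3 : 4 * (4 * Z * (16 * σg * (σ + σ ^ 2) * sN)) ≤ Λ ^ (-((2 + ε) * bg' / 2)) := by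
    refine h.bd 2048 1 0 0 (-(bg / 2) + -((2 + ε) * b / 2) + (2 + ε) * (1 + 3 * ε / 4)) ?_
      (by nlinarith only [a0, hr, hbg, hε])
    rw [h.add, h.add, ← hσg, ← hσ]
    calc 4 * (4 * Z * (16 * σg * (σ + σ ^ 2) * sN)) ≤
        4 * (4 * Z * (16 * σg * (2 * σ) * (4 * Λ ^ ((2 + ε) * (1 + 3 * ε / 4))))) := by gcongr
      _ = _ := by ring
  have t4 : 4 * (ω * η) ≤ Λ ^ (-((2 + ε) * bg' / 2)) := by
    refine h.bd 4 0 0 0 (-(19 * (2 + ε) * (B + 10))) ?_ (by nlinarith only [a1, hε, hε1, hB])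
    have := h.pos (-(19 * (2 + ε) * (B + 10)))
    calc 4 * (ω * η) ≤ 4 * (Λ ^ (-(19 * (2 + ε) * (B + 10))) * 1) := by gcongr
      _ = _ := by ring
  have e : 4 * Z * (4 * sQ * ((σ + σ ^ 2) + τ * ss) / w + 16 * σg * (σ + σ ^ 2) * sN) + ω * η =
      4 * Z * (4 * sQ * (σ + σ ^ 2) * (1 / w)) + 4 * Z * (4 * sQ * (τ * ss) * (1 / w)) +
        4 * Z * (16 * σg * (σ + σ ^ 2) * sN) + ω * η := by ring
  rw [e]
  linarith only [t1, t2, t3, t4]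

private lemma HCtx.gain (h : HCtx ε Λ Z T J u) {m a : ℝ} (hm : Λ ≤ m) (ha0 : 0 ≤ a)
    (ha : m ^ 2 / (100 * J) ≤ a + 1) :
    Λ ^ (1 / 2 : ℝ) ≤ 10 * J * Real.sqrt (Real.sqrt (a + 1)) := by
  have hJ := h.hJ
  have hΛ := h.hΛ
  refine le_of_pow_le_pow_left₀ (n := 4) (by norm_num) (by positivity) ?_
  have e1 : (Λ ^ (1 / 2 : ℝ)) ^ 4 = Λ ^ 2 := by
    rw [← Real.rpow_natCast, ← Real.rpow_mul (by linarith), ← Real.rpow_natCast]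
    norm_num
  have e2 : Real.sqrt (Real.sqrt (a + 1)) ^ 4 = a + 1 := by
    rw [show 4 = 2 * 2 from rfl, pow_mul, Real.sq_sqrt (Real.sqrt_nonneg _),
      Real.sq_sqrt (by linarith)]
  rw [e1, mul_pow, e2]
  rw [div_le_iff₀ (by positivity)] at ha
  have h1 : 100 * J ≤ (10 * J) ^ 4 := by
    have : (10 * J) ^ 2 ≤ (10 * J) ^ 4 := pow_le_pow_right₀ (by linarith) (by norm_num)
    nlinarith
  calc Λ ^ 2 ≤ m ^ 2 := by gcongr
    _ ≤ (a + 1) * (100 * J) := ha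
    _ ≤ (a + 1) * (10 * J) ^ 4 := by gcongr
    _ = _ := by ring

private lemma HCtx.omega (h : HCtx ε Λ Z T J u) {B : ℝ} {M : ℕ} (hM : 100 * (B + 10) ≤ ε * M) :
    (4 * Λ ^ (-((2 + ε) * ε / 5))) ^ M ≤ Λ ^ (-(19 * (2 + ε) * (B + 10))) := by
  have hε := h.hε
  have h1 : 4 * Λ ^ (-((2 + ε) * ε / 5)) ≤ Λ ^ (-(19 / 100 * (2 + ε) * ε)) :=
    h.bd 4 0 0 0 (-((2 + ε) * ε / 5)) (le_of_eq (by ring)) (by nlinarith)
  have := h.pos (-((2 + ε) * ε / 5))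
  calc (4 * Λ ^ (-((2 + ε) * ε / 5))) ^ M ≤ (Λ ^ (-(19 / 100 * (2 + ε) * ε))) ^ M := by gcongr
    _ = Λ ^ (-(19 / 100 * (2 + ε) * ε) * M) := by
        rw [← Real.rpow_natCast, ← Real.rpow_mul (by linarith [h.hΛ])]
    _ ≤ _ := h.mono (by nlinarith)

end

private lemma H_sqrt_le {x : ℝ} (h : 1 ≤ x) : Real.sqrt x ≤ x := by
  rw [Real.sqrt_le_left (by linarith)]
  nlinarith

private lemma H_err {τ τ' J : ℝ} {p : ℕ} (hp : 2 * J ≤ p) (hτ : Real.exp (-J) ≤ τ)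
    (hτ' : τ ≤ τ' ^ 8) : Real.sqrt (τ + Real.exp (-J) + 1 / 2 ^ p) ≤ 2 * τ' ^ 4 := by
  have h1 : 1 / (2 : ℝ) ^ p ≤ Real.exp (-J) := by
    rw [Real.exp_neg, one_div]
    refine inv_anti₀ (Real.exp_pos _) ?_
    have h2 : (2 : ℝ) ^ p = Real.exp (p * Real.log 2) := by
      rw [Real.exp_nat_mul, Real.exp_log (by norm_num)]
    rw [h2, Real.exp_le_exp]
    have h3 := Real.log_two_gt_d9
    have h4 : (0 : ℝ) ≤ p := Nat.cast_nonneg _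
    nlinarith
  rw [Real.sqrt_le_left (by positivity)]
  have h0 : 0 ≤ τ := (Real.exp_pos _).le.trans hτ
  calc τ + Real.exp (-J) + 1 / 2 ^ p ≤ 4 * τ' ^ 8 := by linarith
    _ = (2 * τ' ^ 4) ^ 2 := by ring

private lemma H_ctx {ε J η c₀ Λ₀ B Λ : ℝ} {M p : ℕ} (hG : Glob ε M J p η c₀ Λ₀ B) (hΛ : Λ₀ ≤ Λ) :
    HCtx ε Λ (1000 ^ M) (2 ^ M) J (1 / c₀) where
  hε := hG.hε
  hε1 := hG.hε1
  hΛ := hG.hΛ₀.trans hΛ
  hT := one_le_pow₀ (by norm_num)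
  hTZ := by
    rw [← mul_pow]
    exact pow_le_pow_left₀ (by norm_num) (by norm_num) M
  hJ := hG.hJ
  hu := by
    rw [le_div_iff₀ hG.hc₀]
    linarith [hG.hc₀']
  hK := by
    refine le_trans (le_of_eq ?_) (hG.junk.trans
      (Real.rpow_le_rpow (by linarith [hG.hΛ₀]) hΛ (by linarith [hG.hε])))
    rw [pow_mul']
    ring

private lemma H_eta {ε J η c₀ Λ₀ B : ℝ} {M p : ℕ} (hG : Glob ε M J p η c₀ Λ₀ B) :
    0 < η ∧ 72 * J * 1000 ^ M * η ≤ 1 := by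
  have h := H_ctx hG le_rfl
  refine ⟨hG.hη ▸ h.pos _, h.bd1 72 1 1 0 (-(1 / 10)) (le_of_eq ?_) (by linarith [hG.hε1])⟩
  rw [hG.hη]
  ring

set_option maxHeartbeats 1000000 in
/-- Let `Λ' = Λ ^ (2+ε)`, `Λ'' = Λ' ^ (2+ε)`, `σ = Λ' ^ (-b/2)`.  `Pre.step` with `θ = Λ' ^ (-ε/5)`,
`N = N₁ = ⌈Λ' ^ (1 + 3ε/4)⌉`, `s' = N / 2`, `N₀ = ⌈slackN G c₀ (40000 J 4^M / θ²) J⌉`,
`a = ⌊m² / (100 J)⌋`, `ρ = ⌈2 √(a J) + 1⌉ ≤ m / 5 + 2 ≤ m`, `Q = 4 · 2 ^ M + 1`,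
`G' = ⌈Λ' ^ (1 + ε/4) · 2 · 10⁶ J m' / c₀⌉`, `σ' = Λ'' ^ (-b'/2)`, `σg' = Λ' ^ (-bg'/2)`, `η' = η`,
`ηg' = 3 Z η`; then `Pre.mono`.  Use `2 s ≤ m`, so `m (N - s') - s ≥ m N / 4`; the gain is
`(a + 1) ^ (-1/4) ≤ (100 J) ^ (1/4) Λ ^ (-1/2)`, and
`σg √(2 N + 1) √(N + 1) ≤ 4 Λ ^ (-bg/2 + (2+ε)(1 + 3ε/4)) ≤ Λ ^ (-1/2)` as `bg ≥ 5.2`.  Every junk factor
is at most `Λ ^ (ε/100)`; `(4 θ) ^ M ≤ Λ' ^ (-19 (B + 10))`; `G' + 1 ≤ Λ' ^ (2 + ε + ε/100)`. -/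
theorem stepH {q ε J η c₀ Λ₀ B Λ L b bg b' bg' τ τ' : ℝ} {M p : ℕ} (hq : 0 ≤ q) (hq1 : q ≤ 1)
    (hG : Glob ε M J p η c₀ Λ₀ B) (hΛ : Λ₀ ≤ Λ) (hL : (Λ ^ (2 + ε)) ^ (2 + ε) ≤ L)
    (h : StG q ε M η c₀ Λ b bg τ) (hb : 1 ≤ b) (hbg : 26 / 5 ≤ bg) (hbgB : bg ≤ B)
    (hb'0 : 0 ≤ b') (hb'B : b' ≤ B) (hb' : b' * (2 + ε) ^ 2 ≤ 2 * b * (2 + ε) + 1 - ε)
    (hbg' : bg' ≤ b - ε) (hbg'' : 3 ≤ bg') (hbg'B : bg' ≤ B) (hτ : Real.exp (-J) ≤ τ)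
    (hτ' : τ ≤ τ' ^ 8) (hτ'0 : 0 ≤ τ') (hτ'L : τ' ≤ L ^ (-(B + 10))) :
    StG q ε M η c₀ (Λ ^ (2 + ε)) b' bg' τ' := by
  obtain ⟨bw, t, v, m, s, GB, G, ht, hGB, hG1, hm1, hm2, hms, hpre⟩ := h
  have hc := H_ctx hG hΛ
  obtain ⟨hη0, hη⟩ := H_eta hG
  have hε := hG.hε
  have hε1 := hG.hε1
  have hB := hG.hB
  have hJ := hG.hJ
  have hc₀ := hG.hc₀
  have hΛ1 := hc.hΛ
  have hΛ0 : 0 ≤ Λ := by linarith only [hΛ1]
  have hZ := hc.Z1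
  have hT := hc.hT
  have hTZ := hc.TZ
  have hu := hc.hu
  have hP : ∀ x, (Λ ^ (2 + ε)) ^ x = Λ ^ ((2 + ε) * x) := fun x =>
    (Real.rpow_mul (by linarith) _ _).symm
  have he : 4 ≤ (2 + ε) ^ 2 := by nlinarith only [hε]
  have hr : (2 + ε) * (1 + 3 * ε / 4) ≤ 201 / 100 := by nlinarith only [hε, hε1]
  have hr' : 2 ≤ (2 + ε) * (1 + 3 * ε / 4) := by nlinarith only [hε]
  have hM1 : 1 ≤ M := by
    rcases Nat.eq_zero_or_pos M with h0 | h0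
    · have := hG.hM
      rw [h0] at this
      simp only [Nat.cast_zero, mul_zero] at this
      linarith
    · exact h0
  have hMZ : (M : ℝ) ≤ 1000 ^ M := by
    have : M < 1000 ^ M := Nat.lt_pow_self (by norm_num)
    exact_mod_cast this.le
  have hτ0 : 0 ≤ τ := (Real.exp_pos _).le.trans hτ
  have hτ'Λ : τ' ≤ Λ ^ (-((2 + ε) ^ 2 * (B + 10))) := by
    refine hτ'L.trans ((Real.rpow_le_rpow_of_nonpos (Real.rpow_pos_of_pos (hc.pos _) _) hL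
      (by linarith)).trans (le_of_eq ?_))
    rw [hP, ← Real.rpow_mul (by linarith)]
    congr 1
    ring
  have hτe : 64 ≤ (2 + ε) ^ 2 * (B + 10) := by nlinarith only [he, hB]
  have hτe' : 4 * B + 40 ≤ (2 + ε) ^ 2 * (B + 10) := by nlinarith only [he, hB]
  have hτ'1 : τ' ≤ 1 := hτ'Λ.trans (hc.le_one (by linarith only [hτe]))
  have hττ : τ ≤ τ' := hτ'.trans (pow_le_of_le_one hτ'0 hτ'1 (by norm_num))
  have hτΛ := hττ.trans hτ'Λ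
  have hZη : 6 * 1000 ^ M * η ≤ 1 := by
    refine le_trans ?_ hη
    have : 0 ≤ (1000 : ℝ) ^ M * η := by positivity
    nlinarith only [this, hJ]
  have hη1 : η ≤ 1 := by nlinarith only [hZη, hZ, hη0]
  have hsm : 2 * s ≤ m := hpre.sm
  have hsm' : 2 * (s : ℝ) ≤ m := by exact_mod_cast hsm
  have hΛm : Λ ≤ m := by
    refine le_trans ?_ hm1
    simpa using hc.mono (x := 1) (y := 1 + 3 * ε / 4) (by linarith)
  have hΛ3 : 3 ≤ Λ := by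
    simpa using hc.bd (a := 3) (β := 1) 3 0 0 0 0 (by simp) (by linarith)
  have hm3 : (3 : ℝ) ≤ m := hΛ3.trans hΛm
  set R : ℝ := Λ ^ ((2 + ε) * (1 + 3 * ε / 4)) with hR
  have hTR : 2 * 2 ^ M ≤ R := hc.bd 2 1 0 0 0 (by simp; linarith only [hTZ]) (by linarith only [hr', hε1])
  have hR1 : 1 ≤ R := by linarith only [hTR, hT]
  obtain ⟨N, hN1, hN2⟩ : ∃ N : ℕ, R ≤ N ∧ (N : ℝ) ≤ R + 1 :=
    ⟨⌈R⌉₊, Nat.le_ceil _, (Nat.ceil_lt_add_one (by linarith only [hR1])).le⟩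
  have hm' : 2 * (N : ℝ) + 2 ^ M ≤ 4 * R := by linarith only [hN2, hTR, hT]
  have hm'1 : 1 ≤ 2 * (N : ℝ) + 2 ^ M := by linarith only [hN1, hR1, hT]
  have hs'1 : 2 * ((N / 2 : ℕ) : ℝ) ≤ N := by exact_mod_cast Nat.mul_div_le N 2
  have hs'2 : (N : ℝ) ≤ 2 * ((N / 2 : ℕ) : ℝ) + 1 := by
    have : N ≤ 2 * (N / 2) + 1 := by omega
    exact_mod_cast this
  set θ : ℝ := Λ ^ (-((2 + ε) * ε / 5)) with hθ
  have hθ0 : 0 < θ := hc.pos _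
  have hω := hc.omega hG.hM
  have hω4 : 4 * (4 * θ) ^ M ≤ 1 := by
    refine hc.bd1 4 0 0 0 (-(19 * (2 + ε) * (B + 10))) ?_ (by nlinarith only [hε, hε1, hB])
    simpa using hω
  obtain ⟨N₀, hN₀1, hN₀2⟩ : ∃ N₀ : ℕ, slackN G c₀ (40000 * J * 4 ^ M / θ ^ 2) J ≤ N₀ ∧
      (N₀ : ℝ) ≤ slackN G c₀ (40000 * J * 4 ^ M / θ ^ 2) J + 1 :=
    ⟨⌈slackN G c₀ (40000 * J * 4 ^ M / θ ^ 2) J⌉₊, Nat.le_ceil _,
      (Nat.ceil_lt_add_one (by unfold slackN; positivity)).le⟩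
  obtain ⟨a, ha1, ha2⟩ : ∃ a : ℕ, (a : ℝ) ≤ m ^ 2 / (100 * J) ∧ m ^ 2 / (100 * J) ≤ (a : ℝ) + 1 :=
    ⟨⌊(m : ℝ) ^ 2 / (100 * J)⌋₊, Nat.floor_le (by positivity), (Nat.lt_floor_add_one _).le⟩
  have ha3 : (a : ℝ) * J ≤ (m / 10) ^ 2 := by
    rw [le_div_iff₀ (by positivity)] at ha1
    linarith only [ha1]
  obtain ⟨ρ, hρ1, hρ2⟩ : ∃ ρ : ℕ, 2 * Real.sqrt (a * J) + 1 ≤ ρ ∧ (ρ : ℝ) ≤ m := by
    refine ⟨⌈2 * Real.sqrt (a * J) + 1⌉₊, Nat.le_ceil _, ?_⟩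
    have h1 := Nat.ceil_lt_add_one (show 0 ≤ 2 * Real.sqrt (a * J) + 1 by positivity)
    have h2 : Real.sqrt (a * J) ≤ m / 10 := (Real.sqrt_le_left (by positivity)).2 ha3
    linarith only [h1, h2, hm3]
  set g : ℝ := Λ ^ ((2 + ε) * (1 + ε / 4)) with hg
  have hg1 : 1 ≤ g := hc.one_le (by positivity)
  rw [hP] at hG1
  obtain ⟨G', hG'1, hG'2⟩ : ∃ G' : ℕ, g * (2000000 * J * (2 * N + 2 ^ M) * (1 / c₀)) ≤ G' ∧
      (G' : ℝ) ≤ g * (2000000 * J * (2 * N + 2 ^ M) * (1 / c₀)) + 1 :=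
    ⟨⌈g * (2000000 * J * (2 * N + 2 ^ M) * (1 / c₀))⌉₊, Nat.le_ceil _,
      (Nat.ceil_lt_add_one (by positivity)).le⟩
  have hG'3 : (G' : ℝ) + 1 ≤ 10000000 * (J * (1 / c₀)) * Λ ^ ((2 + ε) * (2 + ε)) := by
    have e : Λ ^ ((2 + ε) * (2 + ε)) = g * R := by
      rw [hg, hR, ← hc.add]
      congr 1
      ring
    have h1 : g * (2000000 * J * (2 * N + 2 ^ M) * (1 / c₀)) ≤
        g * (2000000 * J * (4 * R) * (1 / c₀)) := by gcongr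
    have h3 : 1 ≤ J := by linarith only [hJ]
    have h4 : 1 ≤ 1 / c₀ := by linarith only [hu]
    have h2 : 1 * 1 * (1 * 1) ≤ J * (1 / c₀) * (g * R) := by gcongr
    rw [e]
    linarith only [h1, h2, hG'2]
  have hD : (m : ℝ) * R / 2 ≤ ((m * (N - N / 2) + s : ℕ) : ℝ) := by
    rw [Nat.cast_add, Nat.cast_mul, Nat.cast_sub (Nat.div_le_self _ _)]
    have h1 : (m : ℝ) * (R / 2) ≤ m * (N - ((N / 2 : ℕ) : ℝ)) :=
      mul_le_mul_of_nonneg_left (by linarith only [hs'1, hN1]) (Nat.cast_nonneg _)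
    have h2 : (0 : ℝ) ≤ s := Nat.cast_nonneg _
    linarith only [h1, h2]
  have hslack : ∀ (G : ℕ) (A : ℝ), slackN G c₀ A J =
      ((G : ℝ) + 1) * (2 * (A + 1 + J) * (1 / c₀) + 1) := fun G A => by
    unfold slackN
    ring
  have hσ : (Λ ^ (2 + ε)) ^ (-(b / 2)) = Λ ^ (-((2 + ε) * b / 2)) := by
    rw [hP]
    congr 1
    ring
  have hσ' : ((Λ ^ (2 + ε)) ^ (2 + ε)) ^ (-(b' / 2)) = Λ ^ (-((2 + ε) ^ 2 * b' / 2)) := by
    rw [hP, ← Real.rpow_mul hΛ0]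
    congr 1
    ring
  have hσg' : (Λ ^ (2 + ε)) ^ (-(bg' / 2)) = Λ ^ (-((2 + ε) * bg' / 2)) := by
    rw [hP]
    congr 1
    ring
  have hQ : Real.sqrt ((4 * 2 ^ M + 1 : ℕ) : ℝ) ≤ 5 * 1000 ^ M := by
    push_cast
    exact (H_sqrt_le (by linarith only [hT])).trans (by linarith only [hTZ, hZ])
  have hss : Real.sqrt (2 * s + 1) ≤ 8 * Λ ^ (2 : ℝ) := by
    have h1 : Λ ^ (1 + 3 * ε / 4) ≤ Λ ^ (2 : ℝ) := hc.mono (by linarith only [hε1])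
    have h2 : (0 : ℝ) ≤ s := Nat.cast_nonneg _
    exact (H_sqrt_le (by linarith only [h2])).trans (by linarith only [h1, hm2, hm3, hsm'])
  have hw1 : 1 ≤ Real.sqrt (Real.sqrt (a + 1)) :=
    Real.one_le_sqrt.2 (Real.one_le_sqrt.2 (by linarith only [(Nat.cast_nonneg a : (0 : ℝ) ≤ a)]))
  have hsN : Real.sqrt (2 * N + 1) ≤ 4 * R :=
    (H_sqrt_le (by linarith only [hN1, hR1])).trans (by linarith only [hm', hT])
  have hsN' : Real.sqrt (2 * ((N / 2 : ℕ) : ℝ) + 1) ≤ Real.sqrt (2 * N + 1) :=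
    Real.sqrt_le_sqrt (by linarith only [hs'1, hN1, hR1])
  have hsNN : Real.sqrt (2 * N + 1) * Real.sqrt (2 * ((N / 2 : ℕ) : ℝ) + 1) ≤ 4 * R := by
    refine (mul_le_mul_of_nonneg_left hsN' (Real.sqrt_nonneg _)).trans ?_
    rw [Real.mul_self_sqrt (by linarith only [hN1, hR1])]
    linarith only [hm', hT]
  have hZσ : 1000 ^ M * Λ ^ (-((2 + ε) * b / 2)) ≤ 1 :=
    hc.bd1 1 1 0 0 (-((2 + ε) * b / 2)) (le_of_eq (by ring)) (by nlinarith only [hε, hε1, hb])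
  have hp' := hG.hp'
  have hp0 : (0 : ℝ) ≤ p := Nat.cast_nonneg _
  have hbg'e : 6 + 3 * ε ≤ (2 + ε) * bg' := by nlinarith only [hε, hbg'']
  have hbg'e' : (2 + ε) * bg' ≤ 3 * B := by nlinarith only [hε, hε1, hbg'', hbg'B]
  have hee : (2 + ε) * (2 + ε) ≤ 5 := by nlinarith only [hε, hε1]
  rw [hσ] at hpre
  have hn : StepNum m s GB G c₀ c₀ (Λ ^ (-((2 + ε) * b / 2))) (Λ ^ (-((2 + ε) * b / 2)))
      (Λ ^ (-(bg / 2))) η (3 * 1000 ^ M * η) τ M N₀ N N (N / 2) a ρ p (4 * 2 ^ M + 1) G' J θ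
      (Λ ^ (-((2 + ε) ^ 2 * b' / 2))) (Λ ^ (-((2 + ε) * bg' / 2))) η (3 * 1000 ^ M * η) τ' :=
    { hM := hM1
      hJ := hJ
      hθ := hθ0
      hθ1 := by
        have : 4 * θ ≤ 1 := hc.bd1 4 0 0 0 (-((2 + ε) * ε / 5)) (le_of_eq (by rw [hθ]; ring))
          (by nlinarith only [hε])
        linarith only [this]
      hp := by
        have : (2 : ℝ) ≤ p := by linarith only [hG.hp, hJ]
        exact_mod_cast this
      hcB := hc₀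
      hc := hc₀
      hσo := (hc.pos _).le
      hσf := (hc.pos _).le
      hηo := hη0.le
      hηg := by positivity
      hτ := hτ0
      hτg := hτΛ.trans (hc.mono (by linarith only [hτe', hbgB, hB]))
      hZo := hZσ
      hZf := hZσ
      hZg := hc.bd1 1 1 0 0 (-(bg / 2)) (le_of_eq (by ring)) (by linarith only [hbg, hε1])
      hZη := hZη
      hN₀ := hN₀1
      hMN := by
        have h1 : 2 * (M : ℝ) * N₀ ≤ R := by
          refine hc.MN (Nat.cast_nonneg _) hMZ hG1 (hN₀2.trans (le_of_eq ?_))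
          have e : Λ ^ (2 * (2 + ε) * ε / 5) = 1 / θ ^ 2 := by
            rw [hθ, sq, ← hc.add, one_div, ← Real.rpow_neg hΛ0]
            congr 1
            ring
          rw [hslack, e, ← mul_pow, show (2 : ℝ) * 2 = 4 by norm_num, mul_one_div (40000 * J * 4 ^ M)]
        have h2 : 2 * M * N₀ ≤ N := by exact_mod_cast h1.trans hN1
        have h3 : 2 * (M * N₀) ≤ N := by rwa [← mul_assoc]
        omega
      hN₁ := le_rfl
      hs' := Nat.div_le_self _ _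
      hQ := by omega
      hQD := by
        have := Nat.mul_le_mul_right (2 ^ M) hms
        nlinarith only [this]
      hL := by
        refine le_trans ?_ hD
        have h1 : (a : ℝ) ≤ 160000 * J * m ^ 2 := by
          have h2 : (a : ℝ) * 1 ≤ a * J :=
            mul_le_mul_of_nonneg_left (by linarith only [hJ]) (Nat.cast_nonneg _)
          have h3 : 1 * (m : ℝ) ^ 2 ≤ 160000 * J * m ^ 2 :=
            mul_le_mul_of_nonneg_right (by linarith only [hJ]) (sq_nonneg _)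
          nlinarith only [h2, h3, ha3, sq_nonneg (m : ℝ)]
        have := hc.LR (by linarith only [hm3]) hm2 hGB (Nat.cast_nonneg a) h1
        rw [hslack]
        linarith only [this, hm3]
      hR := by
        refine le_trans ?_ hD
        have := hc.LR (A := 160000 * J * (ρ : ℝ) ^ 2) (by linarith only [hm3]) hm2 hGB
          (by positivity) (by gcongr)
        rw [hslack]
        linarith only [this, hρ2, hsm']
      hρ := hρ1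
      hm := Or.inr (by exact_mod_cast hρ2)
      hpη := by
        have : (p : ℝ) * (3 * 1000 ^ M * η) ≤ 3 * J * (3 * 1000 ^ M * η) := by gcongr
        linarith only [this, hη]
      hpσ := by
        refine hc.bd1 36 0 2 0 ((2 + ε) * (1 + 3 * ε / 4) + (-(bg / 2) + -(bg / 2))) ?_
          (by linarith only [hr, hbg, hε1])
        rw [hc.add, hc.add, ← hR, ← sq]
        calc (p : ℝ) ^ 2 * (2 * N + 2 ^ M) * (Λ ^ (-(bg / 2))) ^ 2 ≤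
            (3 * J) ^ 2 * (4 * R) * (Λ ^ (-(bg / 2))) ^ 2 := by gcongr
          _ = _ := by ring
      hpτ := by
        have : 3 * ((p : ℝ) * (2 * N + 2 ^ M) * τ) ≤ 1 := by
          refine hc.bd1 36 0 1 0 ((2 + ε) * (1 + 3 * ε / 4) + -((2 + ε) ^ 2 * (B + 10))) ?_
            (by linarith only [hr, hτe, hε1])
          rw [hc.add, ← hR]
          calc 3 * ((p : ℝ) * (2 * N + 2 ^ M) * τ) ≤
              3 * (3 * J * (4 * R) * Λ ^ (-((2 + ε) ^ 2 * (B + 10)))) := by gcongr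
            _ = _ := by ring
        linarith only [this]
      hσ' := hc.sig hB hb hbg hb'0 hb'B hb' (Real.sqrt_nonneg _) hQ hτ0 hτΛ (Real.sqrt_nonneg _) hss
        hw1 (hc.gain hΛm (Nat.cast_nonneg _) ha2) (by positivity) hsNN (hsN'.trans hsN) (by positivity) hω hη0.le
        hη1 rfl rfl
      hσg' := hc.sigg hB hb hbg hbg' hbg'B (Real.sqrt_nonneg _) hQ hτ0 hτΛ (Real.sqrt_nonneg _) hss
        hw1 (Real.sqrt_nonneg _) hsN hω hη0.le hη1 rfl rfl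
      hσ'1 := hc.le_one (by nlinarith only [he, hb'0])
      hη' := by
        have h1 := mul_le_mul_of_nonneg_right hZη hη0.le
        have h2 := mul_le_mul_of_nonneg_right hω4 hη0.le
        nlinarith only [h1, h2, hη0]
      hηg' := le_rfl
      hτ' := by
        have h1 := H_err hG.hp hτ hτ'
        have h2 : τ' ^ 4 ≤ τ' * τ' := by
          rw [← sq]
          exact pow_le_pow_of_le_one hτ'0 hτ'1 (by norm_num)
        have h3 : 10000 * 1000 ^ M * (4 * R) * (2 * τ') ≤ 1 := by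
          refine hc.bd1 80000 1 0 0 ((2 + ε) * (1 + 3 * ε / 4) + -((2 + ε) ^ 2 * (B + 10))) ?_
            (by linarith only [hr, hτe, hε1])
          rw [hc.add, ← hR]
          calc 10000 * 1000 ^ M * (4 * R) * (2 * τ') ≤
              10000 * 1000 ^ M * (4 * R) * (2 * Λ ^ (-((2 + ε) ^ 2 * (B + 10)))) := by gcongr
            _ = _ := by ring
        calc 10000 * 1000 ^ M * (2 * (N : ℝ) + 2 ^ M) *
              Real.sqrt (τ + Real.exp (-J) + 1 / 2 ^ p) ≤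
            10000 * 1000 ^ M * (4 * R) * (2 * (τ' * τ')) := by
              gcongr
              exact h1.trans (by linarith only [h2])
          _ = 10000 * 1000 ^ M * (4 * R) * (2 * τ') * τ' := by ring
          _ ≤ 1 * τ' := by gcongr
          _ = τ' := one_mul _
      hτ'g := hτ'Λ.trans (hc.mono (by linarith only [hτe', hbg'e', hB]))
      hG'σ := by
        refine hc.bd1 10240000000 0 1 1 ((2 + ε) * (2 + ε) +
          (-((2 + ε) * bg' / 2) + -((2 + ε) * bg' / 2))) ?_ (by linarith only [hee, hbg'e, hε, hε1])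
        rw [hc.add, hc.add, ← sq (Λ ^ (-((2 + ε) * bg' / 2)))]
        calc 1024 * ((G' : ℝ) + 1) * (Λ ^ (-((2 + ε) * bg' / 2))) ^ 2 ≤
            1024 * (10000000 * (J * (1 / c₀)) * Λ ^ ((2 + ε) * (2 + ε))) *
              (Λ ^ (-((2 + ε) * bg' / 2))) ^ 2 := by gcongr
          _ = _ := by ring
      hG'τ := by
        refine hc.bd1 320000000 0 1 1 ((2 + ε) * (2 + ε) + -((2 + ε) ^ 2 * (B + 10))) ?_
          (by linarith only [hee, hτe, hε1])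
        rw [hc.add]
        have := hc.pos ((2 + ε) * (2 + ε))
        calc 32 * ((G' : ℝ) + 1) * τ' ≤
            32 * (10000000 * (J * (1 / c₀)) * Λ ^ ((2 + ε) * (2 + ε))) *
              Λ ^ (-((2 + ε) ^ 2 * (B + 10))) := by gcongr
          _ = _ := by ring
      hG' := by
        rw [hslack]
        push_cast
        set m' : ℝ := 2 * (N : ℝ) + 2 ^ M
        set u : ℝ := 1 / c₀
        have h1 : J * u * 1 ≤ J * u * m' ^ 2 := by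
          gcongr
          exact one_le_pow₀ hm'1
        have h2 : 2 * (640000 * J * m' ^ 2 + 1 + J) * u + 1 ≤ 2000000 * (J * u * m' ^ 2) := by
          nlinarith only [h1, hJ, hu]
        calc ((G : ℝ) + 1) * (2 * (640000 * J * m' ^ 2 + 1 + J) * u + 1) ≤
            g * (2000000 * (J * u * m' ^ 2)) := by gcongr
          _ = m' * (g * (2000000 * J * m' * u)) := by ring
          _ ≤ m' * G' := by gcongr }
  obtain ⟨t', v', hlen, hpre'⟩ := hpre.step hq hq1 hn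
  refine ⟨t, t', v', 2 * N + 2 ^ M, N / 2, G, G', ?_, by rwa [hP], ?_, ?_, ?_, ?_, ?_⟩
  · rw [hlen, hP]
    push_cast
    refine hc.bd 4 0 0 0 ((2 + ε) * (1 + 3 * ε / 4) + (2 + ε)) ?_ (by nlinarith only [hε])
    rw [hc.add, ← hR]
    calc (2 * (N : ℝ) + 2 ^ M) * t.length ≤ 4 * R * Λ ^ (2 + ε) := by gcongr
      _ = _ := by ring
  · rw [hP, ← Real.rpow_mul hΛ0]
    refine hc.bd 10000000 0 1 1 ((2 + ε) * (2 + ε)) (hG'3.trans (le_of_eq (by ring))) ?_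
    nlinarith only [hε, mul_pos hε hε, mul_pos hε (mul_pos hε hε)]
  · rw [hP]
    push_cast
    linarith only [hN1, hR1, hT]
  · rw [hP]
    push_cast
    exact hm'
  · have h1 : (2 : ℝ) ^ M ≤ N := by linarith only [hN1, hTR, hT]
    have h2 : 2 ^ M ≤ N := by exact_mod_cast h1
    omega
  · rw [hσ', hσg']
    exact hpre'.mono hq hq1 le_rfl hG.hc₀' le_rfl le_rfl le_rfl le_rfl le_rfl le_rfl

end Crest.Agent.R300
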