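import Crest.Agent.R300.LScaleLAux1

/-!
# R300 lower bound: the step with the small gain (task LScaleL)
-/

set_option autoImplicit false

namespace Crest.Agent.R300

set_option maxHeartbeats 800000 in
open ScaleL in
private theorem num {ε J η c₀ B Λ κ b bg b' τ τ' : ℝ} {M p m s GB G : ℕ}
    (hκ : κ = 2 + ε) (hε : 0 < ε) (hε1 : ε ≤ 1 / 300) (hB : 6 ≤ B)
    (hM : 100 * (B + 10) ≤ ε * M) (hJ : 4 ≤ J) (hp : 2 * J ≤ p) (hp' : (p : ℝ) ≤ 3 * J)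
    (hc : 0 < c₀) (hc1 : c₀ ≤ 1) (hΛ : 1 ≤ Λ)
    (hK : 10 ^ 40 * ((1000 : ℝ) ^ M * 1000 ^ M) * (J * J) * c₀⁻¹ ≤ Λ ^ (ε / 100))
    (hη0 : 0 ≤ η) (hη : 10 ^ 40 * ((1000 : ℝ) ^ M * 1000 ^ M) * (J * J) * c₀⁻¹ * η ≤ 1)
    (hGB : (GB : ℝ) + 1 ≤ Λ ^ (1 + ε / 4)) (hG : (G : ℝ) + 1 ≤ Λ ^ (κ * (1 + ε / 4)))
    (hm : Λ ^ (1 + 3 * ε / 4) ≤ m) (hm' : (m : ℝ) ≤ 4 * Λ ^ (1 + 3 * ε / 4))
    (hms : m ≤ 4 * (2 * s + 1)) (hsm : 2 * s ≤ m)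
    (hb : 1 ≤ b) (hbB : b ≤ B) (hbg : 2 ≤ bg) (hbgB : bg ≤ B)
    (hslip : 4 + 5 * ε ≤ b * κ + 1 / 2) (hb'0 : 0 ≤ b')
    (hb' : b' * κ ^ 2 ≤ 2 * b * κ + 1 / 2 - ε) (hτ : Real.exp (-J) ≤ τ)
    (hτ' : τ ≤ τ' ^ 8) (hτ'0 : 0 ≤ τ') (hτ'L : τ' ≤ Λ ^ (-(κ * κ * (B + 10))))
    {N G' : ℕ} (hN : N = ⌈Λ ^ (κ * (1 + 3 * ε / 4))⌉₊)
    (hG' : G' = ⌈Λ ^ (κ * (1 + ε / 4)) * (2000000 * J * (2 * (N : ℝ) + 2 ^ M) * c₀⁻¹)⌉₊) :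
    StepNum m s GB G c₀ c₀ (Λ ^ (-(κ * b / 2))) (Λ ^ (-(κ * b / 2))) (Λ ^ (-(bg / 2))) η
      (3 * 1000 ^ M * η) τ M ⌈slackN G c₀ (40000 * J * 4 ^ M / (Λ ^ (-(κ * ε / 5))) ^ 2) J⌉₊ N
      ⌈Λ⌉₊ 0 ⌈Λ⌉₊ ⌈2 * Real.sqrt ((⌈Λ⌉₊ : ℝ) * J) + 1⌉₊ p (4 * 2 ^ M + 1) G' J
      (Λ ^ (-(κ * ε / 5))) (Λ ^ (-(κ * κ * b' / 2)) / 2) (Λ ^ (-(κ * b / 2) - 1 / 4 + ε / 50)) η
      (3 * 1000 ^ M * η) (τ' ^ 2 / 4) ∧
    (2 * (N : ℝ) + 2 ^ M) * Λ ^ κ ≤ Λ ^ (κ * κ) ∧ (G' : ℝ) + 1 ≤ Λ ^ (κ * κ * (1 + ε / 4)) ∧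
    3 * 1000 ^ M * η ≤ 1 / 2 := by
  have h0 : 0 < Λ := by linarith
  have hP : ∀ e : ℝ, 0 < Λ ^ e := Real.rpow_pos_of_pos h0
  have hκ2 : 2 ≤ κ := by linarith
  have hκκ : 2 * κ ≤ κ * κ := by nlinarith
  have hκB : 2 * κ * (B + 10) ≤ κ * κ * (B + 10) := by gcongr
  have hκb : κ * b ≤ κ * B := by gcongr
  have hκb1 : κ ≤ κ * b := le_mul_of_one_le_right (by linarith) hb
  have hκB2 : 2 * B ≤ κ * B := by gcongr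
  have hκε : 2 * ε ≤ κ * ε := by gcongr
  have h2Z := two_pow_le M
  have h4Z := four_pow_le M
  have hMZ := self_le M
  have hZ1 : (1 : ℝ) ≤ 1000 ^ M := one_le_pow₀ (by norm_num)
  have h21 : (1 : ℝ) ≤ 2 ^ M := one_le_pow₀ (by norm_num)
  generalize hZ : (1000 : ℝ) ^ M = Z at *
  have hu : 1 ≤ c₀⁻¹ := one_le_inv_iff₀.2 ⟨hc, hc1⟩
  have hJ1 : 1 ≤ J := by linarith
  have hZ0 : 0 ≤ Z := zero_le_one.trans hZ1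
  have hJ0 : 0 ≤ J := zero_le_one.trans hJ1
  have hZZ : Z ≤ Z * Z := le_mul_of_one_le_right hZ0 hZ1
  have hJJ : J ≤ J * J := le_mul_of_one_le_right hJ0 hJ1
  have hZZ1 := hZ1.trans hZZ
  have hJJ1 := hJ1.trans hJJ
  have hZZ0 := hZ0.trans hZZ
  have hJJ0 := hJ0.trans hJJ
  have jk : ∀ {C x y : ℝ}, C ≤ 10 ^ 40 → 0 ≤ x → x ≤ Z * Z → 0 ≤ y → y ≤ J * J →
      C * x * y ≤ Λ ^ (ε / 100) := fun {C x y} h1 h2 h3 h4 h5 => by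
    have := junk hK h1 h2 h3 h4 h5 zero_le_one hu
    rwa [mul_one] at this
  have jη : ∀ {C x y : ℝ}, C ≤ 10 ^ 40 → 0 ≤ x → x ≤ Z * Z → 0 ≤ y → y ≤ J * J →
      C * x * y * η ≤ 1 := fun {C x y} h1 h2 h3 h4 h5 => by
    have := junk le_rfl h1 h2 h3 h4 h5 zero_le_one hu
    rw [mul_one] at this
    exact (mul_le_mul_of_nonneg_right this hη0).trans hη
  have hZK : Z ≤ Λ ^ (ε / 100) := by
    have := jk (C := 1) (x := Z) (y := 1) (by norm_num) hZ0 hZZ zero_le_one hJJ1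
    linarith only [this]
  have h5K : 5 ≤ Λ ^ (ε / 100) := by
    have := jk (C := 5) (x := 1) (y := 1) (by norm_num) zero_le_one hZZ1 zero_le_one hJJ1
    linarith only [this]
  have hZη : 8 * Z * η ≤ 1 := by
    have := jη (C := 8) (x := Z) (y := 1) (by norm_num) hZ0 hZZ zero_le_one hJJ1
    linarith only [this]
  have hZη0 : 0 ≤ Z * η := by positivity
  have hη1 : η ≤ 1 := by
    have : η ≤ Z * η := le_mul_of_one_le_left hη0 hZ1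
    linarith only [this, hZη, hZη0]
  have hτ0 : 0 ≤ τ := (Real.exp_pos _).le.trans hτ
  have hτ'1 : τ' ≤ 1 := hτ'L.trans (Pone hΛ (by linarith only [hκ, hε, hε1, hB, hb, hbB, hbg, hbgB, hκ2, hκκ, hκB, hκb, hκb1, hκB2, hκε]))
  have hττ : τ ≤ τ' := hτ'.trans (pow_le_of_le_one hτ'0 hτ'1 (by norm_num))
  have hτL := hττ.trans hτ'L
  have hτ2 : τ' ^ 2 ≤ τ' := pow_le_of_le_one hτ'0 hτ'1 (by norm_num)
  have ha1 : Λ ≤ (⌈Λ⌉₊ : ℝ) := Nat.le_ceil Λ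
  have ha2 : (⌈Λ⌉₊ : ℝ) ≤ 2 * Λ := ceil_le_two hΛ
  have hρ := rho_sq hΛ hJ1
  have hρ0 := Nat.le_ceil (2 * Real.sqrt ((⌈Λ⌉₊ : ℝ) * J) + 1)
  have hρ1 : (1 : ℝ) ≤ (⌈2 * Real.sqrt ((⌈Λ⌉₊ : ℝ) * J) + 1⌉₊ : ℕ) := by
    have := Real.sqrt_nonneg ((⌈Λ⌉₊ : ℝ) * J)
    linarith only [this, hρ0]
  have hθM := theta_pow hΛ hκ2 (by linarith only [hB] : 0 ≤ B) hM (by linarith only [h5K])
  have hθM0 : 0 ≤ (4 * Λ ^ (-(κ * ε / 5))) ^ M := by have := hP (-(κ * ε / 5)); positivity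
  have hθη : (4 * Λ ^ (-(κ * ε / 5))) ^ M * η ≤ Λ ^ (-(κ * (B + 10))) :=
    (mul_le_of_le_one_right hθM0 hη1).trans hθM
  have hθ4 : (4 * Λ ^ (-(κ * ε / 5))) ^ M * 5 ≤ 1 :=
    mul1 hΛ hθM (by norm_num) h5K
      (by linarith only [hκ, hε, hε1, hB, hb, hbB, hbg, hbgB, hκ2, hκκ, hκB, hκb, hκb1, hκB2, hκε])
  have hN1 : Λ ^ (κ * (1 + 3 * ε / 4)) ≤ N := by rw [hN]; exact Nat.le_ceil _
  have hPN : 1 ≤ Λ ^ (κ * (1 + 3 * ε / 4)) := oneP hΛ (by positivity)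
  have hN2 : (N : ℝ) ≤ 2 * Λ ^ (κ * (1 + 3 * ε / 4)) := by rw [hN]; exact ceil_le_two hPN
  have hm'1 : 1 ≤ 2 * (N : ℝ) + 2 ^ M := by linarith only [hN1, hPN, h21]
  have hm'2 : 2 * (N : ℝ) + 2 ^ M ≤ 5 * Z * Λ ^ (κ * (1 + 3 * ε / 4)) := by
    have h1 : Λ ^ (κ * (1 + 3 * ε / 4)) ≤ Z * Λ ^ (κ * (1 + 3 * ε / 4)) :=
      le_mul_of_one_le_left (hP _).le hZ1
    have h2 : Z ≤ Z * Λ ^ (κ * (1 + 3 * ε / 4)) := le_mul_of_one_le_right hZ0 hPN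
    linarith only [h1, h2, hN2, h2Z]
  have hX : 2 * (⌈Λ⌉₊ : ℝ) + 2 ^ M ≤ 5 * Z * Λ := by
    have h1 : Λ ≤ Z * Λ := le_mul_of_one_le_left h0.le hZ1
    have h2 : Z ≤ Z * Λ := le_mul_of_one_le_right hZ0 hΛ
    linarith only [h1, h2, ha2, h2Z]
  have hΛ1 : Λ ≤ Λ ^ (1 : ℝ) := (Real.rpow_one Λ).ge
  have hG'K := fG' hΛ hε hκ hZ1 hJ1 hc hc1 hK hm'1 hm'2
  rw [← hG'] at hG'K
  have hG'0 : (0 : ℝ) ≤ G' := by positivity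
  have hmN : Λ ^ (2 + 3 * ε / 4) ≤ (m : ℝ) * ⌈Λ⌉₊ := by
    calc Λ ^ (2 + 3 * ε / 4) = Λ ^ (1 + 3 * ε / 4) * Λ ^ (1 : ℝ) := by
          rw [← Real.rpow_add h0]; congr 1; ring
      _ ≤ (m : ℝ) * ⌈Λ⌉₊ := by rw [Real.rpow_one]; gcongr
  have hsm' : 2 * (s : ℝ) ≤ m := by exact_mod_cast hsm
  have hs0 : (0 : ℝ) ≤ s := by positivity
  have hσ1 : Λ ^ (-(κ * b / 2)) ≤ 1 := Pone hΛ (by linarith only [hκ2, hκb1])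
  have hσ0 := (hP (-(κ * b / 2))).le
  have hσσ : Λ ^ (-(κ * b / 2)) + (Λ ^ (-(κ * b / 2))) ^ 2 ≤ 2 * Λ ^ (-(κ * b / 2)) := by
    have := pow_le_of_le_one hσ0 hσ1 (n := 2) (by norm_num)
    linarith only [this]
  have hσσ' : Λ ^ (-(κ * b / 2)) * (Λ ^ (-(κ * b / 2)) + (Λ ^ (-(κ * b / 2))) ^ 2) ≤
      2 * Λ ^ (-(κ * b)) := by
    have h1 : Λ ^ (-(κ * b / 2)) * Λ ^ (-(κ * b / 2)) ≤ Λ ^ (-(κ * b)) :=
      mulP hΛ le_rfl hσ0 le_rfl (by linarith only [])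
    have h2 := mul_le_mul_of_nonneg_left hσσ hσ0
    linarith only [h1, h2]
  have hY : τ * Real.sqrt (2 * s + 1) ≤ Λ ^ (-(κ * b)) := by
    have h1 : Real.sqrt (2 * s + 1) ≤ 2 * s + 1 := by
      rw [Real.sqrt_le_iff]
      exact ⟨by linarith only [hs0], le_self_pow₀ (by linarith only [hs0]) (by norm_num)⟩
    have h2 : 1 ≤ Λ ^ (1 + 3 * ε / 4) := oneP hΛ (by positivity)
    have h3 : 5 * Λ ^ (1 + 3 * ε / 4) ≤ Λ ^ (2 : ℝ) :=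
      mulP hΛ h5K (hP _).le le_rfl (by linarith only [hε1])
    exact mulP hΛ hτL (Real.sqrt_nonneg _)
      (by linarith only [h1, h2, h3, hsm', hm'] : Real.sqrt (2 * s + 1) ≤ Λ ^ (2 : ℝ))
      (by linarith only [hκ, hε, hε1, hB, hb, hbB, hbg, hbgB, hκ2, hκκ, hκB, hκb, hκb1, hκB2, hκε])
  have hY0 : 0 ≤ τ * Real.sqrt (2 * s + 1) := by positivity
  have hQ1 : (1 : ℝ) ≤ ((4 * 2 ^ M + 1 : ℕ) : ℝ) := by push_cast; linarith only [h21]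
  have hQ : ((4 * 2 ^ M + 1 : ℕ) : ℝ) ≤ 5 * Z := by push_cast; linarith only [h2Z, hZ1]
  have hσg : Λ ^ (-(bg / 2)) ≤ Λ ^ (-1 : ℝ) := leP hΛ le_rfl (by linarith only [hbg])
  have hσg2 : (Λ ^ (-(bg / 2))) ^ 2 ≤ Λ ^ (-2 : ℝ) := by
    rw [sq]
    exact mulP hΛ hσg (hP _).le hσg (by norm_num)
  have hp0 : (0 : ℝ) ≤ p := by positivity
  refine ⟨{ hM := ?_, hJ := hJ, hθ := hP _, hθ1 := ?_, hp := ?_, hcB := hc, hc := hc,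
            hσo := hσ0, hσf := hσ0, hηo := hη0, hηg := ?_, hτ := hτ0, hτg := ?_, hZo := ?_,
            hZf := ?_, hZg := ?_, hZη := ?_, hN₀ := Nat.le_ceil _, hMN := ?_, hN₁ := ?_,
            hs' := Nat.zero_le _, hQ := by omega, hQD := ?_, hL := ?_, hR := ?_, hρ := hρ0,
            hm := Or.inl rfl, hpη := ?_, hpσ := ?_, hpτ := ?_, hσ' := ?_, hσg' := ?_,
            hσ'1 := ?_, hη' := ?_, hηg' := ?_, hτ' := ?_, hτ'g := ?_, hG'σ := ?_, hG'τ := ?_,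
            hG' := ?_ }, ?_, ?_, ?_⟩
  · rcases Nat.eq_zero_or_pos M with h | h
    · rw [h] at hM
      simp only [Nat.cast_zero, mul_zero] at hM
      linarith only [hM, hB]
    · exact h
  · have : Λ ^ (-(κ * ε / 5)) * 5 ≤ 1 := mul1 hΛ le_rfl (by norm_num) h5K (by linarith only [hκε, hε])
    linarith only [this, hP (-(κ * ε / 5))]
  · have : (2 : ℝ) ≤ p := by linarith only [hp, hJ]
    exact_mod_cast this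
  · linarith only [hZη0]
  · exact leP hΛ hτL
      (by linarith only [hκ, hε, hε1, hB, hb, hbB, hbg, hbgB, hκ2, hκκ, hκB, hκb, hκb1, hκB2, hκε])
  · rw [hZ]; exact mul1 hΛ hZK hσ0 le_rfl (by linarith only [hε1, hκ2, hκb1])
  · rw [hZ]; exact mul1 hΛ hZK hσ0 le_rfl (by linarith only [hε1, hκ2, hκb1])
  · rw [hZ]; exact mul1 hΛ hZK (hP _).le le_rfl (by linarith only [hε1, hbg])
  · rw [hZ]; linarith only [hZη, hZη0]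
  · have h1 := fMN hΛ hε hκ2 hZ1 hMZ h4Z hJ1 hc hc1 hK rfl hG
    have h2 := h1.trans hN1
    rw [Nat.add_zero]
    exact_mod_cast h2
  · rw [hN]
    exact Nat.ceil_mono (leP hΛ hΛ1 (by linarith only [hκ2, hκε, hε]))
  · calc m * 2 ^ M + 2 * s ≤ 4 * (2 * s + 1) * 2 ^ M + (2 * s + 1) := by
          gcongr; omega
      _ = (4 * 2 ^ M + 1) * (2 * s + 1) := by ring
  · have h1 := fL hΛ hε hZ1 hJ1 hc hc1 hK hGB ha2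
    rw [Nat.sub_zero]
    push_cast
    linarith only [h1, hmN, hs0]
  · have h1 := fR hΛ hε hZ1 hJ1 hc hc1 hK hGB hρ1 hρ
    have h2 : (m : ℝ) ≤ m * ⌈Λ⌉₊ := le_mul_of_one_le_right (Nat.cast_nonneg _) (hΛ.trans ha1)
    rw [Nat.sub_zero]
    push_cast
    linarith only [h1, h2, hmN, hsm']
  · have h1 := jη (C := 72) (x := Z) (y := J) (by norm_num) hZ0 hZZ hJ0 hJJ
    calc (p : ℝ) * (3 * Z * η) ≤ 3 * J * (3 * Z * η) := by gcongr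
      _ = 72 * Z * J * η / 8 := by ring
      _ ≤ 1 / 8 := by linarith only [h1]
  · have h1 := jk (C := 45) (x := Z) (y := J * J) (by norm_num) hZ0 hZZ hJJ0 le_rfl
    have h2 : Λ * (Λ ^ (-(bg / 2))) ^ 2 ≤ Λ ^ (-1 : ℝ) :=
      mulP hΛ hΛ1 (by positivity) hσg2 (by norm_num)
    calc (p : ℝ) ^ 2 * (2 * (⌈Λ⌉₊ : ℝ) + 2 ^ M) * (Λ ^ (-(bg / 2))) ^ 2
        ≤ (3 * J) ^ 2 * (5 * Z * Λ) * (Λ ^ (-(bg / 2))) ^ 2 := by gcongr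
      _ = 45 * Z * (J * J) * (Λ * (Λ ^ (-(bg / 2))) ^ 2) := by ring
      _ ≤ 1 := mul1 hΛ h1 (by positivity) h2 (by linarith only [hε1])
  · have h1 := jk (C := 45) (x := Z) (y := J) (by norm_num) hZ0 hZZ hJ0 hJJ
    have h2 : Λ * τ ≤ Λ ^ (-1 : ℝ) := mulP hΛ hΛ1 hτ0 hτL
      (by linarith only [hκ, hε, hε1, hB, hb, hbB, hbg, hbgB, hκ2, hκκ, hκB, hκb, hκb1, hκB2, hκε])
    have h3 := mul1 hΛ h1 (by positivity) h2 (by linarith only [hε1])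
    calc (p : ℝ) * (2 * (⌈Λ⌉₊ : ℝ) + 2 ^ M) * τ ≤ 3 * J * (5 * Z * Λ) * τ := by gcongr
      _ = 45 * Z * J * (Λ * τ) / 3 := by ring
      _ ≤ 1 / 3 := by linarith only [h3]
  · have h1 := core hΛ hZ1 hQ1 hQ (by positivity) hσσ' hY0 hY hσg ha1 ha2
    have h2 : (4 * Λ ^ (-(κ * ε / 5))) ^ M * η ≤ Λ ^ (-(κ * b) - 1 / 4) :=
      leP hΛ hθη (by linarith only [hκb, hκb1, hκ2])
    have h3 := jk (C := 626) (x := Z * Z) (y := 1) (by norm_num) hZZ0 le_rfl zero_le_one hJJ1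
    have h4 : 626 * (Z * Z) * 1 * Λ ^ (-(κ * b) - 1 / 4) ≤ Λ ^ (-(κ * κ * b' / 2)) :=
      mulP hΛ h3 (hP _).le le_rfl (by linarith only [hb', hε])
    have h5 : Λ ^ (-(κ * b) - 1 / 4) ≤ Z * Z * Λ ^ (-(κ * b) - 1 / 4) :=
      le_mul_of_one_le_left (hP _).le hZZ1
    have h6 := mul_le_mul_of_nonneg_left h1 (by linarith only [hZ0] : 0 ≤ 2 * Z)
    rw [hZ]
    simp only [Nat.cast_zero, mul_zero, zero_add, Real.sqrt_one, mul_one, one_mul]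
    linarith only [h2, h4, h5, h6]
  · have h1 := core hΛ hZ1 hQ1 hQ (by positivity) hσσ hY0 (leP hΛ hY (by linarith only [hκb1, hκ2]))
      hσg ha1 ha2
    have h2 : (4 * Λ ^ (-(κ * ε / 5))) ^ M * η ≤ Λ ^ (-(κ * b / 2) - 1 / 4) :=
      leP hΛ hθη (by linarith only [hκb, hκb1, hκ2])
    have h3 := jk (C := 625) (x := Z * Z) (y := 1) (by norm_num) hZZ0 le_rfl zero_le_one hJJ1
    have h4 : 625 * (Z * Z) * 1 * Λ ^ (-(κ * b / 2) - 1 / 4) ≤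
        Λ ^ (-(κ * b / 2) - 1 / 4 + ε / 50) :=
      mulP hΛ h3 (hP _).le le_rfl (by linarith only [hε])
    have h5 : Λ ^ (-(κ * b / 2) - 1 / 4) ≤ Z * Z * Λ ^ (-(κ * b / 2) - 1 / 4) :=
      le_mul_of_one_le_left (hP _).le hZZ1
    have h6 := mul_le_mul_of_nonneg_left h1 (by linarith only [hZ0] : 0 ≤ 4 * Z)
    rw [hZ]
    linarith only [h2, h4, h5, h6]
  · have h1 : 0 ≤ κ * κ * b' := by positivity
    have : Λ ^ (-(κ * κ * b' / 2)) ≤ 1 := Pone hΛ (by linarith only [h1])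
    linarith only [this]
  · rw [hZ]
    have h1 := mul_le_mul_of_nonneg_right hZη hη0
    have h2 := mul_le_mul_of_nonneg_right hθ4 hη0
    linarith only [h1, h2, hη0]
  · rw [hZ]
  · rw [hZ]
    have h1 := sqrt_err hτ ((half_pow_le hp).trans hτ) hτ'
    have h2 := jk (C := 400000) (x := Z * Z) (y := 1) (by norm_num) hZZ0 le_rfl
      zero_le_one hJJ1
    have h3 : Λ * τ' ^ 2 ≤ Λ ^ (-1 : ℝ) :=
      mulP hΛ hΛ1 (by positivity) (hτ2.trans hτ'L)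
        (by linarith only [hκ, hε, hε1, hB, hb, hbB, hbg, hbgB, hκ2, hκκ, hκB, hκb, hκb1, hκB2, hκε])
    have h4 := mul1 hΛ h2 (by positivity) h3 (by linarith only [hε1])
    calc 10000 * Z * (2 * (⌈Λ⌉₊ : ℝ) + 2 ^ M) * Real.sqrt (τ + Real.exp (-J) + 1 / 2 ^ p)
        ≤ 10000 * Z * (5 * Z * Λ) * (2 * τ' ^ 4) := by gcongr
      _ = 400000 * (Z * Z) * 1 * (Λ * τ' ^ 2) * (τ' ^ 2 / 4) := by ring
      _ ≤ τ' ^ 2 / 4 := mul_le_of_le_one_left (by positivity) h4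
  · have : τ' ≤ Λ ^ (-(κ * b / 2) - 1 / 4 + ε / 50) := leP hΛ hτ'L
      (by linarith only [hκ, hε, hε1, hB, hb, hbB, hbg, hbgB, hκ2, hκκ, hκB, hκb, hκb1, hκB2, hκε])
    linarith only [this, hτ2, hτ'0]
  · have h1 : (Λ ^ (-(κ * b / 2) - 1 / 4 + ε / 50)) ^ 2 ≤ Λ ^ (-(κ * b) - 1 / 2 + ε / 25) := by
      rw [sq]
      exact mulP hΛ le_rfl (hP _).le le_rfl (by linarith only [])
    have h2 : κ * κ ≤ 4 + 4 * ε + ε / 2 := by rw [hκ]; nlinarith only [hε, hε1]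
    exact mul1 hΛ hG'K (by positivity) h1 (by linarith only [h2, hslip, hε])
  · have h1 : 6 * (κ * κ) ≤ κ * κ * B := by
      rw [mul_comm 6]; gcongr
    have h2 := mul1 hΛ hG'K hτ'0 hτ'L (by linarith only [h1, hκκ, hκ2, hε1])
    calc 32 * ((G' : ℝ) + 1) * (τ' ^ 2 / 4) ≤ 1024 * ((G' : ℝ) + 1) * τ' := by
          gcongr
          · norm_num
          · linarith only [hτ2, hτ'0]
      _ ≤ 1 := h2
  · have h1 := fslip hJ1 hc hc1 hm'1 hG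
    rw [← hG'] at h1
    push_cast
    exact h1
  · have h1 := jk (C := 5) (x := Z) (y := 1) (by norm_num) hZ0 hZZ zero_le_one hJJ1
    have h2 : 5 * Z * 1 * Λ ^ (κ * (1 + 3 * ε / 4)) ≤ Λ ^ (ε / 100 + κ * (1 + 3 * ε / 4)) :=
      mulP hΛ h1 (hP _).le le_rfl le_rfl
    have h3 : κ * κ = 2 * κ + κ * ε := by rw [hκ]; ring
    exact mulP hΛ
      (by linarith only [h2, hm'2] : 2 * (N : ℝ) + 2 ^ M ≤ Λ ^ (ε / 100 + κ * (1 + 3 * ε / 4)))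
      (hP _).le le_rfl (by linarith only [h3, hκε, hε])
  · have h1 : ε ≤ κ * κ * ε := le_mul_of_one_le_left hε.le (by linarith only [hκκ, hκ2])
    exact leP hΛ (by linarith only [hG'K, hG'0] : (G' : ℝ) + 1 ≤ Λ ^ (κ * κ + ε / 100))
      (by linarith only [h1, hε])
  · linarith only [hZη, hZη0]

/-- Let `Λ' = Λ ^ (2+ε)`, `Λ'' = Λ' ^ (2+ε)`, `σ = Λ' ^ (-b/2)`.  `Pre.step` with `θ = Λ' ^ (-ε/5)`,
`N = ⌈Λ' ^ (1 + 3ε/4)⌉`, `s' = 0`, `N₀ = ⌈slackN G c₀ (40000 J 4^M / θ²) J⌉`, `a = N₁ = ⌈Λ⌉`,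
`ρ = ⌈2 √(a J) + 1⌉` (`ρ² ≤ 32 Λ J`), `Q = 4 · 2 ^ M + 1`, `G' = ⌈Λ' ^ (1 + ε/4) · 2 · 10⁶ J m' / c₀⌉`,
`σ' = Λ'' ^ (-b'/2) / 2`, `σg' = Λ ^ (-b (2+ε)/2 - 1/4 + ε/50)`, `η' = η`, `ηg' = 3 Z η`, error `τ'² / 4`;
then `Pre.toO` (`τ'²/4 + √(τ'²/2) ≤ τ'`) and `Pre.mono`.  Use `2 s ≤ m` (`Pre.sm`), so that
`m N₁ - s ≥ Λ ^ (2 + 3ε/4) / 2`; the gain is `(a + 1) ^ (-1/4) ≤ Λ ^ (-1/4)` and
`σg √(2 N₁ + 1) ≤ 3 Λ ^ (-1/2)` as `bg ≥ 2`.  Every junk factor is at most `Λ ^ (ε/100)`;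
`(4 θ) ^ M ≤ Λ' ^ (-19 (B + 10))`; `G' + 1 ≤ Λ' ^ (2 + ε + ε/100)`. -/
theorem stepL {q ε J η c₀ Λ₀ B Λ L b bg b' τ τ' : ℝ} {M p : ℕ} (hq : 0 ≤ q) (hq1 : q ≤ 1)
    (hG : Glob ε M J p η c₀ Λ₀ B) (hΛ : Λ₀ ≤ Λ) (hL : (Λ ^ (2 + ε)) ^ (2 + ε) ≤ L)
    (h : StG q ε M η c₀ Λ b bg τ) (hb : 1 ≤ b) (hbB : b ≤ B) (hbg : 2 ≤ bg) (hbgB : bg ≤ B)
    (hslip : 4 + 5 * ε ≤ b * (2 + ε) + 1 / 2) (hb'0 : 0 ≤ b') (hb'B : b' ≤ B)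
    (hb' : b' * (2 + ε) ^ 2 ≤ 2 * b * (2 + ε) + 1 / 2 - ε) (hτ : Real.exp (-J) ≤ τ)
    (hτ' : τ ≤ τ' ^ 8) (hτ'0 : 0 ≤ τ') (hτ'L : τ' ≤ L ^ (-(B + 10))) :
    StO q ε η c₀ ((Λ ^ (2 + ε)) ^ (2 + ε)) b' b' τ' := by
  obtain ⟨bw, t, v, m, s, GB, G, ht, hGB, hG', hm, hm', hms, hpre⟩ := h
  obtain ⟨hε, hε1, hB, hM, hJ, hp, hp', hc, hc', hΛ₀, hjunk, hη⟩ := hG
  obtain ⟨κ, hκ⟩ : ∃ κ, κ = 2 + ε := ⟨_, rfl⟩
  rw [← hκ] at ht hG' hpre hL hslip hb' ⊢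
  have hΛ1 : 1 ≤ Λ := hΛ₀.trans hΛ
  have h0 : 0 < Λ := by linarith
  have h00 : 0 < Λ₀ := by linarith
  have hκ0 : 0 ≤ κ := by linarith
  have hj : 10 ^ 40 * ((1000 : ℝ) ^ M * 1000 ^ M) * (J * J) * c₀⁻¹ ≤ Λ₀ ^ (ε / 100) := by
    refine le_trans ?_ hjunk
    have h1 : J * J ≤ J ^ 4 := by
      rw [← sq]; exact pow_le_pow_right₀ (by linarith) (by norm_num)
    rw [two_mul, pow_add, div_eq_mul_inv]
    gcongr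
  have hK : 10 ^ 40 * ((1000 : ℝ) ^ M * 1000 ^ M) * (J * J) * c₀⁻¹ ≤ Λ ^ (ε / 100) :=
    hj.trans (Real.rpow_le_rpow h00.le hΛ (by positivity))
  have hη0 : 0 ≤ η := by rw [hη]; positivity
  have hη1 := ScaleL.mul1 hΛ₀ hj hη0 hη.le (by linarith)
  have e1 : ∀ x : ℝ, (Λ ^ κ) ^ x = Λ ^ (κ * x) := fun x => (Real.rpow_mul h0.le _ _).symm
  have e2 : ∀ x : ℝ, (Λ ^ (κ * κ)) ^ x = Λ ^ (κ * κ * x) := fun x =>
    (Real.rpow_mul h0.le _ _).symm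
  rw [e1] at hG' hL ⊢
  rw [e1, show κ * -(b / 2) = -(κ * b / 2) by ring] at hpre
  have hτL : τ' ≤ Λ ^ (-(κ * κ * (B + 10))) := by
    refine hτ'L.trans ?_
    rw [show -(κ * κ * (B + 10)) = κ * κ * -(B + 10) by ring, ← e2]
    exact Real.rpow_le_rpow_of_nonpos (Real.rpow_pos_of_pos h0 _) hL (by linarith)
  have hτ'1 : τ' ≤ 1 := hτL.trans (ScaleL.Pone hΛ1 (by
    have : 0 ≤ κ * κ * (B + 10) := mul_nonneg (mul_nonneg hκ0 hκ0) (by linarith)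
    linarith))
  obtain ⟨hn, hlen, hG1, hηg⟩ := num hκ hε hε1 hB hM hJ hp hp' hc (by linarith) hΛ1 hK hη0 hη1
    hGB hG' hm hm' hms hpre.sm hb hbB hbg hbgB hslip hb'0 hb' hτ hτ' hτ'0 hτL rfl rfl
  obtain ⟨t', v', hlen', hpre'⟩ := hpre.step hq hq1 hn
  have hσ0 : 0 ≤ Λ ^ (-(κ * κ * b' / 2)) / 2 := by
    have := Real.rpow_pos_of_pos h0 (-(κ * κ * b' / 2))
    positivity
  have h2 := hpre'.toO hq hq1 hσ0 hn.hσ'1 hσ0 hn.hσ'1 hηg (ScaleL.tau_final hτ'0 hτ'1)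
  have e3 : 2 * (Λ ^ (-(κ * κ * b' / 2)) / 2) = (Λ ^ (κ * κ)) ^ (-(b' / 2)) := by
    rw [e2, show κ * κ * -(b' / 2) = -(κ * κ * b' / 2) by ring]; ring
  rw [e3] at h2
  refine ⟨t', t', v', _, ?_, ?_,
    h2.mono hq hq1 hc' hc' le_rfl le_rfl le_rfl le_rfl le_rfl le_rfl⟩
  · rw [hlen']
    push_cast
    refine le_trans ?_ hlen
    gcongr
  · rw [e2]; exact hG1

end Crest.Agent.R300
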