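import Crest.Agent.R300.LScaleO
import Crest.Agent.R300.LScaleL
import Crest.Agent.R300.LScaleH

/-!
# R300 lower bound: the iteration (task LIter)
-/

set_option autoImplicit false

namespace Crest.Agent.R300

/-- The scales. -/
noncomputable def iterL (ε Λ₀ : ℝ) (j : ℕ) : ℝ := Λ₀ ^ ((2 + ε) ^ j)

/-- The errors. -/
noncomputable def iterT (J : ℝ) (j : ℕ) : ℝ := Real.exp (-(J / (4 * 8 ^ j)))

theorem iterL_zero (ε Λ₀ : ℝ) : iterL ε Λ₀ 0 = Λ₀ := by simp [iterL]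

theorem iterL_succ {ε Λ₀ : ℝ} (h : 0 ≤ Λ₀) (j : ℕ) :
    iterL ε Λ₀ (j + 1) = iterL ε Λ₀ j ^ (2 + ε) := by
  rw [iterL, iterL, pow_succ, Real.rpow_mul h]

theorem iterL_mono {ε Λ₀ : ℝ} (hε : 0 < ε) (h : 1 ≤ Λ₀) {i j : ℕ} (hij : i ≤ j) :
    iterL ε Λ₀ i ≤ iterL ε Λ₀ j :=
  Real.rpow_le_rpow_of_exponent_le h (pow_le_pow_right₀ (by linarith) hij)

theorem le_iterL {ε Λ₀ : ℝ} (hε : 0 < ε) (h : 1 ≤ Λ₀) (j : ℕ) : Λ₀ ≤ iterL ε Λ₀ j := by
  have := iterL_mono hε h (Nat.zero_le j)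
  rwa [iterL_zero] at this

theorem iterT_pos (J : ℝ) (j : ℕ) : 0 < iterT J j := Real.exp_pos _

theorem iterT_succ (J : ℝ) (j : ℕ) : iterT J j = iterT J (j + 1) ^ 8 := by
  rw [iterT, iterT, ← Real.exp_nat_mul]
  congr 1
  rw [pow_succ]
  field_simp
  norm_num

theorem exp_le_iterT {J : ℝ} (hJ : 0 ≤ J) (j : ℕ) : Real.exp (-J) ≤ iterT J j := by
  refine Real.exp_le_exp.2 (neg_le_neg (div_le_self hJ ?_))
  have : (1 : ℝ) ≤ 8 ^ j := one_le_pow₀ (by norm_num)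
  linarith

theorem iterT_le {J L : ℝ} {k : ℕ} (hL : 1 ≤ L)
    (hJ : 4 * 8 ^ (k + 71) * (16 + k) * Real.log L ≤ J) {j : ℕ} (hj : j ≤ k + 71) :
    iterT J j ≤ L ^ (-((6 + k : ℝ) + 10)) := by
  rw [Real.rpow_def_of_pos (by linarith), iterT]
  refine Real.exp_le_exp.2 ?_
  have h1 : (8 : ℝ) ^ j ≤ 8 ^ (k + 71) := pow_le_pow_right₀ (by norm_num) hj
  have h2 := Real.log_nonneg hL
  have h3 : 4 * 8 ^ j * (16 + k) * Real.log L ≤ J := le_trans (by gcongr) hJ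
  rw [mul_neg, neg_le_neg_iff, le_div_iff₀ (by positivity)]
  linarith

theorem Glob.junk_ge {ε J η c₀ Λ₀ B : ℝ} {M p : ℕ} (hG : Glob ε M J p η c₀ Λ₀ B) :
    6 * 1000 ^ M ≤ Λ₀ ^ (ε / 100) ∧ 1 / c₀ ≤ Λ₀ ^ (ε / 100) := by
  have h1 : (1 : ℝ) ≤ J ^ 4 := one_le_pow₀ (by linarith [hG.hJ])
  have h2 : (1 : ℝ) ≤ 1000 ^ M := one_le_pow₀ (by norm_num)
  have h3 : (1000 : ℝ) ^ (2 * M) = 1000 ^ M * 1000 ^ M := by rw [two_mul, pow_add]
  have hc := hG.hc₀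
  have hc' := hG.hc₀'
  have hj := hG.junk
  rw [h3] at hj
  generalize (1000 : ℝ) ^ M = Z at *
  generalize J ^ 4 = K at *
  have h4 : Z ≤ Z * Z * K := by
    calc Z = Z * 1 * 1 := by ring
      _ ≤ Z * Z * K := by gcongr
  constructor
  · refine le_trans ?_ hj
    rw [le_div_iff₀ hc]
    nlinarith
  · refine le_trans (div_le_div_of_nonneg_right ?_ hc.le) hj
    nlinarith

theorem iter_pair {q ε J η c₀ Λ₀ L b : ℝ} {M p k j : ℕ} (hq : 0 ≤ q) (hq1 : q ≤ 1)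
    (hG : Glob ε M J p η c₀ Λ₀ (6 + k)) (hL : L = iterL ε Λ₀ (k + 69))
    (hJ : 4 * 8 ^ (k + 71) * (16 + k) * Real.log L ≤ J) (hj : j + 2 ≤ k + 69)
    {bo bf μ b₁ : ℝ} (h : StO q ε η c₀ (iterL ε Λ₀ j) bo bf (iterT J j))
    (hbo : 1 ≤ bo) (hbf : 1 ≤ bf) (hμ : μ ≤ bf) (hμ' : μ ≤ 2 * bo) (hμ1 : 21 / 10 ≤ μ)
    (hμ2 : μ ≤ 6) (hb₁ : 19 / 10 ≤ b₁) (hb₁' : b₁ ≤ 6) (hb₁μ : b₁ * (2 + ε) ≤ bo + μ - ε)
    (hb0 : 0 ≤ b) (hb6 : b ≤ 6) (hb : b * (2 + ε) ^ 2 ≤ 2 * b₁ * (2 + ε) + 1 / 2 - ε) :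
    StO q ε η c₀ (iterL ε Λ₀ (j + 2)) b b (iterT J (j + 2)) := by
  have hε := hG.hε
  have hε1 := hG.hε1
  have hΛ := hG.hΛ₀
  have hΛ0 : 0 ≤ Λ₀ := by linarith
  have hk : (0 : ℝ) ≤ k := Nat.cast_nonneg k
  have hJ0 : 0 ≤ J := by linarith [hG.hJ]
  have hL1 : 1 ≤ L := hL ▸ hΛ.trans (le_iterL hε hΛ _)
  have h1 : StG q ε M η c₀ (iterL ε Λ₀ j) b₁ (μ - ε) (iterT J (j + 1)) :=
    stepO (L := L) hq hq1 hG (le_iterL hε hΛ j)
      (by rw [← iterL_succ hΛ0, hL]; exact iterL_mono hε hΛ (by omega)) h hbo hbf hμ hμ'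
      (by linarith) hb₁μ (by linarith) le_rfl (by linarith) (by linarith) (exp_le_iterT hJ0 _)
      (iterT_succ J j).le (iterT_pos _ _).le (iterT_le hL1 hJ (by omega))
  have h2 := stepL (L := L) (b' := b) (τ' := iterT J (j + 2)) hq hq1 hG (le_iterL hε hΛ j)
    (by rw [← iterL_succ hΛ0, ← iterL_succ hΛ0, hL]; exact iterL_mono hε hΛ (by omega)) h1
    (by linarith) (by linarith) (by linarith) (by linarith) (by nlinarith) hb0 (by linarith) hb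
    (exp_le_iterT hJ0 _) (iterT_succ J (j + 1)).le (iterT_pos _ _).le (iterT_le hL1 hJ (by omega))
  rwa [← iterL_succ hΛ0, ← iterL_succ hΛ0] at h2

theorem iter_O {q ε J η Λ₀ L : ℝ} {M p k : ℕ} (hq : 0 < q) (hq1 : q ≤ 1 / 2)
    (hG : Glob ε M J p η (Real.exp (-(20000 / q ^ 3))) Λ₀ (6 + k)) (hL : L = iterL ε Λ₀ (k + 69))
    (hJ : 4 * 8 ^ (k + 71) * (16 + k) * Real.log L ≤ J) (hΛq : 1000 / q ^ 2 ≤ Λ₀) {i : ℕ}
    (hi : i ≤ 33) :
    StO q ε η (Real.exp (-(20000 / q ^ 3))) (iterL ε Λ₀ (2 * i + 2)) (21 / 10 + i / 10)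
      (21 / 10 + i / 10) (iterT J (2 * i + 2)) := by
  have hε := hG.hε
  have hε1 := hG.hε1
  have hΛ := hG.hΛ₀
  have hε2 : ε ^ 2 ≤ ε / 300 := by nlinarith
  induction i with
  | zero =>
    have h0 : StO q ε η (Real.exp (-(20000 / q ^ 3))) (iterL ε Λ₀ 0) (149 / 100) (249 / 100)
        (iterT J 0) := by
      rw [iterL_zero]
      refine stO_base hq hq1 hG ?_
      have hΛL : Λ₀ ≤ L := hL ▸ le_iterL hε hΛ _
      have h1 : Real.log L ≤ J / 4 := by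
        have h2 := Real.log_nonneg (hΛ.trans hΛL)
        have h3 : (1 : ℝ) ≤ 8 ^ (k + 71) := one_le_pow₀ (by norm_num)
        have h4 : (0 : ℝ) ≤ k := Nat.cast_nonneg k
        have h5 : 4 * 1 * 1 * Real.log L ≤ 4 * 8 ^ (k + 71) * (16 + k) * Real.log L := by
          gcongr; linarith
        linarith
      have h2 : L ≤ Real.exp (J / 4) := by
        rw [← Real.log_le_iff_le_exp (by linarith)]; exact h1
      have h3 : iterT J 0 = Real.exp (J / 4) * Real.exp (-(J / 2)) := by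
        rw [iterT, ← Real.exp_add]; congr 1; ring
      rw [h3, mul_div_right_comm]
      exact mul_le_mul_of_nonneg_right (hΛq.trans (hΛL.trans h2)) (Real.exp_pos _).le
    have := iter_pair (b := 21 / 10) (μ := 249 / 100) (b₁ := 198 / 100) hq.le (by linarith) hG hL hJ
      (by omega) h0 (by norm_num) (by norm_num) le_rfl (by norm_num) (by norm_num) (by norm_num)
      (by norm_num) (by norm_num) (by linarith) (by norm_num) (by norm_num) (by nlinarith)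
    simpa using this
  | succ i ih =>
    have h0 := ih (by omega)
    have hi' : (i : ℝ) ≤ 32 := by exact_mod_cast (by omega : i ≤ 32)
    have hi0 : (0 : ℝ) ≤ i := Nat.cast_nonneg i
    have hiε : (i : ℝ) * ε ≤ 32 * ε := by gcongr
    have hiε2 : (i : ℝ) * ε ^ 2 ≤ 32 * ε ^ 2 := by gcongr
    have hiε0 : 0 ≤ (i : ℝ) * ε := by positivity
    have := iter_pair (b := 21 / 10 + (i + 1) / 10) (μ := 21 / 10 + i / 10)
      (b₁ := 21 / 10 + i / 10 - 11 / 1000) hq.le (by linarith) hG hL hJ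
      (by omega) h0 (by linarith) (by linarith) le_rfl (by linarith) (by linarith) (by linarith)
      (by linarith) (by linarith) (by nlinarith) (by linarith) (by linarith) (by nlinarith)
    push_cast
    exact this

theorem iter_G {q ε J η Λ₀ L δ : ℝ} {M p k : ℕ} (hq : 0 < q) (hq1 : q ≤ 1 / 2)
    (hδ : 0 < δ) (hδ1 : δ ≤ 1 / 8)
    (hG : Glob ε M J p η (Real.exp (-(20000 / q ^ 3))) Λ₀ (6 + k)) (hεδ : ε * (7 + k) ≤ 2 * δ)
    (hL : L = iterL ε Λ₀ (k + 69))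
    (hJ : 4 * 8 ^ (k + 71) * (16 + k) * Real.log L ≤ J) (hΛq : 1000 / q ^ 2 ≤ Λ₀) {i : ℕ}
    (hi : i ≤ k) :
    StG q ε M η (Real.exp (-(20000 / q ^ 3))) (iterL ε Λ₀ (i + 68)) (53 / 10 + i * (1 / 4 - 2 * δ))
      (26 / 5) (iterT J (i + 69)) := by
  have hε := hG.hε
  have hε1 := hG.hε1
  have hΛ := hG.hΛ₀
  have hΛ0 : 0 ≤ Λ₀ := by linarith
  have hk : (0 : ℝ) ≤ k := Nat.cast_nonneg k
  have hJ0 : 0 ≤ J := by linarith [hG.hJ]
  have hL1 : 1 ≤ L := hL ▸ hΛ.trans (le_iterL hε hΛ _)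
  induction i with
  | zero =>
    have h0 := iter_O hq hq1 hG hL hJ hΛq (i := 33) le_rfl
    have h1 : StG q ε M η (Real.exp (-(20000 / q ^ 3))) (iterL ε Λ₀ 68) (53 / 10) (26 / 5)
        (iterT J 69) :=
      stepO (L := L) (μ := 54 / 10) hq.le (by linarith) hG (le_iterL hε hΛ _)
        (by rw [← iterL_succ hΛ0, hL]; exact iterL_mono hε hΛ (by omega)) h0 (by norm_num)
        (by norm_num) (by norm_num) (by norm_num) (by norm_num) (by push_cast; linarith)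
        (by linarith) (by linarith) (by linarith) (by linarith) (exp_le_iterT hJ0 _)
        (iterT_succ J 68).le (iterT_pos _ _).le (iterT_le hL1 hJ (by omega))
    simpa using h1
  | succ i ih =>
    have h0 := ih (by omega)
    have hi' : (i : ℝ) + 1 ≤ k := by exact_mod_cast hi
    have hi0 : (0 : ℝ) ≤ i := Nat.cast_nonneg i
    have hd0 : 0 ≤ 1 / 4 - 2 * δ := by linarith
    have a1 : 0 ≤ (i : ℝ) * (1 / 4 - 2 * δ) := by positivity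
    have a2 : (i : ℝ) * (1 / 4 - 2 * δ) ≤ i := mul_le_of_le_one_right hi0 (by linarith)
    have e : 53 / 10 + ((i + 1 : ℕ) : ℝ) * (1 / 4 - 2 * δ) =
        53 / 10 + i * (1 / 4 - 2 * δ) + (1 / 4 - 2 * δ) := by push_cast; ring
    rw [e]
    generalize (i : ℝ) * (1 / 4 - 2 * δ) = x at *
    have hx : x ≤ k := by linarith
    have a3 : ε * x ≤ ε * k := by gcongr
    have a4 : ε ^ 2 * (53 / 10 + x + (1 / 4 - 2 * δ)) ≤ ε * (6 + k) := by
      rw [sq, mul_assoc]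
      refine mul_le_mul_of_nonneg_left ?_ hε.le
      have : ε * (53 / 10 + x + (1 / 4 - 2 * δ)) ≤ 1 * (6 + k) :=
        mul_le_mul (by linarith) (by linarith) (by linarith) (by norm_num)
      linarith
    have a5 : 0 ≤ ε * δ := by positivity
    have h2 := stepH (L := L) (b' := 53 / 10 + x + (1 / 4 - 2 * δ)) (bg' := 26 / 5)
      (τ' := iterT J (i + 1 + 69)) hq.le (by linarith) hG (le_iterL hε hΛ _)
      (by rw [← iterL_succ hΛ0, ← iterL_succ hΛ0, hL]; exact iterL_mono hε hΛ (by omega)) h0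
      (by linarith) le_rfl (by linarith) (by linarith) (by linarith) (by nlinarith) (by linarith)
      (by norm_num) (by linarith) (exp_le_iterT hJ0 _) (iterT_succ J (i + 69)).le
      (iterT_pos _ _).le (iterT_le hL1 hJ (by omega))
    rwa [← iterL_succ hΛ0] at h2

/-- With fixed global parameters.  Scales `Λ j = Λ₀ ^ (2+ε) ^ j`, errors `τ j = exp (-J / (4 · 8 ^ j))`
(`τ j = τ (j+1) ^ 8`).  `stO_base`; `stepO` (`μ = 2.49`, `b = (3.98 - ε)/(2+ε)`, `bg = 2.49 - ε`) and `stepL`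
give `StO (Λ 2) 2.1 2.1`.  From `StO b b` with `2.1 ≤ b ≤ 5.4`, `stepO` (`μ = b`, new exponent
`(2 b - ε)/(2+ε)`, `bg = b - ε`) and `stepL` give `StO (b + 0.1) (b + 0.1)`; after 33 more pairs one has
`StO (Λ 68) 5.4 5.4`, and `stepO` gives `StG (Λ 68) 5.3 5.3`.  Then `stepH` gives
`StG (Λ (68 + i)) (5.3 + i (1/4 - 2δ)) 5.2` for `i ≤ k` (use `ε (B + 1) ≤ 2 δ`).  At the end, `Pre.toO`
and the member `w = 0` of the odd family show that `(law v - law t) / 2` has norm `2 L ^ (-b/2)` relative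
to `law t`; `4 L ^ (-2.65) ≤ 1`. -/
theorem lower_glob {q ε J η Λ₀ δ L : ℝ} {M p k : ℕ} (hq : 0 < q) (hq1 : q ≤ 1 / 2)
    (hδ : 0 < δ) (hδ1 : δ ≤ 1 / 8)
    (hG : Glob ε M J p η (Real.exp (-(20000 / q ^ 3))) Λ₀ (6 + k))
    (hεδ : ε * (7 + k) ≤ 2 * δ) (hL : L = Λ₀ ^ ((2 + ε) ^ (k + 69)))
    (hJ : 4 * 8 ^ (k + 71) * (16 + k) * Real.log L ≤ J) :
    ∃ u v : List Bool, u ≠ v ∧ u.length = v.length ∧ (u.length : ℝ) ≤ L ∧
      N2 (law q v - law q u) (law q u) (L ^ (-((1 / 8 - δ) * k))) (L ^ (-(k : ℝ))) := by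
  have hε := hG.hε
  have hε1 := hG.hε1
  have hΛ := hG.hΛ₀
  have hΛ0 : 0 ≤ Λ₀ := by linarith
  have hk : (0 : ℝ) ≤ k := Nat.cast_nonneg k
  obtain ⟨hj1, hj2⟩ := hG.junk_ge
  have hΛq : 1000 / q ^ 2 ≤ Λ₀ := by
    have h1 : Λ₀ ^ (ε / 100) ≤ Λ₀ := by
      conv_rhs => rw [← Real.rpow_one Λ₀]
      exact Real.rpow_le_rpow_of_exponent_le hΛ (by linarith)
    rw [Real.exp_neg, one_div, inv_inv] at hj2
    have h2 := Real.add_one_le_exp (20000 / q ^ 3)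
    have h3 : 1000 / q ^ 2 ≤ 20000 / q ^ 3 := by
      rw [div_le_div_iff₀ (by positivity) (by positivity)]
      have : 0 < q ^ 2 := by positivity
      nlinarith
    linarith
  have hΛ1000 : 1000 ≤ Λ₀ := by
    refine le_trans ?_ hΛq
    rw [le_div_iff₀ (by positivity)]
    nlinarith
  have hL' : L = iterL ε Λ₀ (k + 69) := hL
  have hΛL : Λ₀ ≤ L := hL' ▸ le_iterL hε hΛ _
  have hL1 : 1 ≤ L := by linarith
  have hL0 : 0 < L := by linarith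
  obtain ⟨bw, t, v, m, s, GB, G, hlen, -, -, -, -, -, hP⟩ :=
    iter_G hq hq1 hδ hδ1 hG hεδ hL' hJ hΛq (i := k) le_rfl
  rw [← iterL_succ hΛ0, ← hL'] at hlen hP
  have hd0 : 0 ≤ 1 / 4 - 2 * δ := by linarith
  have hb0 : 0 ≤ (k : ℝ) * (1 / 4 - 2 * δ) := by positivity
  have hσ0 : 0 ≤ L ^ (-((53 / 10 + k * (1 / 4 - 2 * δ)) / 2)) := Real.rpow_nonneg hL0.le _
  have hσ1 : L ^ (-((53 / 10 + k * (1 / 4 - 2 * δ)) / 2)) ≤ 1 :=
    Real.rpow_le_one_of_one_le_of_nonpos hL1 (by linarith)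
  have hηg : 3 * 1000 ^ M * η ≤ 1 / 2 := by
    have h1 : Λ₀ ^ (ε / 100) ≤ Λ₀ ^ (1 / 10 : ℝ) :=
      Real.rpow_le_rpow_of_exponent_le hΛ (by linarith)
    have h2 : 0 < Λ₀ ^ (1 / 10 : ℝ) := Real.rpow_pos_of_pos (by linarith) _
    rw [hG.hη, Real.rpow_neg hΛ0, ← div_eq_mul_inv, div_le_iff₀ h2]
    linarith
  have hO := hP.toO hq.le (by linarith) hσ0 hσ1 hσ0 hσ1 hηg le_rfl
  obtain ⟨ot, e, -, hF⟩ := hO.odd
  have hN := (hF.n2 (i := 0) (by simp)).smul 2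
  have e' : (2 : ℝ) • shf (law q t) ot 0 0 = law q v - law q t := by
    simp only [pow_zero, one_mul, mul_one] at e
    simp only [shf, pow_zero, one_mul, mul_one, mul_zero, Nat.sub_self]
    rw [← e, smul_smul]
    norm_num
  rw [e', pow_one, abs_two] at hN
  refine ⟨t, v, hP.ne, hP.len₁.symm, hlen, hN.mono ?_ ?_⟩
  · have h1 : L ^ (-((53 / 10 + k * (1 / 4 - 2 * δ)) / 2)) ≤
        L ^ (-1 + -((1 / 8 - δ) * k)) := Real.rpow_le_rpow_of_exponent_le hL1 (by linarith)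
    rw [Real.rpow_add hL0, Real.rpow_neg_one] at h1
    have h2 : L⁻¹ ≤ 1 / 4 := by
      rw [inv_eq_one_div]; exact one_div_le_one_div_of_le (by norm_num) (by linarith)
    have h3 : 0 ≤ L ^ (-((1 / 8 - δ) * k)) := Real.rpow_nonneg hL0.le _
    have h4 := mul_le_mul_of_nonneg_right h2 h3
    linarith
  · have h1 := iterT_le hL1 hJ (j := k + 69 + 1) (by omega)
    rw [iterT_succ J (k + 69)]
    have hx0 := (iterT_pos J (k + 69 + 1)).le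
    generalize iterT J (k + 69 + 1) = x at *
    have h2 : L ^ (-((6 + k : ℝ) + 10)) ≤ L ^ (-1 + -(k : ℝ)) :=
      Real.rpow_le_rpow_of_exponent_le hL1 (by linarith)
    rw [Real.rpow_add hL0, Real.rpow_neg_one] at h2
    have h3 : L⁻¹ ≤ 1 / 6 := by
      rw [inv_eq_one_div]; exact one_div_le_one_div_of_le (by norm_num) (by linarith)
    have h4 : 0 ≤ L ^ (-(k : ℝ)) := Real.rpow_nonneg hL0.le _
    have h5 := mul_le_mul_of_nonneg_right h3 h4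
    have h6 : L ^ (-(k : ℝ)) ≤ 1 := Real.rpow_le_one_of_one_le_of_nonpos hL1 (by linarith)
    have hx1 : x ≤ 1 := by linarith
    have h7 : x ^ 8 ≤ x := pow_le_of_le_one hx0 hx1 (by norm_num)
    have h8 : x ^ 8 ≤ x ^ 2 := pow_le_pow_of_le_one hx0 hx1 (by norm_num)
    have h9 : Real.sqrt (2 * x ^ 8) ≤ 2 * x :=
      Real.sqrt_le_iff.2 ⟨by linarith, by nlinarith [sq_nonneg x]⟩
    linarith

theorem iter_pow_le {ε : ℝ} {k : ℕ} (hε : 0 < ε) (h : ε * (k + 100) ≤ 1 / 10) :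
    (2 + ε) ^ (k + 69) ≤ 2 ^ (k + 70) := by
  have h1 : 2 + ε ≤ 2 * Real.exp (ε / 2) := by linarith [Real.add_one_le_exp (ε / 2)]
  have h2 : Real.exp (ε / 2) ^ (k + 69) ≤ 2 := by
    rw [← Real.exp_nat_mul, ← Real.le_log_iff_exp_le (by norm_num)]
    have := Real.log_two_gt_d9
    push_cast
    nlinarith
  calc (2 + ε) ^ (k + 69) ≤ (2 * Real.exp (ε / 2)) ^ (k + 69) := by gcongr
    _ = 2 ^ (k + 69) * Real.exp (ε / 2) ^ (k + 69) := mul_pow _ _ _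
    _ ≤ 2 ^ (k + 69) * 2 := by gcongr
    _ = _ := by ring

theorem iter_pow4 {ε l : ℝ} (hε : 0 < ε) (hl : 0 ≤ l) (h : 120 * 400 ^ 5 ≤ ε ^ 5 * l) :
    l ^ 4 ≤ Real.exp (ε * l / 400) := by
  have h1 := Real.pow_div_factorial_le_exp (ε * l / 400) (by positivity) 5
  refine le_trans ?_ h1
  rw [show ((5 : ℕ).factorial : ℝ) = 120 by norm_num [Nat.factorial], le_div_iff₀ (by norm_num),
    div_pow, le_div_iff₀ (by norm_num)]
  have h2 : 0 ≤ l ^ 4 := by positivity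
  calc l ^ 4 * 120 * 400 ^ 5 = l ^ 4 * (120 * 400 ^ 5) := by ring
    _ ≤ l ^ 4 * (ε ^ 5 * l) := by gcongr
    _ = _ := by ring

theorem iter_junk {ε l l₀ u : ℝ} {k M : ℕ} (hε : 0 < ε) (hl : 0 ≤ l) (hl₀ : 0 ≤ l₀)
    (hll : l ≤ 2 ^ (k + 70) * l₀) (h1 : 120 * 400 ^ 5 ≤ ε ^ 5 * l₀)
    (h2 : 360 + 54 * M + 4 * (586 + 9 * k) + u ≤ 3 / 400 * (ε * l₀)) :
    10 ^ 40 * 1000 ^ (2 * M) * (4 * 8 ^ (k + 71) * (16 + k) * l) ^ 4 / Real.exp (-u) ≤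
      Real.exp l₀ ^ (ε / 100) := by
  have hk : (0 : ℝ) ≤ k := Nat.cast_nonneg k
  have e10 : (10 : ℝ) ≤ Real.exp 9 := by linarith [Real.add_one_le_exp 9]
  have e8 : (8 : ℝ) ≤ Real.exp 7 := by linarith [Real.add_one_le_exp 7]
  have e4 : (4 : ℝ) ≤ Real.exp 3 := by linarith [Real.add_one_le_exp 3]
  have e2 : (2 : ℝ) ≤ Real.exp 1 := by linarith [Real.add_one_le_exp 1]
  have a1 : (10 : ℝ) ^ 40 ≤ Real.exp 360 := by
    calc (10 : ℝ) ^ 40 ≤ Real.exp 9 ^ 40 := by gcongr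
      _ = _ := by rw [← Real.exp_nat_mul]; norm_num
  have a2 : (1000 : ℝ) ^ (2 * M) ≤ Real.exp (54 * M) := by
    calc (1000 : ℝ) ^ (2 * M) = 10 ^ (6 * M) := by
          rw [show (1000 : ℝ) = 10 ^ 3 by norm_num, ← pow_mul]; ring_nf
      _ ≤ Real.exp 9 ^ (6 * M) := by gcongr
      _ = _ := by rw [← Real.exp_nat_mul]; push_cast; ring_nf
  have a3 : (8 : ℝ) ^ (k + 71) ≤ Real.exp (7 * (k + 71)) := by
    calc (8 : ℝ) ^ (k + 71) ≤ Real.exp 7 ^ (k + 71) := by gcongr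
      _ = _ := by rw [← Real.exp_nat_mul]; push_cast; ring_nf
  have a4 : (2 : ℝ) ^ (k + 70) ≤ Real.exp (k + 70) := by
    calc (2 : ℝ) ^ (k + 70) ≤ Real.exp 1 ^ (k + 70) := by gcongr
      _ = _ := by rw [← Real.exp_nat_mul]; push_cast; ring_nf
  have a5 : (16 + k : ℝ) ≤ Real.exp (16 + k) := by linarith [Real.add_one_le_exp (16 + k)]
  have a6 : 4 * 8 ^ (k + 71) * (16 + k) * l ≤ Real.exp (586 + 9 * k) * l₀ := by
    calc 4 * 8 ^ (k + 71) * (16 + k) * l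
        ≤ Real.exp 3 * Real.exp (7 * (k + 71)) * Real.exp (16 + k) * (Real.exp (k + 70) * l₀) := by
          gcongr
          exact hll.trans (by gcongr)
      _ = _ := by
          rw [← mul_assoc, ← Real.exp_add, ← Real.exp_add, ← Real.exp_add]; ring_nf
  have a7 : (4 * 8 ^ (k + 71) * (16 + k) * l) ^ 4 ≤
      Real.exp (4 * (586 + 9 * k)) * Real.exp (ε * l₀ / 400) := by
    calc (4 * 8 ^ (k + 71) * (16 + k) * l) ^ 4 ≤ (Real.exp (586 + 9 * k) * l₀) ^ 4 :=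
          pow_le_pow_left₀ (by positivity) a6 4
      _ = Real.exp (4 * (586 + 9 * k)) * l₀ ^ 4 := by
          rw [mul_pow, ← Real.exp_nat_mul]; norm_num
      _ ≤ _ := mul_le_mul_of_nonneg_left (iter_pow4 hε hl₀ h1) (Real.exp_pos _).le
  have a0 : 0 ≤ (4 * 8 ^ (k + 71) * (16 + k) * l) ^ 4 := by positivity
  generalize (4 * 8 ^ (k + 71) * (16 + k) * l) ^ 4 = K at *
  have b0 : (0 : ℝ) ≤ 1000 ^ (2 * M) := by positivity
  generalize (1000 : ℝ) ^ (2 * M) = Z at *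
  rw [← Real.exp_mul, div_le_iff₀ (Real.exp_pos _), ← Real.exp_add]
  calc 10 ^ 40 * Z * K ≤ Real.exp 360 * Real.exp (54 * M) *
        (Real.exp (4 * (586 + 9 * k)) * Real.exp (ε * l₀ / 400)) :=
        mul_le_mul (mul_le_mul a1 a2 b0 (Real.exp_pos _).le) a7 a0 (by positivity)
    _ = Real.exp (360 + 54 * M + (4 * (586 + 9 * k) + ε * l₀ / 400)) := by
        rw [← Real.exp_add, ← Real.exp_add, ← Real.exp_add]
    _ ≤ _ := Real.exp_le_exp.2 (by linarith)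

theorem iter_num {d K u l₀ ε M : ℝ} (hd : 10 ≤ d) (hK : 1 ≤ K) (hu : 1 ≤ u)
    (hl : 10 ^ 26 * d ^ 5 * K ^ 5 * u ≤ l₀) (hε : 1 ≤ ε * (100 * K * d)) (hε0 : 0 < ε)
    (hM : M ≤ 160000 * K ^ 2 * d + 1) :
    120 * 400 ^ 5 ≤ ε ^ 5 * l₀ ∧
      360 + 54 * M + 4 * (586 + 9 * K) + 20000 * u ≤ 3 / 400 * (ε * l₀) := by
  have hd0 : 0 < d := by linarith
  have hK0 : 0 < K := by linarith
  constructor
  · have h1 : 1 ≤ (ε * (100 * K * d)) ^ 5 := one_le_pow₀ hε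
    calc (120 : ℝ) * 400 ^ 5 ≤ 10 ^ 16 * 1 * 1 := by norm_num
      _ ≤ 10 ^ 16 * (ε * (100 * K * d)) ^ 5 * u := by gcongr
      _ = ε ^ 5 * (10 ^ 26 * d ^ 5 * K ^ 5 * u) := by ring
      _ ≤ _ := by gcongr
  · have h1 : 10 ^ 24 * (d * K ^ 2 * u) ≤ ε * l₀ := by
      have hd3 : 1 ≤ d ^ 3 := one_le_pow₀ (by linarith)
      have hK2 : 1 ≤ K ^ 2 := one_le_pow₀ hK
      calc 10 ^ 24 * (d * K ^ 2 * u) = 10 ^ 24 * (d * K ^ 2 * u) * 1 * 1 * 1 := by ring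
        _ ≤ 10 ^ 24 * (d * K ^ 2 * u) * d ^ 3 * K ^ 2 * (ε * (100 * K * d)) := by gcongr
        _ = ε * (10 ^ 26 * d ^ 5 * K ^ 5 * u) := by ring
        _ ≤ _ := by gcongr
    have hK2 : K ≤ K ^ 2 := by nlinarith
    have h2 : K ^ 2 * d ≤ d * K ^ 2 * u := by
      rw [mul_comm]; exact le_mul_of_one_le_right (by positivity) hu
    have h3 : K ^ 2 ≤ K ^ 2 * d := le_mul_of_one_le_right (by positivity) (by linarith)
    have h4 : u ≤ d * K ^ 2 * u :=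
      le_mul_of_one_le_left (by linarith) (one_le_mul_of_one_le_of_one_le (by linarith) (by linarith))
    linarith

/-- Choice of the parameters (replace `δ` by `δ₁ = min δ (1/10)`; the claim is monotone in `δ` as
`L ≥ 1`): `ε = δ₁ / (k + 100)`, `M = ⌈100 (16 + k) / ε⌉`, `log Λ₀ = log L / (2+ε) ^ (k + 69)
≥ log L / (2 · 2 ^ (k + 69))`, `J = 4 · 8 ^ (k + 71) (16 + k) log L`, `p = ⌈2 J⌉`.  The junk inequality reads
`log 10^40 + 2 M log 1000 + 4 log J + 20000 / q³ ≤ (ε / 100) ℓ₀` with `ℓ₀ = log Λ₀ ≥ R' (k+1)⁵ / q³`;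
use `log log L ≤ (k + 69) + log ℓ₀ ≤ k + 69 + 2 √ℓ₀`. -/
theorem lower_main {δ : ℝ} (hδ : 0 < δ) :
    ∃ R : ℝ, 0 < R ∧ ∀ (q : ℝ) (k : ℕ) (L : ℝ), 0 < q → q ≤ 1 / 2 → 1 ≤ L →
      R * 2 ^ k * ((k : ℝ) + 1) ^ 5 / q ^ 3 ≤ Real.log L →
      ∃ u v : List Bool, u ≠ v ∧ u.length = v.length ∧ (u.length : ℝ) ≤ L ∧
        N2 (law q v - law q u) (law q u) (L ^ (-((1 / 8 - δ) * k))) (L ^ (-(k : ℝ))) := by
  obtain ⟨δ₁, hδ₁, hδ₁δ, hδ₁1⟩ : ∃ δ₁ : ℝ, 0 < δ₁ ∧ δ₁ ≤ δ ∧ δ₁ ≤ 1 / 10 :=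
    ⟨min δ (1 / 10), lt_min hδ (by norm_num), min_le_left _ _, min_le_right _ _⟩
  obtain ⟨d, hd, hdδ⟩ : ∃ d : ℝ, 10 ≤ d ∧ d * δ₁ = 1 :=
    ⟨1 / δ₁, by rw [le_div_iff₀ hδ₁]; linarith, by field_simp⟩
  have hd0 : 0 < d := by linarith
  refine ⟨2 ^ 70 * (10 ^ 26 * d ^ 5), by positivity, fun q k L hq hq1 hL hR => ?_⟩
  have hk : (0 : ℝ) ≤ k := Nat.cast_nonneg k
  obtain ⟨ε, hε, hεk⟩ : ∃ ε : ℝ, 0 < ε ∧ ε * (k + 100) = δ₁ :=
    ⟨δ₁ / (k + 100), by positivity, by field_simp⟩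
  have hu : 1 ≤ 1 / q ^ 3 := by
    rw [le_div_iff₀ (by positivity), one_mul]
    exact pow_le_one₀ hq.le (by linarith)
  obtain ⟨l, hl⟩ : ∃ l, l = Real.log L := ⟨_, rfl⟩
  have hl0 : 0 ≤ l := hl ▸ Real.log_nonneg hL
  have hr0 : 0 < (2 + ε) ^ (k + 69) := by positivity
  obtain ⟨l₀, hl₀, hll⟩ : ∃ l₀ : ℝ, 0 ≤ l₀ ∧ l₀ * (2 + ε) ^ (k + 69) = l :=
    ⟨l / (2 + ε) ^ (k + 69), by positivity, by field_simp⟩
  have hll' : l ≤ 2 ^ (k + 70) * l₀ := by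
    rw [← hll, mul_comm]
    exact mul_le_mul_of_nonneg_right (iter_pow_le hε (by linarith)) hl₀
  have hl₀R : 10 ^ 26 * d ^ 5 * ((k : ℝ) + 1) ^ 5 * (1 / q ^ 3) ≤ l₀ := by
    have h2 : (0 : ℝ) < 2 ^ (k + 70) := by positivity
    refine le_of_mul_le_mul_left (le_trans (le_of_eq ?_) ((hR.trans hl.ge).trans hll')) h2
    rw [pow_add]
    ring
  have hεM : 100 * (16 + k) / ε ≤ 160000 * ((k : ℝ) + 1) ^ 2 * d := by
    rw [div_le_iff₀ hε]
    have h1 : 1 = d * (ε * (k + 100)) := by rw [hεk, hdδ]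
    have h2 : 0 ≤ d * ε := by positivity
    calc 100 * (16 + (k : ℝ)) = 100 * (16 + k) * (d * (ε * (k + 100))) := by rw [← h1, mul_one]
      _ = (100 * (16 + k) * (k + 100)) * (d * ε) := by ring
      _ ≤ (160000 * ((k : ℝ) + 1) ^ 2) * (d * ε) := by
          refine mul_le_mul_of_nonneg_right ?_ h2
          nlinarith
      _ = _ := by ring
  obtain ⟨M, hM1, hM2⟩ : ∃ M : ℕ, 100 * (16 + k) / ε ≤ M ∧
      (M : ℝ) ≤ 160000 * ((k : ℝ) + 1) ^ 2 * d + 1 :=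
    ⟨⌈100 * (16 + k) / ε⌉₊, Nat.le_ceil _,
      (Nat.ceil_lt_add_one (by positivity)).le.trans (by linarith)⟩
  obtain ⟨n1, n2⟩ := iter_num hd (by linarith : (1 : ℝ) ≤ k + 1) hu hl₀R (ε := ε) (by
    have h1 : 1 = d * (ε * (k + 100)) := by rw [hεk, hdδ]
    have h2 : 0 ≤ d * ε := by positivity
    have h3 : 0 ≤ d * ε * k := by positivity
    nlinarith) hε hM2
  have hjunk := iter_junk (u := 20000 / q ^ 3) (M := M) hε hl0 hl₀ hll' n1 (by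
    rw [← mul_one_div]; linarith)
  have hl1 : 1 ≤ l := by
    have h1 : (1 : ℝ) ≤ (2 + ε) ^ (k + 69) := one_le_pow₀ (by linarith)
    have h2 : (1 : ℝ) ≤ l₀ := by
      refine le_trans ?_ hl₀R
      have h3 : 1 ≤ d ^ 5 := one_le_pow₀ (by linarith)
      have h4 : 1 ≤ ((k : ℝ) + 1) ^ 5 := one_le_pow₀ (by linarith)
      calc (1 : ℝ) ≤ 10 ^ 26 * 1 * 1 * 1 := by norm_num
        _ ≤ _ := by gcongr
    rw [← hll]
    exact one_le_mul_of_one_le_of_one_le h2 h1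
  obtain ⟨J, hJ⟩ : ∃ J, J = 4 * 8 ^ (k + 71) * (16 + k) * l := ⟨_, rfl⟩
  have hJ4 : 4 ≤ J := by
    have h1 : (1 : ℝ) ≤ 8 ^ (k + 71) := one_le_pow₀ (by norm_num)
    rw [hJ]
    calc (4 : ℝ) = 4 * 1 * 1 * 1 := by norm_num
      _ ≤ _ := by gcongr; linarith
  rw [← hJ] at hjunk
  have hc : Real.exp (-(20000 / q ^ 3)) ≤ 1 / 2 := by
    have h1 := Real.add_one_le_exp (20000 / q ^ 3)
    have h2 : 20000 / q ^ 3 = 20000 * (1 / q ^ 3) := by ring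
    rw [Real.exp_neg, inv_eq_one_div]
    exact one_div_le_one_div_of_le (by norm_num) (by linarith)
  have hG : Glob ε M J ⌈2 * J⌉₊ (Real.exp l₀ ^ (-(1 / 10) : ℝ)) (Real.exp (-(20000 / q ^ 3)))
      (Real.exp l₀) (6 + k) :=
    { hε := hε
      hε1 := by nlinarith [mul_nonneg hε.le hk]
      hB := by linarith
      hM := by rw [div_le_iff₀ hε] at hM1; linarith
      hJ := hJ4
      hp := Nat.le_ceil _
      hp' := (Nat.ceil_lt_add_one (by linarith)).le.trans (by linarith)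
      hc₀ := Real.exp_pos _
      hc₀' := hc
      hΛ₀ := Real.one_le_exp hl₀
      junk := hjunk
      hη := rfl }
  obtain ⟨u, v, h1, h2, h3, h4⟩ := lower_glob (L := L) hq hq1 hδ₁ (by linarith) hG
    (by nlinarith) (by rw [← Real.exp_mul, hll, hl, Real.exp_log (by linarith)])
    (by rw [hJ, hl])
  refine ⟨u, v, h1, h2, h3, h4.mono (Real.rpow_le_rpow_of_exponent_le hL ?_) le_rfl⟩
  nlinarith [mul_le_mul_of_nonneg_right hδ₁δ hk]

end Crest.Agent.R300
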