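import Crest.Prelude.Def_TraceRecon
import Crest.Agent.R300.LIter
import Crest.Prelude.Def_TraceTV

/-!
# R300 lower bound: translation to the statements (task LFinal)
-/

set_option autoImplicit false

namespace Crest.Agent.R300

open Finset Crest.FinProb Crest.TraceRecon

theorem lf_sum_cons {α : Type} [Fintype α] {n : ℕ} (f : (Fin (n + 1) → α) → ℝ) :
    ∑ x, f x = ∑ a, ∑ x : Fin n → α, f (Fin.cons a x) := by
  rw [← (Fin.consEquiv fun _ => α).sum_comp, Fintype.sum_prod_type]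
  rfl

theorem lf_trace_cons {n : ℕ} (x : Fin (n + 1) → Bool) (b : Bool) (keep : Fin n → Bool) :
    traceOf x (Fin.cons b keep) =
      if b then x 0 :: traceOf (fun i => x i.succ) keep else traceOf (fun i => x i.succ) keep := by
  cases b <;>
    simp [traceOf, List.finRange_succ, List.filter_map, Function.comp_def]

theorem lf_bw_cons {n : ℕ} (p : ℝ) (b : Bool) (keep : Fin n → Bool) :
    bernoulliWeight p (Fin.cons b keep : Fin (n + 1) → Bool) =
      (if b then p else 1 - p) * bernoulliWeight p keep := by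
  simp [bernoulliWeight, Fin.prod_univ_succ]

theorem lf_pr_letter (q : ℝ) (a : Bool) (φ : W → ℝ) :
    pr (letter q a) φ = q * φ 1 + (1 - q) * φ (FreeMonoid.of a) := by
  rw [letter, pr_add, pr_smul, pr_smul, pr_one, X, pr_single, one_mul]

/-- Induction on `n` (`Fin.cons`, `Fin.consEquiv`). -/
theorem pr_law_ofFn {n : ℕ} (p : ℝ) (x : Fin n → Bool) (φ : W → ℝ) :
    pr (law (1 - p) (List.ofFn x)) φ =
      ∑ keep : Fin n → Bool, bernoulliWeight p keep * φ (FreeMonoid.ofList (traceOf x keep)) := by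
  induction n generalizing φ with
  | zero => simp [bernoulliWeight, traceOf]
  | succ n ih =>
    rw [List.ofFn_succ, law_cons, pr_mul, lf_pr_letter, ih, ih, lf_sum_cons, Fintype.sum_bool]
    simp only [lf_trace_cons, lf_bw_cons, Finset.mul_sum, if_true, Bool.false_eq_true, if_false,
      one_mul, sub_sub_cancel, mul_assoc, FreeMonoid.ofList_cons]
    exact add_comm _ _

theorem lf_coeff {n : ℕ} (p : ℝ) (x : Fin n → Bool) (w : List Bool) :
    (law (1 - p) (List.ofFn x)).coeff (FreeMonoid.ofList w) = traceLaw p x w := by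
  classical
  rw [coeff_eq_pr, pr_law_ofFn, traceLaw, bernoulliProb, Finset.sum_filter]
  refine Finset.sum_congr rfl fun keep _ => ?_
  by_cases h : traceOf x keep = w <;> simp [ind, h]

theorem lf_support {n : ℕ} (p : ℝ) (x : Fin n → Bool) {w : List Bool} (hw : n < w.length) :
    traceLaw p x w = 0 := by
  rw [traceLaw, bernoulliProb]
  refine Finset.sum_eq_zero fun keep hk => ?_
  have h : traceOf x keep = w := by simpa using hk
  have h1 : (traceOf x keep).length ≤ n := by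
    rw [traceOf, List.length_map]
    exact (List.length_filter_le _ _).trans (by simp)
  rw [h] at h1
  omega

theorem traceTV_eq {n : ℕ} (p : ℝ) (x y : Fin n → Bool) :
    traceTV p x y = l1 (law (1 - p) (List.ofFn x) - law (1 - p) (List.ofFn y)) / 2 := by
  classical
  rw [l1_eq_sum _ (s := ((range (n + 1)).sigma fun k => (univ : Finset (Fin k → Bool))).image
    fun z => FreeMonoid.ofList (List.ofFn z.2)), Finset.sum_image, Finset.sum_sigma, traceTV,
    mul_comm, mul_one_div]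
  · simp only [MonoidAlgebra.coeff_sub, Finsupp.sub_apply, lf_coeff]
  · intro z _ z' _ h
    exact List.ofFn_inj'.1 (FreeMonoid.ofList.injective h)
  · intro w hw
    obtain ⟨w, rfl⟩ := FreeMonoid.ofList.surjective w
    rw [Finsupp.mem_support_iff, MonoidAlgebra.coeff_sub, Finsupp.sub_apply, lf_coeff,
      lf_coeff] at hw
    have h : w.length < n + 1 := by
      by_contra h
      exact hw (by rw [lf_support p x (by omega), lf_support p y (by omega), sub_zero])
    exact Finset.mem_image.2 ⟨⟨w.length, w.get⟩, by simpa using h, by simp⟩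

/-- For `q > 1/2`, `law q w = Ψ (law (1/2) w)` where the algebra map `Ψ` sends `X a` to
`letter (2 q - 1) a` (`markov_lift`, `lift_X`); use `Markov.n2`. -/
theorem lower_all {δ : ℝ} (hδ : 0 < δ) :
    ∃ R : ℝ, 0 < R ∧ ∀ (q : ℝ) (k : ℕ) (L : ℝ), 0 < q → q < 1 → 1 ≤ L →
      R * 2 ^ k * ((k : ℝ) + 1) ^ 5 / q ^ 3 ≤ Real.log L →
      ∃ u v : List Bool, u ≠ v ∧ u.length = v.length ∧ (u.length : ℝ) ≤ L ∧
        N2 (law q v - law q u) (law q u) (L ^ (-((1 / 8 - δ) * k))) (L ^ (-(k : ℝ))) := by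
  obtain ⟨R, hR, h⟩ := lower_main hδ
  refine ⟨8 * R, by positivity, fun q k L hq hq1 hL hk => ?_⟩
  have h0 : 0 < R * 2 ^ k * ((k : ℝ) + 1) ^ 5 := by positivity
  rcases le_or_gt q (1 / 2) with hq2 | hq2
  · refine h q k L hq hq2 hL (le_trans ?_ hk)
    exact div_le_div_of_nonneg_right (by linarith) (by positivity)
  · obtain ⟨u, v, h1, h2, h3, h4⟩ := h (1 / 2) k L (by norm_num) le_rfl hL (le_trans (by
      rw [le_div_iff₀ (by positivity)]
      have := mul_le_of_le_one_right h0.le (pow_le_one₀ (n := 3) hq.le hq1.le)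
      rw [show R * 2 ^ k * ((k : ℝ) + 1) ^ 5 / (1 / 2) ^ 3 = 8 * (R * 2 ^ k * ((k : ℝ) + 1) ^ 5) by
        ring]
      linarith) hk)
    refine ⟨u, v, h1, h2, h3, ?_⟩
    have hΨ : ∀ w, MonoidAlgebra.lift ℝ (Ms W) W (FreeMonoid.lift (letter (2 * q - 1)))
        (law (1 / 2) w) = law q w := by
      intro w
      induction w with
      | nil => simp
      | cons a w ih =>
        rw [law_cons, law_cons, map_mul, ih, letter, map_add, map_smul, map_smul, map_one, lift_X,
          letter, letter]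
        congr 1
        module
    have := (markov_lift (letter (2 * q - 1))
      (prob_letter (by linarith) (by linarith))).n2 h4 (by positivity)
        (prob_law (by norm_num) (by norm_num) u).1
    simpa only [AlgHom.toLinearMap_apply, map_sub, hΨ] using this

/-- the kernel `w ↦ of w` -/
noncomputable def lfI : Ms W →ₗ[ℝ] Ms (FreeMonoid W) where
  toFun x := Finsupp.linearCombination ℝ
    (fun w => (MonoidAlgebra.single (FreeMonoid.of w) 1 : Ms (FreeMonoid W))) x.coeff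
  map_add' x y := by rw [MonoidAlgebra.coeff_add, map_add]
  map_smul' c x := by rw [MonoidAlgebra.coeff_smul, map_smul]; rfl

theorem lfI_single (w : W) :
    lfI (MonoidAlgebra.single w 1) = MonoidAlgebra.single (FreeMonoid.of w) 1 := by
  simp [lfI]

theorem lfI_markov : Markov lfI := fun w => by
  rw [lfI_single]
  refine ⟨fun v => ?_, ?_⟩
  · rw [coeff_eq_pr, pr_single, one_mul]; exact ind_nonneg _ _
  · rw [mass, pr_single, one_mul]

theorem lfI_prob {P : Ms W} (hP : Prob P) : Prob (lfI P) :=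
  ⟨lfI_markov.nn hP.1, by rw [lfI_markov.mass, hP.2]⟩

theorem lf_pr_pow {n : ℕ} (p : ℝ) (x : Fin n → Bool) (m : ℕ) (φ : FreeMonoid W → ℝ) :
    pr (lfI (law (1 - p) (List.ofFn x)) ^ m) φ = ∑ keeps : Fin m → Fin n → Bool,
      (∏ k, bernoulliWeight p (keeps k)) *
        φ (FreeMonoid.ofList (List.ofFn fun k => FreeMonoid.ofList (traceOf x (keeps k)))) := by
  induction m generalizing φ with
  | zero => simp
  | succ m ih =>
    rw [pow_succ', pr_mul, lfI_markov.pr, pr_law_ofFn, lf_sum_cons]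
    simp only [lfI_single, pr_single, one_mul, ih, Fin.prod_univ_succ, Fin.cons_zero, Fin.cons_succ,
      List.ofFn_succ, FreeMonoid.ofList_cons, Finset.mul_sum, mul_assoc]

/-- `m` independent traces.  Let `ι : Ms W →ₗ Ms (FreeMonoid W)` be the Markov kernel
`single w 1 ↦ single (of w) 1` (`MonoidAlgebra.mapDomain`-type linear map).  The probability that the rule
answers `y` on `m` traces of `x` is `pr ((ι (law x)) ^ m) φ` with
`φ l = K (fun k => (l.toList.getD k 1).toList) y ∈ [0, 1]` (induction on `m` with `pr_mul`,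
`pr_law_ofFn`).  Then `Markov.n2`, `prod_n2`, `N2.l1_le`, `abs_pr_le`. -/
theorem sample_close {n m : ℕ} {p σ τ : ℝ} (hp0 : 0 ≤ p) (hp1 : p ≤ 1) (hσ : 0 ≤ σ) (hτ : 0 ≤ τ)
    (x x' : Fin n → Bool)
    (h : N2 (law (1 - p) (List.ofFn x') - law (1 - p) (List.ofFn x)) (law (1 - p) (List.ofFn x)) σ τ)
    (hm : m * (σ + τ) ^ 2 ≤ 1) (hm' : m * τ ≤ 1 / 4)
    (K : (Fin m → List Bool) → (Fin n → Bool) → ℝ) (hK : IsRule K) :
    successProb p K x' ≤ (∑ keeps : Fin m → Fin n → Bool,
      (∏ k, bernoulliWeight p (keeps k)) * K (fun k => traceOf x (keeps k)) x') +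
        (2 * (σ + τ) * Real.sqrt m + 4 * m * τ) := by
  have hP := lfI_prob (prob_law (q := 1 - p) (by linarith) (by linarith) (List.ofFn x))
  have hQ := lfI_prob (prob_law (q := 1 - p) (by linarith) (by linarith) (List.ofFn x'))
  have h1 := lfI_markov.n2 h hσ (prob_law (by linarith) (by linarith) _).1
  rw [map_sub] at h1
  have h2 := (prod_n2 hP hQ hσ hτ h1 hm hm').1.l1_le (by positivity) (hP.pow m)
  have h3 := pr_le_l1 (lfI (law (1 - p) (List.ofFn x')) ^ m - lfI (law (1 - p) (List.ofFn x)) ^ m)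
    (φ := fun l => K (fun k => FreeMonoid.toList ((FreeMonoid.toList l).getD k 1)) x') fun l => by
      rw [abs_of_nonneg ((hK _).1 _), ← (hK fun k => FreeMonoid.toList
        ((FreeMonoid.toList l).getD k 1)).2]
      exact Finset.single_le_sum (fun y _ => (hK _).1 y) (mem_univ _)
  rw [pr_sub, lf_pr_pow, lf_pr_pow] at h3
  have e : ∀ (y : Fin n → Bool) (keeps : Fin m → Fin n → Bool), (fun k : Fin m => FreeMonoid.toList
      ((FreeMonoid.toList (FreeMonoid.ofList (List.ofFn fun k =>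
        FreeMonoid.ofList (traceOf y (keeps k))))).getD k 1)) = fun k => traceOf y (keeps k) := by
    intro y keeps
    funext k
    simp [List.getD_eq_getElem?_getD]
  simp only [e] at h3
  rw [successProb]
  linarith

theorem lf_exists_ofFn {n : ℕ} (l : List Bool) (h : l.length = n) :
    ∃ x : Fin n → Bool, List.ofFn x = l := by
  subst h
  exact ⟨l.get, List.ofFn_get l⟩

theorem lf_rep_add (u : List Bool) (a b : ℕ) : rep u (a + b) = rep u a ++ rep u b := by
  rw [rep, rep, rep, List.replicate_add, List.flatten_append]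

theorem lf_rep_succ (u : List Bool) (a : ℕ) : rep u (a + 1) = rep u a ++ u := by
  rw [lf_rep_add]; simp [rep]

theorem lf_sum_bw {n : ℕ} (p : ℝ) (m : ℕ) :
    ∑ keeps : Fin m → Fin n → Bool, ∏ k, bernoulliWeight p (keeps k) = 1 := by
  rw [← Fintype.prod_sum fun (_ : Fin m) (keep : Fin n → Bool) => bernoulliWeight p keep]
  refine Finset.prod_eq_one fun _ _ => ?_
  simp only [bernoulliWeight]
  rw [← Fintype.prod_sum fun (_ : Fin n) (b : Bool) => if b then p else 1 - p]
  simp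

theorem lf_bw_nonneg {n : ℕ} {p : ℝ} (h0 : 0 ≤ p) (h1 : p ≤ 1) (keep : Fin n → Bool) :
    0 ≤ bernoulliWeight p keep :=
  Finset.prod_nonneg fun i _ => by split_ifs <;> linarith

/-- the pigeonhole step -/
theorem lf_pigeon {n m r : ℕ} {q σ τ s : ℝ} (hq : 0 < q) (hq1 : q < 1) (hs : 0 < s) (hs1 : s ≤ 1)
    (hr : 2 ≤ r * s) {u v : List Bool} (huv : u ≠ v) (hl : u.length = v.length)
    (hn : r * u.length ≤ n) (hσ : 0 ≤ σ) (hτ : 0 ≤ τ) (hτ1 : τ ≤ σ) (hτ2 : τ ≤ σ ^ 2)
    (h : N2 (law q v - law q u) (law q u) σ τ) (hm : m * σ ^ 2 ≤ (s / 32) ^ 2)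
    (K : (Fin m → List Bool) → (Fin n → Bool) → ℝ) (hK : IsRule K) :
    ∃ x : Fin n → Bool, successProb (1 - q) K x < s := by
  by_contra hc
  push Not at hc
  have hlen : ∀ j : Fin r, ∀ w : List Bool, w.length = u.length →
      (rep u j ++ (w ++ (rep u (r - 1 - j) ++ List.replicate (n - r * u.length) false))).length
        = n := by
    intro j w hw
    obtain ⟨d, hd⟩ : ∃ d, r = j + 1 + d := ⟨r - 1 - j, by omega⟩
    simp only [List.length_append, length_rep, List.length_replicate, hw]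
    rw [show r - 1 - j = d by omega]
    have : r * u.length = j * u.length + u.length + d * u.length := by
      conv_lhs => rw [hd]
      ring
    omega
  choose y hy using fun j : Fin r => lf_exists_ofFn _ (hlen j v hl.symm)
  obtain ⟨x, hx⟩ := lf_exists_ofFn (n := n) (rep u r ++ List.replicate (n - r * u.length) false)
    (by simp only [List.length_append, length_rep, List.length_replicate]; omega)
  have hlt : ∀ j j' : Fin r, j < j' → y j ≠ y j' := by
    intro j j' hj e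
    have h1 := hy j'
    obtain ⟨d, hd⟩ : ∃ d, (j' : ℕ) = j + (1 + d) := ⟨j' - j - 1, by have := Fin.lt_def.1 hj; omega⟩
    rw [← e, hy j, hd, lf_rep_add, lf_rep_add, List.append_assoc, List.append_cancel_left_eq,
      List.append_assoc] at h1
    exact huv (by simpa [rep] using (List.append_inj h1 (by simp [rep, hl])).1.symm)
  have hinj : Function.Injective y := fun j j' e => by
    rcases lt_trichotomy j j' with h | h | h
    · exact (hlt _ _ h e).elim
    · exact h
    · exact (hlt _ _ h e.symm).elim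
  have hm0 : (0 : ℝ) ≤ m := Nat.cast_nonneg m
  have hθ : σ * Real.sqrt m ≤ s / 32 := by
    refine (pow_le_pow_iff_left₀ (by positivity) (by positivity) two_ne_zero).1 ?_
    rw [mul_pow, Real.sq_sqrt hm0]; linarith
  have hmτ : m * τ ≤ (s / 32) ^ 2 := (mul_le_mul_of_nonneg_left hτ2 hm0).trans hm
  have hs2 : (s / 32) ^ 2 ≤ s / 32 / 32 := by nlinarith
  have key : ∀ j, s ≤ (∑ keeps : Fin m → Fin n → Bool, (∏ k, bernoulliWeight (1 - q) (keeps k)) *
      K (fun k => traceOf x (keeps k)) (y j)) + s / 4 := by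
    intro j
    have hP := prob_law hq.le hq1.le
    have h1 := (h.mul_right hσ (hP u).1
      (hP (rep u (r - 1 - j) ++ List.replicate (n - r * u.length) false))).mul_left hσ
        ((hP u).1.mul (hP _).1) (hP (rep u j))
    have e : List.ofFn x =
        rep u j ++ (u ++ (rep u (r - 1 - j) ++ List.replicate (n - r * u.length) false)) := by
      rw [hx, ← List.append_assoc, ← List.append_assoc, ← lf_rep_succ, ← lf_rep_add]
      congr 2
      have := j.2
      omega
    refine (hc (y j)).trans ((sample_close (p := 1 - q) (by linarith) (by linarith) hσ hτ x (y j)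
      ?_ ?_ (by linarith) K hK).trans (add_le_add le_rfl ?_))
    · rw [sub_sub_cancel, hy, e]
      simpa only [law_append, sub_mul, mul_sub] using h1
    · have : (σ + τ) ^ 2 ≤ (2 * σ) ^ 2 := pow_le_pow_left₀ (by positivity) (by linarith) 2
      nlinarith
    · have := mul_le_mul_of_nonneg_right hτ1 (Real.sqrt_nonneg m)
      nlinarith
  have h1 := Finset.sum_le_sum fun j (_ : j ∈ univ) => key j
  rw [Finset.sum_add_distrib, Finset.sum_comm] at h1
  have h2 : ∑ keeps : Fin m → Fin n → Bool, ∑ j, (∏ k, bernoulliWeight (1 - q) (keeps k)) *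
      K (fun k => traceOf x (keeps k)) (y j) ≤ 1 := by
    refine le_trans (Finset.sum_le_sum fun keeps _ => ?_) (lf_sum_bw (n := n) (1 - q) m).le
    rw [← Finset.mul_sum]
    refine mul_le_of_le_one_right (Finset.prod_nonneg fun k _ =>
      lf_bw_nonneg (by linarith) (by linarith) _) ?_
    rw [← (hK fun k => traceOf x (keeps k)).2, ← Finset.sum_image (s := univ) (g := y)
      (f := K fun k => traceOf x (keeps k)) hinj.injOn]
    exact Finset.sum_le_sum_of_subset_of_nonneg (subset_univ _) fun z _ _ => (hK _).1 z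
  simp only [Finset.sum_const, Finset.card_univ, Fintype.card_fin, nsmul_eq_mul] at h1
  linarith

theorem lf_num {c δ t k l lL S : ℝ} (hδ : δ = (1 / 4 - c * Real.log 2) / 5) (hδ0 : 0 < δ)
    (hδ1 : δ ≤ 1 / 20) (ht : 1 ≤ t) (hk0 : 0 ≤ k) (hk1 : (1 - δ) * t ≤ k * Real.log 2) (a0 : 0 ≤ l)
    (a2 : -S ≤ l * δ) (hL : (1 - δ) * l ≤ lL) :
    l * (c * t) + lL * -((1 / 4 - 2 * δ) * k) ≤ S := by
  have l2 : 1 / 2 < Real.log 2 := by linarith [Real.log_two_gt_d9]
  have l2' : Real.log 2 < 1 := by linarith [Real.log_two_lt_d9]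
  have b1 : (1 - δ) * l * ((1 / 4 - 2 * δ) * k) ≤ lL * ((1 / 4 - 2 * δ) * k) :=
    mul_le_mul_of_nonneg_right hL (mul_nonneg (by linarith) hk0)
  have b2 : c * t + δ ≤ (1 - δ) * ((1 / 4 - 2 * δ) * k) := by
    refine le_of_mul_le_mul_right ?_ (by linarith : 0 < Real.log 2)
    have b3 := mul_le_mul_of_nonneg_left hk1
      (mul_nonneg (by linarith : 0 ≤ 1 - δ) (by linarith : 0 ≤ 1 / 4 - 2 * δ))
    have b4 : 1 / 4 - 4 * δ ≤ (1 - δ) * (1 / 4 - 2 * δ) * (1 - δ) := by nlinarith [sq_nonneg δ]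
    have b5 := mul_le_mul_of_nonneg_right b4 (by linarith : 0 ≤ t)
    have b6 : c * Real.log 2 = 1 / 4 - 5 * δ := by linarith
    have b7 : δ * Real.log 2 ≤ δ * t := mul_le_mul_of_nonneg_left (by linarith) hδ0.le
    calc (c * t + δ) * Real.log 2 = c * Real.log 2 * t + δ * Real.log 2 := by ring
      _ ≤ (1 / 4 - 4 * δ) * t := by rw [b6]; linarith
      _ ≤ _ := by linarith
  linarith [mul_le_mul_of_nonneg_left b2 a0]

theorem lf_k {R δ : ℝ} (hR : 0 < R) (hδ : 0 < δ) (hδ1 : δ ≤ 1 / 2) : ∃ T : ℝ, 1 ≤ T ∧ ∀ t, T ≤ t →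
    ∃ k : ℕ, (1 - δ) * t ≤ k * Real.log 2 ∧
      R * 2 ^ k * ((k : ℝ) + 1) ^ 5 ≤ (1 - δ) * Real.exp t := by
  refine ⟨max 1 (720 * (4096 * R) / δ ^ 6), le_max_left _ _, fun t ht => ?_⟩
  have ht1 : 1 ≤ t := (le_max_left _ _).trans ht
  have ht2 : 720 * (4096 * R) ≤ t * δ ^ 6 :=
    (div_le_iff₀ (by positivity)).1 ((le_max_right _ _).trans ht)
  have l2 : 1 / 2 < Real.log 2 := by linarith [Real.log_two_gt_d9]
  have h0 : 0 ≤ (1 - δ) * t / Real.log 2 := div_nonneg (by nlinarith) (by linarith)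
  refine ⟨⌈(1 - δ) * t / Real.log 2⌉₊, (div_le_iff₀ (by linarith)).1 (Nat.le_ceil _), ?_⟩
  have h1 := (Nat.ceil_lt_add_one h0).le
  generalize ⌈(1 - δ) * t / Real.log 2⌉₊ = k at h1
  have h2 : (k : ℝ) * Real.log 2 ≤ (1 - δ) * t + Real.log 2 := by
    have := mul_le_mul_of_nonneg_right h1 (by linarith : 0 ≤ Real.log 2)
    rwa [add_mul, div_mul_cancel₀ _ (by linarith), one_mul] at this
  have h3 : (2 : ℝ) ^ k ≤ Real.exp ((1 - δ) * t) * 2 := by
    have := Real.exp_le_exp.2 h2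
    rwa [Real.exp_nat_mul, Real.exp_add, Real.exp_log two_pos] at this
  have h4 : (k : ℝ) + 1 ≤ 4 * t := by
    have : (1 - δ) * t / Real.log 2 ≤ 2 * t := by
      rw [div_le_iff₀ (by linarith)]; nlinarith
    linarith
  have h5 := Real.pow_div_factorial_le_exp (δ * t) (by positivity) 6
  have h6 : 4096 * R * t ^ 5 ≤ Real.exp (δ * t) := by
    refine le_trans ?_ h5
    rw [le_div_iff₀ (by positivity), show ((Nat.factorial 6 : ℕ) : ℝ) = 720 by norm_num]
    nlinarith [mul_le_mul_of_nonneg_right ht2 (show 0 ≤ t ^ 5 by positivity)]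
  calc R * 2 ^ k * ((k : ℝ) + 1) ^ 5 ≤ R * (Real.exp ((1 - δ) * t) * 2) * (4 * t) ^ 5 := by gcongr
    _ = 1 / 2 * (Real.exp ((1 - δ) * t) * (4096 * R * t ^ 5)) := by ring
    _ ≤ (1 - δ) * (Real.exp ((1 - δ) * t) * Real.exp (δ * t)) :=
      mul_le_mul (by linarith) (by gcongr) (by positivity) (by linarith)
    _ = _ := by rw [← Real.exp_add]; congr 2; ring

/-- Let `r = ⌈2 / s⌉ + 1`, `L = n / r`, `δ` small with `c < (1 - δ)² (1/4 - 2δ) / log 2`, and let `k` be
the largest integer with `R' 2^k (k+1)⁵ ≤ q³ log L` (or `k = ⌊(1 - δ) log (q³ log n) / log 2⌋ + 1`, which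
satisfies this inequality once `q³ log n ≥ R` and `log L ≥ (1 - δ) log n`).  With `u, v` from
`lower_all` let `x = u^r z` and `x_j = u^j v u^(r-1-j) z` (`j < r`, `z` a padding), pairwise different words
of length `n`, with `N2 (law x_j - law x) (law x) σ τ` (`N2.mul_left`, `N2.mul_right`).  If all `x_j` had
success probability `≥ s`, then `r s ≤ ∑_j P_x(K = x_j) + r e ≤ 1 + r e` by `sample_close`, where
`e = 4 σ √m + 4 m τ ≤ s / 4` for large `n`, since `τ ≤ σ`, `τ ≤ σ²` and `m σ² ≤ n ^ (-γ)` for a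
fixed `γ > 0`; contradiction with `r s ≥ 2`. -/
theorem final_0454 (s : ℝ) (hs : 0 < s) (hs1 : s ≤ 1)
    (c : ℝ) (hc : 0 < c) (hc' : c < 1 / (4 * Real.log 2)) :
    ∃ (N₀ : ℕ) (R : ℝ), ∀ n ≥ N₀, ∀ q : ℝ, 0 < q → q < 1 → R ≤ q ^ 3 * Real.log n →
      ∀ m : ℕ, (m : ℝ) < (n : ℝ) ^ (c * Real.log (q ^ 3 * Real.log n)) →
        ∀ K : (Fin m → List Bool) → (Fin n → Bool) → ℝ, IsRule K →
          ∃ x : Fin n → Bool, successProb (1 - q) K x < s := by
  have l2 : 1 / 2 < Real.log 2 := by linarith [Real.log_two_gt_d9]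
  have l2' : Real.log 2 < 1 := by linarith [Real.log_two_lt_d9]
  obtain ⟨δ, hδ⟩ : ∃ δ : ℝ, δ = (1 / 4 - c * Real.log 2) / 5 := ⟨_, rfl⟩
  have hδ0 : 0 < δ := by
    rw [lt_div_iff₀ (by positivity)] at hc'
    linarith
  have hδ1 : δ ≤ 1 / 20 := by nlinarith
  obtain ⟨R, hR, hlow⟩ := lower_all hδ0
  obtain ⟨T, hT1, hT⟩ := lf_k hR hδ0 (by linarith)
  obtain ⟨r, hr⟩ := exists_nat_ge (2 / s)
  rw [div_le_iff₀ hs] at hr
  have hr0 : (0 : ℝ) < r := by nlinarith [Nat.cast_nonneg (α := ℝ) r]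
  obtain ⟨N₀, hN₀⟩ := exists_nat_ge
    (Real.exp (max (max 0 (Real.log r / δ)) (-Real.log ((s / 32) ^ 2) / δ)))
  refine ⟨N₀, Real.exp T, fun n hn q hq hq1 hy m hm K hK => ?_⟩
  have hn' := hN₀.trans (Nat.cast_le.2 hn : (N₀ : ℝ) ≤ n)
  have hn0 : (0 : ℝ) < n := (Real.exp_pos _).trans_le hn'
  rw [← Real.le_log_iff_exp_le hn0, max_le_iff, max_le_iff, div_le_iff₀ hδ0,
    div_le_iff₀ hδ0] at hn'
  obtain ⟨⟨a0, a1⟩, a2⟩ := hn'
  have hy0 : 0 < q ^ 3 * Real.log n := (Real.exp_pos _).trans_le hy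
  rw [← Real.le_log_iff_exp_le hy0] at hy
  obtain ⟨k, hk1, hk2⟩ := hT _ hy
  rw [Real.exp_log hy0] at hk2
  have hL0 : (0 : ℝ) < n / r := by positivity
  have hL : (1 - δ) * Real.log n ≤ Real.log (n / r) := by
    rw [Real.log_div hn0.ne' hr0.ne']; linarith
  have hL2 : 0 ≤ Real.log (n / r) := le_trans (mul_nonneg (by linarith) a0) hL
  have hL1 : (1 : ℝ) ≤ n / r := (Real.log_nonneg_iff hL0).1 hL2
  obtain ⟨u, v, huv, hl, hlen, h⟩ := hlow q k (n / r) hq hq1 hL1 (by
    rw [div_le_iff₀ (by positivity)]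
    nlinarith [mul_le_mul_of_nonneg_right hL (show 0 ≤ q ^ 3 by positivity)])
  have hk0 : (0 : ℝ) ≤ k := Nat.cast_nonneg k
  have e : (((n : ℝ) / r) ^ (-((1 / 8 - δ) * k))) ^ 2 = ((n : ℝ) / r) ^ (-((1 / 4 - 2 * δ) * k)) := by
    rw [← Real.rpow_natCast, ← Real.rpow_mul hL0.le]; congr 1; push_cast; ring
  refine lf_pigeon (r := r) hq hq1 hs hs1 hr huv hl ?_ (by positivity) (by positivity)
    (Real.rpow_le_rpow_of_exponent_le hL1 (by nlinarith)) ?_ h ?_ K hK
  · rw [le_div_iff₀ hr0] at hlen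
    exact_mod_cast (mul_comm (r : ℝ) _).trans_le hlen
  · rw [e]
    exact Real.rpow_le_rpow_of_exponent_le hL1 (by nlinarith)
  · rw [e]
    refine (mul_le_mul_of_nonneg_right hm.le (by positivity)).trans ?_
    rw [Real.rpow_def_of_pos hn0, Real.rpow_def_of_pos hL0, ← Real.exp_add,
      ← Real.le_log_iff_exp_le (by positivity)]
    exact lf_num hδ hδ0 hδ1 (hT1.trans hy) hk0 hk1 a0 a2 hL

/-- `lower_all` with `δ = 1/16`, `k = ⌈16 A⌉ + 16`, `L = n`; pad the two words; `traceTV_eq`,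
`N2.l1_le`. -/
theorem final_0455 (q : ℝ) (hq : 0 < q) (hq1 : q < 1) (A : ℝ)
    (hA : 0 < A) (ε : ℝ) (hε : 0 < ε) :
    ∃ N₀ : ℕ, ∀ n ≥ N₀, ∃ x y : Fin n → Bool, x ≠ y ∧
      (n : ℝ) ^ A * traceTV (1 - q) x y < ε := by
  obtain ⟨R, hR, hlow⟩ := lower_all (δ := 1 / 16) (by norm_num)
  obtain ⟨k, hk⟩ := exists_nat_ge (16 * (A + 1))
  obtain ⟨N₀, hN₀⟩ := exists_nat_gt
    (max (max 1 (1 / ε)) (Real.exp (R * 2 ^ k * ((k : ℝ) + 1) ^ 5 / q ^ 3)))
  refine ⟨N₀, fun n hn => ?_⟩
  have hn' := hN₀.trans_le (Nat.cast_le.2 hn : (N₀ : ℝ) ≤ n)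
  rw [max_lt_iff, max_lt_iff] at hn'
  obtain ⟨⟨a0, a1⟩, a2⟩ := hn'
  have hn0 : (0 : ℝ) < n := by linarith
  obtain ⟨u, v, huv, hl, hlen, h⟩ := hlow q k n hq hq1 a0.le
    ((Real.le_log_iff_exp_le hn0).2 a2.le)
  have hlen' : u.length ≤ n := by exact_mod_cast hlen
  obtain ⟨x, hx⟩ := lf_exists_ofFn (n := n) (v ++ List.replicate (n - u.length) false)
    (by simp only [List.length_append, List.length_replicate]; omega)
  obtain ⟨y, hy⟩ := lf_exists_ofFn (n := n) (u ++ List.replicate (n - u.length) false)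
    (by simp only [List.length_append, List.length_replicate]; omega)
  refine ⟨x, y, fun e => huv ?_, ?_⟩
  · rw [e, hy] at hx
    exact List.append_cancel_right hx
  · have hP := prob_law hq.le hq1.le
    have h1 := (h.mul_right (by positivity) (hP u).1
      (hP (List.replicate (n - u.length) false))).l1_le (by positivity) ((hP u).mul (hP _))
    have hk0 : (0 : ℝ) ≤ k := Nat.cast_nonneg k
    have h2 : (n : ℝ) ^ (-((1 / 8 - 1 / 16 : ℝ) * k)) ≤ (n : ℝ) ^ (-(A + 1)) :=
      Real.rpow_le_rpow_of_exponent_le a0.le (by linarith)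
    have h3 : (n : ℝ) ^ (-(k : ℝ)) ≤ (n : ℝ) ^ (-(A + 1)) :=
      Real.rpow_le_rpow_of_exponent_le a0.le (by linarith)
    rw [traceTV_eq, sub_sub_cancel, hx, hy, law_append, law_append, ← sub_mul]
    refine (mul_le_mul_of_nonneg_left (show _ ≤ (n : ℝ) ^ (-(A + 1)) by linarith)
      (by positivity)).trans_lt ?_
    rw [← Real.rpow_add hn0, show A + -(A + 1) = -1 by ring, Real.rpow_neg_one]
    rw [one_div] at a1
    exact inv_lt_of_inv_lt₀ hε a1

end Crest.Agent.R300
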