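import Crest.Agent.R300.LStep
import Crest.Agent.R300.LBase

/-!
# R300 lower bound: global parameters and the two kinds of states
-/

set_option autoImplicit false

namespace Crest.Agent.R300

/-- Global parameters.  All "junk" factors are at most `Λ₀ ^ (ε / 100)`; `B` bounds all exponents. -/
structure Glob (ε : ℝ) (M : ℕ) (J : ℝ) (p : ℕ) (η c₀ Λ₀ B : ℝ) : Prop where
  hε : 0 < ε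
  hε1 : ε ≤ 1 / 300
  hB : 6 ≤ B
  hM : 100 * (B + 10) ≤ ε * M
  hJ : 4 ≤ J
  hp : 2 * J ≤ p
  hp' : (p : ℝ) ≤ 3 * J
  hc₀ : 0 < c₀
  hc₀' : c₀ ≤ 1 / 2
  hΛ₀ : 1 ≤ Λ₀
  junk : 10 ^ 40 * 1000 ^ (2 * M) * J ^ 4 / c₀ ≤ Λ₀ ^ (ε / 100)
  hη : η = Λ₀ ^ (-(1 / 10) : ℝ)

/-- A state at scale `Λ` without finer background. -/
def StO (q ε η c₀ Λ bo bf τ : ℝ) : Prop :=
  ∃ (t x₀ x₁ : List Bool) (G : ℕ), (t.length : ℝ) ≤ Λ ∧ (G : ℝ) + 1 ≤ Λ ^ (1 + ε / 4) ∧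
    Pre q t t x₀ x₁ 1 0 G G c₀ c₀ (Λ ^ (-(bo / 2))) (Λ ^ (-(bf / 2))) τ η 0 τ

/-- A state at scale `Λ ^ (2 + ε)` over a finer background at scale `Λ`. -/
def StG (q ε : ℝ) (M : ℕ) (η c₀ Λ b bg τ : ℝ) : Prop :=
  ∃ (bw t v : List Bool) (m s GB G : ℕ), (t.length : ℝ) ≤ Λ ^ (2 + ε) ∧
    (GB : ℝ) + 1 ≤ Λ ^ (1 + ε / 4) ∧ (G : ℝ) + 1 ≤ (Λ ^ (2 + ε)) ^ (1 + ε / 4) ∧
    Λ ^ (1 + 3 * ε / 4) ≤ m ∧ (m : ℝ) ≤ 4 * Λ ^ (1 + 3 * ε / 4) ∧ m ≤ 4 * (2 * s + 1) ∧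
    Pre q bw t t v m s GB G c₀ c₀ ((Λ ^ (2 + ε)) ^ (-(b / 2))) ((Λ ^ (2 + ε)) ^ (-(b / 2)))
      (Λ ^ (-(bg / 2))) η (3 * 1000 ^ M * η) τ

end Crest.Agent.R300
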