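import Crest.Agent.R300.LCalc

/-!
# R300 lower bound: overlap of two hidden chains seen through the channel (task LMark1)
-/

set_option autoImplicit false

namespace Crest.Agent.R300

open Finset

/-- channel weights -/
private noncomputable def yy (π : ℝ) (a b : Bool) : ℝ :=
  if a then (if b then 1 else 0) else (if b then π else 1 - π)

/-- density of the channel output of `a ∨ a'` relative to that of `a` -/
private noncomputable def rho (π : ℝ) (a a' b : Bool) : ℝ :=
  if a then 1 else if a' then (if b then 1 / π else 0) else 1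

/-- density of the channel output of `h ∨ h'` relative to that of `h` -/
private noncomputable def rr (π : ℝ) : List Bool → List Bool → List Bool → ℝ
  | [], [], _ => 1
  | a :: h, a' :: h', b :: w => rho π a a' b * rr π h h' w
  | _, _, _ => 0

private theorem rr_nil_cons (π : ℝ) (a : Bool) (h w : List Bool) : rr π [] (a :: h) w = 0 := by
  simp [rr]

private theorem rr_cons_nil (π : ℝ) (a : Bool) (h w : List Bool) : rr π (a :: h) [] w = 0 := by
  simp [rr]

private theorem rr_cons (π : ℝ) (a a' b : Bool) (h h' w : List Bool) :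
    rr π (a :: h) (a' :: h') (b :: w) = rho π a a' b * rr π h h' w := by
  simp [rr]

/-- expectation under the channel output of the hidden word `h` -/
private noncomputable def EE (π : ℝ) (h : List Bool) (ψ : List Bool → ℝ) : ℝ :=
  pr (chan π (MonoidAlgebra.single (FreeMonoid.ofList h) 1)) fun w => ψ w.toList

private theorem chan_X (π : ℝ) (a : Bool) :
    chan π (X a) = if a then X true else π • X true + (1 - π) • X false := lift_X _ a

private theorem EE_nil (π : ℝ) (ψ : List Bool → ℝ) : EE π [] ψ = ψ [] := by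
  unfold EE
  rw [FreeMonoid.ofList_nil, ← MonoidAlgebra.one_def, map_one, pr_one, FreeMonoid.toList_one]

private theorem EE_cons (π : ℝ) (a : Bool) (h : List Bool) (ψ : List Bool → ℝ) :
    EE π (a :: h) ψ = yy π a true * EE π h (fun w => ψ (true :: w)) +
      yy π a false * EE π h (fun w => ψ (false :: w)) := by
  unfold EE
  have e : (MonoidAlgebra.single (FreeMonoid.ofList (a :: h)) (1 : ℝ) : Ms W) =
      X a * MonoidAlgebra.single (FreeMonoid.ofList h) 1 := by
    rw [X, MonoidAlgebra.single_mul_single, one_mul, FreeMonoid.ofList_cons]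
  rw [e, map_mul, pr_mul, chan_X]
  cases a
  · simp only [Bool.false_eq_true, if_false, pr_add, pr_smul, X, pr_single, one_mul, yy, if_true,
      FreeMonoid.toList_of_mul]
  · simp only [if_true, X, pr_single, one_mul, yy, Bool.false_eq_true, if_false, zero_mul,
      add_zero, FreeMonoid.toList_of_mul]

private theorem EE_mul (π : ℝ) (h : List Bool) (c : ℝ) (ψ : List Bool → ℝ) :
    EE π h (fun w => c * ψ w) = c * EE π h ψ := pr_fun_mul _ _ _

private theorem EE_zero (π : ℝ) (h : List Bool) : EE π h (fun _ => 0) = 0 := by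
  simpa using EE_mul π h 0 fun _ => 0

private theorem EE_symm {π : ℝ} (hπ : π ≠ 0) (h h' : List Bool) (ψ : List Bool → ℝ) :
    EE π h (fun w => rr π h h' w * ψ w) = EE π h' (fun w => rr π h' h w * ψ w) := by
  induction h generalizing h' ψ with
  | nil =>
    cases h' with
    | nil => rfl
    | cons a' h' => simp only [rr_nil_cons, rr_cons_nil, zero_mul, EE_zero]
  | cons a h ih =>
    cases h' with
    | nil => simp only [rr_nil_cons, rr_cons_nil, zero_mul, EE_zero]
    | cons a' h' =>
      simp only [EE_cons, rr_cons, mul_assoc, EE_mul]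
      rw [ih h' fun w => ψ (true :: w), ih h' fun w => ψ (false :: w)]
      have e : ∀ b, yy π a b * rho π a a' b = yy π a' b * rho π a' a b := by
        intro b
        cases a <;> cases a' <;> cases b <;> simp [yy, rho, hπ]
      simp only [← mul_assoc, e]

private theorem EE_rr {π : ℝ} (hπ : π ≠ 0) (h h' : List Bool) :
    EE π h (fun w => rr π h h' w) = if h.length = h'.length then 1 else 0 := by
  induction h generalizing h' with
  | nil =>
    cases h' with
    | nil => simp [EE_nil, rr]
    | cons a' h' => simp [rr_nil_cons, EE_zero]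
  | cons a h ih =>
    cases h' with
    | nil => simp [rr_cons_nil, EE_zero]
    | cons a' h' =>
      simp only [EE_cons, rr_cons, EE_mul, ih h', List.length_cons, Nat.add_right_cancel_iff]
      have e : yy π a true * rho π a a' true + yy π a false * rho π a a' false = 1 := by
        cases a <;> cases a' <;> simp [yy, rho, hπ]
      rw [← mul_assoc, ← mul_assoc, ← add_mul, e, one_mul]

private theorem inter_cons (a a' : Bool) (h h' : List Bool) :
    inter (a :: h) (a' :: h') = inter h h' + if (a && a') then 1 else 0 := by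
  simp [inter, List.count_cons]

private theorem EE_rr_rr {π : ℝ} (hπ : 0 < π) (hπ1 : π < 1) (h h' h'' : List Bool) :
    EE π h (fun w => rr π h h' w * rr π h h'' w) ≤ (if h.length = h'.length then 1 else 0) *
      (if h'.length = h''.length then (1 / π) ^ inter h' h'' else 0) := by
  have hnn : ∀ h h' h'' : List Bool, (0 : ℝ) ≤ (if h.length = h'.length then 1 else 0) *
      (if h'.length = h''.length then (1 / π) ^ inter h' h'' else 0) := by
    intro h h' h''
    split_ifs <;> positivity
  induction h generalizing h' h'' with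
  | nil =>
    cases h' with
    | nil =>
      cases h'' with
      | nil => simp [EE_nil, rr, inter]
      | cons a'' h'' => simp [rr_nil_cons, EE_zero]
    | cons a' h' => simp [rr_nil_cons, EE_zero]
  | cons a h ih =>
    cases h' with
    | nil => simp [rr_cons_nil, EE_zero]
    | cons a' h' =>
      cases h'' with
      | nil => simp [rr_cons_nil, EE_zero]
      | cons a'' h'' =>
        have e1 : ∀ b, (fun w => rr π (a :: h) (a' :: h') (b :: w) *
            rr π (a :: h) (a'' :: h'') (b :: w)) =
            fun w => (rho π a a' b * rho π a a'' b) * (rr π h h' w * rr π h h'' w) := by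
          intro b
          funext w
          rw [rr_cons, rr_cons]
          ring
        rw [EE_cons, e1, e1, EE_mul, EE_mul, ← mul_assoc, ← mul_assoc (yy π a false), ← add_mul]
        have hi : 1 ≤ π⁻¹ := (one_le_inv₀ hπ).2 hπ1.le
        have e2 : 0 ≤ yy π a true * (rho π a a' true * rho π a a'' true) +
            yy π a false * (rho π a a' false * rho π a a'' false) ∧
            yy π a true * (rho π a a' true * rho π a a'' true) +
            yy π a false * (rho π a a' false * rho π a a'' false) ≤
              (1 / π) ^ (if (a' && a'') then 1 else 0) := by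
          cases a <;> cases a' <;> cases a'' <;> simp [yy, rho, hπ.ne', hπ.le, hi]
        refine (mul_le_mul_of_nonneg_left (ih h' h'') e2.1).trans ?_
        refine (mul_le_mul_of_nonneg_right e2.2 (hnn h h' h'')).trans (le_of_eq ?_)
        simp only [List.length_cons, Nat.add_right_cancel_iff, inter_cons, pow_add]
        split_ifs <;> ring

theorem markov_chan {π : ℝ} (hπ : 0 ≤ π) (hπ1 : π ≤ 1) : Markov (chan π).toLinearMap := by
  refine markov_lift _ fun a => ?_
  cases a
  · simp only [Bool.false_eq_true, if_false]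
    refine ⟨((prob_X true).1.smul hπ).add ((prob_X false).1.smul (by linarith)), ?_⟩
    rw [mass_add, mass_smul, mass_smul, (prob_X true).2, (prob_X false).2]
    ring
  · exact prob_X true

/-- the functional `φ ↦ ∫ φ dQ` -/
private noncomputable def QQ (π : ℝ) (H H' : Ms W) (φ : W → ℝ) : ℝ :=
  pr H fun h => pr H' fun h' =>
    EE π h.toList fun w => rr π h.toList h'.toList w * φ (FreeMonoid.ofList w)

private theorem QQ_symm {π : ℝ} (hπ : π ≠ 0) (H H' : Ms W) (φ : W → ℝ) :
    QQ π H H' φ = QQ π H' H φ := by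
  unfold QQ
  rw [pr_swap]
  congr 1
  funext h
  congr 1
  funext h'
  exact EE_symm hπ _ _ fun w => φ (FreeMonoid.ofList w)

private theorem QQ_add (π : ℝ) (H H' : Ms W) (φ ψ : W → ℝ) :
    QQ π H H' (fun w => φ w + ψ w) = QQ π H H' φ + QQ π H H' ψ := by
  unfold QQ EE
  simp only [mul_add, pr_fun_add]

private theorem QQ_one {π : ℝ} (hπ : π ≠ 0) (H H' : Ms W) :
    QQ π H H' (fun _ => 1) = coin 1 H H' := by
  unfold QQ coin
  simp only [mul_one, EE_rr hπ, one_pow]

private theorem coin_nonneg {κ : ℝ} (hκ : 0 ≤ κ) {H H' : Ms W} (hH : NN H) (hH' : NN H') :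
    0 ≤ coin κ H H' :=
  hH.pr_nonneg fun h => hH'.pr_nonneg fun h' => by split_ifs <;> positivity

private theorem QQ_le {π β : ℝ} (hπ : 0 < π) (hπ1 : π < 1) {H H' : Ms W} (hH : NN H)
    (hH' : NN H') (hβ : ∀ J, lenP H J ≤ β) (φ : W → ℝ) :
    QQ π H H' φ ≤ Real.sqrt (β * coin (1 / π) H' H') *
      Real.sqrt (pr (chan π H) fun w => φ w ^ 2) := by
  have hM := markov_chan hπ.le hπ1.le
  set Y : W → Ms W := fun h => chan π (MonoidAlgebra.single h 1) with hY
  have hYn : ∀ h, NN (Y h) := fun h => (hM h).1
  set Z : W → W → ℝ := fun h w => pr H' fun h' => rr π h.toList h'.toList w.toList with hZ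
  have e1 : QQ π H H' φ = pr H fun h => pr (Y h) fun w => Z h w * φ w := by
    unfold QQ EE
    congr 1
    funext h
    rw [pr_swap]
    congr 1
    funext w
    simp only [hZ, mul_comm _ (φ w), FreeMonoid.ofList_toList, pr_fun_mul]
  have e2 : (pr (chan π H) fun w => φ w ^ 2) = pr H fun h => pr (Y h) fun w => φ w ^ 2 :=
    hM.pr H _
  have h3 : ∀ h, (pr (Y h) fun w => Z h w ^ 2) ≤ pr H' fun h' => pr H' fun h'' =>
      (if h.toList.length = h'.toList.length then 1 else 0) *
      (if h'.toList.length = h''.toList.length then (1 / π) ^ inter h'.toList h''.toList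
        else 0) := by
    intro h
    have e3 : (pr (Y h) fun w => Z h w ^ 2) = pr H' fun h' => pr H' fun h'' =>
        EE π h.toList fun w => rr π h.toList h'.toList w * rr π h.toList h''.toList w := by
      have e4 : ∀ w, Z h w ^ 2 = pr H' fun h' => pr H' fun h'' =>
          rr π h.toList h'.toList w.toList * rr π h.toList h''.toList w.toList := by
        intro w
        simp only [pr_fun_mul]
        simp only [mul_comm _ (pr H' _), pr_fun_mul, hZ, sq]
      simp only [e4]
      rw [pr_swap]
      congr 1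
      funext h'
      rw [pr_swap]
      rfl
    rw [e3]
    exact hH'.pr_mono fun h' => hH'.pr_mono fun h'' => EE_rr_rr hπ hπ1 _ _ _
  have h4 : (pr H fun h => pr (Y h) fun w => Z h w ^ 2) ≤ β * coin (1 / π) H' H' := by
    refine (hH.pr_mono h3).trans ?_
    rw [pr_swap, coin, ← pr_fun_mul]
    refine hH'.pr_mono fun h' => ?_
    simp only [pr_fun_mul]
    simp only [mul_comm _ (pr H' _), pr_fun_mul]
    refine mul_le_mul_of_nonneg_left (hβ _) (hH'.pr_nonneg fun h'' => ?_)
    split_ifs <;> positivity
  rw [e1, e2]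
  refine (hH.pr_mono fun h => (le_abs_self _).trans ((hYn h).pr_mul_le (Z h) φ)).trans ?_
  refine (le_abs_self _).trans ((hH.pr_mul_le _ _).trans ?_)
  have e5 : ∀ h, Real.sqrt (pr (Y h) fun w => Z h w ^ 2) ^ 2 = pr (Y h) fun w => Z h w ^ 2 :=
    fun h => Real.sq_sqrt ((hYn h).pr_nonneg fun w => sq_nonneg _)
  have e6 : ∀ h, Real.sqrt (pr (Y h) fun w => φ w ^ 2) ^ 2 = pr (Y h) fun w => φ w ^ 2 :=
    fun h => Real.sq_sqrt ((hYn h).pr_nonneg fun w => sq_nonneg _)
  simp only [e5, e6]
  exact mul_le_mul_of_nonneg_right (Real.sqrt_le_sqrt h4) (Real.sqrt_nonneg _)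

/-- the minimum of two measures, with an explicit splitting of its mass -/
private theorem exists_min_split {P P' : Ms W} (hP : NN P) (hP' : NN P') :
    ∃ (V : Ms W) (χ : W → ℝ), NN V ∧ Le V P ∧ Le V P' ∧
      mass V = (pr P fun w => χ w ^ 2) + pr P' fun w => (1 - χ w) ^ 2 := by
  classical
  have hc : ∀ w, ((1 / 2 : ℝ) • (P + P' - absM (P - P'))).coeff w =
      min (P.coeff w) (P'.coeff w) := by
    intro w
    simp only [MonoidAlgebra.coeff_smul_apply, MonoidAlgebra.coeff_sub, MonoidAlgebra.coeff_add,
      Finsupp.sub_apply, Finsupp.add_apply, coeff_absM, smul_eq_mul]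
    rcases le_total (P.coeff w) (P'.coeff w) with h | h
    · rw [min_eq_left h, abs_of_nonpos (by linarith)]; ring
    · rw [min_eq_right h, abs_of_nonneg (by linarith)]; ring
  generalize (1 / 2 : ℝ) • (P + P' - absM (P - P')) = V at hc
  refine ⟨V, fun w => if P.coeff w ≤ P'.coeff w then 1 else 0,
    fun w => by rw [hc]; exact le_min (hP w) (hP' w), fun w => by rw [hc]; exact min_le_left _ _,
    fun w => by rw [hc]; exact min_le_right _ _, ?_⟩
  have hs : V.coeff.support ⊆ P.coeff.support ∪ P'.coeff.support := by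
    intro w hw
    by_contra h
    simp only [mem_union, Finsupp.mem_support_iff, not_or, not_not] at h hw
    apply hw
    rw [hc, h.1, h.2, min_self]
  rw [mass, pr_eq_sum V _ hs, pr_eq_sum P _ (s := P.coeff.support ∪ P'.coeff.support)
    subset_union_left, pr_eq_sum P' _ (s := P.coeff.support ∪ P'.coeff.support) subset_union_right,
    ← Finset.sum_add_distrib]
  refine Finset.sum_congr rfl fun w _ => ?_
  rw [hc]
  beta_reduce
  split_ifs with h
  · rw [min_eq_left h]; ring
  · rw [min_eq_right (not_le.1 h).le]; ring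

/-- Second-moment bound for the overlap.  For a hidden word `h` let `Y h = chan π (single h 1)`; its
weight at `w` is `0` unless `|w| = |h|`, and then `∏ i, y (h i) (w i)` with `y 1 1 = 1`, `y 1 0 = 0`,
`y 0 1 = π`, `y 0 0 = 1 - π`.  Let `P = chan π H = ∑ H h • Y h`, `P' = chan π H'`,
`Q = ∑_{|h| = |h'|} H h * H' h' • Y (h ∨ h')` (letterwise `or`), so `mass Q = coin 1 H H'`.  Take
`V = min P P' ≥ P P' / (P + P')`.  By Cauchy–Schwarz
`(mass Q)² ≤ (∑ P P' / (P + P')) (∑ Q² / P + ∑ Q² / P')` (`Q` vanishes where `P` or `P'` does, since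
`Y (h ∨ h') w ≠ 0 → Y h w ≠ 0`).  Writing `Q w = ∑_h H h * Y h w * Z h w`,
`Z h w = ∑_{h'} H' h' * Y (h ∨ h') w / Y h w`, Cauchy–Schwarz gives `Q² / P ≤ ∑_h H h * Y h w * Z h w ²`,
and `∑_w Y (h ∨ h') w * Y (h ∨ h'') w / Y h w = ∏_i (…) ≤ (1/π) ^ inter h' h''` (induction on the
length: the factor is `1` if `h i`, and otherwise `1/π` or `1` according as both `h' i`, `h'' i` hold).
Hence `∑ Q² / P ≤ ∑_J lenP H J * (part of coin (1/π) H' H' with length J) ≤ β * coin (1/π) H' H'`. -/
theorem overlap_chan {π β : ℝ} (hπ : 0 < π) (hπ1 : π < 1) {H H' : Ms W} (hH : Prob H)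
    (hH' : Prob H') (hβ : ∀ J, lenP H J ≤ β) (hβ' : ∀ J, lenP H' J ≤ β) :
    ∃ V, NN V ∧ Le V (chan π H) ∧ Le V (chan π H') ∧
      coin 1 H H' ^ 2 ≤ mass V * (β * (coin (1 / π) H H + coin (1 / π) H' H')) := by
  have hM := markov_chan hπ.le hπ1.le
  have hP : NN (chan π H) := hM.nn hH.1
  have hP' : NN (chan π H') := hM.nn hH'.1
  obtain ⟨V, χ, h1, h2, h3, h4⟩ := exists_min_split hP hP'
  refine ⟨V, h1, h2, h3, ?_⟩
  have hβ0 : 0 ≤ β := le_trans (hH.1.pr_nonneg fun h => by split_ifs <;> norm_num) (hβ 0)
  have e : coin 1 H H' = QQ π H H' χ + QQ π H' H fun w => 1 - χ w := by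
    rw [QQ_symm hπ.ne' H' H, ← QQ_add, ← QQ_one hπ.ne']
    simp only [add_sub_cancel]
  have h5 := QQ_le hπ hπ1 hH.1 hH'.1 hβ χ
  have h6 := QQ_le hπ hπ1 hH'.1 hH.1 hβ' fun w => 1 - χ w
  have h7 : 0 ≤ coin 1 H H' := coin_nonneg zero_le_one hH.1 hH'.1
  have ha : 0 ≤ β * coin (1 / π) H H := mul_nonneg hβ0 (coin_nonneg (by positivity) hH.1 hH.1)
  have hb : 0 ≤ β * coin (1 / π) H' H' := mul_nonneg hβ0 (coin_nonneg (by positivity) hH'.1 hH'.1)
  have hc : 0 ≤ pr (chan π H) fun w => χ w ^ 2 := hP.pr_nonneg fun w => sq_nonneg _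
  have hd : 0 ≤ pr (chan π H') fun w => (1 - χ w) ^ 2 := hP'.pr_nonneg fun w => sq_nonneg _
  rw [h4, mul_add β, ← Real.sq_sqrt ha, ← Real.sq_sqrt hb, ← Real.sq_sqrt hc, ← Real.sq_sqrt hd]
  have h8 := (le_of_eq e).trans (add_le_add h5 h6)
  refine (pow_le_pow_left₀ h7 h8 2).trans ?_
  generalize Real.sqrt (β * coin (1 / π) H H) = a
  generalize Real.sqrt (β * coin (1 / π) H' H') = b
  generalize Real.sqrt (pr (chan π H) fun w => χ w ^ 2) = c
  generalize Real.sqrt (pr (chan π H') fun w => (1 - χ w) ^ 2) = d
  nlinarith [sq_nonneg (a * c - b * d)]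

/-- The true trace law is a Markov image of the channel output: with `π = q / (1 + q)` and
`p = 1 - q`, send `X true ↦ X true` and `X false ↦ C'' := (q p X₀ + p² X₀ X₁) / ((1 - q²)(1 - π))`
(a probability measure, as `(1 - q²)(1 - π) = p`).  Then
`Ψ (chan π (hC q)) = q² + (1 - q²) (π X₁ + (1 - π) C'') = letter q false * letter q true`, since
`(1 - q²) π = q p`, and `Ψ (chan π (letter q true)) = letter q true`. -/
theorem exists_hom_base {q : ℝ} (hq : 0 < q) (hq1 : q < 1) :
    ∃ Ψ : Ms W →ₐ[ℝ] Ms W, Markov Ψ.toLinearMap ∧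
      Ψ (chan (q / (1 + q)) (hC q)) = law q [false, true] ∧
      Ψ (chan (q / (1 + q)) (letter q true)) = law q [true] := by
  refine ⟨MonoidAlgebra.lift ℝ (Ms W) W (FreeMonoid.lift fun a =>
    if a then X true else q • X false + (1 - q) • (X false * X true)), ?_, ?_, ?_⟩
  · refine markov_lift _ fun a => ?_
    cases a
    · simp only [Bool.false_eq_true, if_false]
      have h2 := (prob_X false).mul (prob_X true)
      refine ⟨((prob_X false).1.smul hq.le).add (h2.1.smul (by linarith)), ?_⟩
      rw [mass_add, mass_smul, mass_smul, h2.2, (prob_X false).2]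
      ring
    · exact prob_X true
  · have h1 : (1 + q) ≠ 0 := by positivity
    simp only [hC, map_add, map_smul, map_one, chan_X, lift_X, Bool.false_eq_true, if_false,
      if_true, law_cons, law_nil, mul_one, letter, add_mul, mul_add, smul_mul_assoc,
      mul_smul_comm, one_mul, smul_add, smul_smul]
    have e1 : (1 - q ^ 2) * (q / (1 + q)) = (1 - q) * q := by field_simp; ring
    have e2 : (1 - q ^ 2) * (1 - q / (1 + q)) * q = q * (1 - q) := by field_simp; ring
    have e3 : (1 - q ^ 2) * (1 - q / (1 + q)) * (1 - q) = (1 - q) * (1 - q) := by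
      field_simp; ring
    rw [e1, e2, e3, sq]
    abel
  · simp only [letter, map_add, map_smul, map_one, chan_X, lift_X, if_true, law_cons, law_nil,
      mul_one]

end Crest.Agent.R300
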