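import Crest.Agent.R300.LCalc

/-!
# R300 lower bound: the first-coincidence recursion (task LMark2)
-/

set_option autoImplicit false

namespace Crest.Agent.R300

open Finset

theorem prob_hC {q : ℝ} (h0 : 0 ≤ q) (h1 : q ≤ 1) : Prob (hC q) := by
  have h2 : q ^ 2 ≤ 1 := pow_le_one₀ h0 h1
  refine ⟨(NN.one.smul (sq_nonneg q)).add ((prob_X false).1.smul (by linarith)), ?_⟩
  rw [hC, mass_add, mass_smul, mass_smul, mass_one, (prob_X false).2]
  ring

theorem prob_hH {q : ℝ} (h0 : 0 ≤ q) (h1 : q ≤ 1) (m g : ℕ) : Prob (hH q m g) := by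
  exact (((prob_hC h0 h1).pow m).mul (prob_letter h0 h1 true)).pow g

theorem coin_one_eq (H H' : Ms W) : coin 1 H H' = pr H fun h => lenP H' h.toList.length := by
  simp only [coin, lenP, one_pow, eq_comm]

theorem coin_nonneg {κ : ℝ} (hκ : 0 ≤ κ) {H H' : Ms W} (hH : NN H) (hH' : NN H') :
    0 ≤ coin κ H H' := by
  refine hH.pr_nonneg fun h => hH'.pr_nonneg fun h' => ?_
  split_ifs
  · positivity
  · exact le_rfl

theorem coin_one_left {κ : ℝ} {H' : Ms W} (hH' : Prob H') : coin κ 1 H' ≤ 1 := by
  rw [coin, pr_one]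
  refine le_trans (hH'.1.pr_mono fun h' => ?_) hH'.2.le
  split_ifs <;> simp [inter]

/-- sum over the marked positions -/
private noncomputable def mk : List Bool → (ℕ → List Bool → ℝ) → ℝ
  | [], _ => 0
  | a :: l, φ => (if a then φ 0 l else 0) + mk l fun j u => φ (j + 1) u

private theorem mk_zero (l : List Bool) : mk l (fun _ _ => 0) = 0 := by
  induction l with
  | nil => rfl
  | cons a l ih => simp [mk, ih]

private theorem mk_append (l l' : List Bool) (φ : ℕ → List Bool → ℝ) :
    mk (l ++ l') φ = mk l (fun j u => φ j (u ++ l')) + mk l' fun j u => φ (l.length + j) u := by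
  induction l generalizing φ with
  | nil => simp [mk]
  | cons a l ih =>
    simp only [List.cons_append, mk, ih, List.length_cons, add_assoc, add_comm 1]

private theorem pr_mk (F : Ms W) (l : List Bool) (φ : W → ℕ → List Bool → ℝ) :
    pr F (fun v => mk l (φ v)) = mk l fun j u => pr F fun v => φ v j u := by
  induction l generalizing φ with
  | nil => simp [mk, pr_const]
  | cons a l ih =>
    simp only [mk, pr_fun_add]
    rw [ih fun v j u => φ v (j + 1) u]
    cases a <;> simp [pr_const]

/-- the integrand of `coin` -/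
private noncomputable def KK (κ : ℝ) (h h' : List Bool) : ℝ :=
  if h.length = h'.length then κ ^ inter h h' else 0

private theorem KK_cons (κ : ℝ) (a a' : Bool) (l l' : List Bool) :
    KK κ (a :: l) (a' :: l') = (if a && a' then κ else 1) * KK κ l l' := by
  simp only [KK, inter, List.length_cons, Nat.add_right_cancel_iff, List.zipWith_cons_cons,
    List.count_cons]
  split_ifs <;> simp_all [pow_succ, mul_comm]

private theorem KK_tele (κ : ℝ) (h h' : List Bool) : KK κ h h' = KK 1 h h' + (κ - 1) *
    mk h fun j u => mk h' fun j' u' => (if j = j' then 1 else 0) * KK κ u u' := by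
  induction h generalizing h' with
  | nil => simp [mk, KK, inter]
  | cons a l ih =>
    cases h' with
    | nil => simp [mk, KK, mk_zero]
    | cons a' l' =>
      have := ih l'
      rw [KK_cons, KK_cons]
      cases a <;> cases a' <;> simp [mk, mk_zero] at this ⊢ <;> linarith

/-- integral of the sum over the marked positions -/
private noncomputable def mark (E : Ms W) (φ : ℕ → List Bool → ℝ) : ℝ := pr E fun h => mk h.toList φ

private theorem mark_mul (E F : Ms W) (φ : ℕ → List Bool → ℝ) :
    mark (E * F) φ = mark E (fun j u => pr F fun v => φ j (u ++ v.toList)) +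
      pr E fun h => mark F fun j u => φ (h.toList.length + j) u := by
  simp only [mark, pr_mul, FreeMonoid.toList_mul, mk_append, pr_fun_add]
  congr 2
  funext h
  exact pr_mk F _ fun v j u => φ j (u ++ v.toList)

private theorem mark_hC (q : ℝ) (φ : ℕ → List Bool → ℝ) : mark (hC q) φ = 0 := by
  rw [mark, hC, pr_add, pr_smul, pr_smul, X]
  simp [mk]

private theorem mark_hC_pow (q : ℝ) (m : ℕ) (φ : ℕ → List Bool → ℝ) : mark (hC q ^ m) φ = 0 := by
  induction m generalizing φ with
  | zero => simp [mark, mk]
  | succ m ih => simp [pow_succ, mark_mul, ih, mark_hC, pr_const]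

private theorem mark_letter (q : ℝ) (φ : ℕ → List Bool → ℝ) :
    mark (letter q true) φ = (1 - q) * φ 0 [] := by
  rw [mark, letter, pr_add, pr_smul, pr_smul, X]
  simp [mk]

private theorem hH_succ (q : ℝ) (m i : ℕ) :
    hH q m (i + 1) = hH q m i * (hC q ^ m * letter q true) := pow_succ _ _

private theorem mark_hH (q : ℝ) (m i : ℕ) (φ : ℕ → List Bool → ℝ) :
    mark (hH q m i) φ = (1 - q) * ∑ a ∈ Icc 1 i, pr (hH q m (a - 1) * hC q ^ m) fun h =>
      pr (hH q m (i - a)) fun u => φ h.toList.length u.toList := by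
  induction i generalizing φ with
  | zero => simp [mark, mk, hH]
  | succ i ih =>
    rw [hH_succ, mark_mul, ih, Finset.sum_Icc_succ_top (by omega), mul_add]
    congr 1
    · congr 1
      refine Finset.sum_congr rfl fun a ha => ?_
      have e : i + 1 - a = (i - a) + 1 := by have := (mem_Icc.1 ha).2; omega
      rw [e, hH_succ]
      simp only [pr_mul (hH q m (i - a)), FreeMonoid.toList_mul]
    · simp only [mark_mul, mark_hC_pow, mark_letter, zero_add, add_zero, pr_fun_mul,
        Nat.add_sub_cancel, Nat.sub_self, pr_mul, FreeMonoid.toList_mul, List.length_append]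
      simp [hH]

private theorem pr_four (P P' R R' : Ms W) (f g : W → W → ℝ) :
    (pr P fun h => pr R fun u => pr P' fun h' => f h h' * pr R' fun u' => g u u') =
      (pr P fun h => pr P' fun h' => f h h') * pr R fun u => pr R' fun u' => g u u' := by
  have e : ∀ (E : Ms W) (φ : W → ℝ) (r : ℝ), pr E (fun w => φ w * r) = pr E φ * r := fun E φ r => by
    rw [mul_comm, ← pr_fun_mul]
    simp only [mul_comm]
  simp only [pr_fun_mul, e]

/-- For strings of equal length, telescoping gives
`κ ^ inter h h' = 1 + (κ - 1) ∑_{j : h j ∧ h' j} κ ^ inter (h.drop (j+1)) (h'.drop (j+1))`.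
For a test function `φ j u` let `mark E φ = pr E (fun h => ∑_{j < |h|, h j = true} φ j (h.drop (j+1)))`.
Leibniz rule: `mark (E * F) φ = mark E (fun j u => pr F (fun v => φ j (u ++ v)))
  + pr E (fun h => mark F (fun j => φ (|h| + j)))`; `mark (hC q ^ m) φ = 0`;
`mark (letter q true) φ = (1 - q) φ 0 []`.  By induction
`mark (hH q m i) φ = (1 - q) ∑_{a=1}^{i} pr (hH q m (a-1) * hC q ^ m) (fun h =>
  pr (hH q m (i - a)) (φ |h|))`.  Apply this in both variables (the marked positions must agree, and
then equality of the total lengths is equality of the lengths of the remainders). -/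
theorem coin_rec (q κ : ℝ) (m i i' : ℕ) :
    coin κ (hH q m i) (hH q m i') = coin 1 (hH q m i) (hH q m i') +
      (κ - 1) * (1 - q) ^ 2 * ∑ a ∈ Icc 1 i, ∑ a' ∈ Icc 1 i',
        coin 1 (hH q m (a - 1) * hC q ^ m) (hH q m (a' - 1) * hC q ^ m) *
          coin κ (hH q m (i - a)) (hH q m (i' - a')) := by
  have e1 : ∀ (κ : ℝ) (H H' : Ms W),
      coin κ H H' = pr H fun h => pr H' fun h' => KK κ h.toList h'.toList := fun _ _ _ => rfl
  have e2 : coin κ (hH q m i) (hH q m i') = coin 1 (hH q m i) (hH q m i') + (κ - 1) *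
      mark (hH q m i) fun j u => mark (hH q m i') fun j' u' =>
        (if j = j' then 1 else 0) * KK κ u u' := by
    rw [e1, e1, mark, ← pr_fun_mul, ← pr_fun_add]
    congr 1
    funext h
    simp only [mark]
    rw [← pr_mk (hH q m i') h.toList fun h' j u => mk h'.toList fun j' u' =>
      (if j = j' then 1 else 0) * KK κ u u', ← pr_fun_mul, ← pr_fun_add]
    congr 1
    funext h'
    exact KK_tele κ _ _
  rw [e2, mark_hH, mul_assoc (κ - 1), sq, mul_assoc (1 - q), Finset.mul_sum _ _ (1 - q),
    Finset.mul_sum _ _ (1 - q), Finset.mul_sum _ _ (1 - q)]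
  congr 2
  refine Finset.sum_congr rfl fun a _ => ?_
  congr 1
  simp only [mark_hH, pr_fun_mul, pr_fun_sum]
  congr 1
  refine Finset.sum_congr rfl fun a' _ => ?_
  rw [pr_four _ _ _ _ (fun h h' => if h.toList.length = h'.toList.length then (1 : ℝ) else 0)
    fun u u' => KK κ u.toList u'.toList, e1 κ, coin]
  simp only [one_pow]

end Crest.Agent.R300
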