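import Crest.Agent.R300.LCalc

/-!
# R300 lower bound: calculus of `NI, N2, F2, Dom` (task LNear)
-/

set_option autoImplicit false

namespace Crest.Agent.R300

open Finset

variable {Γ : Type} [Monoid Γ]

namespace LNear

theorem c_add (E F : Ms Γ) (w : Γ) : (E + F).coeff w = E.coeff w + F.coeff w := rfl

theorem c_smul (r : ℝ) (E : Ms Γ) (w : Γ) : (r • E).coeff w = r * E.coeff w := rfl

theorem c_sub (E F : Ms Γ) (w : Γ) : (E - F).coeff w = E.coeff w - F.coeff w := by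
  have h : (E - F) + F = E := sub_add_cancel E F
  have h2 := c_add (E - F) F w
  rw [h] at h2
  linarith

/-- Pointwise multiplication by a function. -/
noncomputable def pm (E : Ms Γ) (h : Γ → ℝ) : Ms Γ :=
  MonoidAlgebra.ofCoeff (Finsupp.onFinset E.coeff.support (fun w => E.coeff w * h w)
    (fun w hw => Finsupp.mem_support_iff.2 (left_ne_zero_of_mul hw)))

theorem c_pm (E : Ms Γ) (h : Γ → ℝ) (w : Γ) : (pm E h).coeff w = E.coeff w * h w := rfl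

theorem supp_pm (E : Ms Γ) (h : Γ → ℝ) : (pm E h).coeff.support ⊆ E.coeff.support := by
  intro w hw
  rw [Finsupp.mem_support_iff] at hw ⊢
  rw [c_pm] at hw
  exact left_ne_zero_of_mul hw

theorem pr_pm (E : Ms Γ) (h φ : Γ → ℝ) : pr (pm E h) φ = pr E fun w => h w * φ w := by
  rw [pr_eq_sum _ _ (supp_pm E h), pr_eq_sum E _ subset_rfl]
  exact Finset.sum_congr rfl fun w _ => by rw [c_pm]; ring

theorem ms_ext {E F : Ms Γ} (h : ∀ w, E.coeff w = F.coeff w) : E = F :=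
  MonoidAlgebra.ext (Finsupp.ext h)

theorem c_sum {ι : Type} (I : Finset ι) (E : ι → Ms Γ) (w : Γ) :
    (∑ i ∈ I, E i).coeff w = ∑ i ∈ I, (E i).coeff w := by
  rw [MonoidAlgebra.coeff_sum, Finsupp.finset_sum_apply]

theorem pm_sum {ι : Type} (I : Finset ι) (c : ι → ℝ) (E : ι → Ms Γ) (h : Γ → ℝ) :
    ∑ i ∈ I, c i • pm (E i) h = pm (∑ i ∈ I, c i • E i) h := by
  refine ms_ext fun w => ?_
  rw [c_pm, c_sum, c_sum, Finset.sum_mul]
  exact Finset.sum_congr rfl fun i _ => by rw [c_smul, c_smul, c_pm]; ring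

theorem sub_pm (E : Ms Γ) (h : Γ → ℝ) : E - pm E h = pm E fun w => 1 - h w := by
  refine ms_ext fun w => ?_
  rw [c_sub, c_pm, c_pm]; ring

/-- Pointwise minimum. -/
noncomputable def mn (E F : Ms Γ) : Ms Γ :=
  MonoidAlgebra.ofCoeff (Finsupp.zipWith min (min_self 0) E.coeff F.coeff)

theorem c_mn (E F : Ms Γ) (w : Γ) : (mn E F).coeff w = min (E.coeff w) (F.coeff w) := rfl

theorem l1_tri (E F G : Ms Γ) : l1 (E - G) ≤ l1 (E - F) + l1 (F - G) := by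
  have h : E - G = (E - F) + (F - G) := by abel
  rw [h]; exact l1_add_le _ _

theorem l1_le_of_sub (E F : Ms Γ) : l1 E ≤ l1 F + l1 (E - F) := by
  have h : E = F + (E - F) := by abel
  calc l1 E = l1 (F + (E - F)) := by rw [← h]
    _ ≤ _ := l1_add_le _ _

theorem l1_add_sub (E F E₀ F₀ : Ms Γ) : l1 (E + F - (E₀ + F₀)) ≤ l1 (E - E₀) + l1 (F - F₀) := by
  have h : E + F - (E₀ + F₀) = (E - E₀) + (F - F₀) := by abel
  rw [h]; exact l1_add_le _ _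

theorem l1_neg_sub (E E₀ : Ms Γ) : l1 (-E - -E₀) = l1 (E - E₀) := by
  have h : -E - -E₀ = -(E - E₀) := by abel
  rw [h, l1_neg]

theorem l1_smul_sub {E E₀ : Ms Γ} {τ : ℝ} (h : l1 (E - E₀) ≤ τ) (r : ℝ) :
    l1 (r • E - r • E₀) ≤ |r| * τ := by
  rw [← smul_sub, l1_smul]
  exact mul_le_mul_of_nonneg_left h (abs_nonneg r)

theorem l1_mul_sub {E E' E₀ E₀' : Ms Γ} {a a' τ τ' : ℝ} (h : l1 (E - E₀) ≤ τ)
    (h' : l1 (E' - E₀') ≤ τ') (ha : l1 E₀ ≤ a) (ha' : l1 E₀' ≤ a') :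
    l1 (E * E' - E₀ * E₀') ≤ τ * (a' + τ') + a * τ' := by
  have e : E * E' - E₀ * E₀' = (E - E₀) * E' + E₀ * (E' - E₀') := by
    rw [sub_mul, mul_sub]; abel
  have h1 : l1 E' ≤ a' + τ' := (l1_le_of_sub E' E₀').trans (add_le_add ha' h')
  have hτ : 0 ≤ τ := (l1_nonneg _).trans h
  have ha0 : 0 ≤ a := (l1_nonneg _).trans ha
  rw [e]
  refine (l1_add_le _ _).trans (add_le_add ?_ ?_)
  · exact (l1_mul_le _ _).trans (mul_le_mul h h1 (l1_nonneg _) hτ)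
  · exact (l1_mul_le _ _).trans (mul_le_mul ha h' (l1_nonneg _) ha0)

theorem l1_left {E E₀ R : Ms Γ} {τ : ℝ} (h : l1 (E - E₀) ≤ τ) (hR : Prob R) :
    l1 (R * E - R * E₀) ≤ τ := by
  rw [← mul_sub]
  refine (l1_mul_le _ _).trans ?_
  rw [hR.l1_eq, one_mul]; exact h

theorem l1_right {E E₀ R : Ms Γ} {τ : ℝ} (h : l1 (E - E₀) ≤ τ) (hR : Prob R) :
    l1 (E * R - E₀ * R) ≤ τ := by
  rw [← sub_mul]
  refine (l1_mul_le _ _).trans ?_
  rw [hR.l1_eq, mul_one]; exact h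

theorem l2_pm {E P P₁ : Ms Γ} {σ : ℝ} (h : L2 E P σ) (hσ : 0 ≤ σ) {g : Γ → ℝ}
    (hg : ∀ w, P.coeff w * g w ^ 2 ≤ P₁.coeff w) : L2 (pm E g) P₁ σ := by
  intro φ
  rw [pr_pm]
  refine (h _).trans (mul_le_mul_of_nonneg_left (Real.sqrt_le_sqrt ?_) hσ)
  have e : (pr P fun w => (g w * φ w) ^ 2) = pr (pm P fun w => g w ^ 2) fun w => φ w ^ 2 := by
    rw [pr_pm]; congr 1; funext w; ring
  rw [e]
  exact Le.pr_le (P := pm P fun w => g w ^ 2) (Q := P₁) (fun w => hg w) fun w => sq_nonneg _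

theorem l2_l1 {E P : Ms Γ} {σ : ℝ} (h : L2 E P σ) : l1 E ≤ σ * Real.sqrt (mass P) := by
  classical
  have h1 := h fun w => if 0 ≤ E.coeff w then 1 else -1
  have e1 : (pr P fun w => (if 0 ≤ E.coeff w then (1 : ℝ) else -1) ^ 2) = mass P := by
    unfold mass; congr 1; funext w; split_ifs <;> norm_num
  have e2 : (pr E fun w => if 0 ≤ E.coeff w then (1 : ℝ) else -1) = l1 E := by
    rw [pr_eq_sum E _ subset_rfl, l1_eq_sum E subset_rfl]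
    refine Finset.sum_congr rfl fun w _ => ?_
    split_ifs with hw
    · rw [abs_of_nonneg hw, mul_one]
    · rw [abs_of_neg (not_le.1 hw)]; ring
  rw [e1, e2] at h1
  exact (le_abs_self _).trans h1

theorem ratio₁ {p p₀ : ℝ} (h0 : 0 ≤ p₀) (h1 : p₀ ≤ p) : p * (p₀ / p) ^ 2 ≤ p₀ := by
  rcases eq_or_lt_of_le (h0.trans h1) with hp | hp
  · rw [← hp]; simpa using h0
  · have e : p * (p₀ / p) ^ 2 = p₀ * (p₀ / p) := by field_simp
    rw [e]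
    exact mul_le_of_le_one_right h0 ((div_le_one hp).2 h1)

theorem ratio₂ {p p₀ : ℝ} (h0 : 0 ≤ p₀) (h1 : p₀ ≤ p) : p * (1 - p₀ / p) ^ 2 ≤ p - p₀ := by
  rcases eq_or_lt_of_le (h0.trans h1) with hp | hp
  · have : p₀ = 0 := le_antisymm (hp ▸ h1) h0
    rw [← hp, this]; simp
  · have e : p * (1 - p₀ / p) ^ 2 = (p - p₀) * (1 - p₀ / p) := by field_simp
    rw [e]
    exact mul_le_of_le_one_right (sub_nonneg.2 h1) (by have := div_nonneg h0 hp.le; linarith)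

/-- Cutting an `L2` density down to the dominated part. -/
theorem l2_cut {E P P₀ Q : Ms Γ} {σ c : ℝ} (h : L2 E P σ) (hσ : 0 ≤ σ) (hc : 0 ≤ c)
    (h0 : NN P₀) (h1 : Le P₀ P) (h2 : Le P₀ (c • Q)) :
    L2 (pm E fun w => P₀.coeff w / P.coeff w) Q (Real.sqrt c * σ) :=
  (l2_pm h hσ fun w => ratio₁ (h0 w) (h1 w)).ref hσ hc h2

theorem l1_cut {E P P₀ : Ms Γ} {σ t : ℝ} (h : L2 E P σ) (hσ : 0 ≤ σ)
    (h0 : NN P₀) (h1 : Le P₀ P) (ht : l1 (P - P₀) ≤ t) :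
    l1 (E - pm E fun w => P₀.coeff w / P.coeff w) ≤ σ * Real.sqrt t := by
  rw [sub_pm]
  have h3 : L2 (pm E fun w => 1 - P₀.coeff w / P.coeff w) (P - P₀) σ :=
    l2_pm h hσ fun w => by rw [c_sub]; exact ratio₂ (h0 w) (h1 w)
  refine (l2_l1 h3).trans (mul_le_mul_of_nonneg_left (Real.sqrt_le_sqrt ?_) hσ)
  exact ((le_abs_self _).trans (abs_mass_le _)).trans ht

theorem fam_one {ι : Type} {I : Finset ι} {E : ι → Ms Γ} {P : Ms Γ} {σ : ℝ}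
    (h : ∀ c : ι → ℝ, L2 (∑ i ∈ I, c i • E i) P (σ * Real.sqrt (∑ i ∈ I, c i ^ 2)))
    {i : ι} (hi : i ∈ I) : L2 (E i) P σ := by
  classical
  have h1 := h fun j => if j = i then 1 else 0
  have e1 : (∑ j ∈ I, (if j = i then (1 : ℝ) else 0) • E j) = E i := by
    rw [Finset.sum_eq_single i]
    · simp
    · intro j _ hj; simp [hj]
    · intro h; exact absurd hi h
  have e2 : (∑ j ∈ I, (if j = i then (1 : ℝ) else 0) ^ 2) = 1 := by
    rw [Finset.sum_eq_single i]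
    · simp
    · intro j _ hj; simp [hj]
    · intro h; exact absurd hi h
  rw [e1, e2, Real.sqrt_one, mul_one] at h1
  exact h1

theorem sum_abs_le {ι : Type} (I : Finset ι) (c : ι → ℝ) :
    ∑ i ∈ I, |c i| ≤ Real.sqrt I.card * Real.sqrt (∑ i ∈ I, c i ^ 2) := by
  rw [← Real.sqrt_mul (Nat.cast_nonneg _)]
  refine Real.le_sqrt_of_sq_le ?_
  have h := sq_sum_le_card_mul_sum_sq (s := I) (f := fun i => |c i|)
  simpa only [sq_abs] using h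

theorem abs_mass_near {E E₀ : Ms Γ} {τ : ℝ} (h : l1 (E - E₀) ≤ τ) (h0 : mass E = 0) :
    |mass E₀| ≤ τ := by
  have h1 := abs_mass_le (E - E₀)
  rw [mass_sub, h0, zero_sub, abs_neg] at h1
  exact h1.trans h

theorem l1_center {E E₀ P : Ms Γ} {τ : ℝ} (h : l1 (E - E₀) ≤ τ) (h0 : mass E = 0) (hP : Prob P) :
    l1 (E - (E₀ - mass E₀ • P)) ≤ 2 * τ := by
  have e : E - (E₀ - mass E₀ • P) = (E - E₀) + mass E₀ • P := by abel
  rw [e]
  refine (l1_add_le _ _).trans ?_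
  rw [l1_smul, hP.l1_eq, mul_one]
  have := abs_mass_near h h0
  linarith

theorem mass_center (E₀ : Ms Γ) {P : Ms Γ} (hP : Prob P) : mass (E₀ - mass E₀ • P) = 0 := by
  rw [mass_sub, mass_smul, hP.2]; ring

theorem pr_density {E P : Ms Γ} (h0 : ∀ w, P.coeff w = 0 → E.coeff w = 0) (ψ : Γ → ℝ) :
    pr E ψ = pr P fun w => E.coeff w / P.coeff w * ψ w := by
  rw [← pr_pm]
  congr 1
  refine ms_ext fun w => ?_
  rw [c_pm]
  by_cases hw : P.coeff w = 0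
  · rw [h0 w hw, hw]; simp
  · field_simp

theorem abs_pr_le_pr {P : Ms Γ} (hP : NN P) {φ ψ : Γ → ℝ} (h : ∀ w, |φ w| ≤ ψ w) :
    |pr P φ| ≤ pr P ψ := by
  rw [abs_le]
  refine ⟨?_, hP.pr_mono fun w => (le_abs_self _).trans (h w)⟩
  have h1 : (pr P fun w => (-1) * ψ w) ≤ pr P φ :=
    hP.pr_mono fun w => by have := (abs_le.1 (h w)).1; linarith
  rw [pr_fun_mul] at h1
  linarith

theorem fam_mul {ι : Type} {I : Finset ι} {E E' : ι → Ms Γ} {P P' : Ms Γ} {σ σ' : ℝ}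
    (h : ∀ c : ι → ℝ, L2 (∑ i ∈ I, c i • E i) P (σ * Real.sqrt (∑ i ∈ I, c i ^ 2)))
    (h' : ∀ i ∈ I, L2 (E' i) P' σ') (hσ : 0 ≤ σ) (hσ' : 0 ≤ σ') (hP : NN P) (hP' : NN P')
    (c : ι → ℝ) :
    L2 (∑ i ∈ I, c i • (E i * E' i)) (P * P') (σ * σ' * Real.sqrt (∑ i ∈ I, c i ^ 2)) := by
  intro φ
  set ρ : ι → Γ → ℝ := fun i b => (E' i).coeff b / P'.coeff b with hρ
  have e1 : pr (∑ i ∈ I, c i • (E i * E' i)) φ =
      pr P' fun b => pr (∑ i ∈ I, (c i * ρ i b) • E i) fun a => φ (a * b) := by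
    have e2 : (fun b => pr (∑ i ∈ I, (c i * ρ i b) • E i) fun a => φ (a * b)) =
        fun b => ∑ i ∈ I, c i * (ρ i b * pr (E i) fun a => φ (a * b)) := by
      funext b
      rw [pr_sum]
      exact Finset.sum_congr rfl fun i _ => by rw [pr_smul]; ring
    rw [e2, pr_sum, pr_fun_sum]
    refine Finset.sum_congr rfl fun i hi => ?_
    rw [pr_smul, pr_mul, pr_swap, pr_fun_mul,
      pr_density ((h' i hi).primal hσ' hP').1]
  set A : Γ → ℝ := fun b => ∑ i ∈ I, (c i * ρ i b) ^ 2 with hA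
  set B : Γ → ℝ := fun b => pr P fun a => φ (a * b) ^ 2 with hB
  have hA0 : ∀ b, 0 ≤ A b := fun b => Finset.sum_nonneg fun i _ => sq_nonneg _
  have hB0 : ∀ b, 0 ≤ B b := fun b => hP.pr_nonneg fun a => sq_nonneg _
  have h1 : |pr (∑ i ∈ I, c i • (E i * E' i)) φ| ≤
      σ * pr P' fun b => Real.sqrt (A b) * Real.sqrt (B b) := by
    rw [e1, ← pr_fun_mul]
    refine abs_pr_le_pr hP' fun b => ?_
    have := h (fun i => c i * ρ i b) fun a => φ (a * b)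
    rw [mul_assoc] at this
    exact this
  have h2 := (le_abs_self _).trans
    (hP'.pr_mul_le (fun b => Real.sqrt (A b)) fun b => Real.sqrt (B b))
  have e3 : (pr P' fun b => Real.sqrt (B b) ^ 2) = pr (P * P') fun w => φ w ^ 2 := by
    rw [pr_mul, pr_swap]
    congr 1; funext b
    exact Real.sq_sqrt (hB0 b)
  have h3 : (pr P' fun b => Real.sqrt (A b) ^ 2) ≤ σ' ^ 2 * ∑ i ∈ I, c i ^ 2 := by
    have e4 : (fun b => Real.sqrt (A b) ^ 2) = fun b => ∑ i ∈ I, c i ^ 2 * ρ i b ^ 2 := by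
      funext b
      rw [Real.sq_sqrt (hA0 b)]
      exact Finset.sum_congr rfl fun i _ => by ring
    rw [e4, pr_fun_sum, Finset.mul_sum]
    refine Finset.sum_le_sum fun i hi => ?_
    rw [pr_fun_mul, mul_comm]
    exact mul_le_mul_of_nonneg_right ((h' i hi).primal hσ' hP').2 (sq_nonneg _)
  have h4 : Real.sqrt (pr P' fun b => Real.sqrt (A b) ^ 2) ≤
      σ' * Real.sqrt (∑ i ∈ I, c i ^ 2) := by
    refine (Real.sqrt_le_sqrt h3).trans (le_of_eq ?_)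
    rw [Real.sqrt_mul (sq_nonneg _), Real.sqrt_sq hσ']
  rw [e3] at h2
  have h5 := h2.trans (mul_le_mul_of_nonneg_right h4 (Real.sqrt_nonneg _))
  refine h1.trans ((mul_le_mul_of_nonneg_left h5 hσ).trans (le_of_eq ?_))
  ring

end LNear

open LNear

theorem NI.mono {E P : Ms Γ} {η η' τ τ' : ℝ} (h : NI E P η τ) (hP : NN P) (hη : η ≤ η')
    (hτ : τ ≤ τ') : NI E P η' τ' := by
  obtain ⟨E₀, h1, h2⟩ := h
  exact ⟨E₀, h1.mono hP hη, h2.trans hτ⟩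

theorem NI.add {E F P : Ms Γ} {η η' τ τ' : ℝ} (h : NI E P η τ) (h' : NI F P η' τ') :
    NI (E + F) P (η + η') (τ + τ') := by
  obtain ⟨E₀, h1, h2⟩ := h
  obtain ⟨F₀, h3, h4⟩ := h'
  exact ⟨E₀ + F₀, h1.add h3, (l1_add_sub _ _ _ _).trans (add_le_add h2 h4)⟩

theorem NI.neg {E P : Ms Γ} {η τ : ℝ} (h : NI E P η τ) : NI (-E) P η τ := by
  obtain ⟨E₀, h1, h2⟩ := h
  exact ⟨-E₀, h1.neg, (l1_neg_sub _ _).trans_le h2⟩

theorem NI.sub {E F P : Ms Γ} {η η' τ τ' : ℝ} (h : NI E P η τ) (h' : NI F P η' τ') :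
    NI (E - F) P (η + η') (τ + τ') := by
  rw [sub_eq_add_neg]
  exact h.add h'.neg

theorem NI.smul {E P : Ms Γ} {η τ : ℝ} (h : NI E P η τ) (r : ℝ) :
    NI (r • E) P (|r| * η) (|r| * τ) := by
  obtain ⟨E₀, h1, h2⟩ := h
  exact ⟨r • E₀, h1.smul r, l1_smul_sub h2 r⟩

theorem NI.of_close {E E' P : Ms Γ} {η τ t : ℝ} (h : NI E P η τ) (ht : l1 (E' - E) ≤ t) :
    NI E' P η (τ + t) := by
  obtain ⟨E₀, h1, h2⟩ := h
  refine ⟨E₀, h1, (l1_tri E' E E₀).trans ?_⟩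
  linarith

theorem NI.l1_le {E P : Ms Γ} {η τ : ℝ} (h : NI E P η τ) (hη : 0 ≤ η) (hP : Prob P) :
    l1 E ≤ η + τ := by
  obtain ⟨E₀, h1, h2⟩ := h
  exact (l1_le_of_sub E E₀).trans (add_le_add (h1.l1_le hη hP.1 hP.2.le) h2)

theorem NI.n2 {E P : Ms Γ} {η τ : ℝ} (h : NI E P η τ) (hη : 0 ≤ η) (hP : Prob P) :
    N2 E P η τ := by
  obtain ⟨E₀, h1, h2⟩ := h
  exact ⟨E₀, h1.l2 hη hP.1 hP.2.le, h2⟩

/-- `E E' - E₀ E₀' = (E - E₀) E' + E₀ (E' - E₀')`. -/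
theorem NI.mul {E E' P P' : Ms Γ} {η η' τ τ' : ℝ} (h : NI E P η τ) (h' : NI E' P' η' τ')
    (hη : 0 ≤ η) (hη' : 0 ≤ η') (hP : Prob P) (hP' : Prob P') :
    NI (E * E') (P * P') (η * η') (τ * (η' + τ') + η * τ') := by
  obtain ⟨E₀, h1, h2⟩ := h
  obtain ⟨F₀, h3, h4⟩ := h'
  exact ⟨E₀ * F₀, h1.mul h3 hη hη' hP.1 hP'.1,
    l1_mul_sub h2 h4 (h1.l1_le hη hP.1 hP.2.le) (h3.l1_le hη' hP'.1 hP'.2.le)⟩

theorem NI.mul_left {E P R : Ms Γ} {η τ : ℝ} (h : NI E P η τ) (hη : 0 ≤ η) (hP : NN P)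
    (hR : Prob R) : NI (R * E) (R * P) η τ := by
  obtain ⟨E₀, h1, h2⟩ := h
  refine ⟨R * E₀, ?_, l1_left h2 hR⟩
  have := (Linf.self hR.1).mul h1 zero_le_one hη hR.1 hP
  rwa [one_mul] at this

theorem NI.mul_right {E P R : Ms Γ} {η τ : ℝ} (h : NI E P η τ) (hη : 0 ≤ η) (hP : NN P)
    (hR : Prob R) : NI (E * R) (P * R) η τ := by
  obtain ⟨E₀, h1, h2⟩ := h
  refine ⟨E₀ * R, ?_, l1_right h2 hR⟩
  have := h1.mul (Linf.self hR.1) hη zero_le_one hP hR.1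
  rwa [mul_one] at this

/-- Multiply `E₀` pointwise by `P₀ / P`. -/
theorem NI.dom {E P Q : Ms Γ} {η τ c t : ℝ} (h : NI E P η τ) (hη : 0 ≤ η) (hP : NN P)
    (hd : Dom P Q c t) : NI E Q (c * η) (τ + η * t) := by
  obtain ⟨E₀, h1, h2⟩ := h
  obtain ⟨P₀, k0, k1, k2, k3⟩ := hd
  refine ⟨pm E₀ fun w => P₀.coeff w / P.coeff w, fun w => ?_, ?_⟩
  · have a2 := k2 w
    rw [c_smul] at a2
    have a3 : |E₀.coeff w * (P₀.coeff w / P.coeff w)| ≤ η * P₀.coeff w := by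
      rcases eq_or_lt_of_le (hP w) with hp | hp
      · rw [← hp, div_zero, mul_zero, abs_zero]
        exact mul_nonneg hη (k0 w)
      · rw [abs_mul, abs_of_nonneg (div_nonneg (k0 w) hp.le)]
        refine (mul_le_mul_of_nonneg_right (h1 w) (div_nonneg (k0 w) hp.le)).trans (le_of_eq ?_)
        field_simp
    rw [c_pm]
    refine a3.trans ((mul_le_mul_of_nonneg_left a2 hη).trans (le_of_eq ?_))
    ring
  · refine (l1_tri E E₀ _).trans (add_le_add h2 ?_)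
    have a4 : l1 (E₀ - pm E₀ fun w => P₀.coeff w / P.coeff w) ≤ l1 (η • (P - P₀)) := by
      refine l1_le_of_abs_le fun w => ?_
      rw [sub_pm, c_pm, c_smul, c_sub]
      refine le_trans ?_ (le_abs_self _)
      rcases eq_or_lt_of_le (hP w) with hp | hp
      · have a5 := h1 w
        rw [← hp, mul_zero] at a5
        rw [abs_nonpos_iff.1 a5, zero_mul, abs_zero]
        exact mul_nonneg hη (sub_nonneg.2 (k1 w))
      · have a6 : 0 ≤ 1 - P₀.coeff w / P.coeff w := sub_nonneg.2 ((div_le_one hp).2 (k1 w))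
        rw [abs_mul, abs_of_nonneg a6]
        refine (mul_le_mul_of_nonneg_right (h1 w) a6).trans (le_of_eq ?_)
        field_simp
    refine a4.trans ?_
    rw [l1_smul, abs_of_nonneg hη]
    exact mul_le_mul_of_nonneg_left k3 hη

theorem N2.mono {E P : Ms Γ} {σ σ' τ τ' : ℝ} (h : N2 E P σ τ) (hσ : σ ≤ σ') (hτ : τ ≤ τ') :
    N2 E P σ' τ' := by
  obtain ⟨E₀, h1, h2⟩ := h
  exact ⟨E₀, h1.mono hσ, h2.trans hτ⟩

theorem N2.add {E F P : Ms Γ} {σ σ' τ τ' : ℝ} (h : N2 E P σ τ) (h' : N2 F P σ' τ') :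
    N2 (E + F) P (σ + σ') (τ + τ') := by
  obtain ⟨E₀, h1, h2⟩ := h
  obtain ⟨F₀, h3, h4⟩ := h'
  exact ⟨E₀ + F₀, h1.add h3, (l1_add_sub _ _ _ _).trans (add_le_add h2 h4)⟩

theorem N2.neg {E P : Ms Γ} {σ τ : ℝ} (h : N2 E P σ τ) : N2 (-E) P σ τ := by
  obtain ⟨E₀, h1, h2⟩ := h
  exact ⟨-E₀, h1.neg, (l1_neg_sub _ _).trans_le h2⟩

theorem N2.sub {E F P : Ms Γ} {σ σ' τ τ' : ℝ} (h : N2 E P σ τ) (h' : N2 F P σ' τ') :
    N2 (E - F) P (σ + σ') (τ + τ') := by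
  rw [sub_eq_add_neg]
  exact h.add h'.neg

theorem N2.smul {E P : Ms Γ} {σ τ : ℝ} (h : N2 E P σ τ) (r : ℝ) :
    N2 (r • E) P (|r| * σ) (|r| * τ) := by
  obtain ⟨E₀, h1, h2⟩ := h
  exact ⟨r • E₀, h1.smul r, l1_smul_sub h2 r⟩

theorem N2.of_close {E E' P : Ms Γ} {σ τ t : ℝ} (h : N2 E P σ τ) (ht : l1 (E' - E) ≤ t) :
    N2 E' P σ (τ + t) := by
  obtain ⟨E₀, h1, h2⟩ := h
  refine ⟨E₀, h1, (l1_tri E' E E₀).trans ?_⟩
  linarith

theorem N2.l1_le {E P : Ms Γ} {σ τ : ℝ} (h : N2 E P σ τ) (hσ : 0 ≤ σ) (hP : Prob P) :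
    l1 E ≤ σ + τ := by
  obtain ⟨E₀, h1, h2⟩ := h
  exact (l1_le_of_sub E E₀).trans (add_le_add (h1.l1_le hσ hP.1 hP.2.le) h2)

theorem N2.self {P : Ms Γ} (hP : Prob P) : N2 P P 1 0 := by
  exact ⟨P, L2.self hP.1 hP.2.le, by rw [sub_self, l1_zero]⟩

theorem N2.mul {E E' P P' : Ms Γ} {σ σ' τ τ' : ℝ} (h : N2 E P σ τ) (h' : N2 E' P' σ' τ')
    (hσ : 0 ≤ σ) (hσ' : 0 ≤ σ') (hP : Prob P) (hP' : Prob P') :
    N2 (E * E') (P * P') (σ * σ') (τ * (σ' + τ') + σ * τ') := by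
  obtain ⟨E₀, h1, h2⟩ := h
  obtain ⟨F₀, h3, h4⟩ := h'
  exact ⟨E₀ * F₀, h1.mul h3 hσ hσ' hP.1 hP'.1,
    l1_mul_sub h2 h4 (h1.l1_le hσ hP.1 hP.2.le) (h3.l1_le hσ' hP'.1 hP'.2.le)⟩

theorem N2.mul_left {E P R : Ms Γ} {σ τ : ℝ} (h : N2 E P σ τ) (hσ : 0 ≤ σ) (hP : NN P)
    (hR : Prob R) : N2 (R * E) (R * P) σ τ := by
  obtain ⟨E₀, h1, h2⟩ := h
  refine ⟨R * E₀, ?_, l1_left h2 hR⟩
  have := (L2.self hR.1 hR.2.le).mul h1 zero_le_one hσ hR.1 hP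
  rwa [one_mul] at this

theorem N2.mul_right {E P R : Ms Γ} {σ τ : ℝ} (h : N2 E P σ τ) (hσ : 0 ≤ σ) (hP : NN P)
    (hR : Prob R) : N2 (E * R) (P * R) σ τ := by
  obtain ⟨E₀, h1, h2⟩ := h
  refine ⟨E₀ * R, ?_, l1_right h2 hR⟩
  have := h1.mul (L2.self hR.1 hR.2.le) hσ zero_le_one hP hR.1
  rwa [mul_one] at this

/-- A measure of mass zero can be approximated by one of mass zero: subtract `mass E₀ • P`. -/
theorem N2.center {E P : Ms Γ} {σ τ : ℝ} (h : N2 E P σ τ) (hP : Prob P) (h0 : mass E = 0) :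
    ∃ E₀, L2 E₀ P (σ + τ) ∧ l1 (E - E₀) ≤ 2 * τ ∧ mass E₀ = 0 := by
  obtain ⟨E₀, h1, h2⟩ := h
  refine ⟨E₀ - mass E₀ • P, ?_, l1_center h2 h0 hP, mass_center E₀ hP⟩
  rw [sub_eq_add_neg]
  refine h1.add (((L2.self hP.1 hP.2.le).smul (mass E₀)).mono ?_).neg
  rw [mul_one]
  exact abs_mass_near h2 h0

theorem F2.mono {ι : Type} {I : Finset ι} {F : ι → Ms Γ} {P : Ms Γ} {σ σ' τ τ' : ℝ}
    (h : F2 I F P σ τ) (hσ : σ ≤ σ') (hτ : τ ≤ τ') : F2 I F P σ' τ' := by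
  obtain ⟨E, h1, h2⟩ := h
  exact ⟨E, fun i hi => (h1 i hi).trans hτ, fun c =>
    (h2 c).mono (mul_le_mul_of_nonneg_right hσ (Real.sqrt_nonneg _))⟩

theorem F2.congr {ι : Type} {I : Finset ι} {F F' : ι → Ms Γ} {P : Ms Γ} {σ τ : ℝ}
    (h : F2 I F P σ τ) (hF : ∀ i ∈ I, F' i = F i) : F2 I F' P σ τ := by
  obtain ⟨E, h1, h2⟩ := h
  exact ⟨E, fun i hi => by rw [hF i hi]; exact h1 i hi, h2⟩

theorem F2.of_close {ι : Type} {I : Finset ι} {F F' : ι → Ms Γ} {P : Ms Γ} {σ τ t : ℝ}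
    (h : F2 I F P σ τ) (hF : ∀ i ∈ I, l1 (F' i - F i) ≤ t) : F2 I F' P σ (τ + t) := by
  obtain ⟨E, h1, h2⟩ := h
  refine ⟨E, fun i hi => (l1_tri (F' i) (F i) (E i)).trans ?_, h2⟩
  have := h1 i hi
  have := hF i hi
  linarith

theorem F2.add {ι : Type} {I : Finset ι} {F F' : ι → Ms Γ} {P : Ms Γ} {σ σ' τ τ' : ℝ}
    (h : F2 I F P σ τ) (h' : F2 I F' P σ' τ') :
    F2 I (fun i => F i + F' i) P (σ + σ') (τ + τ') := by
  obtain ⟨E, h1, h2⟩ := h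
  obtain ⟨E', h3, h4⟩ := h'
  refine ⟨fun i => E i + E' i,
    fun i hi => (l1_add_sub _ _ _ _).trans (add_le_add (h1 i hi) (h3 i hi)), fun c => ?_⟩
  have e : (∑ i ∈ I, c i • (E i + E' i)) = (∑ i ∈ I, c i • E i) + ∑ i ∈ I, c i • E' i := by
    rw [← Finset.sum_add_distrib]
    exact Finset.sum_congr rfl fun i _ => smul_add _ _ _
  rw [e, add_mul]
  exact (h2 c).add (h4 c)

theorem F2.smul {ι : Type} {I : Finset ι} {F : ι → Ms Γ} {P : Ms Γ} {σ τ : ℝ}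
    (h : F2 I F P σ τ) (r : ℝ) : F2 I (fun i => r • F i) P (|r| * σ) (|r| * τ) := by
  obtain ⟨E, h1, h2⟩ := h
  refine ⟨fun i => r • E i, fun i hi => l1_smul_sub (h1 i hi) r, fun c => ?_⟩
  have e : (∑ i ∈ I, c i • r • E i) = r • ∑ i ∈ I, c i • E i := by
    rw [Finset.smul_sum]
    exact Finset.sum_congr rfl fun i _ => smul_comm _ _ _
  rw [e, mul_assoc]
  exact (h2 c).smul r

theorem F2.neg {ι : Type} {I : Finset ι} {F : ι → Ms Γ} {P : Ms Γ} {σ τ : ℝ}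
    (h : F2 I F P σ τ) : F2 I (fun i => -F i) P σ τ := by
  have h1 := h.smul (-1)
  rw [abs_neg, abs_one, one_mul, one_mul] at h1
  exact h1.congr fun i _ => (neg_one_smul ℝ (F i)).symm

theorem F2.sub {ι : Type} {I : Finset ι} {F F' : ι → Ms Γ} {P : Ms Γ} {σ σ' τ τ' : ℝ}
    (h : F2 I F P σ τ) (h' : F2 I F' P σ' τ') :
    F2 I (fun i => F i - F' i) P (σ + σ') (τ + τ') := by
  exact (h.add h'.neg).congr fun i _ => sub_eq_add_neg _ _

/-- One member of a Bessel family. -/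
theorem F2.n2 {ι : Type} {I : Finset ι} {F : ι → Ms Γ} {P : Ms Γ} {σ τ : ℝ}
    (h : F2 I F P σ τ) {i : ι} (hi : i ∈ I) : N2 (F i) P σ τ := by
  obtain ⟨E, h1, h2⟩ := h
  exact ⟨E i, fam_one h2 hi, h1 i hi⟩

/-- The crude bound: Cauchy–Schwarz `∑ |c i| ≤ √|I| ‖c‖₂`. -/
theorem F2.of_n2 {ι : Type} {I : Finset ι} {F : ι → Ms Γ} {P : Ms Γ} {σ τ : ℝ} (hσ : 0 ≤ σ)
    (h : ∀ i ∈ I, N2 (F i) P σ τ) : F2 I F P (Real.sqrt I.card * σ) τ := by
  have h' : ∀ i, ∃ E₀, i ∈ I → L2 E₀ P σ ∧ l1 (F i - E₀) ≤ τ := by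
    intro i
    by_cases hi : i ∈ I
    · obtain ⟨E₀, hE⟩ := h i hi
      exact ⟨E₀, fun _ => hE⟩
    · exact ⟨0, fun h => absurd h hi⟩
  choose E hE using h'
  refine ⟨E, fun i hi => (hE i hi).2, fun c => ?_⟩
  refine (L2.sum (σ := fun i => |c i| * σ) fun i hi => (hE i hi).1.smul (c i)).mono ?_
  rw [← Finset.sum_mul]
  refine (mul_le_mul_of_nonneg_right (sum_abs_le I c) hσ).trans (le_of_eq ?_)
  ring

theorem F2.mul_left {ι : Type} {I : Finset ι} {F : ι → Ms Γ} {P R : Ms Γ} {σ τ : ℝ}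
    (h : F2 I F P σ τ) (hσ : 0 ≤ σ) (hP : NN P) (hR : Prob R) :
    F2 I (fun i => R * F i) (R * P) σ τ := by
  obtain ⟨E, h1, h2⟩ := h
  refine ⟨fun i => R * E i, fun i hi => l1_left (h1 i hi) hR, fun c => ?_⟩
  have e : (∑ i ∈ I, c i • (R * E i)) = R * ∑ i ∈ I, c i • E i := by
    rw [Finset.mul_sum]
    exact Finset.sum_congr rfl fun i _ => (mul_smul_comm _ _ _).symm
  have := (L2.self hR.1 hR.2.le).mul (h2 c) zero_le_one
    (mul_nonneg hσ (Real.sqrt_nonneg _)) hR.1 hP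
  rw [one_mul] at this
  rw [e]
  exact this

theorem F2.mul_right {ι : Type} {I : Finset ι} {F : ι → Ms Γ} {P R : Ms Γ} {σ τ : ℝ}
    (h : F2 I F P σ τ) (hσ : 0 ≤ σ) (hP : NN P) (hR : Prob R) :
    F2 I (fun i => F i * R) (P * R) σ τ := by
  obtain ⟨E, h1, h2⟩ := h
  refine ⟨fun i => E i * R, fun i hi => l1_right (h1 i hi) hR, fun c => ?_⟩
  have e : (∑ i ∈ I, c i • (E i * R)) = (∑ i ∈ I, c i • E i) * R := by
    rw [Finset.sum_mul]
    exact Finset.sum_congr rfl fun i _ => (smul_mul_assoc _ _ _).symm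
  have := (h2 c).mul (L2.self hR.1 hR.2.le)
    (mul_nonneg hσ (Real.sqrt_nonneg _)) zero_le_one hP hR.1
  rw [mul_one] at this
  rw [e]
  exact this

/-- The diagonal of the tensor product of two Bessel families.  For a test function `φ`,
`pr (∑ c i • E i * E' i) φ = ∑ i, pr (E' i) (fun b => c i * pr (E i) (φ (· * b)))`.  Use the primal
densities `ρ' i = E' i / P'` (`L2.primal`, each of norm `≤ σ'`): the sum equals
`pr P' (fun b => pr (∑ i, (c i * ρ' i b) • E i) (φ (· * b)))`, bound the inner pairing by the first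
family and finish with Cauchy–Schwarz in `L²(P')`. -/
theorem F2.mul {ι : Type} {I : Finset ι} {F F' : ι → Ms Γ} {P P' : Ms Γ} {σ σ' τ τ' : ℝ}
    (h : F2 I F P σ τ) (h' : F2 I F' P' σ' τ') (hσ : 0 ≤ σ) (hσ' : 0 ≤ σ') (hP : Prob P)
    (hP' : Prob P') :
    F2 I (fun i => F i * F' i) (P * P') (σ * σ') (τ * (σ' + τ') + σ * τ') := by
  obtain ⟨E, h1, h2⟩ := h
  obtain ⟨E', h3, h4⟩ := h'
  refine ⟨fun i => E i * E' i, fun i hi => ?_,
    fam_mul h2 (fun i hi => fam_one h4 hi) hσ hσ' hP.1 hP'.1⟩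
  exact l1_mul_sub (h1 i hi) (h3 i hi) ((fam_one h2 hi).l1_le hσ hP.1 hP.2.le)
    ((fam_one h4 hi).l1_le hσ' hP'.1 hP'.2.le)

/-- Multiply every `E i` pointwise by `h = P₀ / P ∈ [0, 1]`; the removed part has total variation
`|pr (E i) (± (1 - h))| ≤ σ √(pr P (1 - h)²) ≤ σ √t`. -/
theorem F2.dom {ι : Type} {I : Finset ι} {F : ι → Ms Γ} {P Q : Ms Γ} {σ τ c t : ℝ}
    (h : F2 I F P σ τ) (hσ : 0 ≤ σ) (hc : 0 ≤ c) (hP : NN P) (hd : Dom P Q c t) :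
    F2 I F Q (Real.sqrt c * σ) (τ + σ * Real.sqrt t) := by
  obtain ⟨E, h1, h2⟩ := h
  obtain ⟨P₀, k0, k1, k2, k3⟩ := hd
  refine ⟨fun i => pm (E i) fun w => P₀.coeff w / P.coeff w, fun i hi => ?_, fun a => ?_⟩
  · exact (l1_tri (F i) (E i) _).trans
      (add_le_add (h1 i hi) (l1_cut (fam_one h2 hi) hσ k0 k1 k3))
  · rw [pm_sum, mul_assoc]
    exact l2_cut (h2 a) (mul_nonneg hσ (Real.sqrt_nonneg _)) hc k0 k1 k2

theorem N2.dom {E P Q : Ms Γ} {σ τ c t : ℝ} (h : N2 E P σ τ) (hσ : 0 ≤ σ) (hc : 0 ≤ c)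
    (hP : NN P) (hd : Dom P Q c t) : N2 E Q (Real.sqrt c * σ) (τ + σ * Real.sqrt t) := by
  obtain ⟨E₀, h1, h2⟩ := h
  obtain ⟨P₀, k0, k1, k2, k3⟩ := hd
  exact ⟨pm E₀ fun w => P₀.coeff w / P.coeff w, l2_cut h1 hσ hc k0 k1 k2,
    (l1_tri E E₀ _).trans (add_le_add h2 (l1_cut h1 hσ k0 k1 k3))⟩

/-- Recentre a family of measures of mass zero. -/
theorem F2.center {ι : Type} {I : Finset ι} {F : ι → Ms Γ} {P : Ms Γ} {σ τ : ℝ}
    (h : F2 I F P σ τ) (hτ : 0 ≤ τ) (hP : Prob P) (h0 : ∀ i ∈ I, mass (F i) = 0) :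
    ∃ E : ι → Ms Γ, (∀ i ∈ I, l1 (F i - E i) ≤ 2 * τ ∧ mass (E i) = 0) ∧
      ∀ c : ι → ℝ, L2 (∑ i ∈ I, c i • E i) P
        ((σ + τ * Real.sqrt I.card) * Real.sqrt (∑ i ∈ I, c i ^ 2)) := by
  obtain ⟨E, h1, h2⟩ := h
  refine ⟨fun i => E i - mass (E i) • P,
    fun i hi => ⟨l1_center (h1 i hi) (h0 i hi) hP, mass_center _ hP⟩, fun c => ?_⟩
  have e : (∑ i ∈ I, c i • (E i - mass (E i) • P)) =
      (∑ i ∈ I, c i • E i) + -((∑ i ∈ I, c i * mass (E i)) • P) := by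
    rw [Finset.sum_smul, ← sub_eq_add_neg, ← Finset.sum_sub_distrib]
    exact Finset.sum_congr rfl fun i _ => by rw [smul_sub, smul_smul]
  rw [e, add_mul]
  refine (h2 c).add (((L2.self hP.1 hP.2.le).smul _).mono ?_).neg
  rw [mul_one]
  refine (Finset.abs_sum_le_sum_abs _ _).trans ?_
  have a1 : ∑ i ∈ I, |c i * mass (E i)| ≤ ∑ i ∈ I, τ * |c i| := by
    refine Finset.sum_le_sum fun i hi => ?_
    rw [abs_mul, mul_comm]
    exact mul_le_mul_of_nonneg_right (abs_mass_near (h1 i hi) (h0 i hi)) (abs_nonneg _)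
  refine a1.trans ?_
  rw [← Finset.mul_sum, mul_assoc]
  exact mul_le_mul_of_nonneg_left (sum_abs_le I c) hτ

theorem n2_iff_f2 {E P : Ms Γ} {σ τ : ℝ} {F : ℕ → Ms Γ} (hF : F 0 = E) :
    N2 E P σ τ ↔ F2 (range 1) F P σ τ := by
  constructor
  · rintro ⟨E₀, h1, h2⟩
    refine ⟨fun _ => E₀, fun i hi => ?_, fun c => ?_⟩
    · rw [Finset.mem_range, Nat.lt_one_iff] at hi
      rw [hi, hF]; exact h2
    · rw [Finset.sum_range_one, Finset.sum_range_one, Real.sqrt_sq_eq_abs, mul_comm]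
      exact h1.smul _
  · intro h
    rw [← hF]
    exact h.n2 (Finset.mem_range.2 Nat.one_pos)

theorem Dom.of_le {P Q : Ms Γ} {c : ℝ} (hP : NN P) (h : Le P (c • Q)) : Dom P Q c 0 := by
  exact ⟨P, hP, Le.refl P, h, by rw [sub_self, l1_zero]⟩

theorem Dom.mono {P Q : Ms Γ} {c c' t t' : ℝ} (h : Dom P Q c t) (hQ : NN Q) (hc : c ≤ c')
    (ht : t ≤ t') : Dom P Q c' t' := by
  obtain ⟨P₀, k0, k1, k2, k3⟩ := h
  refine ⟨P₀, k0, k1, fun w => (k2 w).trans ?_, k3.trans ht⟩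
  rw [c_smul, c_smul]
  exact mul_le_mul_of_nonneg_right hc (hQ w)

theorem Dom.mul_left {P Q R : Ms Γ} {c t : ℝ} (h : Dom P Q c t) (hR : Prob R) :
    Dom (R * P) (R * Q) c t := by
  obtain ⟨P₀, k0, k1, k2, k3⟩ := h
  refine ⟨R * P₀, hR.1.mul k0, (Le.refl R).mul k1 k0 hR.1, ?_, l1_left k3 hR⟩
  rw [← mul_smul_comm]
  exact (Le.refl R).mul k2 k0 hR.1

theorem Dom.mul_right {P Q R : Ms Γ} {c t : ℝ} (h : Dom P Q c t) (hR : Prob R) :
    Dom (P * R) (Q * R) c t := by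
  obtain ⟨P₀, k0, k1, k2, k3⟩ := h
  refine ⟨P₀ * R, k0.mul hR.1, k1.mul (Le.refl R) hR.1 fun w => (k0 w).trans (k1 w), ?_,
    l1_right k3 hR⟩
  rw [← smul_mul_assoc]
  exact k2.mul (Le.refl R) hR.1 fun w => (k0 w).trans (k2 w)

/-- Take the pointwise minimum of `P₀` and `c • Q₀`. -/
theorem Dom.trans {P Q R : Ms Γ} {c c' t t' : ℝ} (h : Dom P Q c t) (h' : Dom Q R c' t')
    (hc : 0 ≤ c) : Dom P R (c * c') (t + c * t') := by
  obtain ⟨P₀, k0, k1, k2, k3⟩ := h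
  obtain ⟨Q₀, j0, j1, j2, j3⟩ := h'
  refine ⟨mn P₀ (c • Q₀), fun w => ?_, fun w => ?_, fun w => ?_, ?_⟩
  · rw [c_mn, c_smul]
    exact le_min (k0 w) (mul_nonneg hc (j0 w))
  · rw [c_mn]
    exact (min_le_left _ _).trans (k1 w)
  · rw [c_mn, c_smul, c_smul]
    refine (min_le_right _ _).trans ?_
    have := j2 w
    rw [c_smul] at this
    rw [mul_assoc]
    exact mul_le_mul_of_nonneg_left this hc
  · refine (l1_tri P P₀ _).trans (add_le_add k3 ?_)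
    have a4 : l1 (P₀ - mn P₀ (c • Q₀)) ≤ l1 (c • (Q - Q₀)) := by
      refine l1_le_of_abs_le fun w => ?_
      rw [c_sub, c_mn, c_smul, c_smul, c_sub]
      refine le_trans ?_ (le_abs_self _)
      have a1 := k2 w
      rw [c_smul] at a1
      have a2 : 0 ≤ c * (Q.coeff w - Q₀.coeff w) := mul_nonneg hc (sub_nonneg.2 (j1 w))
      rw [abs_of_nonneg (sub_nonneg.2 (min_le_left _ _))]
      rcases le_total (P₀.coeff w) (c * Q₀.coeff w) with a3 | a3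
      · rw [min_eq_left a3]; linarith
      · rw [min_eq_right a3]; linarith
    refine a4.trans ?_
    rw [l1_smul, abs_of_nonneg hc]
    exact mul_le_mul_of_nonneg_left j3 hc

/-- If `Q - P` has density at most `1 / 2` then `P ≤ 2 Q` up to `2 τ`. -/
theorem Dom.of_ni {P Q : Ms Γ} {η τ : ℝ} (hP : NN P) (hQ : NN Q) (h : NI (Q - P) P η τ)
    (hη : η ≤ 1 / 2) : Dom P Q 2 (2 * τ) := by
  obtain ⟨E₀, h1, h2⟩ := h
  refine ⟨mn P ((2 : ℝ) • Q), fun w => ?_, fun w => ?_, fun w => ?_, ?_⟩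
  · rw [c_mn, c_smul]
    exact le_min (hP w) (mul_nonneg zero_le_two (hQ w))
  · rw [c_mn]
    exact min_le_left _ _
  · rw [c_mn]
    exact min_le_right _ _
  · have a4 : l1 (P - mn P ((2 : ℝ) • Q)) ≤ l1 ((2 : ℝ) • (Q - P - E₀)) := by
      refine l1_le_of_abs_le fun w => ?_
      rw [c_sub, c_mn, c_smul, c_smul, c_sub, c_sub]
      rw [abs_of_nonneg (sub_nonneg.2 (min_le_left _ _))]
      rcases le_total (P.coeff w) (2 * Q.coeff w) with a3 | a3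
      · rw [min_eq_left a3, sub_self]; exact abs_nonneg _
      · rw [min_eq_right a3]
        have a1 := (abs_le.1 (h1 w)).1
        have a2 : η * P.coeff w ≤ 1 / 2 * P.coeff w := mul_le_mul_of_nonneg_right hη (hP w)
        have a5 := neg_abs_le (2 * (Q.coeff w - P.coeff w - E₀.coeff w))
        linarith
    refine a4.trans ?_
    rw [l1_smul, abs_two]
    linarith

/-- Products of shifted families: `shf B (F * B ^ (2 s) * F') s w = shf B F s w * shf B F' s w`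
for `w ≤ 2 s`. -/
theorem shf_mul (B F F' : Ms Γ) {s w : ℕ} (hw : w ≤ 2 * s) :
    shf B (F * B ^ (2 * s) * F') s w = shf B F s w * shf B F' s w := by
  unfold shf
  have e : B ^ (2 * s) = B ^ (2 * s - w) * B ^ w := by
    rw [← pow_add, Nat.sub_add_cancel hw]
  rw [e]
  simp only [mul_assoc]

end Crest.Agent.R300
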