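import Crest.Agent.R300.LProd
import Crest.Agent.R300.LGain
import Crest.Agent.R300.LSlip

/-!
# R300 lower bound: embedding a window into the background (task LPipe)
-/

set_option autoImplicit false

namespace Crest.Agent.R300

open Finset

variable {Γ : Type} [Monoid Γ]

/-- the three error terms of `pipe` -/
private theorem pipe_err {Tx Ty Px Py R Eh err : Ms Γ} (hPx : Prob Px) (hPy : Prob Py)
    (hR : Prob R) {g t α β τE : ℝ} (hg0 : 0 ≤ g) (hg : g ≤ 2) (ht0 : 0 ≤ t) (ht : t ≤ 1)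
    (hα : 0 ≤ α) (hα2 : α ≤ 2) (hβ : 0 ≤ β) (hβ1 : β ≤ 1) (hτE : 0 ≤ τE) (hτE1 : τE ≤ 1)
    (ax : N2 (Tx - Px) Px g t) (bx : N2 Tx Px 2 t) (ay : N2 (Ty - Py) Py g t)
    (by' : N2 Ty Py 2 t) (hE : N2 Eh R α τE) (he : N2 err R β τE) :
    N2 (Tx * (Eh + err) * Ty - Px * Eh * Py) (Px * R * Py) (4 * β + 3 * (g * α))
      (23 * t + 15 * τE) := by
  have h2 : N2 (Tx * err) (Px * R) (2 * β) (2 * t + 2 * τE) :=
    (bx.mul he (by norm_num) hβ hPx hR).mono le_rfl (by nlinarith)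
  have h2' : N2 (Tx * err * Ty) (Px * R * Py) (4 * β) (8 * t + 6 * τE) :=
    (h2.mul by' (by positivity) (by norm_num) (hPx.mul hR) hPy).mono (by linarith) (by nlinarith)
  have h3 : N2 ((Tx - Px) * Eh) (Px * R) (g * α) (3 * t + 2 * τE) :=
    (ax.mul hE hg0 hα hPx hR).mono le_rfl (by nlinarith)
  have hgα : g * α ≤ 4 := by nlinarith
  have h3' : N2 ((Tx - Px) * Eh * Ty) (Px * R * Py) (2 * (g * α)) (13 * t + 6 * τE) :=
    (h3.mul by' (by positivity) (by norm_num) (hPx.mul hR) hPy).mono (by linarith) (by nlinarith)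
  have h4 : N2 (Px * Eh) (Px * R) α τE := hE.mul_left hα hR.1 hPx
  have h4' : N2 (Px * Eh * (Ty - Py)) (Px * R * Py) (g * α) (2 * t + 3 * τE) :=
    (h4.mul ay hα hg0 (hPx.mul hR) hPy).mono (by linarith) (by nlinarith)
  have e : Tx * (Eh + err) * Ty - Px * Eh * Py =
      Tx * err * Ty + (Tx - Px) * Eh * Ty + Px * Eh * (Ty - Py) := by noncomm_ring
  rw [e]
  exact ((h2'.add h3').add h4').mono (by linarith) (by linarith)

private theorem pipe_num {p X n S σ τ : ℝ} (hp : 2 ≤ p) (hn : 0 ≤ n) (hX : 2 * n + 1 ≤ X)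
    (hτ : 0 ≤ τ) (hτσ : τ ≤ σ) (hS2 : S ^ 2 = 2 * n + 1) (hpσ : p ^ 2 * X * σ ^ 2 ≤ 1)
    (hpτ : p * X * τ ≤ 1 / 3) :
    X * τ ≤ 1 / 6 ∧ σ ≤ 1 / 2 ∧ 4 * σ * S ≤ 2 ∧ ∀ x : ℝ, x ≤ X → x * (σ + τ) ^ 2 ≤ 1 := by
  have hX1 : 1 ≤ X := by linarith
  have hσ : 0 ≤ σ := hτ.trans hτσ
  have hXσ : 4 * (X * σ ^ 2) ≤ 1 := by
    have h1 : (4 : ℝ) ≤ p ^ 2 := by nlinarith
    have h2 : 0 ≤ X * σ ^ 2 := by positivity
    nlinarith
  refine ⟨?_, ?_, ?_, fun x hx => ?_⟩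
  · have h2 : 0 ≤ X * τ := by positivity
    nlinarith
  · by_contra hc
    push Not at hc
    nlinarith
  · have h1 : (2 * σ * S) ^ 2 ≤ 1 ^ 2 := by
      have : (2 * σ * S) ^ 2 = 4 * ((2 * n + 1) * σ ^ 2) := by rw [← hS2]; ring
      have h3 : (2 * n + 1) * σ ^ 2 ≤ X * σ ^ 2 := mul_le_mul_of_nonneg_right hX (sq_nonneg _)
      linarith
    have := abs_le_of_sq_le_sq' h1 zero_le_one
    linarith [this.2]
  · have h2 : (σ + τ) ^ 2 ≤ 4 * σ ^ 2 := by nlinarith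
    have h3 : x * (σ + τ) ^ 2 ≤ X * (4 * σ ^ 2) := mul_le_mul hx h2 (sq_nonneg _) (by linarith)
    linarith

private theorem pipe_num2 {σ α S : ℝ} (hσ : 0 ≤ σ) (hα : 0 ≤ α) (hS : 1 ≤ S) :
    4 * (σ * α) + 3 * (4 * σ * S * α) ≤ 16 * σ * α * S := by
  have h5 : 0 ≤ σ * α := by positivity
  nlinarith

/-- Let `E = Ê + err`, `Ê = B ^ s E' B ^ s`, `x = N₁ - s' + w`, `y = N₁ + s' - w` (`x + y = 2 N₁`),
`X = 2 N₁ + D`.  All estimates are first made for `T ^ x E T ^ y` relative to `B ^ (m X)`: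
`T ^ x E T ^ y = B ^ (m x) Ê B ^ (m y) + T ^ x err T ^ y + (T ^ x - B ^ (m x)) Ê T ^ y
  + B ^ (m x) Ê (T ^ y - B ^ (m y))`.
By `prod_n2` (`τ ≤ σg`, `4 X σg² ≤ 1`, `X τ ≤ 1/6`), `T ^ x` has norm `2`, `T ^ x - B ^ (m x)` has norm
`4 σg √x ≤ 2`, errors `4 x τ ≤ 1`; `Ê = shf B E' s s` has norm `α` (`F2.n2`).  So the last three terms
have norm `≤ σg α (4 + 12 √(2 N₁)) ≤ 16 σg α √(2 N₁ + 1)` and error `≤ 200 X τ + 40 τE` (`N2.mul`;
`α ≤ 2`, `σg ≤ 1`, `τE ≤ 1`); use `F2.of_n2`.  The first term is the family of `gain` with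
`NL = m (N₁ - s') + s`, `NR + ρ + 2 s = NL`, with slack from `slack_of_slip` (`Slack.mono` from `⌈a⌉`
to `a`).  Change the reference to `T ^ X` by `prod_dom` and `F2.dom`, and multiply by `T ^ (N - N₁)`
on both sides. -/
theorem pipe {B T E : Ms Γ} (hB : Prob B) (hT : Prob T) {m s D GB Q N N₁ s' a ρ p : ℕ}
    {cB σg ηg τ α τE lam J : ℝ} (hslip : Slip B GB cB) (hcB : 0 < cB) (hJ : 1 ≤ J)
    (hτ : 0 ≤ τ) (hτg : τ ≤ σg) (hηg : 0 ≤ ηg) (hα : 0 ≤ α) (hα2 : α ≤ 2) (hτE : 0 ≤ τE)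
    (hτE1 : τE ≤ 1) (hD : 1 ≤ D)
    (hg : N2 (T - B ^ m) (B ^ m) σg τ) (hg' : NI (T - B ^ m) (B ^ m) ηg τ)
    (hE : HE B s (m * D) E α (σg * α) τE lam)
    (hN : N₁ ≤ N) (hs' : s' ≤ N₁) (hQ : 1 ≤ Q) (hQD : m * D + 2 * s ≤ Q * (2 * s + 1))
    (hL : slackN GB cB a J ≤ ((m * (N₁ - s') + s : ℕ) : ℝ))
    (hR : slackN GB cB (160000 * J * (ρ : ℝ) ^ 2) J + ρ + 2 * s ≤ ((m * (N₁ - s') + s : ℕ) : ℝ))
    (hρ : 2 * Real.sqrt (a * J) + 1 ≤ ρ) (hm : s' = 0 ∨ ρ ≤ m) (hp : 2 ≤ p)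
    (hpη : p * ηg ≤ 1 / 8) (hpσ : (p : ℝ) ^ 2 * (2 * N₁ + D) * σg ^ 2 ≤ 1)
    (hpτ : p * (2 * N₁ + D) * τ ≤ 1 / 3) {σ₁ : ℝ}
    (hσ₁ : 4 * Real.sqrt Q * (α + τE * Real.sqrt (2 * s + 1)) / Real.sqrt (Real.sqrt (a + 1)) +
      16 * σg * α * Real.sqrt (2 * N₁ + 1) * Real.sqrt (2 * s' + 1) ≤ σ₁) :
    F2 (range (2 * s' + 1)) (fun w => T ^ (N - s' + w) * E * T ^ (N + s' - w)) (T ^ (2 * N + D))
      (2 * σ₁) (200 * (2 * N₁ + D) * τ + 42 * τE + 8 * lam * Real.exp (-J) +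
        σ₁ * Real.sqrt (21 / 2 ^ p + 18 * (2 * N₁ + D) * τ)) := by
  obtain ⟨E', err, hEq, hl, h0, hF, herr⟩ := hE
  have hσg : 0 ≤ σg := hτ.trans hτg
  have hP : Prob (B ^ m) := hB.pow m
  have hDr : (1 : ℝ) ≤ D := by exact_mod_cast hD
  have hpr : (2 : ℝ) ≤ p := by exact_mod_cast hp
  have hN0 : (0 : ℝ) ≤ N₁ := Nat.cast_nonneg _
  set Xr : ℝ := 2 * N₁ + D with hXr
  have hX1 : 1 ≤ Xr := by linarith
  set S : ℝ := Real.sqrt (2 * N₁ + 1) with hS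
  have hS1 : 1 ≤ S := Real.one_le_sqrt.2 (by linarith)
  have hS2 : S ^ 2 = 2 * N₁ + 1 := Real.sq_sqrt (by linarith)
  obtain ⟨hXτ, hσg1, hg2, hxs⟩ := pipe_num hpr hN0 (by linarith : 2 * (N₁ : ℝ) + 1 ≤ Xr) hτ hτg hS2
    hpσ hpτ
  have hβ1 : σg * α ≤ 1 := by
    have := mul_le_mul hσg1 hα2 hα (by norm_num)
    linarith
  have hpow : ∀ x : ℕ, x ≤ 2 * N₁ →
      N2 (T ^ x - (B ^ m) ^ x) ((B ^ m) ^ x) (4 * σg * S) (4 * (Xr * τ)) ∧
        N2 (T ^ x) ((B ^ m) ^ x) 2 (4 * (Xr * τ)) := by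
    intro x hx
    have hxr : (x : ℝ) ≤ 2 * N₁ := by exact_mod_cast hx
    have hxX : (x : ℝ) ≤ Xr := by linarith
    have hx0 : (0 : ℝ) ≤ x := Nat.cast_nonneg _
    have hxτ : (x : ℝ) * τ ≤ Xr * τ := mul_le_mul_of_nonneg_right hxX hτ
    have h1 := hxs x hxX
    obtain ⟨a1, a2⟩ := prod_n2 hP hT hσg hτ hg h1 (by linarith)
    have hsq : Real.sqrt x ≤ S := Real.sqrt_le_sqrt (by linarith)
    have h4 : 2 * (σg + τ) * Real.sqrt x ≤ 4 * σg * S :=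
      mul_le_mul (by linarith) hsq (Real.sqrt_nonneg _) (by positivity)
    exact ⟨a1.mono h4 (by linarith), a2.mono le_rfl (by linarith)⟩
  -- the error terms
  have hEh : N2 (B ^ s * E' * B ^ s) (B ^ (m * D)) α τE := by
    have := hF.n2 (i := s) (by rw [mem_range]; omega)
    unfold shf at this
    rwa [show 2 * s - s = s by omega] at this
  have herrs : ∀ w ∈ range (2 * s' + 1),
      N2 (T ^ (N₁ - s' + w) * E * T ^ (N₁ + s' - w) -
        (B ^ m) ^ (N₁ - s' + w) * (B ^ s * E' * B ^ s) * (B ^ m) ^ (N₁ + s' - w))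
        ((B ^ m) ^ (2 * N₁ + D)) (16 * σg * α * S) (200 * Xr * τ + 40 * τE) := by
    intro w hw
    rw [mem_range] at hw
    obtain ⟨ax, bx⟩ := hpow (N₁ - s' + w) (by omega)
    obtain ⟨ay, by'⟩ := hpow (N₁ + s' - w) (by omega)
    have hXτ0 : 0 ≤ Xr * τ := by positivity
    have h := pipe_err (hP.pow _) (hP.pow _) (hB.pow (m * D)) (by positivity) hg2 (by positivity)
      (by linarith) hα hα2 (by positivity) hβ1 hτE hτE1 ax bx ay by' hEh herr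
    have e : (B ^ m) ^ (N₁ - s' + w) * B ^ (m * D) * (B ^ m) ^ (N₁ + s' - w) =
        (B ^ m) ^ (2 * N₁ + D) := by
      rw [pow_mul, ← pow_add, ← pow_add]
      congr 1
      omega
    rw [e, ← hEq] at h
    exact h.mono (pipe_num2 hσg hα hS1) (by linarith)
  have hFe := F2.of_n2 (by positivity) herrs
  rw [card_range] at hFe
  -- the main term
  have hsl0 : 0 ≤ slackN GB cB (160000 * J * (ρ : ℝ) ^ 2) J := by
    unfold slackN
    positivity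
  have hNL : ρ + 2 * s ≤ m * (N₁ - s') + s := by
    have : ((ρ + 2 * s : ℕ) : ℝ) ≤ ((m * (N₁ - s') + s : ℕ) : ℝ) := by
      rw [Nat.cast_add ρ, Nat.cast_mul 2 s, Nat.cast_ofNat]
      linarith
    exact_mod_cast this
  obtain ⟨NR, hNR⟩ : ∃ NR, m * (N₁ - s') + s = NR + ρ + 2 * s :=
    ⟨m * (N₁ - s') + s - (ρ + 2 * s), by omega⟩
  have sL : Slack B (m * (N₁ - s') + s) a (Real.exp (-J)) := by
    have := slack_of_slip hB hslip hcB (Nat.cast_nonneg a) (by linarith) hL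
    rwa [Nat.ceil_natCast] at this
  have sR : Slack B NR ⌈160000 * J * (ρ : ℝ) ^ 2⌉₊ (Real.exp (-J)) := by
    refine slack_of_slip hB hslip hcB (by positivity) (by linarith) ?_
    rw [hNR] at hR
    push_cast at hR
    linarith
  have hG := gain hB hα hτE hJ hQ hQD h0 hl hF sL sR hρ hm (Nat.le_ceil _)
  have eref : m * (N₁ - s') + s + NR + ρ + 2 * s' * m + m * D = m * (2 * N₁ + D) := by
    obtain ⟨k, rfl⟩ := Nat.exists_eq_add_of_le hs'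
    rw [Nat.add_sub_cancel_left] at hNR ⊢
    have : m * (2 * (s' + k) + D) = 2 * (m * k) + 2 * s' * m + m * D := by ring
    omega
  rw [eref, pow_mul] at hG
  have hsum := (hG.add hFe).congr (F' := fun w => T ^ (N₁ - s' + w) * E * T ^ (N₁ + s' - w)) (by
    intro w hw
    rw [mem_range] at hw
    have e1 : m * (N₁ - s') + s + m * w = m * (N₁ - s' + w) + s := by ring
    have e2 : m * (2 * s' - w) + (NR + ρ + 2 * s) = s + m * (N₁ + s' - w) := by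
      rw [← hNR, show N₁ + s' - w = (2 * s' - w) + (N₁ - s') by omega]
      ring
    rw [e1, e2, pow_add B, pow_add B, pow_mul, pow_mul]
    simp only [mul_assoc]
    abel)
  have hσ₁0 : 0 ≤ σ₁ := le_trans (by positivity) hσ₁
  have hsum' := hsum.mono (σ' := σ₁) (τ' := 200 * Xr * τ + 42 * τE + 8 * lam * Real.exp (-J))
    (by push_cast; linarith) (by linarith)
  have hdom := prod_dom hP hT hσg hηg hτ hg hg' (x := 2 * N₁ + D) (p := p) (by omega) hpη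
    (by push_cast; exact hpσ) (by push_cast; exact hpτ)
  have h1 := hsum'.dom hσ₁0 (by norm_num) (hP.pow _).1 hdom
  have hs2 : Real.sqrt 2 * σ₁ ≤ 2 * σ₁ :=
    mul_le_mul_of_nonneg_right (Real.sqrt_le_iff.2 ⟨by norm_num, by norm_num⟩) hσ₁0
  have h2 := h1.mono hs2 le_rfl
  have h3 := (h2.mul_left (by positivity) (hT.pow _).1 (hT.pow (N - N₁))).mul_right
    (by positivity) ((hT.pow _).mul (hT.pow _)).1 (hT.pow (N - N₁))
  rw [← pow_add, ← pow_add, show N - N₁ + (2 * N₁ + D) + (N - N₁) = 2 * N + D by omega] at h3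
  push_cast at h3
  refine h3.congr fun w hw => ?_
  rw [mem_range] at hw
  rw [show N - s' + w = (N - N₁) + (N₁ - s' + w) by omega,
    show N + s' - w = (N₁ + s' - w) + (N - N₁) by omega, pow_add T (N - N₁), pow_add T _ (N - N₁)]
  simp only [mul_assoc]

end Crest.Agent.R300
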