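import Crest.Agent.R300.LNear

/-!
# R300 lower bound: products of nearby probability measures (task LProd)
-/

set_option autoImplicit false

namespace Crest.Agent.R300

open Finset LNear

variable {Γ : Type} [Monoid Γ]

private theorem one_add_pow_le_exp {a : ℝ} (ha : 0 ≤ a) (k : ℕ) :
    (1 + a) ^ k ≤ Real.exp (k * a) := by
  rw [Real.exp_nat_mul]
  exact pow_le_pow_left₀ (by linarith) (by linarith [Real.add_one_le_exp a]) k

private theorem exp_one_le_three : Real.exp 1 ≤ 3 := by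
  have := Real.exp_one_lt_d9
  linarith

private theorem l2_pow {P E : Ms Γ} (hP : Prob P) {s : ℝ} (hs : 0 ≤ s) (hE : L2 E P s)
    (h0 : mass E = 0) (k : ℕ) : L2 ((P + E) ^ k) (P ^ k) (Real.sqrt ((1 + s ^ 2) ^ k)) := by
  induction k with
  | zero =>
    simp only [pow_zero, Real.sqrt_one]
    exact L2.self NN.one mass_one.le
  | succ k ih =>
    have h := L2.orth ih ih hE (Real.sqrt_nonneg _) (Real.sqrt_nonneg _) hs (hP.1.pow k) hP h0
    rw [← mul_add, ← pow_succ, ← pow_succ, Real.sq_sqrt (by positivity)] at h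
    have e : (1 + s ^ 2) ^ k + (1 + s ^ 2) ^ k * s ^ 2 = (1 + s ^ 2) ^ (k + 1) := by ring
    rwa [e] at h

private theorem l2_pow_two {P E : Ms Γ} (hP : Prob P) {s : ℝ} (hs : 0 ≤ s) (hE : L2 E P s)
    (h0 : mass E = 0) {k : ℕ} (hk : k * s ^ 2 ≤ 1) : L2 ((P + E) ^ k) (P ^ k) 2 := by
  refine (l2_pow hP hs hE h0 k).mono (Real.sqrt_le_iff.2 ⟨by norm_num, ?_⟩)
  have h1 := one_add_pow_le_exp (sq_nonneg s) k
  have h2 := Real.exp_le_exp.2 hk
  have h3 := exp_one_le_three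
  linarith

private theorem l2_pow_sub {P E : Ms Γ} (hP : Prob P) {s : ℝ} (hs : 0 ≤ s) (hE : L2 E P s)
    (h0 : mass E = 0) (k : ℕ) (hk : k * s ^ 2 ≤ 1) :
    L2 ((P + E) ^ k - P ^ k) (P ^ k) (2 * s * Real.sqrt k) := by
  induction k with
  | zero =>
    simp only [pow_zero, sub_self]
    exact L2.zero _ (by positivity)
  | succ k ih =>
    have hk' : k * s ^ 2 ≤ 1 := by
      refine le_trans ?_ hk
      push_cast
      nlinarith [sq_nonneg s]
    have h := L2.orth (ih hk') (l2_pow_two hP hs hE h0 hk') hE (by positivity) (by norm_num) hs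
      (hP.1.pow k) hP h0
    have e : ((P + E) ^ k - P ^ k) * P + (P + E) ^ k * E = (P + E) ^ (k + 1) - P ^ (k + 1) := by
      rw [pow_succ, pow_succ]; noncomm_ring
    rw [e, ← pow_succ] at h
    refine h.mono (Real.sqrt_le_iff.2 ⟨by positivity, le_of_eq ?_⟩)
    rw [mul_pow, mul_pow, mul_pow, mul_pow, Real.sq_sqrt (by positivity),
      Real.sq_sqrt (by positivity)]
    push_cast
    ring

private theorem l1_pow_near {Q Q' : Ms Γ} (hQ : Prob Q) {t : ℝ} (ht : 0 ≤ t)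
    (h : l1 (Q - Q') ≤ t) (x : ℕ) : l1 (Q ^ x - Q' ^ x) ≤ x * t * Real.exp (x * t) := by
  have h1 : l1 Q' ≤ 1 + t := by
    have h2 := l1_le_of_sub Q' Q
    rw [hQ.l1_eq, l1_sub_comm] at h2
    linarith
  refine (l1_pow_sub_pow Q Q' (M := 1 + t) (by linarith) (by rw [hQ.l1_eq]; linarith) h1 x).trans ?_
  exact mul_le_mul (mul_le_mul_of_nonneg_left h (Nat.cast_nonneg _)) (one_add_pow_le_exp ht x)
    (by positivity) (by positivity)

/-- Recentre (`N2.center`): `E₀` has mass `0`, norm `σ' = σ + τ`, `l1 (Q - P - E₀) ≤ 2 τ`.  Let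
`Q' = P + E₀`.  `L2.orth` (with `A = Q = P = 1`) gives `L2 Q' P √(1 + σ'²)`, so `Q' ^ k` has norm
`γ_k ≤ exp (k σ'² / 2) ≤ √e` for `k ≤ x`.  From `Q' ^ (k+1) - P ^ (k+1) = (Q' ^ k - P ^ k) P + Q' ^ k E₀`
and `L2.orth`, the norm `d_k` of `Q' ^ k - P ^ k` satisfies `d_k² ≤ e k σ'²`.  Finally
`l1 (Q ^ x - Q' ^ x) ≤ 2 x τ (1 + 2 τ) ^ x ≤ 4 x τ` (`l1_pow_sub_pow`). -/
theorem prod_n2 {P Q : Ms Γ} (hP : Prob P) (hQ : Prob Q) {σ τ : ℝ} (hσ : 0 ≤ σ) (hτ : 0 ≤ τ)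
    (h : N2 (Q - P) P σ τ) {x : ℕ} (hx : x * (σ + τ) ^ 2 ≤ 1) (hx' : x * τ ≤ 1 / 4) :
    N2 (Q ^ x - P ^ x) (P ^ x) (2 * (σ + τ) * Real.sqrt x) (4 * x * τ) ∧
      N2 (Q ^ x) (P ^ x) 2 (4 * x * τ) := by
  obtain ⟨E, h1, h2, h0⟩ := h.center hP (by rw [mass_sub, hP.2, hQ.2, sub_self])
  have hs : 0 ≤ σ + τ := add_nonneg hσ hτ
  have h3 : l1 (Q ^ x - (P + E) ^ x) ≤ 4 * x * τ := by
    have h4 := l1_pow_near (Q' := P + E) hQ (t := 2 * τ) (by positivity)
      (by rwa [← sub_sub]) x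
    have h5 : Real.exp (x * (2 * τ)) ≤ 2 := by
      have h6 : Real.exp (x * (2 * τ)) ≤ Real.exp (1 / 2) := Real.exp_le_exp.2 (by linarith)
      have h7 : Real.exp (1 / 2) * Real.exp (1 / 2) = Real.exp 1 := by
        rw [← Real.exp_add]; norm_num
      have h8 := exp_one_le_three
      have h9 : Real.exp (1 / 2) ≤ 2 := by nlinarith [Real.exp_pos (1 / 2)]
      linarith
    have h10 : (0 : ℝ) ≤ x * (2 * τ) := by positivity
    nlinarith
  refine ⟨⟨(P + E) ^ x - P ^ x, l2_pow_sub hP hs h1 h0 x hx, ?_⟩,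
    ⟨(P + E) ^ x, l2_pow_two hP hs h1 h0 hx, h3⟩⟩
  rwa [sub_sub_sub_cancel_right]

/-- The likelihood-ratio tail in dual form. -/
private theorem tail_dual {P : Ms Γ} (hP : NN P) {e : Γ → ℝ} (he : ∀ w, 0 < 1 + e w) (p : ℕ)
    {A : ℝ} (hA0 : 0 ≤ A) (hA : (pr P fun w => 1 / (1 + e w) ^ p) ≤ A) (x : ℕ) :
    ∀ (lam : ℝ), 0 < lam → ∀ φ : Γ → ℝ, (∀ w, 0 ≤ φ w) → (∀ w, φ w ≤ 1) →
      pr (P ^ x) φ - lam * pr (pm P (fun w => 1 + e w) ^ x) φ ≤ A ^ x / lam ^ p := by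
  induction x with
  | zero =>
    intro lam hl φ h0 h1
    simp only [pow_zero, pr_one]
    have hpos : 0 < lam ^ p := pow_pos hl p
    rcases le_total 1 lam with h | h
    · have : φ 1 - lam * φ 1 ≤ 0 := by nlinarith [h0 1]
      exact this.trans (by positivity)
    · have h2 : lam ^ p ≤ 1 := pow_le_one₀ hl.le h
      have h3 : 1 ≤ 1 / lam ^ p := by rw [le_div_iff₀ hpos]; linarith
      nlinarith [h0 1, h1 1]
  | succ x ih =>
    intro lam hl φ h0 h1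
    have hpos : 0 < lam ^ p := pow_pos hl p
    rw [pow_succ', pow_succ', pr_mul, pr_mul, pr_pm, ← pr_fun_mul]
    have key : (pr P fun a => pr (P ^ x) fun b => φ (a * b)) ≤
        pr P fun a => lam * ((1 + e a) * pr (pm P (fun w => 1 + e w) ^ x) fun b => φ (a * b)) +
          A ^ x / lam ^ p * (1 / (1 + e a) ^ p) := by
      refine hP.pr_mono fun a => ?_
      have h2 := ih (lam * (1 + e a)) (mul_pos hl (he a)) (fun b => φ (a * b)) (fun _ => h0 _)
        (fun _ => h1 _)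
      have e1 : A ^ x / (lam * (1 + e a)) ^ p = A ^ x / lam ^ p * (1 / (1 + e a) ^ p) := by
        rw [mul_pow, div_mul_div_comm, mul_one]
      rw [e1] at h2
      linarith
    rw [pr_fun_add, pr_fun_mul P (A ^ x / lam ^ p)] at key
    have h3 : A ^ x / lam ^ p * (pr P fun w => 1 / (1 + e w) ^ p) ≤ A ^ x / lam ^ p * A :=
      mul_le_mul_of_nonneg_left hA (by positivity)
    have e2 : A ^ x / lam ^ p * A = A ^ (x + 1) / lam ^ p := by ring
    linarith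

private theorem inv_pow_le {e : ℝ} {p : ℕ} (hp : 1 ≤ p) (h : |p * e| ≤ 1 / 8) :
    1 / (1 + e) ^ p ≤ 1 - p * e + 2 * (p * e) ^ 2 := by
  have hp' : (1 : ℝ) ≤ p := by exact_mod_cast hp
  obtain ⟨h1, h2⟩ := abs_le.1 h
  have he : -1 / 8 ≤ e := by
    by_contra hc
    push Not at hc
    nlinarith
  have hb : 1 + p * e ≤ (1 + e) ^ p := one_add_mul_le_pow (by linarith) p
  set u := p * e with hu
  have h3 : 0 < 1 + u := by linarith
  have h4 : 0 < (1 + e) ^ p := by linarith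
  have h5 : 0 ≤ 1 - u + 2 * u ^ 2 := by nlinarith
  rw [div_le_iff₀ h4]
  have h6 : 1 ≤ (1 - u + 2 * u ^ 2) * (1 + u) := by nlinarith [sq_nonneg u]
  exact h6.trans (mul_le_mul_of_nonneg_left hb h5)

private theorem clip_near {π η a b g : ℝ} (hπ : 0 ≤ π) (hη : 0 ≤ η) (ha : |a| ≤ η * π)
    (hb : π = 0 → b = 0) :
    |π * max (-η) (min η (b / π)) - g| ≤ |g - b| + |g - a| := by
  obtain ⟨a1, a2⟩ := abs_le.1 ha
  rcases eq_or_lt_of_le hπ with h0 | h0
  · rw [hb h0.symm, ← h0, zero_mul, zero_sub, abs_neg, sub_zero]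
    exact le_add_of_nonneg_right (abs_nonneg _)
  · have k1 := le_abs_self (g - b)
    have k2 := neg_abs_le (g - b)
    have k3 := le_abs_self (g - a)
    have k4 := neg_abs_le (g - a)
    have k5 := abs_nonneg (g - a)
    have k6 := abs_nonneg (g - b)
    rcases le_total η (b / π) with h1 | h1
    · rw [min_eq_left h1, max_eq_right (by linarith)]
      rw [le_div_iff₀ h0] at h1
      rw [abs_le]; constructor <;> nlinarith
    · rw [min_eq_right h1]
      rcases le_total (-η) (b / π) with h2 | h2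
      · rw [max_eq_right h2, mul_div_cancel₀ _ h0.ne', abs_sub_comm]
        linarith
      · rw [max_eq_left h2]
        rw [div_le_iff₀ h0] at h2
        rw [abs_le]; constructor <;> nlinarith

private theorem clip_sq {η y : ℝ} (hη : 0 ≤ η) : max (-η) (min η y) ^ 2 ≤ y ^ 2 := by
  rcases le_total η y with h1 | h1
  · rw [min_eq_left h1, max_eq_right (by linarith)]; nlinarith
  · rw [min_eq_right h1]
    rcases le_total (-η) y with h2 | h2
    · rw [max_eq_right h2]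
    · rw [max_eq_left h2]; nlinarith

private theorem clip_abs {η y : ℝ} (hη : 0 ≤ η) : |max (-η) (min η y)| ≤ η :=
  abs_le.2 ⟨le_max_left _ _, max_le (by linarith) (min_le_left _ _)⟩

private theorem dom_of_dual {P Q : Ms Γ} (hP : NN P) (hQ : NN Q) {c t : ℝ} (hc : 0 ≤ c)
    (h : ∀ φ : Γ → ℝ, (∀ w, 0 ≤ φ w) → (∀ w, φ w ≤ 1) → pr P φ - c * pr Q φ ≤ t) :
    Dom P Q c t := by
  classical
  refine ⟨mn P (c • Q), fun w => ?_, fun w => ?_, fun w => ?_, ?_⟩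
  · rw [c_mn, c_smul]
    exact le_min (hP w) (mul_nonneg hc (hQ w))
  · rw [c_mn]
    exact min_le_left _ _
  · rw [c_mn]
    exact min_le_right _ _
  · have e : P - mn P (c • Q) =
        pm (P - c • Q) fun w => if c * Q.coeff w ≤ P.coeff w then 1 else 0 := by
      refine ms_ext fun w => ?_
      rw [c_sub, c_mn, c_pm, c_sub, c_smul]
      split_ifs with hw
      · rw [min_eq_right hw, mul_one]
      · rw [min_eq_left (le_of_not_ge hw), sub_self, mul_zero]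
    have hnn : NN (P - mn P (c • Q)) := fun w => by
      rw [c_sub, c_mn]; exact sub_nonneg.2 (min_le_left _ _)
    rw [hnn.l1_eq, e, mass, pr_pm, pr_sub, pr_smul]
    refine h _ (fun w => ?_) (fun w => ?_) <;> split_ifs <;> norm_num

/-- Let `E₁` (`Linf`, `η`) and `E₂` (`L2`, `σ`) approximate `g = Q - P`.  Clip `E₂ w` to the interval
`[-η P w, η P w]` (which contains `E₁ w`): the result `E` has `|E| ≤ η P`, `|E| ≤ |E₂|`,
`l1 (E - g) ≤ 3 τ`, so `|mass E| ≤ 3 τ`.  Let `Q' = P + E ≥ (1 - η) P`.  For nonnegative measures with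
`supp P ⊆ supp Q'` put `A (P, Q') = pr P (fun w => (P w / Q' w) ^ p)`.  It is submultiplicative,
`A (P P₂, Q' Q'₂) ≤ A (P, Q') A (P₂, Q'₂)`, because
`(∑ a i) ^ (p+1) / (∑ b i) ^ p ≤ ∑ a i ^ (p+1) / b i ^ p` (Jensen/Hölder, cf.
`Finset.inner_le_nnorm_mul_nnorm`, `Real.inner_le_Lp_mul_Lq`, `div_add_div_same`, or the tangent line
inequality `u ^ (p+1) ≥ (p+1) u - p`).  For one factor, `(1 + e) ^ (-p) ≤ 1 - p e + 2 p² e²` when
`|p e| ≤ 1/8`, so `A (P, Q') ≤ 1 + 3 p τ + 2 p² σ²` and `A (P ^ x, Q' ^ x) ≤ e³ ≤ 21`.  By Markov the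
set where `P ^ x > 2 Q' ^ x` has `P ^ x`-mass at most `21 / 2 ^ p`.  Finally
`l1 (Q' ^ x - Q ^ x) ≤ 3 x τ (1 + 3 τ) ^ x ≤ 9 x τ`; take the minimum with `2 Q ^ x`. -/
theorem prod_dom {P Q : Ms Γ} (hP : Prob P) (hQ : Prob Q) {σ η τ : ℝ} (hσ : 0 ≤ σ) (hη : 0 ≤ η)
    (hτ : 0 ≤ τ) (h : N2 (Q - P) P σ τ) (h' : NI (Q - P) P η τ) {x p : ℕ} (hp : 1 ≤ p)
    (hpη : p * η ≤ 1 / 8) (hpσ : (p : ℝ) ^ 2 * x * σ ^ 2 ≤ 1) (hpτ : p * x * τ ≤ 1 / 3) :
    Dom (P ^ x) (Q ^ x) 2 (21 / 2 ^ p + 18 * x * τ) := by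
  obtain ⟨E₂, h1, h2⟩ := h
  obtain ⟨E₁, h3, h4⟩ := h'
  obtain ⟨h5, h6⟩ := h1.primal hσ hP.1
  have hp' : (1 : ℝ) ≤ p := by exact_mod_cast hp
  set e : Γ → ℝ := fun w => max (-η) (min η (E₂.coeff w / P.coeff w)) with he
  have hη' : η ≤ 1 / 8 := by nlinarith
  have he1 : ∀ w, |e w| ≤ η := fun w => clip_abs hη
  have he2 : ∀ w, 0 < 1 + e w := fun w => by
    have := (abs_le.1 (he1 w)).1
    linarith
  set Q' := pm P fun w => 1 + e w with hQ'
  have hnear : l1 (Q - Q') ≤ 2 * τ := by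
    have k1 : l1 (Q - Q') ≤ l1 (absM (Q - P - E₂) + absM (Q - P - E₁)) := by
      refine l1_le_of_abs_le fun w => ?_
      refine le_trans ?_ (le_abs_self _)
      rw [c_add, coeff_absM, coeff_absM, c_sub _ E₂, c_sub _ E₁, c_sub Q Q', hQ', c_pm,
        abs_sub_comm]
      have k2 := clip_near (g := (Q - P).coeff w) (hP.1 w) hη (h3 w) (h5 w)
      refine le_trans (le_of_eq ?_) k2
      rw [c_sub]
      congr 1
      simp only [he]
      ring
    have k3 : ∀ F : Ms Γ, l1 (absM F) = l1 F := fun F => by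
      rw [← mass_absM F]
      exact NN.l1_eq fun w => by rw [coeff_absM]; exact abs_nonneg _
    have k4 := l1_add_le (absM (Q - P - E₂)) (absM (Q - P - E₁))
    rw [k3, k3] at k4
    linarith
  have hmean : -(2 * τ) ≤ pr P e := by
    have k1 := abs_mass_le (Q - Q')
    have k2 : mass Q' = 1 + pr P e := by
      rw [hQ', mass, pr_pm]
      simp only [mul_one]
      rw [pr_fun_add]
      exact congrArg (· + pr P e) hP.2
    rw [mass_sub, k2, hQ.2] at k1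
    have k3 := le_abs_self (1 - (1 + pr P e))
    linarith
  have hsq : (pr P fun w => e w ^ 2) ≤ σ ^ 2 :=
    (hP.1.pr_mono fun w => clip_sq hη).trans h6
  have hA : (pr P fun w => 1 / (1 + e w) ^ p) ≤ 1 + (2 * p * τ + 2 * p ^ 2 * σ ^ 2) := by
    have k1 : (pr P fun w => 1 / (1 + e w) ^ p) ≤
        pr P fun w => 1 + ((-(p : ℝ)) * e w + (2 * (p : ℝ) ^ 2) * e w ^ 2) := by
      refine hP.1.pr_mono fun w => ?_
      have k2 : |p * e w| ≤ 1 / 8 := by
        rw [abs_mul, abs_of_nonneg (by linarith : (0 : ℝ) ≤ p)]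
        exact (mul_le_mul_of_nonneg_left (he1 w) (by linarith)).trans hpη
      refine (inv_pow_le hp k2).trans (le_of_eq ?_)
      ring
    rw [pr_fun_add, pr_fun_add, pr_fun_mul, pr_fun_mul] at k1
    have k3 : (pr P fun _ => 1) = 1 := hP.2
    have k4 : (2 * (p : ℝ) ^ 2) * (pr P fun w => e w ^ 2) ≤ (2 * (p : ℝ) ^ 2) * σ ^ 2 :=
      mul_le_mul_of_nonneg_left hsq (by positivity)
    have k5 : (p : ℝ) * (-(2 * τ)) ≤ p * pr P e := mul_le_mul_of_nonneg_left hmean (by linarith)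
    have k6 : (pr P fun w => e w) = pr P e := rfl
    rw [k3, k6] at k1
    linarith
  have hAx : (1 + (2 * p * τ + 2 * p ^ 2 * σ ^ 2)) ^ x ≤ 21 := by
    refine (one_add_pow_le_exp (by positivity) x).trans ?_
    have k1 : Real.exp (x * (2 * p * τ + 2 * p ^ 2 * σ ^ 2)) ≤ Real.exp ((3 : ℕ) * 1) :=
      Real.exp_le_exp.2 (by push_cast; nlinarith)
    rw [Real.exp_nat_mul 1 3] at k1
    have k2 := Real.exp_one_lt_d9
    have k3 : Real.exp 1 ^ 3 ≤ 2.7182818286 ^ 3 := pow_le_pow_left₀ (Real.exp_pos 1).le k2.le 3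
    have k4 : (2.7182818286 : ℝ) ^ 3 ≤ 21 := by norm_num
    linarith
  have hxτ : x * τ ≤ 1 / 3 := by
    have : (0 : ℝ) ≤ x * τ := by positivity
    nlinarith
  have hl1 : l1 (Q ^ x - Q' ^ x) ≤ 9 * x * τ := by
    have k1 := l1_pow_near hQ (by positivity) hnear x
    have k2 : Real.exp (x * (2 * τ)) ≤ Real.exp 1 := Real.exp_le_exp.2 (by linarith)
    have k3 := exp_one_le_three
    have k4 : (0 : ℝ) ≤ x * τ := by positivity
    nlinarith
  refine dom_of_dual (hP.1.pow x) (hQ.1.pow x) zero_le_two fun φ h0 h1 => ?_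
  have k1 := tail_dual hP.1 he2 p (by positivity) hA x 2 two_pos φ h0 h1
  have k2 : pr (Q' ^ x - Q ^ x) φ ≤ 9 * x * τ := by
    refine (pr_le_l1 _ fun w => ?_).trans (by rwa [l1_sub_comm])
    rw [abs_of_nonneg (h0 w)]; exact h1 w
  rw [pr_sub] at k2
  have k3 : (1 + (2 * p * τ + 2 * p ^ 2 * σ ^ 2)) ^ x / 2 ^ p ≤ (21 : ℝ) / 2 ^ p :=
    div_le_div_of_nonneg_right hAx (by positivity)
  rw [← hQ'] at k1
  linarith

/-- Transfer of the overlap property from `T` to a perturbation `T'` of `T ^ m`: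
`l1 (T' ^ G' - T' ^ (G'+1)) ≤ 1` by `prod_n2` (twice; `τ ≤ σ`) and the hypothesis `hsh`, then
`exists_min`. -/
theorem slip_transfer {T T' : Ms Γ} (hT : Prob T) (hT' : Prob T') {m G' : ℕ} {σ τ : ℝ}
    (hτ : 0 ≤ τ) (hτσ : τ ≤ σ) (h : N2 (T' - T ^ m) (T ^ m) σ τ)
    (hσ : 1024 * (G' + 1) * σ ^ 2 ≤ 1) (hτ' : 32 * (G' + 1) * τ ≤ 1)
    (hsh : l1 (T ^ (m * G' + m) - T ^ (m * G')) ≤ 1 / 2) : Slip T' G' (1 / 2) := by
  have hσ0 : 0 ≤ σ := hτ.trans hτσ
  have key : ∀ x : ℕ, x ≤ G' + 1 → l1 (T' ^ x - (T ^ m) ^ x) ≤ 1 / 4 := by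
    intro x hx
    have hx' : (x : ℝ) ≤ G' + 1 := by exact_mod_cast hx
    have hx0 : (0 : ℝ) ≤ x := Nat.cast_nonneg _
    have k1 : 1024 * x * σ ^ 2 ≤ 1 := le_trans (by nlinarith [sq_nonneg σ]) hσ
    have k2 : 32 * x * τ ≤ 1 := le_trans (by nlinarith) hτ'
    have k3 : (σ + τ) ^ 2 ≤ 4 * σ ^ 2 := by nlinarith
    have k4 : x * (σ + τ) ^ 2 ≤ 1 / 256 := by nlinarith
    have k5 := (prod_n2 (hT.pow m) hT' hσ0 hτ h (x := x) (by linarith) (by linarith)).1.l1_le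
      (by positivity) ((hT.pow m).pow x)
    have k6 : (σ + τ) * Real.sqrt x ≤ 1 / 16 := by
      refine abs_le_of_sq_le_sq' ?_ (by norm_num) |>.2
      rw [mul_pow, Real.sq_sqrt hx0]
      linarith
    linarith
  obtain ⟨V, h1, h2, h3, h4⟩ := exists_min (hT'.pow G') (hT'.pow (G' + 1))
  refine ⟨V, h1, h2, h3, ?_⟩
  have k1 := key G' (Nat.le_succ _)
  have k2 := key (G' + 1) le_rfl
  have k3 := l1_tri (T' ^ G') ((T ^ m) ^ G') (T' ^ (G' + 1))
  have k4 := l1_tri ((T ^ m) ^ G') ((T ^ m) ^ (G' + 1)) (T' ^ (G' + 1))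
  rw [l1_sub_comm] at k2 hsh
  rw [← pow_mul, ← pow_mul, mul_add, mul_one] at k4
  rw [← pow_mul] at k1 k3
  rw [← pow_mul, mul_add, mul_one] at k2
  linarith

end Crest.Agent.R300
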