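import Crest.Agent.R300.LGlob

/-!
# R300 lower bound: numerical lemmas for the step with the small gain
-/

set_option autoImplicit false

namespace Crest.Agent.R300.ScaleL

theorem mulP {Λ x y e f g : ℝ} (hΛ : 1 ≤ Λ) (hx : x ≤ Λ ^ e) (hy0 : 0 ≤ y) (hy : y ≤ Λ ^ f)
    (h : e + f ≤ g) : x * y ≤ Λ ^ g := by
  have h0 : 0 < Λ := by linarith
  calc x * y ≤ Λ ^ e * Λ ^ f := mul_le_mul hx hy hy0 (Real.rpow_pos_of_pos h0 e).le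
    _ = Λ ^ (e + f) := (Real.rpow_add h0 e f).symm
    _ ≤ Λ ^ g := Real.rpow_le_rpow_of_exponent_le hΛ h

theorem leP {Λ x e g : ℝ} (hΛ : 1 ≤ Λ) (hx : x ≤ Λ ^ e) (h : e ≤ g) : x ≤ Λ ^ g :=
  hx.trans (Real.rpow_le_rpow_of_exponent_le hΛ h)

theorem mul1 {Λ x y e f : ℝ} (hΛ : 1 ≤ Λ) (hx : x ≤ Λ ^ e) (hy0 : 0 ≤ y) (hy : y ≤ Λ ^ f)
    (h : e + f ≤ 0) : x * y ≤ 1 := by
  have := mulP hΛ hx hy0 hy h
  rwa [Real.rpow_zero] at this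

theorem oneP {Λ e : ℝ} (hΛ : 1 ≤ Λ) (h : 0 ≤ e) : 1 ≤ Λ ^ e := Real.one_le_rpow hΛ h

theorem Pone {Λ e : ℝ} (hΛ : 1 ≤ Λ) (h : e ≤ 0) : Λ ^ e ≤ 1 :=
  Real.rpow_le_one_of_one_le_of_nonpos hΛ h

theorem slackN_le {G : ℕ} {c a J A : ℝ} (hc : 0 < c) (hc1 : c ≤ 1) (hA1 : 1 ≤ A)
    (hA : a + 1 + J ≤ A) : slackN G c a J ≤ (G + 1) * (3 * A * c⁻¹) := by
  unfold slackN
  have hu : 1 ≤ c⁻¹ := one_le_inv_iff₀.2 ⟨hc, hc1⟩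
  have h1 : 1 ≤ A * c⁻¹ := one_le_mul_of_one_le_of_one_le hA1 hu
  have h2 : 2 * (a + 1 + J) / c ≤ 2 * A * c⁻¹ := by
    rw [div_eq_mul_inv]
    gcongr
  have hG : (0 : ℝ) ≤ G + 1 := by positivity
  apply mul_le_mul_of_nonneg_left _ hG
  linarith

theorem slackN_nonneg {G : ℕ} {c a J : ℝ} (hc : 0 < c) (ha : 0 ≤ a) (hJ : 0 ≤ J) :
    0 ≤ slackN G c a J := by
  unfold slackN
  positivity

theorem two_pow_le (M : ℕ) : (2 : ℝ) ^ M ≤ 1000 ^ M := by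
  gcongr; norm_num

theorem four_pow_le (M : ℕ) : (4 : ℝ) ^ M ≤ 1000 ^ M := by
  gcongr; norm_num

theorem self_le (M : ℕ) : (M : ℝ) ≤ 1000 ^ M := by
  have : M < 2 ^ M := Nat.lt_two_pow_self
  have h : (M : ℝ) ≤ 2 ^ M := by exact_mod_cast this.le
  exact h.trans (two_pow_le M)

theorem half_pow_le {J : ℝ} {p : ℕ} (hp : 2 * J ≤ p) : 1 / (2 : ℝ) ^ p ≤ Real.exp (-J) := by
  have h1 : Real.exp (1 / 2) ≤ 2 := by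
    have h := Real.exp_one_lt_d9
    have h2 : Real.exp (1 / 2) * Real.exp (1 / 2) = Real.exp 1 := by
      rw [← Real.exp_add]; norm_num
    have h3 := Real.exp_pos (1 / 2)
    nlinarith
  have h2 : Real.exp J ≤ 2 ^ p := by
    calc Real.exp J ≤ Real.exp (p * (1 / 2)) := Real.exp_le_exp.2 (by linarith)
      _ = Real.exp (1 / 2) ^ p := Real.exp_nat_mul _ _
      _ ≤ 2 ^ p := by gcongr
  rw [Real.exp_neg, one_div]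
  exact inv_anti₀ (Real.exp_pos J) h2

/-- The junk bound in a usable form. -/
theorem junk {Z J u K C a b c : ℝ} (hK : 10 ^ 40 * (Z * Z) * (J * J) * u ≤ K)
    (hC : C ≤ 10 ^ 40) (ha0 : 0 ≤ a) (ha : a ≤ Z * Z) (hb0 : 0 ≤ b) (hb : b ≤ J * J)
    (hc0 : 0 ≤ c) (hc : c ≤ u) : C * a * b * c ≤ K := by
  refine le_trans ?_ hK
  have := ha0.trans ha
  have := hb0.trans hb
  gcongr

theorem ceil_le_two {x : ℝ} (hx : 1 ≤ x) : (⌈x⌉₊ : ℝ) ≤ 2 * x := by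
  have := (Nat.ceil_lt_add_one (by linarith : (0 : ℝ) ≤ x)).le
  linarith

theorem rho_sq {Λ J : ℝ} (hΛ : 1 ≤ Λ) (hJ : 1 ≤ J) :
    ((⌈2 * Real.sqrt ((⌈Λ⌉₊ : ℝ) * J) + 1⌉₊ : ℕ) : ℝ) ^ 2 ≤ 32 * (Λ * J) := by
  have ha := ceil_le_two hΛ
  have h1 : 1 ≤ 2 * (Λ * J) := by nlinarith
  have h2 : Real.sqrt ((⌈Λ⌉₊ : ℝ) * J) ≤ Real.sqrt (2 * (Λ * J)) :=
    Real.sqrt_le_sqrt (by nlinarith)
  have h3 : 1 ≤ Real.sqrt (2 * (Λ * J)) := Real.one_le_sqrt.2 h1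
  have h4 : ((⌈2 * Real.sqrt ((⌈Λ⌉₊ : ℝ) * J) + 1⌉₊ : ℕ) : ℝ) ≤ 4 * Real.sqrt (2 * (Λ * J)) := by
    have := (Nat.ceil_lt_add_one
      (by positivity : (0 : ℝ) ≤ 2 * Real.sqrt ((⌈Λ⌉₊ : ℝ) * J) + 1)).le
    linarith
  have h5 : Real.sqrt (2 * (Λ * J)) ^ 2 = 2 * (Λ * J) := Real.sq_sqrt (by linarith)
  calc _ ≤ (4 * Real.sqrt (2 * (Λ * J))) ^ 2 := by gcongr
    _ = 32 * (Λ * J) := by rw [mul_pow, h5]; ring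

theorem gain_le {Λ a : ℝ} (hΛ : 1 ≤ Λ) (ha : Λ ≤ a) :
    (Real.sqrt (Real.sqrt (a + 1)))⁻¹ ≤ Λ ^ (-(1 / 4) : ℝ) := by
  have h0 : 0 < Λ := by linarith
  have h1 : Real.sqrt (Real.sqrt Λ) = Λ ^ ((1 / 4) : ℝ) := by
    rw [Real.sqrt_eq_rpow, Real.sqrt_eq_rpow, ← Real.rpow_mul h0.le]; norm_num
  rw [Real.rpow_neg h0.le, ← h1]
  apply inv_anti₀ (by positivity)
  exact Real.sqrt_le_sqrt (Real.sqrt_le_sqrt (by linarith))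

theorem sqrt_N₁ {Λ n : ℝ} (hΛ : 1 ≤ Λ) (hn : n ≤ 2 * Λ) :
    Real.sqrt (2 * n + 1) ≤ 3 * Λ ^ ((1 / 2) : ℝ) := by
  rw [← Real.sqrt_eq_rpow]
  have h : Real.sqrt (2 * n + 1) ≤ Real.sqrt (9 * Λ) := Real.sqrt_le_sqrt (by linarith)
  rw [Real.sqrt_mul (by norm_num), show (9 : ℝ) = 3 ^ 2 by norm_num,
    Real.sqrt_sq (by norm_num)] at h
  exact h

/-- The common core of the two norm estimates. -/
theorem core {Λ Z Q X Y σg a n e : ℝ} (hΛ : 1 ≤ Λ) (hZ : 1 ≤ Z) (hQ1 : 1 ≤ Q) (hQ : Q ≤ 5 * Z)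
    (hX0 : 0 ≤ X) (hX : X ≤ 2 * Λ ^ e) (hY0 : 0 ≤ Y) (hY : Y ≤ Λ ^ e)
    (hσg : σg ≤ Λ ^ (-1 : ℝ)) (ha : Λ ≤ a) (hn : n ≤ 2 * Λ) :
    4 * Real.sqrt Q * (X + Y) / Real.sqrt (Real.sqrt (a + 1)) +
      16 * σg * X * Real.sqrt (2 * n + 1) ≤ 156 * Z * Λ ^ (e - 1 / 4) := by
  have h0 : 0 < Λ := by linarith
  have hs : Real.sqrt Q ≤ 5 * Z := by
    refine le_trans ?_ hQ
    rw [Real.sqrt_le_iff]
    exact ⟨by linarith, by nlinarith⟩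
  have hg := gain_le hΛ ha
  have hn' := sqrt_N₁ hΛ hn
  have hPe := Real.rpow_pos_of_pos h0 e
  have hP1 := Real.rpow_pos_of_pos h0 (-1)
  have hP4 := Real.rpow_pos_of_pos h0 (e - 1 / 4)
  have h1 : 4 * Real.sqrt Q * (X + Y) / Real.sqrt (Real.sqrt (a + 1)) ≤
      60 * Z * Λ ^ (e - 1 / 4) := by
    rw [div_eq_mul_inv]
    calc 4 * Real.sqrt Q * (X + Y) * (Real.sqrt (Real.sqrt (a + 1)))⁻¹
        ≤ 4 * (5 * Z) * (3 * Λ ^ e) * Λ ^ (-(1 / 4) : ℝ) := by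
          gcongr
          linarith
      _ = 60 * Z * (Λ ^ e * Λ ^ (-(1 / 4) : ℝ)) := by ring
      _ = 60 * Z * Λ ^ (e - 1 / 4) := by rw [← Real.rpow_add h0]; rfl
  have h2 : 16 * σg * X * Real.sqrt (2 * n + 1) ≤ 96 * Λ ^ (e - 1 / 4) := by
    calc 16 * σg * X * Real.sqrt (2 * n + 1)
        ≤ 16 * Λ ^ (-1 : ℝ) * (2 * Λ ^ e) * (3 * Λ ^ ((1 / 2) : ℝ)) := by
          gcongr
      _ = 96 * (Λ ^ (-1 : ℝ) * Λ ^ e * Λ ^ ((1 / 2) : ℝ)) := by ring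
      _ = 96 * Λ ^ (-1 + e + 1 / 2) := by rw [← Real.rpow_add h0, ← Real.rpow_add h0]
      _ ≤ 96 * Λ ^ (e - 1 / 4) := by
          have := Real.rpow_le_rpow_of_exponent_le hΛ (show -1 + e + 1 / 2 ≤ e - 1 / 4 by linarith)
          linarith
  nlinarith

theorem theta_pow {Λ ε B κ : ℝ} {M : ℕ} (hΛ : 1 ≤ Λ) (hκ : 2 ≤ κ) (hB : 0 ≤ B)
    (hM : 100 * (B + 10) ≤ ε * M) (h4 : 4 ≤ Λ ^ (ε / 100)) :
    (4 * Λ ^ (-(κ * ε / 5))) ^ M ≤ Λ ^ (-(κ * (B + 10))) := by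
  have h0 : 0 < Λ := by linarith
  have h1 : 4 * Λ ^ (-(κ * ε / 5)) ≤ Λ ^ (ε / 100 + -(κ * ε / 5)) :=
    mulP hΛ h4 (Real.rpow_pos_of_pos h0 _).le le_rfl le_rfl
  have hP := Real.rpow_pos_of_pos h0 (-(κ * ε / 5))
  calc (4 * Λ ^ (-(κ * ε / 5))) ^ M ≤ (Λ ^ (ε / 100 + -(κ * ε / 5))) ^ M := by gcongr
    _ = Λ ^ ((ε / 100 + -(κ * ε / 5)) * M) := by
        rw [Real.rpow_mul h0.le, Real.rpow_natCast]
    _ ≤ Λ ^ (-(κ * (B + 10))) := by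
        apply Real.rpow_le_rpow_of_exponent_le hΛ
        have h2 : (ε / 100 + -(κ * ε / 5)) * M = -((κ / 5 - 1 / 100) * (ε * M)) := by ring
        have h3 : (κ / 5 - 1 / 100) * (100 * (B + 10)) ≤ (κ / 5 - 1 / 100) * (ε * M) :=
          mul_le_mul_of_nonneg_left hM (by linarith)
        rw [h2]
        nlinarith

theorem tau_final {τ' : ℝ} (h0 : 0 ≤ τ') (h1 : τ' ≤ 1) :
    τ' ^ 2 / 4 + Real.sqrt (2 * (τ' ^ 2 / 4)) ≤ τ' := by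
  have h : Real.sqrt (2 * (τ' ^ 2 / 4)) ≤ 3 / 4 * τ' := by
    rw [Real.sqrt_le_iff]
    exact ⟨by positivity, by nlinarith⟩
  nlinarith

theorem sqrt_err {τ τ' x y : ℝ} (hx : x ≤ τ) (hy : y ≤ τ) (hτ : τ ≤ τ' ^ 8) :
    Real.sqrt (τ + x + y) ≤ 2 * τ' ^ 4 := by
  rw [Real.sqrt_le_iff]
  refine ⟨by positivity, ?_⟩
  have : 0 ≤ τ' ^ 8 := by positivity
  nlinarith

section Fields

variable {Λ ε κ Z J c : ℝ}

theorem fMN {θ : ℝ} {M G : ℕ} (hΛ : 1 ≤ Λ) (hε : 0 < ε) (hκ : 2 ≤ κ) (hZ1 : 1 ≤ Z)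
    (hMZ : (M : ℝ) ≤ Z) (h4 : (4 : ℝ) ^ M ≤ Z) (hJ : 1 ≤ J) (hc : 0 < c) (hc1 : c ≤ 1)
    (hK : 10 ^ 40 * (Z * Z) * (J * J) * c⁻¹ ≤ Λ ^ (ε / 100)) (hθ : θ = Λ ^ (-(κ * ε / 5)))
    (hG : (G : ℝ) + 1 ≤ Λ ^ (κ * (1 + ε / 4))) :
    (M : ℝ) * ⌈slackN G c (40000 * J * 4 ^ M / θ ^ 2) J⌉₊ ≤ Λ ^ (κ * (1 + 3 * ε / 4)) := by
  have h0 : 0 < Λ := by linarith
  have hu : 1 ≤ c⁻¹ := one_le_inv_iff₀.2 ⟨hc, hc1⟩
  obtain ⟨T, hT⟩ : ∃ T, T = Λ ^ (2 * (κ * ε / 5)) := ⟨_, rfl⟩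
  have hT1 : 1 ≤ T := by rw [hT]; exact oneP hΛ (by positivity)
  have hθT : (θ ^ 2)⁻¹ = T := by
    rw [hθ, hT, ← Real.rpow_natCast, ← Real.rpow_mul h0.le, ← Real.rpow_neg h0.le]
    congr 1; push_cast; ring
  have hJZ : 1 ≤ J * Z := one_le_mul_of_one_le_of_one_le hJ hZ1
  have hJZT : 1 ≤ J * Z * T := one_le_mul_of_one_le_of_one_le hJZ hT1
  have hJ' : J ≤ J * Z * T := by
    have : 1 ≤ Z * T := one_le_mul_of_one_le_of_one_le hZ1 hT1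
    nlinarith
  have hA : 40000 * J * 4 ^ M / θ ^ 2 + 1 + J ≤ 40002 * (J * Z * T) := by
    have : 40000 * J * 4 ^ M / θ ^ 2 ≤ 40000 * (J * Z * T) := by
      rw [div_eq_mul_inv, hθT]
      calc 40000 * J * 4 ^ M * T ≤ 40000 * J * Z * T := by gcongr
        _ = _ := by ring
    linarith
  have h1 := slackN_le (G := G) hc hc1 (by linarith) hA
  have h2 : (0 : ℝ) ≤ slackN G c (40000 * J * 4 ^ M / θ ^ 2) J :=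
    slackN_nonneg hc (by positivity) (by linarith)
  have h3 := (Nat.ceil_lt_add_one h2).le
  have h5 : 1 ≤ ((G : ℝ) + 1) * (3 * (40002 * (J * Z * T)) * c⁻¹) := by
    apply one_le_mul_of_one_le_of_one_le
    · have : (0 : ℝ) ≤ G := by positivity
      linarith
    · exact one_le_mul_of_one_le_of_one_le (by linarith) hu
  have h6 : (240012 : ℝ) * (Z * Z) * J * c⁻¹ ≤ Λ ^ (ε / 100) :=
    junk hK (by norm_num) (by positivity) le_rfl (by linarith) (by nlinarith) (by linarith) le_rfl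
  have h7 : ((G : ℝ) + 1) * T ≤ Λ ^ (κ * (1 + ε / 4) + 2 * (κ * ε / 5)) :=
    mulP hΛ hG (by linarith) hT.le le_rfl
  calc (M : ℝ) * ⌈slackN G c (40000 * J * 4 ^ M / θ ^ 2) J⌉₊
      ≤ Z * (2 * (((G : ℝ) + 1) * (3 * (40002 * (J * Z * T)) * c⁻¹))) := by
        gcongr
        linarith
    _ = (240012 * (Z * Z) * J * c⁻¹) * (((G : ℝ) + 1) * T) := by ring
    _ ≤ _ := mulP hΛ h6 (by positivity) h7 (by nlinarith)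

theorem fL {a : ℝ} {GB : ℕ} (hΛ : 1 ≤ Λ) (hε : 0 < ε) (hZ1 : 1 ≤ Z)
    (hJ : 1 ≤ J) (hc : 0 < c) (hc1 : c ≤ 1)
    (hK : 10 ^ 40 * (Z * Z) * (J * J) * c⁻¹ ≤ Λ ^ (ε / 100))
    (hG : (GB : ℝ) + 1 ≤ Λ ^ (1 + ε / 4)) (ha : a ≤ 2 * Λ) :
    slackN GB c a J ≤ Λ ^ (2 + 3 * ε / 4) := by
  have hu : 1 ≤ c⁻¹ := one_le_inv_iff₀.2 ⟨hc, hc1⟩
  have hJΛ : 1 ≤ J * Λ := one_le_mul_of_one_le_of_one_le hJ hΛ
  have hA : a + 1 + J ≤ 4 * (J * Λ) := by nlinarith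
  have h1 := slackN_le (G := GB) hc hc1 (by linarith) hA
  have h6 : (12 : ℝ) * 1 * J * c⁻¹ ≤ Λ ^ (ε / 100) :=
    junk hK (by norm_num) (by positivity) (by nlinarith) (by linarith) (by nlinarith)
      (by linarith) le_rfl
  have h7 : ((GB : ℝ) + 1) * Λ ≤ Λ ^ (1 + ε / 4 + 1) :=
    mulP hΛ hG (by linarith) (Real.rpow_one Λ).ge le_rfl
  calc slackN GB c a J ≤ _ := h1
    _ = (12 * 1 * J * c⁻¹) * (((GB : ℝ) + 1) * Λ) := by ring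
    _ ≤ _ := mulP hΛ h6 (by positivity) h7 (by linarith)

theorem fR {ρ : ℝ} {GB : ℕ} (hΛ : 1 ≤ Λ) (hε : 0 < ε) (hZ1 : 1 ≤ Z)
    (hJ : 1 ≤ J) (hc : 0 < c) (hc1 : c ≤ 1)
    (hK : 10 ^ 40 * (Z * Z) * (J * J) * c⁻¹ ≤ Λ ^ (ε / 100))
    (hG : (GB : ℝ) + 1 ≤ Λ ^ (1 + ε / 4)) (hρ1 : 1 ≤ ρ) (hρ : ρ ^ 2 ≤ 32 * (Λ * J)) :
    2 * (slackN GB c (160000 * J * ρ ^ 2) J + ρ) ≤ Λ ^ (2 + 3 * ε / 4) := by
  have hu : 1 ≤ c⁻¹ := one_le_inv_iff₀.2 ⟨hc, hc1⟩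
  have hJΛ : 1 ≤ Λ * J := one_le_mul_of_one_le_of_one_le hΛ hJ
  have hJJ : Λ * J ≤ J * (Λ * J) := by nlinarith
  have hJ2 : J ≤ Λ * J := by nlinarith
  have hA : 160000 * J * ρ ^ 2 + 1 + J ≤ 5120002 * (J * (Λ * J)) := by
    have : 160000 * J * ρ ^ 2 ≤ 160000 * J * (32 * (Λ * J)) := by gcongr
    linarith
  have h1 := slackN_le (G := GB) hc hc1 (by linarith) hA
  have h2 : ρ ≤ ((GB : ℝ) + 1) * (3 * (5120002 * (J * (Λ * J))) * c⁻¹) := by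
    have h3 : ρ ≤ 32 * (J * (Λ * J)) := by nlinarith
    have h4 : (0 : ℝ) ≤ GB := by positivity
    calc ρ ≤ 1 * (3 * (5120002 * (J * (Λ * J))) * 1) := by linarith
      _ ≤ _ := by gcongr; linarith
  have h6 : (61440024 : ℝ) * 1 * (J * J) * c⁻¹ ≤ Λ ^ (ε / 100) :=
    junk hK (by norm_num) (by positivity) (by nlinarith) (by positivity) le_rfl
      (by linarith) le_rfl
  have h7 : ((GB : ℝ) + 1) * Λ ≤ Λ ^ (1 + ε / 4 + 1) :=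
    mulP hΛ hG (by linarith) (Real.rpow_one Λ).ge le_rfl
  calc 2 * (slackN GB c (160000 * J * ρ ^ 2) J + ρ)
      ≤ 2 * (2 * (((GB : ℝ) + 1) * (3 * (5120002 * (J * (Λ * J))) * c⁻¹))) := by linarith
    _ = (61440024 * 1 * (J * J) * c⁻¹) * (((GB : ℝ) + 1) * Λ) := by ring
    _ ≤ _ := mulP hΛ h6 (by positivity) h7 (by linarith)

theorem fG' {m' : ℝ} (hΛ : 1 ≤ Λ) (hε : 0 < ε) (hκ : κ = 2 + ε) (hZ1 : 1 ≤ Z)
    (hJ : 1 ≤ J) (hc : 0 < c) (hc1 : c ≤ 1)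
    (hK : 10 ^ 40 * (Z * Z) * (J * J) * c⁻¹ ≤ Λ ^ (ε / 100)) (hm1 : 1 ≤ m')
    (hm : m' ≤ 5 * Z * Λ ^ (κ * (1 + 3 * ε / 4))) :
    1024 * ((⌈Λ ^ (κ * (1 + ε / 4)) * (2000000 * J * m' * c⁻¹)⌉₊ : ℝ) + 1) ≤
      Λ ^ (κ * κ + ε / 100) := by
  have h0 : 0 < Λ := by linarith
  have hu : 1 ≤ c⁻¹ := one_le_inv_iff₀.2 ⟨hc, hc1⟩
  have hP : 1 ≤ Λ ^ (κ * (1 + ε / 4)) := oneP hΛ (by rw [hκ]; positivity)
  have h1 : 1 ≤ Λ ^ (κ * (1 + ε / 4)) * (2000000 * J * m' * c⁻¹) := by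
    apply one_le_mul_of_one_le_of_one_le hP
    apply one_le_mul_of_one_le_of_one_le _ hu
    exact one_le_mul_of_one_le_of_one_le (by linarith) hm1
  have h2 := ceil_le_two h1
  have h6 : (30720000000 : ℝ) * Z * J * c⁻¹ ≤ Λ ^ (ε / 100) :=
    junk hK (by norm_num) (by positivity) (by nlinarith) (by linarith) (by nlinarith)
      (by linarith) le_rfl
  have h7 : Λ ^ (κ * (1 + ε / 4)) * Λ ^ (κ * (1 + 3 * ε / 4)) ≤ Λ ^ (κ * κ) :=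
    mulP hΛ le_rfl (by positivity) le_rfl (by rw [hκ]; nlinarith)
  calc 1024 * ((⌈Λ ^ (κ * (1 + ε / 4)) * (2000000 * J * m' * c⁻¹)⌉₊ : ℝ) + 1)
      ≤ 1024 * (3 * (Λ ^ (κ * (1 + ε / 4)) * (2000000 * J * m' * c⁻¹))) := by linarith
    _ ≤ 1024 * (3 * (Λ ^ (κ * (1 + ε / 4)) *
          (2000000 * J * (5 * Z * Λ ^ (κ * (1 + 3 * ε / 4))) * c⁻¹))) := by gcongr
    _ = (30720000000 * Z * J * c⁻¹) *
          (Λ ^ (κ * (1 + ε / 4)) * Λ ^ (κ * (1 + 3 * ε / 4))) := by ring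
    _ ≤ _ := mulP hΛ h6 (by positivity) h7 (by linarith)

theorem fslip {m' P : ℝ} {G : ℕ} (hJ : 1 ≤ J) (hc : 0 < c) (hc1 : c ≤ 1) (hm1 : 1 ≤ m')
    (hG : (G : ℝ) + 1 ≤ P) :
    slackN G c (640000 * J * m' ^ 2) J ≤ m' * ⌈P * (2000000 * J * m' * c⁻¹)⌉₊ := by
  have hm2 : 1 ≤ m' ^ 2 := one_le_pow₀ hm1
  have h1 : J ≤ J * m' ^ 2 := by nlinarith
  have hA : 640000 * J * m' ^ 2 + 1 + J ≤ 640002 * (J * m' ^ 2) := by nlinarith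
  have h2 := slackN_le (G := G) hc hc1 (by linarith) hA
  have h3 := Nat.le_ceil (P * (2000000 * J * m' * c⁻¹))
  have hP : 0 ≤ P := le_trans (by positivity) hG
  have hu : 0 < c⁻¹ := inv_pos.2 hc
  calc slackN G c (640000 * J * m' ^ 2) J ≤ _ := h2
    _ ≤ P * (3 * (640002 * (J * m' ^ 2)) * c⁻¹) := by gcongr
    _ = 1920006 * (P * J * m' ^ 2 * c⁻¹) := by ring
    _ ≤ 2000000 * (P * J * m' ^ 2 * c⁻¹) := by gcongr; norm_num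
    _ = m' * (P * (2000000 * J * m' * c⁻¹)) := by ring
    _ ≤ _ := by gcongr

end Fields

end Crest.Agent.R300.ScaleL
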