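import Crest.Agent.R300.LGlob

/-!
# R300 lower bound: numerical helper lemmas for the parameter bookkeeping
-/

set_option autoImplicit false

namespace Crest.Agent.R300.ScO

theorem slackN_le {G : ℕ} {c a J R : ℝ} (hG : (G : ℝ) + 1 ≤ R) (hc : 0 < c) (hc1 : c ≤ 1)
    (hJ : 1 ≤ J) (ha : J ≤ a) : slackN G c a J ≤ R * (7 * a / c) := by
  unfold slackN
  have h1 : 2 * (a + 1 + J) / c + 1 ≤ 7 * a / c := by
    have h2 : (1 : ℝ) ≤ 1 / c := by rw [le_div_iff₀ hc]; linarith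
    have h3 : 2 * (a + 1 + J) / c + 1 / c ≤ 7 * a / c := by
      rw [← add_div]
      exact div_le_div_of_nonneg_right (by linarith) hc.le
    linarith
  have h0 : 0 ≤ 2 * (a + 1 + J) / c + 1 := by
    have : 0 ≤ a + 1 + J := by linarith
    positivity
  have hG0 : (0 : ℝ) ≤ (G : ℝ) + 1 := by positivity
  exact mul_le_mul hG h1 h0 (hG0.trans hG)

theorem slackN_mono {G : ℕ} {c a a' J : ℝ} (hc : 0 < c) (ha : a ≤ a') :
    slackN G c a J ≤ slackN G c a' J := by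
  unfold slackN
  have hG0 : (0 : ℝ) ≤ (G : ℝ) + 1 := by positivity
  refine mul_le_mul_of_nonneg_left ?_ hG0
  have : 2 * (a + 1 + J) / c ≤ 2 * (a' + 1 + J) / c :=
    div_le_div_of_nonneg_right (by linarith) hc.le
  linarith

theorem one_le_slackN {G : ℕ} {c a J : ℝ} (hc : 0 < c) (ha : 0 ≤ a) (hJ : 0 ≤ J) :
    1 ≤ slackN G c a J := by
  unfold slackN
  have hG0 : (1 : ℝ) ≤ (G : ℝ) + 1 := by
    have : (0 : ℝ) ≤ G := Nat.cast_nonneg G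
    linarith
  have h0 : 0 ≤ 2 * (a + 1 + J) / c := by positivity
  nlinarith

theorem inv_two_pow_le_exp {J : ℝ} {p : ℕ} (hp : 2 * J ≤ p) :
    1 / (2 : ℝ) ^ p ≤ Real.exp (-J) := by
  have h1 : (1 / 2 : ℝ) ≤ Real.exp (-(1 / 2)) := by
    have := Real.add_one_le_exp (-(1 / 2 : ℝ))
    linarith
  have h2 : (1 / 2 : ℝ) ^ p ≤ Real.exp (-(1 / 2)) ^ p := pow_le_pow_left₀ (by norm_num) h1 p
  rw [← Real.exp_nat_mul, one_div_pow] at h2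
  exact h2.trans (Real.exp_le_exp.2 (by linarith))

/-- The error term of one stage. -/
theorem sqrt_err_le {J τ τ' : ℝ} {p : ℕ} (hp : 2 * J ≤ p) (hτ : Real.exp (-J) ≤ τ)
    (hτ' : τ ≤ τ' ^ 8) : Real.sqrt (τ + Real.exp (-J) + 1 / 2 ^ p) ≤ 2 * τ' ^ 4 := by
  have h1 := inv_two_pow_le_exp hp
  have h2 : 0 ≤ τ' ^ 8 := by positivity
  refine Real.sqrt_le_iff.2 ⟨by positivity, ?_⟩
  have : (2 * τ' ^ 4) ^ 2 = 4 * τ' ^ 8 := by ring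
  rw [this]
  linarith

variable {ε J η c₀ Λ₀ B Λ : ℝ} {M p : ℕ}

theorem one_le_Λ (hG : Glob ε M J p η c₀ Λ₀ B) (hΛ : Λ₀ ≤ Λ) : 1 ≤ Λ := hG.hΛ₀.trans hΛ

/-- Every junk factor is at most `Λ ^ (ε / 100)`. -/
theorem junk_div (hG : Glob ε M J p η c₀ Λ₀ B) (hΛ : Λ₀ ≤ Λ) {A : ℝ} (hA : A ≤ 10 ^ 40) {i j : ℕ}
    (hi : i ≤ 2) (hj : j ≤ 4) : A * (1000 ^ M) ^ i * J ^ j / c₀ ≤ Λ ^ (ε / 100) := by
  have h1 : Λ₀ ^ (ε / 100) ≤ Λ ^ (ε / 100) :=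
    Real.rpow_le_rpow (by linarith [hG.hΛ₀]) hΛ (by linarith [hG.hε])
  refine le_trans ?_ (hG.junk.trans h1)
  refine div_le_div_of_nonneg_right ?_ hG.hc₀.le
  have hZ : (1 : ℝ) ≤ 1000 ^ M := one_le_pow₀ (by norm_num)
  have hJ : (1 : ℝ) ≤ J := by linarith [hG.hJ]
  have h2 : ((1000 : ℝ) ^ M) ^ i ≤ 1000 ^ (2 * M) := by
    rw [mul_comm 2 M, pow_mul]
    exact pow_le_pow_right₀ hZ hi
  have h3 : J ^ j ≤ J ^ 4 := pow_le_pow_right₀ hJ hj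
  have h4 : (0 : ℝ) ≤ ((1000 : ℝ) ^ M) ^ i := by positivity
  have h5 : (0 : ℝ) ≤ J ^ j := by positivity
  calc A * (1000 ^ M) ^ i * J ^ j ≤ 10 ^ 40 * (1000 ^ M) ^ i * J ^ j := by gcongr
    _ ≤ 10 ^ 40 * 1000 ^ (2 * M) * J ^ 4 := by gcongr

theorem junk_mul (hG : Glob ε M J p η c₀ Λ₀ B) (hΛ : Λ₀ ≤ Λ) {A : ℝ} (hA0 : 0 ≤ A)
    (hA : A ≤ 10 ^ 40) {i j : ℕ} (hi : i ≤ 2) (hj : j ≤ 4) :
    A * (1000 ^ M) ^ i * J ^ j ≤ Λ ^ (ε / 100) := by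
  refine le_trans ?_ (junk_div hG hΛ hA hi hj)
  have hJ : (0 : ℝ) ≤ J := by linarith [hG.hJ]
  have h0 : 0 ≤ A * (1000 ^ M) ^ i * J ^ j := by positivity
  rw [le_div_iff₀ hG.hc₀]
  have := hG.hc₀'
  nlinarith

theorem big_le_K (hG : Glob ε M J p η c₀ Λ₀ B) (hΛ : Λ₀ ≤ Λ) : 10 ^ 40 ≤ Λ ^ (ε / 100) := by
  have := junk_mul hG hΛ (A := 10 ^ 40) (by norm_num) le_rfl (i := 0) (j := 0) (by norm_num)
    (by norm_num)
  simpa using this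

theorem rpow_eq_K_pow (hΛ : 0 ≤ Λ) (n : ℕ) {x : ℝ} (hx : x = n * (ε / 100)) :
    Λ ^ x = (Λ ^ (ε / 100)) ^ n := by
  rw [hx, mul_comm, Real.rpow_mul hΛ, Real.rpow_natCast]

theorem rpow_eq_mul_K_pow (hΛ : 0 < Λ) (k n : ℕ) {x : ℝ} (hx : x = k + n * (ε / 100)) :
    Λ ^ x = Λ ^ k * (Λ ^ (ε / 100)) ^ n := by
  rw [hx, Real.rpow_add hΛ, Real.rpow_natCast, rpow_eq_K_pow hΛ.le n rfl]

/-- Powers of the junk bound are at most any fixed positive power of `Λ`. -/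
theorem K_pow_le_rpow (hG : Glob ε M J p η c₀ Λ₀ B) (hΛ : Λ₀ ≤ Λ) (n : ℕ) {x : ℝ}
    (hx : (n : ℝ) / 30000 ≤ x) : (Λ ^ (ε / 100)) ^ n ≤ Λ ^ x := by
  have h1 := one_le_Λ hG hΛ
  rw [← rpow_eq_K_pow (by linarith) n rfl]
  refine Real.rpow_le_rpow_of_exponent_le h1 (le_trans ?_ hx)
  have h2 := hG.hε1
  have h3 : (0 : ℝ) ≤ n := Nat.cast_nonneg n
  nlinarith

theorem K_pow_le (hG : Glob ε M J p η c₀ Λ₀ B) (hΛ : Λ₀ ≤ Λ) {n : ℕ} (hn : n ≤ 30000) :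
    (Λ ^ (ε / 100)) ^ n ≤ Λ := by
  have h := K_pow_le_rpow hG hΛ n (x := 1) (by
    have : (n : ℝ) ≤ 30000 := by exact_mod_cast hn
    linarith)
  rwa [Real.rpow_one] at h

theorem two_le_M (hG : Glob ε M J p η c₀ Λ₀ B) : 2 ≤ M := by
  have h1 := hG.hM
  have h2 := hG.hε1
  have h3 := hG.hB
  have h4 : (0 : ℝ) ≤ M := Nat.cast_nonneg M
  have h5 : (2 : ℝ) ≤ M := by nlinarith
  exact_mod_cast h5

theorem two_le_p (hG : Glob ε M J p η c₀ Λ₀ B) : 2 ≤ p := by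
  have h1 := hG.hp
  have h2 := hG.hJ
  have h5 : (2 : ℝ) ≤ p := by linarith
  exact_mod_cast h5

theorem η_pos (hG : Glob ε M J p η c₀ Λ₀ B) : 0 < η := by
  rw [hG.hη]
  exact Real.rpow_pos_of_pos (by linarith [hG.hΛ₀]) _

theorem Zη_le (hG : Glob ε M J p η c₀ Λ₀ B) {A : ℝ} (hA0 : 0 ≤ A) (hA : A ≤ 10 ^ 40) {i j : ℕ}
    (hi : i ≤ 2) (hj : j ≤ 4) : A * (1000 ^ M) ^ i * J ^ j * η ≤ 1 := by
  have h0 : 0 < Λ₀ := by linarith [hG.hΛ₀]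
  have h1 := junk_mul hG le_rfl hA0 hA hi hj
  have h2 := K_pow_le_rpow hG le_rfl 1 (x := 1 / 10) (by norm_num)
  rw [pow_one] at h2
  have h3 : Λ₀ ^ (1 / 10 : ℝ) * η = 1 := by
    rw [hG.hη, ← Real.rpow_add h0]
    norm_num
  have h4 := η_pos hG
  calc A * (1000 ^ M) ^ i * J ^ j * η ≤ Λ₀ ^ (1 / 10 : ℝ) * η :=
        mul_le_mul_of_nonneg_right (h1.trans h2) h4.le
    _ = 1 := h3

theorem M_mul_four_pow_le (M : ℕ) : (M : ℝ) * 4 ^ M ≤ 1000 ^ M := by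
  have h1 : (M : ℝ) ≤ 2 ^ M := by exact_mod_cast (Nat.lt_two_pow_self (n := M)).le
  calc (M : ℝ) * 4 ^ M ≤ 2 ^ M * 4 ^ M := by gcongr
    _ = 8 ^ M := by rw [← mul_pow]; norm_num
    _ ≤ 1000 ^ M := pow_le_pow_left₀ (by norm_num) (by norm_num) M

theorem two_pow_le_Z (M : ℕ) : (2 : ℝ) ^ M ≤ 1000 ^ M :=
  pow_le_pow_left₀ (by norm_num) (by norm_num) M

/-- The iterated commutators are negligible. -/
theorem theta_pow_le (hG : Glob ε M J p η c₀ Λ₀ B) (hΛ : Λ₀ ≤ Λ) :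
    (4 * (1 / (Λ ^ (ε / 100)) ^ 20)) ^ M ≤ (Λ ^ (2 + ε)) ^ (-(B + 10)) := by
  have h1 := one_le_Λ hG hΛ
  have h0 : 0 < Λ := by linarith
  have hK := big_le_K hG hΛ
  have hK0 : 0 < Λ ^ (ε / 100) := Real.rpow_pos_of_pos h0 _
  have h2 : 4 * (1 / (Λ ^ (ε / 100)) ^ 20) ≤ 1 / (Λ ^ (ε / 100)) ^ 19 := by
    rw [mul_one_div, div_le_div_iff₀ (by positivity) (by positivity), one_mul,
      pow_succ (Λ ^ (ε / 100)) 19, mul_comm]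
    exact mul_le_mul_of_nonneg_left (by linarith) (by positivity)
  refine (pow_le_pow_left₀ (by positivity) h2 M).trans ?_
  rw [one_div_pow, ← pow_mul, ← rpow_eq_K_pow h0.le (19 * M) rfl, ← Real.rpow_mul h0.le, one_div,
    ← Real.rpow_neg h0.le]
  refine Real.rpow_le_rpow_of_exponent_le h1 ?_
  have h3 := hG.hM
  have h4 := hG.hε1
  have h5 := hG.hB
  push_cast
  nlinarith

theorem theta_le (hG : Glob ε M J p η c₀ Λ₀ B) (hΛ : Λ₀ ≤ Λ) :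
    1 / (Λ ^ (ε / 100)) ^ 20 ≤ 1 / 4 := by
  have hK := big_le_K hG hΛ
  refine one_div_le_one_div_of_le (by norm_num) ?_
  have h2 := pow_le_pow_right₀ (by linarith : 1 ≤ Λ ^ (ε / 100)) (by norm_num : 1 ≤ 20)
  rw [pow_one] at h2
  linarith

theorem Z_le_K (hG : Glob ε M J p η c₀ Λ₀ B) (hΛ : Λ₀ ≤ Λ) : (1000 : ℝ) ^ M ≤ Λ ^ (ε / 100) := by
  simpa using junk_mul hG hΛ (A := 1) (i := 1) (j := 0) (by norm_num) (by norm_num) (by norm_num)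
    (by norm_num)

theorem K_le (hG : Glob ε M J p η c₀ Λ₀ B) (hΛ : Λ₀ ≤ Λ) : Λ ^ (ε / 100) ≤ Λ := by
  simpa using K_pow_le hG hΛ (n := 1) (by norm_num)

theorem Z_mul_rpow_le (hG : Glob ε M J p η c₀ Λ₀ B) (hΛ : Λ₀ ≤ Λ) {e : ℝ} (he : 1 ≤ e) :
    1000 ^ M * Λ ^ (-(e / 2)) ≤ 1 := by
  have h1 := one_le_Λ hG hΛ
  have h0 : 0 < Λ := by linarith
  have hKhalf := K_pow_le_rpow hG hΛ 1 (x := 1 / 2) (by norm_num)
  rw [pow_one] at hKhalf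
  calc 1000 ^ M * Λ ^ (-(e / 2)) ≤ Λ ^ (1 / 2 : ℝ) * Λ ^ (-(e / 2)) :=
        mul_le_mul_of_nonneg_right ((Z_le_K hG hΛ).trans hKhalf) (by positivity)
    _ = Λ ^ (1 / 2 + -(e / 2)) := (Real.rpow_add h0 _ _).symm
    _ ≤ 1 := Real.rpow_le_one_of_one_le_of_nonpos h1 (by linarith)

theorem three_p_le (hG : Glob ε M J p η c₀ Λ₀ B) (hΛ : Λ₀ ≤ Λ) : 3 * (p : ℝ) ≤ Λ ^ (ε / 100) := by
  have h2 := junk_mul hG hΛ (A := 9) (i := 0) (j := 1) (by norm_num) (by norm_num) (by norm_num)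
    (by norm_num)
  rw [pow_zero, pow_one, mul_one] at h2
  linarith [hG.hp']

theorem p_sq_le (hG : Glob ε M J p η c₀ Λ₀ B) (hΛ : Λ₀ ≤ Λ) : (p : ℝ) ^ 2 ≤ Λ ^ (ε / 100) := by
  have h2 := junk_mul hG hΛ (A := 9) (i := 0) (j := 2) (by norm_num) (by norm_num) (by norm_num)
    (by norm_num)
  rw [pow_zero, mul_one] at h2
  have h3 : (p : ℝ) ^ 2 ≤ (3 * J) ^ 2 := pow_le_pow_left₀ (Nat.cast_nonneg p) hG.hp' 2
  linarith

theorem six_Zη_le (hG : Glob ε M J p η c₀ Λ₀ B) : 6 * 1000 ^ M * η ≤ 1 := by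
  have h2 := Zη_le hG (A := 6) (by norm_num) (by norm_num) (i := 1) (j := 0) (by norm_num)
    (by norm_num)
  rwa [pow_one, pow_zero, mul_one] at h2

theorem η_le_one (hG : Glob ε M J p η c₀ Λ₀ B) : η ≤ 1 := by
  simpa using Zη_le hG (A := 1) (by norm_num) (by norm_num) (i := 0) (j := 0) (by norm_num)
    (by norm_num)

/-- The field `hη'` of `StepNum` with `η' = η`. -/
theorem η_step (hG : Glob ε M J p η c₀ Λ₀ B) {δ : ℝ} (hδ : δ * 4 ≤ 1) :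
    2 * (1000 ^ M * η ^ 2 + δ * η) ≤ η := by
  have h0 := η_pos hG
  have h3 := mul_le_mul_of_nonneg_right (six_Zη_le hG) h0.le
  have h4 := mul_le_mul_of_nonneg_right hδ h0.le
  nlinarith

/-- The number of copies of the background on each side. -/
theorem exists_N (hG : Glob ε M J p η c₀ Λ₀ B) (hΛ : Λ₀ ≤ Λ) :
    ∃ N : ℕ, Λ ^ (1 + 3 * ε / 4) ≤ N ∧ (2 * N + 2 ^ M : ℝ) ≤ 4 * Λ ^ (1 + 3 * ε / 4) ∧
      (2 * N + 2 ^ M : ℝ) ≤ Λ ^ 2 ∧ (2 * N + 2 ^ M : ℝ) * Λ ≤ Λ ^ (2 + ε) ∧ 2 ^ M ≤ N := by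
  have h1 := one_le_Λ hG hΛ
  have h0 : 0 < Λ := by linarith
  have hK40 := big_le_K hG hΛ
  have hZK := (two_pow_le_Z M).trans (Z_le_K hG hΛ)
  have h76 := K_pow_le hG hΛ (n := 76) (by norm_num)
  rw [rpow_eq_mul_K_pow h0 1 75 (x := 1 + 3 * ε / 4) (by push_cast; ring), pow_one,
    rpow_eq_mul_K_pow h0 2 100 (x := 2 + ε) (by push_cast; ring)]
  generalize Λ ^ (ε / 100) = K at *
  have hK1 : 1 ≤ K := by linarith
  have hS1 : K ≤ Λ * K ^ 75 := by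
    have h2 := pow_le_pow_right₀ hK1 (by norm_num : 1 ≤ 75)
    rw [pow_one] at h2
    exact h2.trans (le_mul_of_one_le_left (by positivity) h1)
  have hN1 : Λ * K ^ 75 ≤ (⌈Λ * K ^ 75⌉₊ : ℝ) := Nat.le_ceil _
  have hN2 : (⌈Λ * K ^ 75⌉₊ : ℝ) ≤ Λ * K ^ 75 + 1 := (Nat.ceil_lt_add_one (by positivity)).le
  generalize ⌈Λ * K ^ 75⌉₊ = N at *
  have hm1 : (2 * N + 2 ^ M : ℝ) ≤ 4 * (Λ * K ^ 75) := by linarith
  have h3 : 4 * K ^ 75 ≤ K ^ 76 := by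
    rw [pow_succ K 75, mul_comm]
    exact mul_le_mul_of_nonneg_left (by linarith) (by positivity)
  refine ⟨N, hN1, hm1, ?_, ?_, ?_⟩
  · have h4 := mul_le_mul_of_nonneg_left (h3.trans h76) h0.le
    calc (2 * N + 2 ^ M : ℝ) ≤ 4 * (Λ * K ^ 75) := hm1
      _ = Λ * (4 * K ^ 75) := by ring
      _ ≤ Λ * Λ := h4
      _ = Λ ^ 2 := by ring
  · have h4 := h3.trans (pow_le_pow_right₀ hK1 (by norm_num : 76 ≤ 100))
    calc (2 * N + 2 ^ M : ℝ) * Λ ≤ 4 * (Λ * K ^ 75) * Λ := mul_le_mul_of_nonneg_right hm1 h0.le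
      _ = Λ ^ 2 * (4 * K ^ 75) := by ring
      _ ≤ Λ ^ 2 * K ^ 100 := mul_le_mul_of_nonneg_left h4 (by positivity)
  · have : (2 : ℝ) ^ M ≤ N := by linarith
    exact_mod_cast this

/-- The slack used by each of the `M` commutators. -/
theorem exists_N₀ (hG : Glob ε M J p η c₀ Λ₀ B) (hΛ : Λ₀ ≤ Λ) {G N : ℕ}
    (hGΛ : (G : ℝ) + 1 ≤ Λ ^ (1 + ε / 4)) (hN : Λ ^ (1 + 3 * ε / 4) ≤ N) :
    ∃ N₀ : ℕ, slackN G c₀ (40000 * J * 4 ^ M / (1 / (Λ ^ (ε / 100)) ^ 20) ^ 2) J ≤ N₀ ∧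
      slackN G c₀ (160000 * J) J ≤ N₀ ∧ 1 ≤ N₀ ∧ 2 * (M * N₀) ≤ N := by
  have h1 := one_le_Λ hG hΛ
  have h0 : 0 < Λ := by linarith
  have hK40 := big_le_K hG hΛ
  have hJ := hG.hJ
  have hc := hG.hc₀
  have hc' := hG.hc₀'
  have hM := two_le_M hG
  have h3 := junk_div hG hΛ (A := 1120000) (i := 1) (j := 1) (by norm_num) (by norm_num)
    (by norm_num)
  rw [pow_one, pow_one] at h3
  rw [rpow_eq_mul_K_pow h0 1 75 (x := 1 + 3 * ε / 4) (by push_cast; ring), pow_one] at hN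
  rw [rpow_eq_mul_K_pow h0 1 25 (x := 1 + ε / 4) (by push_cast; ring), pow_one] at hGΛ
  generalize Λ ^ (ε / 100) = K at *
  have hK1 : 1 ≤ K := by linarith
  have hK0 : 0 < K := by linarith
  have hJ0 : 0 ≤ J := by linarith
  have haa : 40000 * J * 4 ^ M / (1 / K ^ 20) ^ 2 = 40000 * J * 4 ^ M * K ^ 40 := by
    field_simp
  rw [haa]
  have h4M : (4 : ℝ) ≤ 4 ^ M := by
    have := pow_le_pow_right₀ (by norm_num : (1 : ℝ) ≤ 4) (by omega : 1 ≤ M)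
    rwa [pow_one] at this
  have haa1 : 160000 * J ≤ 40000 * J * 4 ^ M * K ^ 40 := by
    have h2 : 1 ≤ K ^ 40 := one_le_pow₀ hK1
    have h3 : 4 * 1 ≤ 4 ^ M * K ^ 40 := mul_le_mul h4M h2 zero_le_one (by positivity)
    have h4 := mul_le_mul_of_nonneg_left h3 (by linarith : 0 ≤ 40000 * J)
    linarith
  have h2 := one_le_slackN (G := G) hc (by positivity : 0 ≤ 40000 * J * 4 ^ M * K ^ 40) hJ0
  have h4 := slackN_le hGΛ hc (by linarith) (by linarith : 1 ≤ J)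
    (by linarith : J ≤ 40000 * J * 4 ^ M * K ^ 40)
  have h5 := slackN_mono (G := G) (J := J) hc haa1
  have h6 := Nat.le_ceil (slackN G c₀ (40000 * J * 4 ^ M * K ^ 40) J)
  have h7 := (Nat.ceil_lt_add_one (zero_le_one.trans h2)).le
  generalize ⌈slackN G c₀ (40000 * J * 4 ^ M * K ^ 40) J⌉₊ = N₀ at *
  refine ⟨N₀, h6, h5.trans h6, by exact_mod_cast h2.trans h6, ?_⟩
  have h8 : (N₀ : ℝ) ≤ 2 * (Λ * K ^ 25 * (7 * (40000 * J * 4 ^ M * K ^ 40) / c₀)) := by linarith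
  have h9 : 1120000 * (M * 4 ^ M) * J / c₀ ≤ K := by
    refine le_trans ?_ h3
    have := M_mul_four_pow_le M
    gcongr
  have h10 : (2 * (M * N₀) : ℝ) ≤ N :=
    calc (2 * (M * N₀) : ℝ)
        ≤ 2 * (M * (2 * (Λ * K ^ 25 * (7 * (40000 * J * 4 ^ M * K ^ 40) / c₀)))) := by gcongr
      _ = Λ * K ^ 65 * (1120000 * (M * 4 ^ M) * J / c₀) := by ring
      _ ≤ Λ * K ^ 65 * K := mul_le_mul_of_nonneg_left h9 (by positivity)
      _ = Λ * K ^ 66 := by ring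
      _ ≤ Λ * K ^ 75 := mul_le_mul_of_nonneg_left (pow_le_pow_right₀ hK1 (by norm_num)) h0.le
      _ ≤ N := hN
  exact_mod_cast h10

/-- The slip number of the new background. -/
theorem exists_G' (hG : Glob ε M J p η c₀ Λ₀ B) (hΛ : Λ₀ ≤ Λ) {G : ℕ} {m : ℝ}
    (hGΛ : (G : ℝ) + 1 ≤ Λ ^ (1 + ε / 4)) (hm0 : 1 ≤ m) (hm : m ≤ 4 * Λ ^ (1 + 3 * ε / 4)) :
    ∃ G' : ℕ, 1024 * ((G' : ℝ) + 1) ≤ Λ ^ (2 + ε + ε / 100) ∧
      slackN G c₀ (640000 * J * m ^ 2) J ≤ m * G' := by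
  have h1 := one_le_Λ hG hΛ
  have h0 : 0 < Λ := by linarith
  have hK40 := big_le_K hG hΛ
  have hJ := hG.hJ
  have hc := hG.hc₀
  have hc' := hG.hc₀'
  have h2 := junk_div hG hΛ (A := 40960000000) (i := 0) (j := 1) (by norm_num) (by norm_num)
    (by norm_num)
  rw [pow_zero, pow_one, mul_one] at h2
  rw [rpow_eq_mul_K_pow h0 1 75 (x := 1 + 3 * ε / 4) (by push_cast; ring), pow_one] at hm
  rw [rpow_eq_mul_K_pow h0 1 25 (x := 1 + ε / 4) (by push_cast; ring), pow_one] at hGΛ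
  rw [rpow_eq_mul_K_pow h0 2 101 (x := 2 + ε + ε / 100) (by push_cast; ring)]
  generalize Λ ^ (ε / 100) = K at *
  have hK1 : 1 ≤ K := by linarith
  have hK0 : 0 < K := by linarith
  have hJ0 : 0 ≤ J := by linarith
  have hm0' : 0 ≤ m := by linarith
  have hG'1 := Nat.le_ceil (Λ * K ^ 25 * (5000000 * J * m / c₀))
  have hG'2 := (Nat.ceil_lt_add_one (by positivity : 0 ≤ Λ * K ^ 25 * (5000000 * J * m / c₀))).le
  generalize ⌈Λ * K ^ 25 * (5000000 * J * m / c₀)⌉₊ = G' at *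
  refine ⟨G', ?_, ?_⟩
  · have h3 : Λ * K ^ 25 * (5000000 * J * m / c₀) ≤
        Λ * K ^ 25 * (5000000 * J * (4 * (Λ * K ^ 75)) / c₀) := by gcongr
    have h4 : 2048 * (Λ * K ^ 25 * (5000000 * J * (4 * (Λ * K ^ 75)) / c₀)) =
        Λ ^ 2 * K ^ 100 * (40960000000 * J / c₀) := by ring
    have h5 := mul_le_mul_of_nonneg_left h2 (by positivity : 0 ≤ Λ ^ 2 * K ^ 100)
    have h6 : Λ ^ 2 * K ^ 100 * K = Λ ^ 2 * K ^ 101 := by ring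
    have h7 : 1 * K ^ 1 ≤ Λ ^ 2 * K ^ 101 :=
      mul_le_mul (one_le_pow₀ h1) (pow_le_pow_right₀ hK1 (by norm_num)) (by positivity)
        (by positivity)
    rw [one_mul, pow_one] at h7
    rw [h6, ← h4] at h5
    linarith
  · have h3 : J ≤ 640000 * J * m ^ 2 := by
      have h4 : (1 : ℝ) ≤ m ^ 2 := one_le_pow₀ hm0
      have h5 := mul_le_mul_of_nonneg_left h4 hJ0
      linarith
    have h4 := slackN_le hGΛ hc (by linarith) (by linarith : 1 ≤ J) h3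
    refine h4.trans (le_trans ?_ (mul_le_mul_of_nonneg_left hG'1 hm0'))
    have h5 : 0 ≤ Λ * K ^ 25 * (J * m ^ 2 / c₀) := by positivity
    have h6 : Λ * K ^ 25 * (7 * (640000 * J * m ^ 2) / c₀) =
        4480000 * (Λ * K ^ 25 * (J * m ^ 2 / c₀)) := by ring
    have h7 : m * (Λ * K ^ 25 * (5000000 * J * m / c₀)) =
        5000000 * (Λ * K ^ 25 * (J * m ^ 2 / c₀)) := by ring
    rw [h6, h7]
    linarith

theorem G'_scale_le (hG : Glob ε M J p η c₀ Λ₀ B) (hΛ : Λ₀ ≤ Λ) :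
    Λ ^ (2 + ε + ε / 100) ≤ (Λ ^ (2 + ε)) ^ (1 + ε / 4) ∧ Λ ^ (2 + ε + ε / 100) ≤ Λ ^ 20 := by
  have h1 := one_le_Λ hG hΛ
  have h0 : 0 < Λ := by linarith
  have hε := hG.hε
  have hε1 := hG.hε1
  constructor
  · rw [← Real.rpow_mul h0.le]
    exact Real.rpow_le_rpow_of_exponent_le h1 (by nlinarith)
  · rw [← Real.rpow_natCast]
    exact Real.rpow_le_rpow_of_exponent_le h1 (by push_cast; linarith)

theorem le_scale (hG : Glob ε M J p η c₀ Λ₀ B) (hΛ : Λ₀ ≤ Λ) : Λ ≤ Λ ^ (2 + ε) := by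
  have := Real.rpow_le_rpow_of_exponent_le (one_le_Λ hG hΛ) (by linarith [hG.hε] : (1 : ℝ) ≤ 2 + ε)
  rwa [Real.rpow_one] at this

/-- The negligible quantity `w = (Λ ^ (2 + ε)) ^ (-(B + 10))`. -/
theorem w_mul_le (hG : Glob ε M J p η c₀ Λ₀ B) (hΛ : Λ₀ ≤ Λ) :
    (Λ ^ (2 + ε)) ^ (-(B + 10)) * Λ ^ 20 ≤ (Λ ^ (2 + ε)) ^ (-B) := by
  have h1 := one_le_Λ hG hΛ
  have h0 : 0 < Λ := by linarith
  rw [← Real.rpow_natCast, ← Real.rpow_mul h0.le, ← Real.rpow_mul h0.le, ← Real.rpow_add h0]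
  refine Real.rpow_le_rpow_of_exponent_le h1 ?_
  push_cast
  linarith [hG.hε]

/-- The field `hτ'` of `StepNum`. -/
theorem τ_step {Z X τ τ' : ℝ} (hp : 2 * J ≤ p) (hτ : Real.exp (-J) ≤ τ) (hτ' : τ ≤ τ' ^ 8)
    (hτ'0 : 0 ≤ τ') (hτ'1 : τ' ≤ 1) (hZ : 0 ≤ Z) (hX : 0 ≤ X) (h : τ' * (20000 * Z * X) ≤ 1) :
    10000 * Z * X * Real.sqrt (τ + Real.exp (-J) + 1 / 2 ^ p) ≤ τ' := by
  have h2 := sqrt_err_le hp hτ hτ'
  have h5 : τ' ^ 4 ≤ τ' ^ 2 := pow_le_pow_of_le_one hτ'0 hτ'1 (by norm_num)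
  have h6 := mul_le_mul_of_nonneg_right h hτ'0
  calc 10000 * Z * X * Real.sqrt (τ + Real.exp (-J) + 1 / 2 ^ p)
      ≤ 10000 * Z * X * (2 * τ' ^ 2) := mul_le_mul_of_nonneg_left (by linarith) (by positivity)
    _ = τ' * (20000 * Z * X) * τ' := by ring
    _ ≤ τ' := by linarith

end Crest.Agent.R300.ScO
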