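import Crest.Agent.R300.LGlob
import Crest.Agent.R300.LScaleOAux1

/-!
# R300 lower bound: the first state and the plain step (task LScaleO)
-/

set_option autoImplicit false

namespace Crest.Agent.R300

open ScO

private theorem inv_q_pow_le {q : ℝ} (hq : 0 < q) (hq1 : q ≤ 1 / 2) {k : ℕ} (hk : k ≤ 6) :
    1 / q ^ k ≤ 1 / Real.exp (-(20000 / q ^ 3)) := by
  have hx : 1 ≤ 1 / q := by rw [le_div_iff₀ hq]; linarith
  have h1 : 1 / q ^ k ≤ (1 / q) ^ 6 := by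
    rw [← one_div_pow]
    exact pow_le_pow_right₀ hx hk
  have h2 : (1 / q) ^ 3 ≤ Real.exp (10000 / q ^ 3) := by
    have h3 := Real.add_one_le_exp (10000 / q ^ 3)
    have h4 : (1 / q) ^ 3 ≤ 10000 / q ^ 3 := by
      rw [one_div_pow]
      exact div_le_div_of_nonneg_right (by norm_num) (by positivity)
    linarith
  have h5 : (1 / q) ^ 6 ≤ Real.exp (10000 / q ^ 3) ^ 2 := by
    rw [show (1 / q) ^ 6 = ((1 / q) ^ 3) ^ 2 by ring]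
    exact pow_le_pow_left₀ (by positivity) h2 2
  rw [Real.exp_neg, one_div (Real.exp _)⁻¹, inv_inv]
  refine h1.trans (h5.trans (le_of_eq ?_))
  rw [← Real.exp_nat_mul]
  congr 1
  push_cast
  ring

private theorem base_pow_le {Λ N A x y : ℝ} (hΛ : 1 ≤ Λ) (hN : Λ / 5 ≤ N) (hx0 : 0 ≤ x) (hx : x ≤ 2)
    (hA0 : 0 ≤ A) (hA : 25 * A ≤ Λ ^ (1 / 200 : ℝ)) (hy : y ≤ x - 1 / 200) :
    A * N ^ (-x) ≤ Λ ^ (-y) := by
  have h0 : 0 < Λ := by linarith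
  have h1 : N ^ (-x) ≤ (Λ / 5) ^ (-x) :=
    Real.rpow_le_rpow_of_nonpos (by positivity) hN (by linarith)
  have h2 : (Λ / 5) ^ (-x) = Λ ^ (-x) * 5 ^ x := by
    rw [Real.div_rpow h0.le (by norm_num), Real.rpow_neg (by norm_num : (0 : ℝ) ≤ 5),
      div_inv_eq_mul]
  have h3 : (5 : ℝ) ^ x ≤ 25 := by
    calc (5 : ℝ) ^ x ≤ 5 ^ (2 : ℝ) := Real.rpow_le_rpow_of_exponent_le (by norm_num) hx
      _ = 25 := by norm_num
  have h4 : 0 < Λ ^ (-x) := Real.rpow_pos_of_pos h0 _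
  calc A * N ^ (-x) ≤ A * (Λ ^ (-x) * 25) := by
        refine mul_le_mul_of_nonneg_left (h1.trans ?_) hA0
        rw [h2]
        exact mul_le_mul_of_nonneg_left h3 h4.le
    _ = 25 * A * Λ ^ (-x) := by ring
    _ ≤ Λ ^ (1 / 200 : ℝ) * Λ ^ (-x) := mul_le_mul_of_nonneg_right hA h4.le
    _ = Λ ^ (1 / 200 + -x) := (Real.rpow_add h0 _ _).symm
    _ ≤ Λ ^ (-y) := Real.rpow_le_rpow_of_exponent_le hΛ (by linarith)

private theorem sig_aux {Z r K x τ σ δ η a b m : ℝ} (hZ : 1 ≤ Z) (hr : r ≤ Z)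
    (hK : 1000 * Z ^ 2 ≤ K) (hx0 : 0 ≤ x) (hx : x * K ≤ 2 * σ) (hτ0 : 0 ≤ τ) (hτ : τ * K ≤ σ)
    (hab : a * b ≤ m) (hb0 : 0 ≤ b) (hb : b ≤ m) (hτm : τ * m ≤ 1) (hδ0 : 0 ≤ δ)
    (hδ : δ * (3 * m) ≤ σ) (hη : η ≤ 1) :
    4 * Z * (4 * r * (x + τ) + 16 * τ * x * a * b) + b * (δ * η) ≤ σ := by
  have hZ0 : 0 ≤ Z := by linarith
  have h1 : Z * r * (x + τ) ≤ Z ^ 2 * (x + τ) := by
    refine mul_le_mul_of_nonneg_right ?_ (by linarith)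
    rw [sq]
    exact mul_le_mul_of_nonneg_left hr hZ0
  have h2 : 1000 * Z ^ 2 * (x + τ) ≤ K * (x + τ) := mul_le_mul_of_nonneg_right hK (by linarith)
  have h3 : τ * (a * b) ≤ 1 := (mul_le_mul_of_nonneg_left hab hτ0).trans hτm
  have h4 : Z * x * (τ * (a * b)) ≤ Z * x * 1 := mul_le_mul_of_nonneg_left h3 (by positivity)
  have h5 : Z * x ≤ Z ^ 2 * x := mul_le_mul_of_nonneg_right (by nlinarith) hx0
  have h6 : 1000 * Z ^ 2 * x ≤ K * x := mul_le_mul_of_nonneg_right hK hx0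
  have h7 : b * (δ * η) ≤ m * δ := by
    have : δ * η ≤ δ := mul_le_of_le_one_right hδ0 hη
    exact (mul_le_mul_of_nonneg_left this hb0).trans (mul_le_mul_of_nonneg_right hb hδ0)
  have h8 : 0 ≤ x * K := mul_nonneg hx0 (by nlinarith [sq_nonneg Z])
  nlinarith


private theorem old_sizes {Λ ε bo bf μ b bg : ℝ} (h1 : 1 ≤ Λ) (hε : 0 < ε) (hμ : μ ≤ bf)
    (hμ' : μ ≤ 2 * bo) (hb : b * (2 + ε) ≤ bo + μ - ε) (hbg : bg ≤ μ - ε) :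
    (Λ ^ (-(bf / 2)) + (Λ ^ (-(bo / 2))) ^ 2) * Λ ^ (ε / 100) ≤ 2 * Λ ^ (-(bg / 2)) ∧
      Λ ^ (-(bo / 2)) * (Λ ^ (-(bf / 2)) + (Λ ^ (-(bo / 2))) ^ 2) * Λ ^ (ε / 100) ≤
        2 * (Λ ^ (2 + ε)) ^ (-(b / 2)) := by
  have h0 : 0 < Λ := by linarith
  have hy : Λ ^ (-(bf / 2)) + (Λ ^ (-(bo / 2))) ^ 2 ≤ 2 * Λ ^ (-(μ / 2)) := by
    have h2 : Λ ^ (-(bf / 2)) ≤ Λ ^ (-(μ / 2)) := Real.rpow_le_rpow_of_exponent_le h1 (by linarith)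
    have h3 : (Λ ^ (-(bo / 2))) ^ 2 ≤ Λ ^ (-(μ / 2)) := by
      rw [sq, ← Real.rpow_add h0]
      exact Real.rpow_le_rpow_of_exponent_le h1 (by linarith)
    linarith
  constructor
  · have h2 : Λ ^ (-(μ / 2)) * Λ ^ (ε / 100) ≤ Λ ^ (-(bg / 2)) := by
      rw [← Real.rpow_add h0]
      exact Real.rpow_le_rpow_of_exponent_le h1 (by linarith)
    have h3 := mul_le_mul_of_nonneg_right hy (by positivity : 0 ≤ Λ ^ (ε / 100))
    linarith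
  · have h2 : Λ ^ (-(bo / 2)) * Λ ^ (-(μ / 2)) * Λ ^ (ε / 100) ≤ (Λ ^ (2 + ε)) ^ (-(b / 2)) := by
      rw [← Real.rpow_add h0, ← Real.rpow_add h0, ← Real.rpow_mul h0.le]
      exact Real.rpow_le_rpow_of_exponent_le h1 (by linarith)
    have h3 := mul_le_mul_of_nonneg_right
      (mul_le_mul_of_nonneg_left hy (by positivity : 0 ≤ Λ ^ (-(bo / 2))))
      (by positivity : 0 ≤ Λ ^ (ε / 100))
    linarith

private theorem sqrt_facts (M N : ℕ) :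
    Real.sqrt (((2 ^ M : ℕ) : ℝ)) ≤ 1000 ^ M ∧
      Real.sqrt (2 * N + 1) * Real.sqrt (2 * ((N / 2 : ℕ) : ℝ) + 1) ≤ 2 * N + 2 ^ M ∧
      Real.sqrt (2 * ((N / 2 : ℕ) : ℝ) + 1) ≤ 2 * N + 2 ^ M ∧
      Real.sqrt (2 * N + 1) * 1 ≤ 2 * N + 2 ^ M := by
  have h2M : (1 : ℝ) ≤ 2 ^ M := one_le_pow₀ (by norm_num)
  have hN0 : (0 : ℝ) ≤ N := Nat.cast_nonneg N
  have hs'N : (((N / 2 : ℕ) : ℝ)) ≤ N := by exact_mod_cast Nat.div_le_self N 2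
  have hs'0 : (0 : ℝ) ≤ ((N / 2 : ℕ) : ℝ) := Nat.cast_nonneg _
  have h2 : Real.sqrt (2 * ((N / 2 : ℕ) : ℝ) + 1) ≤ Real.sqrt (2 * N + 1) :=
    Real.sqrt_le_sqrt (by linarith)
  have h4 : Real.sqrt (2 * N + 1) ≤ 2 * N + 2 ^ M := by
    rw [Real.sqrt_le_left (by linarith)]
    nlinarith
  refine ⟨?_, ?_, h2.trans h4, by rwa [mul_one]⟩
  · push_cast
    refine le_trans ?_ (two_pow_le_Z M)
    rw [Real.sqrt_le_left (by positivity)]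
    nlinarith
  · have h3 := mul_le_mul_of_nonneg_left h2 (Real.sqrt_nonneg (2 * (N : ℝ) + 1))
    rw [Real.mul_self_sqrt (by linarith)] at h3
    linarith

/-- The numerical hypotheses of the plain step, with all powers of the scale abstracted. -/
private theorem numO {ε J η c₀ Λ₀ B K w V σo σf σ' σg' θ τ τ' : ℝ} {M p G N N₀ G' : ℕ}
    (hG : Glob ε M J p η c₀ Λ₀ B) (hθ0 : 0 < θ) (hθ1 : θ ≤ 1 / 4)
    (hσo0 : 0 ≤ σo) (hσf0 : 0 ≤ σf) (hZo : 1000 ^ M * σo ≤ 1) (hZf : 1000 ^ M * σf ≤ 1)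
    (hN₀1 : slackN G c₀ (40000 * J * 4 ^ M / θ ^ 2) J ≤ N₀) (hN₀2 : slackN G c₀ (160000 * J) J ≤ N₀)
    (hN₀0 : 1 ≤ N₀) (hMN₀ : 2 * (M * N₀) ≤ N)
    (hK1 : 20000 * (1000 ^ M) ^ 2 ≤ K) (hp3 : 3 * (p : ℝ) ≤ K) (hp2 : (p : ℝ) ^ 2 ≤ K)
    (hKm : K * (2 * N + 2 ^ M) ≤ V) (hw0 : 0 ≤ w) (hwσ : w * V ≤ σ') (hwσg : w * V ≤ σg')
    (hσ'1 : σ' ≤ 1) (hτ'w : τ' ≤ w) (hδ : (4 * θ) ^ M ≤ w)
    (hxK : σo * (σf + σo ^ 2) * K ≤ 2 * σ') (hyK : (σf + σo ^ 2) * K ≤ 2 * σg')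
    (hτ : Real.exp (-J) ≤ τ) (hτ' : τ ≤ τ' ^ 8) (hτ'0 : 0 ≤ τ')
    (hG'σ : 1024 * (G' + 1) * σg' ^ 2 ≤ 1) (hG'V : 1024 * ((G' : ℝ) + 1) ≤ V)
    (hG' : slackN G c₀ (640000 * J * (2 * N + 2 ^ M) ^ 2) J ≤ (2 * N + 2 ^ M) * G') :
    StepNum 1 0 G G c₀ c₀ σo σf τ η 0 τ M N₀ N N (N / 2) 0 1 p (2 ^ M) G' J θ
      σ' σg' η (3 * 1000 ^ M * η) τ' := by
  have hJ := hG.hJ
  have hc := hG.hc₀
  have hM := two_le_M hG
  have hZ1 : (1 : ℝ) ≤ 1000 ^ M := one_le_pow₀ (by norm_num)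
  have hZ2 : (1000 : ℝ) ^ M ≤ (1000 ^ M) ^ 2 := by nlinarith
  have h2M : (1 : ℝ) ≤ 2 ^ M := one_le_pow₀ (by norm_num)
  have hm0 : (1 : ℝ) ≤ 2 * N + 2 ^ M := by linarith [Nat.cast_nonneg (α := ℝ) N]
  have hK4 : 4 ≤ K := by linarith
  have hjunkm : ∀ A : ℝ, A ≤ K → A * (2 * N + 2 ^ M) ≤ V := fun A hA =>
    (mul_le_mul_of_nonneg_right hA (by linarith)).trans hKm
  have hKV : K ≤ V := (le_mul_of_one_le_right (by linarith) hm0).trans hKm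
  have hwσ' : ∀ u v : ℝ, u ≤ w → 0 ≤ v → v ≤ V → u * v ≤ σ' := fun u v hu hv hv' =>
    (mul_le_mul hu hv' hv hw0).trans hwσ
  have hwσg' : ∀ u v : ℝ, u ≤ w → 0 ≤ v → v ≤ V → u * v ≤ σg' := fun u v hu hv hv' =>
    (mul_le_mul hu hv' hv hw0).trans hwσg
  have hw1 : ∀ u v : ℝ, u ≤ w → 0 ≤ v → v ≤ V → u * v ≤ 1 := fun u v hu hv hv' =>
    (hwσ' u v hu hv hv').trans hσ'1
  have hτ'1 : τ' ≤ 1 := by simpa using hw1 τ' 1 hτ'w zero_le_one (by linarith)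
  have hττ' : τ ≤ τ' := hτ'.trans (pow_le_of_le_one hτ'0 hτ'1 (by norm_num))
  have hτ0 : 0 ≤ τ := (Real.exp_pos _).le.trans hτ
  have hτw : τ ≤ w := hττ'.trans hτ'w
  have hτ1 : τ ≤ 1 := hττ'.trans hτ'1
  have hN₀N : (N₀ : ℝ) + 1 ≤ ((1 * (N - N / 2) + 0 : ℕ) : ℝ) := by
    have h2 : 2 * N₀ ≤ M * N₀ := Nat.mul_le_mul_right N₀ hM
    have h3 : N₀ + 1 ≤ 1 * (N - N / 2) + 0 := by omega
    exact_mod_cast h3
  obtain ⟨hsq, hsa, hsb, hsc⟩ := sqrt_facts M N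
  have hτm : τ * (2 * N + 2 ^ M) ≤ 1 :=
    hw1 _ _ hτw (by linarith) (by simpa using hjunkm 1 (by linarith))
  have h3m : 3 * (2 * N + 2 ^ M : ℝ) ≤ V := hjunkm 3 (by linarith)
  have hδ0 : 0 ≤ (4 * θ) ^ M := by positivity
  have hZ2K : 1000 * ((1000 : ℝ) ^ M) ^ 2 ≤ K := by linarith
  exact
    { hM := by omega
      hJ := hJ
      hθ := hθ0
      hθ1 := hθ1
      hp := two_le_p hG
      hcB := hc
      hc := hc
      hσo := hσo0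
      hσf := hσf0
      hηo := (η_pos hG).le
      hηg := le_rfl
      hτ := hτ0
      hτg := le_rfl
      hZo := hZo
      hZf := hZf
      hZg := by
        rw [mul_comm]
        exact hw1 _ _ hτw (by positivity) (by linarith)
      hZη := six_Zη_le hG
      hN₀ := hN₀1
      hMN := by omega
      hN₁ := le_rfl
      hs' := Nat.div_le_self N 2
      hQ := Nat.one_le_two_pow
      hQD := by simp
      hL := by
        have h2 := slackN_mono (G := G) (J := J) hc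
          (by push_cast; linarith : ((0 : ℕ) : ℝ) ≤ 160000 * J)
        exact h2.trans (hN₀2.trans ((le_add_of_nonneg_right zero_le_one).trans hN₀N))
      hR := by
        rw [Nat.cast_zero, Nat.cast_one, one_pow, mul_one]
        linarith only [hN₀2, hN₀N]
      hρ := by simp
      hm := Or.inr le_rfl
      hpη := by norm_num
      hpσ := by
        have h2 := hw1 _ _ hτw (by positivity) (hjunkm _ hp2)
        have h3 := mul_le_mul h2 hτ1 hτ0 zero_le_one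
        linarith only [h3]
      hpτ := by
        have h2 := hw1 _ _ hτw (by positivity) (hjunkm _ hp3)
        linarith only [h2]
      hσ' := by
        have h2 := sig_aux hZ1 hsq hZ2K (by positivity) hxK hτ0
          (hwσ' _ _ hτw (by linarith) hKV) hsa (Real.sqrt_nonneg _) hsb hτm hδ0
          (hwσ' _ _ hδ (by positivity) h3m) (η_le_one hG)
        have h3 : 0 ≤ (1000 : ℝ) ^ M * (4 * Real.sqrt (((2 ^ M : ℕ) : ℝ)) *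
            (σo * (σf + σo ^ 2) + τ) + 16 * τ * (σo * (σf + σo ^ 2)) * Real.sqrt (2 * N + 1) *
              Real.sqrt (2 * ((N / 2 : ℕ) : ℝ) + 1)) := by positivity
        simp only [Nat.cast_zero, mul_zero, zero_add, Real.sqrt_one, mul_one, div_one]
        linarith only [h2, h3]
      hσg' := by
        have h2 := sig_aux hZ1 hsq hZ2K (by positivity) hyK hτ0
          (hwσg' _ _ hτw (by linarith) hKV) hsc zero_le_one hm0 hτm hδ0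
          (hwσg' _ _ hδ (by positivity) h3m) (η_le_one hG)
        simp only [Nat.cast_zero, mul_zero, zero_add, Real.sqrt_one, mul_one, div_one]
        linarith only [h2]
      hσ'1 := hσ'1
      hη' := η_step hG (hw1 _ 4 hδ (by norm_num) (by linarith))
      hηg' := le_rfl
      hτ' := τ_step hG.hp hτ hτ' hτ'0 hτ'1 (by positivity) (by positivity)
        (hw1 _ _ hτ'w (by positivity) (hjunkm _ (by linarith)))
      hτ'g := by simpa using hwσg' τ' 1 hτ'w zero_le_one (by linarith)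
      hG'σ := hG'σ
      hG'τ := by
        rw [mul_comm]
        have : (0 : ℝ) ≤ (G' : ℝ) + 1 := by positivity
        exact hw1 _ _ hτ'w (by positivity) (by linarith only [this, hG'V])
      hG' := by
        push_cast
        exact hG' }

/-- `pre_base` with `N = ⌊(Λ₀ - 1) / 4⌋ ≥ Λ₀ / 5` and `Pre.mono`; note `1 / q⁴ ≤ exp (20000 / q³) = 1 / c₀`,
so `10^12 J² / q⁴ ≤ Λ₀ ^ (ε / 100) ≤ Λ₀ ^ 0.005`. -/
theorem stO_base {q ε J η Λ₀ B τ : ℝ} {M p : ℕ} (hq : 0 < q) (hq1 : q ≤ 1 / 2)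
    (hG : Glob ε M J p η (Real.exp (-(20000 / q ^ 3))) Λ₀ B)
    (hτ : 1000 * Real.exp (-(J / 2)) / q ^ 2 ≤ τ) :
    StO q ε η (Real.exp (-(20000 / q ^ 3))) Λ₀ (149 / 100) (249 / 100) τ := by
  have h1 := hG.hΛ₀
  have h0 : 0 < Λ₀ := by linarith
  have hJ := hG.hJ
  have hK := big_le_K hG le_rfl
  have hKΛ := K_pow_le hG le_rfl (n := 1) (by norm_num)
  have hK2 := K_pow_le_rpow hG le_rfl 1 (x := 1 / 200) (by norm_num)
  rw [pow_one] at hKΛ hK2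
  have hjunk : ∀ (A : ℝ) (j k : ℕ), 0 ≤ A → A ≤ 10 ^ 40 → j ≤ 4 → k ≤ 6 →
      A * J ^ j / q ^ k ≤ Λ₀ ^ (ε / 100) := by
    intro A j k hA0 hA hj hk
    have h2 := junk_div hG le_rfl hA (i := 0) (by norm_num) hj
    rw [pow_zero, mul_one, div_eq_mul_one_div] at h2
    refine le_trans ?_ h2
    rw [div_eq_mul_one_div]
    exact mul_le_mul_of_nonneg_left (inv_q_pow_le hq hq1 hk) (by positivity)
  set N : ℕ := ⌊(Λ₀ - 1) / 4⌋₊ with hN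
  have hN1 : (N : ℝ) ≤ (Λ₀ - 1) / 4 := Nat.floor_le (by linarith)
  have hN2 : Λ₀ / 5 ≤ N := by
    have := Nat.lt_floor_add_one ((Λ₀ - 1) / 4)
    rw [← hN] at this
    linarith
  have hNJ : 10 ^ 9 * J ^ 2 / q ^ 3 ≤ N := by
    have h2 := hjunk (5 * 10 ^ 9) 2 3 (by norm_num) (by norm_num) (by norm_num) (by norm_num)
    have h3 : 5 * 10 ^ 9 * J ^ 2 / q ^ 3 = 5 * (10 ^ 9 * J ^ 2 / q ^ 3) := by ring
    linarith
  obtain ⟨t, x₀, x₁, G, hlen, hGN, hpre⟩ := pre_base hq hq1 (by linarith : 1 ≤ J) hNJ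
  have hA1 : 25 * (10 ^ 11 * J / q ^ 3) ≤ Λ₀ ^ (1 / 200 : ℝ) := by
    have h2 := hjunk (25 * 10 ^ 11) 1 3 (by norm_num) (by norm_num) (by norm_num) (by norm_num)
    have h3 : 25 * 10 ^ 11 * J ^ 1 / q ^ 3 = 25 * (10 ^ 11 * J / q ^ 3) := by ring
    linarith
  have hA2 : 25 * (10 ^ 11 * J ^ 2 / q ^ 4) ≤ Λ₀ ^ (1 / 200 : ℝ) := by
    have h2 := hjunk (25 * 10 ^ 11) 2 4 (by norm_num) (by norm_num) (by norm_num) (by norm_num)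
    have h3 : 25 * 10 ^ 11 * J ^ 2 / q ^ 4 = 25 * (10 ^ 11 * J ^ 2 / q ^ 4) := by ring
    linarith
  have hJ0 : 0 ≤ J := by linarith
  refine ⟨t, x₀, x₁, G, ?_, ?_, hpre.mono hq.le (by linarith) le_rfl le_rfl ?_ ?_ hτ ?_ le_rfl hτ⟩
  · rw [hlen]
    push_cast
    linarith
  · have h2 : (G : ℝ) + 1 ≤ N := by exact_mod_cast hGN
    have h3 : Λ₀ ^ (1 : ℝ) ≤ Λ₀ ^ (1 + ε / 4) :=
      Real.rpow_le_rpow_of_exponent_le h1 (by linarith [hG.hε])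
    rw [Real.rpow_one] at h3
    linarith
  · exact base_pow_le h1 hN2 (by norm_num) (by norm_num) (by positivity) hA1 (by norm_num)
  · exact base_pow_le h1 hN2 (by norm_num) (by norm_num) (by positivity) hA2 (by norm_num)
  · rw [hG.hη]
    exact base_pow_le h1 hN2 (by norm_num) (by norm_num) (by positivity) hA1 (by norm_num)

/-- `Pre.step` with `m = 1`, `s = 0`, `σg = τ`, `ηg = 0` and the choices `θ = Λ ^ (-ε/5)`,
`N = N₁ = ⌈Λ ^ (1 + 3ε/4)⌉`, `s' = N / 2`, `N₀ = ⌈slackN G c₀ (40000 J 4^M / θ²) J⌉`, `a = 0`, `ρ = 1`,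
`Q = 2 ^ M`, `G' = ⌈Λ ^ (1 + ε/4) · 2 · 10⁶ J m' / c₀⌉` (`m' = 2 N + 2 ^ M ≤ 3 N ≤ 4 Λ ^ (1 + 3ε/4)`),
`σ' = (Λ ^ (2+ε)) ^ (-b/2)`, `σg' = Λ ^ (-bg/2)`, `η' = η`, `ηg' = 3 Z η`; finally `Pre.mono` lowers
`1/2` to `c₀`.  Every junk factor (products of `10^..`, `1000^M`, `2^M`, `M`, `J`, `p`, `1/c₀`) is at most
`Λ ^ (ε/100)`; `(4 θ) ^ M ≤ Λ ^ (-0.19 ε M) ≤ Λ ^ (-19 (B + 10))`; `σf + σo² ≤ 2 Λ ^ (-μ/2)`;
`exp (-J), 1 / 2^p ≤ τ ≤ τ' ^ 8`; `G' + 1 ≤ Λ ^ (2 + ε + ε/100)`. -/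
theorem stepO {q ε J η c₀ Λ₀ B Λ L bo bf μ b bg τ τ' : ℝ} {M p : ℕ} (hq : 0 ≤ q) (hq1 : q ≤ 1)
    (hG : Glob ε M J p η c₀ Λ₀ B) (hΛ : Λ₀ ≤ Λ) (hL : Λ ^ (2 + ε) ≤ L)
    (h : StO q ε η c₀ Λ bo bf τ) (hbo : 1 ≤ bo) (hbf : 1 ≤ bf) (hμ : μ ≤ bf) (hμ' : μ ≤ 2 * bo)
    (hb0 : 0 ≤ b) (hb : b * (2 + ε) ≤ bo + μ - ε) (hbB : b ≤ B) (hbg : bg ≤ μ - ε)
    (hbg' : 2 + 2 * ε ≤ bg) (hbgB : bg ≤ B) (hτ : Real.exp (-J) ≤ τ) (hτ' : τ ≤ τ' ^ 8)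
    (hτ'0 : 0 ≤ τ') (hτ'L : τ' ≤ L ^ (-(B + 10))) :
    StG q ε M η c₀ Λ b bg τ' := by
  obtain ⟨t, x₀, x₁, G, hlen, hGΛ, hpre⟩ := h
  have h1 := one_le_Λ hG hΛ
  have h0 : 0 < Λ := by linarith
  have hε := hG.hε
  have hB := hG.hB
  obtain ⟨N, hN1, hm1, hm2, hm3, h2MN⟩ := exists_N hG hΛ
  obtain ⟨N₀, hN₀1, hN₀2, hN₀0, hMN₀⟩ := exists_N₀ hG hΛ hGΛ hN1
  have h2M : (1 : ℝ) ≤ 2 ^ M := one_le_pow₀ (by norm_num)
  have hN0 : (0 : ℝ) ≤ N := Nat.cast_nonneg N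
  have hm0 : (1 : ℝ) ≤ 2 * N + 2 ^ M := by linarith
  obtain ⟨G', hG'1, hG'2⟩ := exists_G' hG hΛ hGΛ hm0 hm1
  obtain ⟨hP3, hP4⟩ := G'_scale_le hG hΛ
  obtain ⟨hyK, hxK⟩ := old_sizes h1 hε hμ hμ' hb hbg
  have hPΛ := le_scale hG hΛ
  have hP1 : 1 ≤ Λ ^ (2 + ε) := h1.trans hPΛ
  have hwB := w_mul_le hG hΛ
  have hK1 : 20000 * (1000 ^ M) ^ 2 ≤ Λ ^ (ε / 100) := by
    have h2 := junk_mul hG hΛ (A := 20000) (i := 2) (j := 0) (by norm_num) (by norm_num)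
      (by norm_num) (by norm_num)
    rwa [pow_zero, mul_one] at h2
  have hKm : Λ ^ (ε / 100) * (2 * N + 2 ^ M) ≤ Λ ^ 20 :=
    calc Λ ^ (ε / 100) * (2 * N + 2 ^ M) ≤ Λ * Λ ^ 2 :=
          mul_le_mul (K_le hG hΛ) hm2 (by linarith) h0.le
      _ = Λ ^ 3 := by ring
      _ ≤ Λ ^ 20 := pow_le_pow_right₀ h1 (by norm_num)
  have hσg2 : Λ ^ (2 + ε + ε / 100) * (Λ ^ (-(bg / 2))) ^ 2 ≤ 1 := by
    rw [sq, ← Real.rpow_add h0, ← Real.rpow_add h0]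
    exact Real.rpow_le_one_of_one_le_of_nonpos h1 (by linarith)
  have hn := numO (σo := Λ ^ (-(bo / 2))) (σf := Λ ^ (-(bf / 2)))
    (σ' := (Λ ^ (2 + ε)) ^ (-(b / 2))) (σg' := Λ ^ (-(bg / 2))) hG (by positivity) (theta_le hG hΛ)
    (by positivity) (by positivity) (Z_mul_rpow_le hG hΛ hbo) (Z_mul_rpow_le hG hΛ hbf)
    hN₀1 hN₀2 hN₀0 hMN₀ hK1 (three_p_le hG hΛ) (p_sq_le hG hΛ) hKm (by positivity)
    (hwB.trans (Real.rpow_le_rpow_of_exponent_le hP1 (by linarith)))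
    (hwB.trans ((Real.rpow_le_rpow_of_nonpos h0 hPΛ (by linarith)).trans
      (Real.rpow_le_rpow_of_exponent_le h1 (by linarith))))
    (Real.rpow_le_one_of_one_le_of_nonpos hP1 (by linarith))
    (hτ'L.trans (Real.rpow_le_rpow_of_nonpos (by linarith) hL (by linarith)))
    (theta_pow_le hG hΛ) hxK hyK hτ hτ' hτ'0
    ((mul_le_mul_of_nonneg_right hG'1 (by positivity)).trans hσg2) (hG'1.trans hP4) hG'2
  obtain ⟨t', v', hlen', hpre'⟩ := hpre.step hq hq1 hn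
  have hG'0 : (0 : ℝ) ≤ (G' : ℝ) + 1 := by positivity
  refine ⟨t, t', v', 2 * N + 2 ^ M, N / 2, G, G', ?_, hGΛ, by linarith only [hG'0, hG'1, hP3],
    ?_, ?_, by omega,
    hpre'.mono hq hq1 le_rfl hG.hc₀' le_rfl le_rfl le_rfl le_rfl le_rfl le_rfl⟩
  · rw [hlen']
    push_cast
    exact (mul_le_mul_of_nonneg_left hlen (by linarith)).trans hm3
  · push_cast
    linarith only [hN1, hN0, h2M]
  · push_cast
    exact hm1

end Crest.Agent.R300
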