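import Crest.Agent.R300.LProd

/-!
# R300 lower bound: the Thue–Morse window (task LWin)

Notation: `A₀ = T + f - o`, `A₁ = T + f + o`, `T_j = T ^ 2 ^ j`, `Od_j = tmOd A₀ A₁ j`,
`Ev_j = tmEv T A₀ A₁ j`, `Hi_j = Od_j - omg T o j`.  Then `Od_0 = o`, `Ev_0 = f`, `Hi_0 = 0`, and
* `Od_{j+1} = Od T_j - T_j Od + Od Ev - Ev Od`,
* `Ev_{j+1} = T_j Ev + Ev T_j + Ev Ev - Od Od`,
* `Hi_{j+1} = Hi T_j - T_j Hi + Od Ev - Ev Od`.
-/

set_option autoImplicit false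

namespace Crest.Agent.R300

open Finset

variable {Γ : Type} [Monoid Γ]

theorem tmM_prob {A₀ A₁ : Ms Γ} (h₀ : Prob A₀) (h₁ : Prob A₁) (j : ℕ) :
    Prob (tmM A₀ A₁ j).1 ∧ Prob (tmM A₀ A₁ j).2 := by
  induction j with
  | zero => exact ⟨h₀, h₁⟩
  | succ j ih => exact ⟨ih.1.mul ih.2, ih.2.mul ih.1⟩

theorem tmM_fst (T A₀ A₁ : Ms Γ) (j : ℕ) :
    (tmM A₀ A₁ j).1 = T ^ 2 ^ j + tmEv T A₀ A₁ j - tmOd A₀ A₁ j := by
  unfold tmEv tmOd
  module

private theorem tmM_snd (T A₀ A₁ : Ms Γ) (j : ℕ) :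
    (tmM A₀ A₁ j).2 = T ^ 2 ^ j + tmEv T A₀ A₁ j + tmOd A₀ A₁ j := by
  unfold tmEv tmOd
  module

private theorem pow_two_pow_succ (T : Ms Γ) (j : ℕ) : T ^ 2 ^ (j + 1) = T ^ 2 ^ j * T ^ 2 ^ j := by
  rw [pow_succ, mul_two, pow_add]

private theorem tmOd_succ (T A₀ A₁ : Ms Γ) (j : ℕ) : tmOd A₀ A₁ (j + 1) =
    tmOd A₀ A₁ j * T ^ 2 ^ j - T ^ 2 ^ j * tmOd A₀ A₁ j +
      (tmOd A₀ A₁ j * tmEv T A₀ A₁ j - tmEv T A₀ A₁ j * tmOd A₀ A₁ j) := by
  have e : tmOd A₀ A₁ (j + 1) = (1 / 2 : ℝ) • ((tmM A₀ A₁ j).2 * (tmM A₀ A₁ j).1 -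
    (tmM A₀ A₁ j).1 * (tmM A₀ A₁ j).2) := rfl
  rw [e, tmM_fst T, tmM_snd T]
  simp only [mul_add, add_mul, mul_sub, sub_mul]
  module

private theorem tmEv_succ (T A₀ A₁ : Ms Γ) (j : ℕ) : tmEv T A₀ A₁ (j + 1) =
    tmEv T A₀ A₁ j * T ^ 2 ^ j + T ^ 2 ^ j * tmEv T A₀ A₁ j +
      (tmEv T A₀ A₁ j * tmEv T A₀ A₁ j - tmOd A₀ A₁ j * tmOd A₀ A₁ j) := by
  have e : tmEv T A₀ A₁ (j + 1) = (1 / 2 : ℝ) • ((tmM A₀ A₁ j).1 * (tmM A₀ A₁ j).2 +
    (tmM A₀ A₁ j).2 * (tmM A₀ A₁ j).1) - T ^ 2 ^ (j + 1) := rfl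
  rw [e, tmM_fst T, tmM_snd T, pow_two_pow_succ]
  simp only [mul_add, add_mul, mul_sub, sub_mul]
  module

private theorem tmHi_succ (T A₀ A₁ o : Ms Γ) (j : ℕ) : tmOd A₀ A₁ (j + 1) - omg T o (j + 1) =
    (tmOd A₀ A₁ j - omg T o j) * T ^ 2 ^ j - T ^ 2 ^ j * (tmOd A₀ A₁ j - omg T o j) +
      (tmOd A₀ A₁ j * tmEv T A₀ A₁ j - tmEv T A₀ A₁ j * tmOd A₀ A₁ j) := by
  rw [tmOd_succ T, omg]
  simp only [mul_sub, sub_mul]
  abel

private theorem pw_le {a : ℝ} (h0 : 0 ≤ a) (h1 : a ≤ 1000) {j M : ℕ} (h : j ≤ M) :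
    a ^ j ≤ 1000 ^ M :=
  (pow_le_pow_left₀ h0 h1 j).trans (pow_le_pow_right₀ (by norm_num) h)

private theorem pw_lt {a : ℝ} (h0 : 0 ≤ a) (h1 : a ≤ 1000) {j M : ℕ} (h : j < M) :
    1000 * a ^ j ≤ 1000 ^ M := by
  calc 1000 * a ^ j ≤ 1000 * 1000 ^ j := by gcongr
    _ = 1000 ^ (j + 1) := by ring
    _ ≤ _ := pow_le_pow_right₀ (by norm_num) h

private theorem ni_mul {E E' P : Ms Γ} {a t : ℝ} (h : NI E P a t) (h' : NI E' P a t) (ha : 0 ≤ a)
    (ha1 : a ≤ 1) (ht : 0 ≤ t) (ht1 : t ≤ 1) (hP : Prob P) :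
    NI (E * E') (P * P) (a ^ 2) (3 * t) :=
  (h.mul h' ha ha hP hP).mono (hP.mul hP).1 (sq a).ge (by nlinarith)

/-- The `L∞` bounds.  By induction `Od_j`, `Ev_j` have bound `4 ^ j η` and `Hi_j` has bound
`16 ^ j η²` relative to `T_j` (use `4 ^ j η ≤ 1`), with errors at most `30 ^ j τ ≤ 1`. -/
theorem win_ni {T A₀ A₁ : Ms Γ} (hT : Prob T) {M : ℕ} {η τ : ℝ} (hη : 0 ≤ η) (hτ : 0 ≤ τ)
    (hZη : 1000 ^ M * η ≤ 1) (hZτ : 1000 ^ M * τ ≤ 1)
    (ho : NI ((1 / 2 : ℝ) • (A₁ - A₀)) T η τ) (hf : NI ((1 / 2 : ℝ) • (A₀ + A₁) - T) T η τ) :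
    NI (tmOd A₀ A₁ M - omg T ((1 / 2 : ℝ) • (A₁ - A₀)) M) (T ^ 2 ^ M) (1000 ^ M * η ^ 2)
        (1000 ^ M * τ) ∧
      NI (tmEv T A₀ A₁ M) (T ^ 2 ^ M) (1000 ^ M * η) (1000 ^ M * τ) := by
  have key : ∀ j ≤ M, NI (tmOd A₀ A₁ j) (T ^ 2 ^ j) (4 ^ j * η) (30 ^ j * τ) ∧
      NI (tmEv T A₀ A₁ j) (T ^ 2 ^ j) (4 ^ j * η) (30 ^ j * τ) ∧
      NI (tmOd A₀ A₁ j - omg T ((1 / 2 : ℝ) • (A₁ - A₀)) j) (T ^ 2 ^ j) ((4 ^ j * η) ^ 2)
        (30 ^ j * τ) := by
    intro j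
    induction j with
    | zero =>
      intro _
      simp only [pow_zero, pow_one, one_mul]
      refine ⟨ho, by simpa only [tmEv, tmM, pow_zero, pow_one] using hf, 0, fun w => ?_, ?_⟩
      · have := hT.1 w
        change |(0 : ℝ)| ≤ _
        rw [abs_zero]
        positivity
      · have e : tmOd A₀ A₁ 0 - omg T ((1 / 2 : ℝ) • (A₁ - A₀)) 0 - 0 = 0 := by
          rw [sub_zero]; exact sub_self _
        rw [e, l1_zero]
        exact hτ
    | succ j ih =>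
      intro hj
      obtain ⟨hO, hE, hH⟩ := ih (by omega)
      have hP := hT.pow (2 ^ j)
      have hPP := (hP.mul hP).1
      have ha1 : 4 ^ j * η ≤ 1 := le_trans (mul_le_mul_of_nonneg_right
        (pw_le (by norm_num) (by norm_num) (by omega)) hη) hZη
      have ht1 : 30 ^ j * τ ≤ 1 := le_trans (mul_le_mul_of_nonneg_right
        (pw_le (by norm_num) (by norm_num) (by omega)) hτ) hZτ
      have e1 : (4 : ℝ) ^ (j + 1) * η = 4 * (4 ^ j * η) := by ring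
      have e2 : (30 : ℝ) ^ (j + 1) * τ = 30 * (30 ^ j * τ) := by ring
      have ha : 0 ≤ 4 ^ j * η := by positivity
      have ht : 0 ≤ 30 ^ j * τ := by positivity
      rw [e1, e2, pow_two_pow_succ, tmHi_succ, tmOd_succ T, tmEv_succ]
      generalize 4 ^ j * η = a at *
      generalize 30 ^ j * τ = t at *
      have hOE := (ni_mul hO hE ha ha1 ht ht1 hP).sub (ni_mul hE hO ha ha1 ht ht1 hP)
      refine ⟨?_, ?_, ?_⟩
      · exact (((hO.mul_right ha hP.1 hP).sub (hO.mul_left ha hP.1 hP)).add hOE).mono hPP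
          (by nlinarith) (by linarith)
      · exact (((hE.mul_right ha hP.1 hP).add (hE.mul_left ha hP.1 hP)).add
          ((ni_mul hE hE ha ha1 ht ht1 hP).sub (ni_mul hO hO ha ha1 ht ht1 hP))).mono hPP
          (by nlinarith) (by linarith)
      · exact (((hH.mul_right (sq_nonneg a) hP.1 hP).sub (hH.mul_left (sq_nonneg a) hP.1 hP)).add
          hOE).mono hPP (by nlinarith) (by linarith)
  obtain ⟨-, hE, hH⟩ := key M le_rfl
  have hP := (hT.pow (2 ^ M)).1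
  have ht : 30 ^ M * τ ≤ 1000 ^ M * τ := by gcongr; norm_num
  refine ⟨hH.mono hP ?_ ht, hE.mono hP ?_ ht⟩
  · rw [mul_pow, ← pow_mul, mul_comm M 2, pow_mul]
    gcongr
    norm_num
  · gcongr
    norm_num

section HE
variable {B E F : Ms Γ} {s D D' : ℕ} {α α' β β' τ τ' lam lam' : ℝ}

private theorem HE.mono (h : HE B s D E α β τ lam) (h1 : α ≤ α') (h2 : β ≤ β') (h3 : τ ≤ τ')
    (h4 : lam ≤ lam') : HE B s D E α' β' τ' lam' := by
  obtain ⟨E', e, a1, a2, a3, a4, a5⟩ := h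
  exact ⟨E', e, a1, a2.trans h4, a3, a4.mono h1 h3, a5.mono h2 h3⟩

private theorem HE.add (h : HE B s D E α β τ lam) (h' : HE B s D F α' β' τ' lam') :
    HE B s D (E + F) (α + α') (β + β') (τ + τ') (lam + lam') := by
  obtain ⟨E', e, a1, a2, a3, a4, a5⟩ := h
  obtain ⟨F', f, b1, b2, b3, b4, b5⟩ := h'
  refine ⟨E' + F', e + f, ?_, (l1_add_le _ _).trans (add_le_add a2 b2), ?_, ?_, a5.add b5⟩
  · rw [a1, b1, mul_add, add_mul]; abel
  · rw [mass_add, a3, b3, add_zero]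
  · exact (a4.add b4).congr fun w _ => by simp only [shf, mul_add, add_mul]

private theorem HE.neg (h : HE B s D E α β τ lam) : HE B s D (-E) α β τ lam := by
  obtain ⟨E', e, a1, a2, a3, a4, a5⟩ := h
  refine ⟨-E', -e, ?_, by rwa [l1_neg], ?_, ?_, a5.neg⟩
  · rw [a1, mul_neg, neg_mul, neg_add]
  · rw [← zero_sub, mass_sub, a3, mass_zero, sub_zero]
  · exact a4.neg.congr fun w _ => by simp only [shf, mul_neg, neg_mul]

private theorem HE.sub (h : HE B s D E α β τ lam) (h' : HE B s D F α' β' τ' lam') :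
    HE B s D (E - F) (α + α') (β + β') (τ + τ') (lam + lam') := by
  rw [sub_eq_add_neg]
  exact h.add h'.neg

private theorem hat_n2 {E' P : Ms Γ} (h : F2 (range (2 * s + 1)) (shf B E' s) P α τ) :
    N2 (B ^ s * E' * B ^ s) P α τ := by
  have := h.n2 (i := s) (mem_range.2 (by omega))
  rwa [shf, show 2 * s - s = s by omega] at this

private theorem HE.mul {t : ℝ} (hB : Prob B) (h : HE B s D E α β t lam)
    (h' : HE B s D' F α' β' t lam') (hα : 0 ≤ α) (hα1 : α ≤ 1) (hβ : 0 ≤ β) (hβ1 : β ≤ 1)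
    (hα' : 0 ≤ α') (hα1' : α' ≤ 1) (hβ' : 0 ≤ β') (hβ1' : β' ≤ 1) (ht : 0 ≤ t) (ht1 : t ≤ 1) :
    HE B s (D + D') (E * F) (α * α') (β * (α' + β') + α * β') (9 * t) (2 * lam') := by
  obtain ⟨E', e, a1, a2, a3, a4, a5⟩ := h
  obtain ⟨F', f, b1, b2, b3, b4, b5⟩ := h'
  have hP := hB.pow D
  have hP' := hB.pow D'
  refine ⟨E' * B ^ (2 * s) * F', e * F + B ^ s * E' * B ^ s * f, ?_, ?_, ?_, ?_, ?_⟩
  · rw [a1, add_mul, add_comm (e * F), ← add_assoc]
    congr 1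
    rw [b1, mul_add, two_mul, pow_add]
    simp only [mul_assoc]
  · have c1 := (a4.n2 (i := 0) (mem_range.2 (by omega))).l1_le hα hP
    rw [shf, pow_zero, one_mul, Nat.sub_zero] at c1
    exact (l1_mul_le _ _).trans (mul_le_mul (by linarith) b2 (l1_nonneg _) zero_le_two)
  · rw [mass_mul, b3, mul_zero]
  · rw [pow_add]
    exact ((a4.mul b4 hα hα' hP hP').congr fun w hw =>
      shf_mul B E' F' (Nat.lt_succ_iff.1 (mem_range.1 hw))).mono le_rfl (by nlinarith)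
  · rw [pow_add]
    have c1 : N2 F (B ^ D') (α' + β') (t + t) := b1 ▸ (hat_n2 b4).add b5
    exact ((a5.mul c1 hβ (add_nonneg hα' hβ') hP hP').add
      ((hat_n2 a4).mul b5 hα hβ' hP hP')).mono le_rfl (by nlinarith)

private theorem HE.mul_T {T : Ms Γ} {t γ : ℝ} (hB : Prob B) (h : HE B s D E α β t lam)
    (hg : N2 (T - B ^ D') (B ^ D') γ t) (hT : N2 T (B ^ D') 2 t)
    (hα : 0 ≤ α) (hα1 : α ≤ 1) (hβ : 0 ≤ β) (hβ1 : β ≤ 1) (hγ : 0 ≤ γ) (hγ2 : γ ≤ 2) (ht : 0 ≤ t)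
    (ht1 : t ≤ 1) : HE B s (D + D') (E * T) α (β * 2 + α * γ) (8 * t) lam := by
  obtain ⟨E', e, a1, a2, a3, a4, a5⟩ := h
  have hP := hB.pow D
  have hP' := hB.pow D'
  refine ⟨E' * B ^ D', e * T + B ^ s * E' * B ^ s * (T - B ^ D'), ?_, ?_, ?_, ?_, ?_⟩
  · rw [a1, add_mul, mul_sub]
    have : B ^ s * (E' * B ^ D') * B ^ s = B ^ s * E' * B ^ s * B ^ D' := by
      simp only [mul_assoc]
      rw [pow_mul_comm]
    rw [this]
    abel
  · refine (l1_mul_le _ _).trans ?_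
    rwa [hP'.l1_eq, mul_one]
  · rw [mass_mul, a3, zero_mul]
  · rw [pow_add]
    refine ((a4.mul_right hα hP.1 hP').congr fun w _ => ?_).mono le_rfl (by linarith)
    simp only [shf, mul_assoc]
    rw [pow_mul_comm]
  · rw [pow_add]
    exact ((a5.mul hT hβ zero_le_two hP hP').add
      ((hat_n2 a4).mul hg hα hγ hP hP')).mono le_rfl (by nlinarith)

private theorem HE.T_mul {T : Ms Γ} {t γ : ℝ} (hB : Prob B) (h : HE B s D E α β t lam)
    (hg : N2 (T - B ^ D') (B ^ D') γ t) (hT : N2 T (B ^ D') 2 t)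
    (hα : 0 ≤ α) (hα1 : α ≤ 1) (hβ : 0 ≤ β) (hβ1 : β ≤ 1) (hγ : 0 ≤ γ) (hγ2 : γ ≤ 2) (ht : 0 ≤ t)
    (ht1 : t ≤ 1) : HE B s (D' + D) (T * E) α (β * 2 + α * γ) (8 * t) lam := by
  obtain ⟨E', e, a1, a2, a3, a4, a5⟩ := h
  have hP := hB.pow D
  have hP' := hB.pow D'
  refine ⟨B ^ D' * E', T * e + (T - B ^ D') * (B ^ s * E' * B ^ s), ?_, ?_, ?_, ?_, ?_⟩
  · rw [a1, mul_add, sub_mul]
    have : B ^ s * (B ^ D' * E') * B ^ s = B ^ D' * (B ^ s * E' * B ^ s) := by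
      simp only [← mul_assoc]
      rw [pow_mul_comm]
    rw [this]
    abel
  · refine (l1_mul_le _ _).trans ?_
    rwa [hP'.l1_eq, one_mul]
  · rw [mass_mul, a3, mul_zero]
  · rw [pow_add]
    refine ((a4.mul_left hα hP.1 hP').congr fun w _ => ?_).mono le_rfl (by linarith)
    simp only [shf, ← mul_assoc]
    rw [pow_mul_comm]
  · rw [pow_add]
    exact ((hT.mul a5 zero_le_two hβ hP' hP).add
      (hg.mul (hat_n2 a4) hγ hα hP' hP)).mono (by linarith) (by nlinarith)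

/-- One step of the recursion. -/
private theorem he_step {T O H : Ms Γ} {a b e φ γ t : ℝ} (hB : Prob B)
    (hO : HE B s D O a b t lam) (hE : HE B s D E e φ t lam) (hH : HE B s D H (a * e) (a * φ) t lam)
    (hg : N2 (T - B ^ D) (B ^ D) γ t) (hT : N2 T (B ^ D) 2 t) (hl : 0 ≤ lam)
    (ha1 : a ≤ 1) (hb : 0 ≤ b) (hba : b ≤ a) (he : 0 ≤ e) (he1 : e ≤ 1) (hφ : 0 ≤ φ) (hφ1 : φ ≤ 1)
    (hγ : 0 ≤ γ) (hγ2 : γ ≤ 2) (ht : 0 ≤ t) (ht1 : t ≤ 1) (h1 : a * γ ≤ 4 * b) (h2 : a * φ ≤ b)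
    (h3 : e * γ ≤ 4 * φ) (h4 : a * a ≤ e) (h5 : a * b ≤ φ) (h6 : b * e ≤ a * φ) :
    HE B s (D + D) (O * T - T * O + (O * E - E * O)) (4 * a) (18 * b) (100 * t) (8 * lam) ∧
    HE B s (D + D) (E * T + T * E + (E * E - O * O)) (16 * e) (72 * φ) (100 * t) (8 * lam) ∧
    HE B s (D + D) (H * T - T * H + (O * E - E * O)) (4 * a * (16 * e)) (4 * a * (72 * φ))
      (100 * t) (8 * lam) := by
  have ha : 0 ≤ a := hb.trans hba
  have hb1 : b ≤ 1 := hba.trans ha1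
  have hOE := (hO.mul hB hE ha ha1 hb hb1 he he1 hφ hφ1 ht ht1).sub
    (hE.mul hB hO he he1 hφ hφ1 ha ha1 hb hb1 ht ht1)
  have k1 : a * e ≤ a := mul_le_of_le_one_right ha he1
  have k2 : b * e ≤ b := mul_le_of_le_one_right hb he1
  have k3 : b * φ ≤ b := mul_le_of_le_one_right hb hφ1
  have k4 : e * e ≤ e := mul_le_of_le_one_right he he1
  have k5 : φ * e ≤ φ := mul_le_of_le_one_right hφ he1
  have k6 : φ * φ ≤ φ := mul_le_of_le_one_right hφ hφ1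
  have k7 : b * b ≤ a * b := mul_le_mul_of_nonneg_right hba hb
  have k8 : b * φ ≤ a * φ := mul_le_mul_of_nonneg_right hba hφ
  have k9 : a * (e * γ) ≤ a * (4 * φ) := mul_le_mul_of_nonneg_left h3 ha
  have hae : 0 ≤ a * e := mul_nonneg ha he
  have haφ : 0 ≤ a * φ := mul_nonneg ha hφ
  refine ⟨?_, ?_, ?_⟩
  · exact (((hO.mul_T hB hg hT ha ha1 hb hb1 hγ hγ2 ht ht1).sub
      (hO.T_mul hB hg hT ha ha1 hb hb1 hγ hγ2 ht ht1)).add hOE).mono (by linarith) (by linarith)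
      (by linarith) (by linarith)
  · exact (((hE.mul_T hB hg hT he he1 hφ hφ1 hγ hγ2 ht ht1).add
      (hE.T_mul hB hg hT he he1 hφ hφ1 hγ hγ2 ht ht1)).add
      ((hE.mul hB hE he he1 hφ hφ1 he he1 hφ hφ1 ht ht1).sub
      (hO.mul hB hO ha ha1 hb hb1 ha ha1 hb hb1 ht ht1))).mono (by linarith) (by linarith)
      (by linarith) (by linarith)
  · exact (((hH.mul_T hB hg hT hae (k1.trans ha1) haφ (h2.trans hb1) hγ hγ2 ht ht1).sub
      (hH.T_mul hB hg hT hae (k1.trans ha1) haφ (h2.trans hb1) hγ hγ2 ht ht1)).add hOE).mono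
      (by linarith) (by linarith) (by linarith) (by linarith)

private theorem he_hat {E' : Ms Γ} (hB : Prob B) (h0 : mass (B ^ s * E' * B ^ s) = 0)
    (hl : l1 E' ≤ lam) (h : F2 (range (2 * s + 1)) (shf B E' s) (B ^ D) α τ) (hβ : 0 ≤ β)
    (hτ : 0 ≤ τ) : HE B s D (B ^ s * E' * B ^ s) α β τ lam := by
  refine ⟨E', 0, (add_zero _).symm, hl, ?_, h, 0, L2.zero _ hβ, by rwa [sub_zero, l1_zero]⟩
  rwa [mass_mul, mass_mul, (hB.pow s).2, one_mul, mul_one] at h0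

end HE

/-- The `L²` bounds.  First set up a calculus for `HE B s`: sums; the product of `HE D α β` and
`HE D' α' β'` is `HE (D + D') (α α') (β (α' + β') + α β')` (hat part `E₁ B ^ (2 s) E₂`, `shf_mul`,
`F2.mul`; its `l1` norm is at most `(α + τ) lam' ≤ 2 lam'` as `E₁ B ^ (2 s) = shf B E₁ s 0`; the hat
part `B ^ s E₁ B ^ s = shf B E₁ s s` itself is `N2 α` by `F2.n2`); the product of `HE D α β` with
`T_j = B ^ (m 2^j) + g_j` on either side is `HE (D + m 2^j) α (2 β + α γ_j)` where, by `prod_n2`,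
`T_j` has norm `2` and `g_j` has norm `γ_j = 4 σg √(2^j) ≤ 2`, both with error `4 · 2^j τ`.
With `ε = σf + σo²`, induction on `j ≤ M` gives
`Od_j : HE (4^j σo) (18^j σg σo)`, `Ev_j : HE (16^j ε) (72^j σg ε)`,
`Hi_j : HE (64^j σo ε) (288^j σg σo ε)`, errors `≤ 4 · 100^j τ`, `l1` bounds `≤ 2 · 8^j`
(all norms `α, β` that occur for `j < M` are at most `1`; `72^j σg ≤ 1`, `72^j ε ≤ 1`). -/
theorem win_he {B T A₀ A₁ ot ft : Ms Γ} (hB : Prob B) (hT : Prob T) (h₀ : Prob A₀) (h₁ : Prob A₁)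
    {m s M : ℕ} {σo σf σg τ : ℝ} (hM : 1 ≤ M) (hσo : 0 ≤ σo) (hσf : 0 ≤ σf) (hτ : 0 ≤ τ)
    (hτg : τ ≤ σg) (hZo : 1000 ^ M * σo ≤ 1) (hZf : 1000 ^ M * σf ≤ 1) (hZg : 1000 ^ M * σg ≤ 1)
    (ho : (1 / 2 : ℝ) • (A₁ - A₀) = B ^ s * ot * B ^ s) (hol : l1 ot ≤ 2)
    (ho2 : F2 (range (2 * s + 1)) (shf B ot s) (B ^ m) σo τ)
    (hf : (1 / 2 : ℝ) • (A₀ + A₁) - T = B ^ s * ft * B ^ s) (hfl : l1 ft ≤ 2)
    (hf2 : F2 (range (2 * s + 1)) (shf B ft s) (B ^ m) σf τ)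
    (hg : N2 (T - B ^ m) (B ^ m) σg τ) :
    HE B s (m * 2 ^ M) (tmOd A₀ A₁ M - omg T ((1 / 2 : ℝ) • (A₁ - A₀)) M)
        (1000 ^ M * σo * (σf + σo ^ 2)) (σg * (1000 ^ M * σo * (σf + σo ^ 2))) (1000 ^ M * τ)
        (1000 ^ M) ∧
      HE B s (m * 2 ^ M) (tmEv T A₀ A₁ M) (1000 ^ M * (σf + σo ^ 2))
        (σg * (1000 ^ M * (σf + σo ^ 2))) (1000 ^ M * τ) (1000 ^ M) := by
  have hσg : 0 ≤ σg := hτ.trans hτg
  set ε := σf + σo ^ 2 with hε
  have hε0 : 0 ≤ ε := by positivity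
  have hεo : σo * σo ≤ ε := by rw [hε, sq]; linarith
  have key : ∀ j ≤ M,
      HE B s (m * 2 ^ j) (tmOd A₀ A₁ j) (4 ^ j * σo) (18 ^ j * σg * σo) (4 * 100 ^ j * τ)
        (2 * 8 ^ j) ∧
      HE B s (m * 2 ^ j) (tmEv T A₀ A₁ j) (16 ^ j * ε) (72 ^ j * σg * ε) (4 * 100 ^ j * τ)
        (2 * 8 ^ j) ∧
      HE B s (m * 2 ^ j) (tmOd A₀ A₁ j - omg T ((1 / 2 : ℝ) • (A₁ - A₀)) j)
        (4 ^ j * σo * (16 ^ j * ε)) (4 ^ j * σo * (72 ^ j * σg * ε)) (4 * 100 ^ j * τ)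
        (2 * 8 ^ j) := by
    intro j
    induction j with
    | zero =>
      intro _
      simp only [pow_zero, mul_one, one_mul]
      refine ⟨?_, ?_, ?_⟩
      · have e : tmOd A₀ A₁ 0 = B ^ s * ot * B ^ s := ho
        rw [e]
        refine he_hat hB ?_ hol (ho2.mono le_rfl (by linarith)) (by positivity) (by positivity)
        rw [← ho, mass_smul, mass_sub, h₀.2, h₁.2, sub_self, mul_zero]
      · have e : tmEv T A₀ A₁ 0 = B ^ s * ft * B ^ s := by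
          rw [← hf]; simp only [tmEv, tmM, pow_zero, pow_one]
        rw [e]
        refine he_hat hB ?_ hfl (hf2.mono (by nlinarith) (by linarith)) (by positivity)
          (by positivity)
        rw [← hf, mass_sub, mass_smul, mass_add, h₀.2, h₁.2, hT.2]
        norm_num
      · have e : tmOd A₀ A₁ 0 - omg T ((1 / 2 : ℝ) • (A₁ - A₀)) 0 = B ^ s * 0 * B ^ s := by
          rw [mul_zero, zero_mul]; exact sub_self _
        rw [e]
        refine he_hat hB (by simp) (by simp) ⟨fun _ => 0, fun i _ => ?_, fun c => ?_⟩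
          (by positivity) (by positivity)
        · simp only [shf, mul_zero, zero_mul, sub_zero, l1_zero]
          positivity
        · simp only [smul_zero, sum_const_zero]
          exact L2.zero _ (by positivity)
    | succ j ih =>
      intro hj
      obtain ⟨hO, hE, hH⟩ := ih (by omega)
      have hj' : j < M := hj
      have small : ∀ {x : ℝ} (c : ℝ), 0 ≤ x → 1000 ^ M * x ≤ 1 → 0 ≤ c → c ≤ 1000 →
          c ^ j * x ≤ 1 / 1000 := fun c hx h hc hc' => by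
        have := mul_le_mul_of_nonneg_right (pw_lt hc hc' hj') hx
        linarith
      have so : σo ≤ 1 := by
        have := small 1 hσo hZo (by norm_num) (by norm_num)
        rw [one_pow] at this
        linarith
      have sg : σg ≤ 1 / 1000 := by
        have := small 1 hσg hZg (by norm_num) (by norm_num)
        rwa [one_pow, one_mul] at this
      have s72 : 72 ^ j * ε ≤ 1 := by
        have h1 := small 72 hσo hZo (by norm_num) (by norm_num)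
        have h2 := small 72 hσf hZf (by norm_num) (by norm_num)
        have h3 : 72 ^ j * σo * σo ≤ 72 ^ j * σo := mul_le_of_le_one_right (by positivity) so
        rw [hε]
        nlinarith
      have s2 := small 2 hσg hZg (by norm_num) (by norm_num)
      have s2' : 2 ^ j * τ ≤ 2 ^ j * σg := by gcongr
      have hp := prod_n2 (hB.pow m) hT hσg hτ hg (x := 2 ^ j) (by
        push_cast
        calc (2 : ℝ) ^ j * (σg + τ) ^ 2 ≤ 2 ^ j * (σg + σg) ^ 2 := by gcongr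
          _ = 4 * (2 ^ j * σg * σg) := by ring
          _ ≤ 4 * (1 / 1000 * (1 / 1000)) := by gcongr
          _ ≤ 1 := by norm_num) (by push_cast; linarith)
      rw [← pow_mul] at hp
      push_cast at hp
      have ht' : 4 * 2 ^ j * τ ≤ 4 * 100 ^ j * τ := by gcongr; norm_num
      have hγ : 2 * (σg + τ) * √(2 ^ j) ≤ 4 * (2 ^ j * σg) := by
        have h1 : √(2 ^ j) ≤ 2 ^ j := Real.sqrt_le_iff.2
          ⟨by positivity, le_self_pow₀ (one_le_pow₀ one_le_two) two_ne_zero⟩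
        calc 2 * (σg + τ) * √(2 ^ j) ≤ 2 * (σg + σg) * 2 ^ j := by gcongr
          _ = _ := by ring
      have p1 : (4 : ℝ) ^ j * 2 ^ j ≤ 18 ^ j := by rw [← mul_pow]; gcongr; norm_num
      have p2 : (4 : ℝ) ^ j ≤ 18 ^ j := by gcongr; norm_num
      have p3 : (16 : ℝ) ^ j * 2 ^ j ≤ 72 ^ j := by rw [← mul_pow]; gcongr; norm_num
      have p4 : (4 : ℝ) ^ j * 4 ^ j = 16 ^ j := by rw [← mul_pow]; norm_num
      have p5 : (4 : ℝ) ^ j * 18 ^ j = 72 ^ j := by rw [← mul_pow]; norm_num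
      have p6 : (18 : ℝ) ^ j * 16 ^ j = 4 ^ j * 72 ^ j := by rw [← mul_pow, ← mul_pow]; norm_num
      have := he_step hB hO hE hH (hp.1.mono hγ ht') (hp.2.mono le_rfl ht') (by positivity)
        (by linarith [small 4 hσo hZo (by norm_num) (by norm_num)]) (by positivity)
        (by
          have h1 := small 18 hσg hZg (by norm_num) (by norm_num)
          have h2 : (1 : ℝ) ≤ 4 ^ j := one_le_pow₀ (by norm_num)
          gcongr
          linarith) (by positivity)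
        (le_trans (by gcongr; norm_num) s72) (by positivity)
        (by
          calc 72 ^ j * σg * ε = 72 ^ j * ε * σg := by ring
            _ ≤ 1 * (1 / 1000) := by gcongr
            _ ≤ 1 := by norm_num) (by positivity) (by linarith) (by positivity)
        (by
          have h1 := small 100 hσg hZg (by norm_num) (by norm_num)
          have h2 : 100 ^ j * τ ≤ 100 ^ j * σg := by gcongr
          linarith)
        (by
          calc 4 ^ j * σo * (4 * (2 ^ j * σg)) = 4 * (4 ^ j * 2 ^ j * σg * σo) := by ring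
            _ ≤ _ := by gcongr)
        (by
          calc 4 ^ j * σo * (72 ^ j * σg * ε) = 4 ^ j * σg * σo * (72 ^ j * ε) := by ring
            _ ≤ 18 ^ j * σg * σo * 1 := by gcongr
            _ = _ := mul_one _)
        (by
          calc 16 ^ j * ε * (4 * (2 ^ j * σg)) = 4 * (16 ^ j * 2 ^ j * σg * ε) := by ring
            _ ≤ _ := by gcongr)
        (by
          calc 4 ^ j * σo * (4 ^ j * σo) = 4 ^ j * 4 ^ j * (σo * σo) := by ring
            _ ≤ _ := by rw [p4]; gcongr)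
        (by
          calc 4 ^ j * σo * (18 ^ j * σg * σo) = 4 ^ j * 18 ^ j * σg * (σo * σo) := by ring
            _ ≤ _ := by rw [p5]; gcongr)
        (by
          calc 18 ^ j * σg * σo * (16 ^ j * ε) = 18 ^ j * 16 ^ j * (σg * σo * ε) := by ring
            _ ≤ _ := by rw [p6]; exact le_of_eq (by ring))
      rw [tmHi_succ, tmOd_succ T, tmEv_succ, show m * 2 ^ (j + 1) = m * 2 ^ j + m * 2 ^ j by ring]
      obtain ⟨a1, a2, a3⟩ := this
      exact ⟨a1.mono (le_of_eq (by ring)) (le_of_eq (by ring)) (le_of_eq (by ring))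
        (le_of_eq (by ring)), a2.mono (le_of_eq (by ring)) (le_of_eq (by ring)) (le_of_eq (by ring))
        (le_of_eq (by ring)), a3.mono (le_of_eq (by ring)) (le_of_eq (by ring)) (le_of_eq (by ring))
        (le_of_eq (by ring))⟩
  obtain ⟨-, hE, hH⟩ := key M le_rfl
  have big : ∀ c : ℝ, 0 ≤ c → c ≤ 250 → 4 * c ^ M ≤ 1000 ^ M := fun c h0 h1 => by
    calc 4 * c ^ M ≤ 4 ^ M * 250 ^ M := by
          gcongr
          exact le_self_pow₀ (by norm_num) (by omega)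
      _ = _ := by rw [← mul_pow]; norm_num
  have ht : 4 * 100 ^ M * τ ≤ 1000 ^ M * τ := by gcongr; exact big 100 (by norm_num) (by norm_num)
  have hl : (2 : ℝ) * 8 ^ M ≤ 1000 ^ M := by
    have := big 8 (by norm_num) (by norm_num)
    have : (0 : ℝ) ≤ 8 ^ M := by positivity
    linarith
  refine ⟨hH.mono ?_ ?_ ht hl, hE.mono ?_ ?_ ht hl⟩
  · calc 4 ^ M * σo * (16 ^ M * ε) = (4 * 16) ^ M * σo * ε := by rw [mul_pow]; ring
      _ ≤ _ := by gcongr; norm_num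
  · calc 4 ^ M * σo * (72 ^ M * σg * ε) = σg * ((4 * 72) ^ M * σo * ε) := by rw [mul_pow]; ring
      _ ≤ _ := by gcongr; norm_num
  · gcongr; norm_num
  · calc 72 ^ M * σg * ε = σg * (72 ^ M * ε) := by ring
      _ ≤ _ := by gcongr; norm_num

end Crest.Agent.R300
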