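import Crest.Agent.R300.LPipe
import Crest.Agent.R300.LWin

/-!
# R300 lower bound: one stage of the construction (task LStep)
-/

set_option autoImplicit false

namespace Crest.Agent.R300

open Finset

/-- The numerical hypotheses of one stage. -/
structure StepNum (m s GB G : ℕ) (cB c σo σf σg ηo ηg τ : ℝ)
    (M N₀ N N₁ s' a ρ p Q G' : ℕ) (J θ σ' σg' η' ηg' τ' : ℝ) : Prop where
  hM : 1 ≤ M
  hJ : 4 ≤ J
  hθ : 0 < θ
  hθ1 : θ ≤ 1 / 4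
  hp : 2 ≤ p
  hcB : 0 < cB
  hc : 0 < c
  hσo : 0 ≤ σo
  hσf : 0 ≤ σf
  hηo : 0 ≤ ηo
  hηg : 0 ≤ ηg
  hτ : 0 ≤ τ
  hτg : τ ≤ σg
  hZo : 1000 ^ M * σo ≤ 1
  hZf : 1000 ^ M * σf ≤ 1
  hZg : 1000 ^ M * σg ≤ 1
  hZη : 6 * 1000 ^ M * ηo ≤ 1
  hN₀ : slackN G c (40000 * J * 4 ^ M / θ ^ 2) J ≤ N₀
  hMN : M * N₀ + s' ≤ N
  hN₁ : N₁ ≤ N
  hs' : s' ≤ N₁
  hQ : 1 ≤ Q
  hQD : m * 2 ^ M + 2 * s ≤ Q * (2 * s + 1)
  hL : slackN GB cB a J ≤ ((m * (N₁ - s') + s : ℕ) : ℝ)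
  hR : slackN GB cB (160000 * J * (ρ : ℝ) ^ 2) J + ρ + 2 * s ≤ ((m * (N₁ - s') + s : ℕ) : ℝ)
  hρ : 2 * Real.sqrt (a * J) + 1 ≤ ρ
  hm : s' = 0 ∨ ρ ≤ m
  hpη : p * ηg ≤ 1 / 8
  hpσ : (p : ℝ) ^ 2 * (2 * N₁ + 2 ^ M) * σg ^ 2 ≤ 1
  hpτ : p * (2 * N₁ + 2 ^ M) * τ ≤ 1 / 3
  hσ' : 2 * 1000 ^ M *
      (4 * Real.sqrt Q * (σo * (σf + σo ^ 2) + τ * Real.sqrt (2 * s + 1)) /
          Real.sqrt (Real.sqrt (a + 1)) +
        16 * σg * (σo * (σf + σo ^ 2)) * Real.sqrt (2 * N₁ + 1) * Real.sqrt (2 * s' + 1)) +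
      Real.sqrt (2 * s' + 1) * ((4 * θ) ^ M * ηo) ≤ σ'
  hσg' : 4 * 1000 ^ M *
      (4 * Real.sqrt Q * ((σf + σo ^ 2) + τ * Real.sqrt (2 * s + 1)) /
          Real.sqrt (Real.sqrt (a + 1)) +
        16 * σg * (σf + σo ^ 2) * Real.sqrt (2 * N₁ + 1)) + (4 * θ) ^ M * ηo ≤ σg'
  hσ'1 : σ' ≤ 1
  hη' : 2 * (1000 ^ M * ηo ^ 2 + (4 * θ) ^ M * ηo) ≤ η'
  hηg' : 3 * 1000 ^ M * ηo ≤ ηg'
  hτ' : 10000 * 1000 ^ M * (2 * N₁ + 2 ^ M) *
      Real.sqrt (τ + Real.exp (-J) + 1 / 2 ^ p) ≤ τ'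
  hτ'g : τ' ≤ σg'
  hG'σ : 1024 * (G' + 1) * σg' ^ 2 ≤ 1
  hG'τ : 32 * (G' + 1) * τ' ≤ 1
  hG' : slackN G c (640000 * J * (2 * N + 2 ^ M) ^ 2) J ≤ (((2 * N + 2 ^ M) * G' : ℕ) : ℝ)

namespace LStep

variable {Γ : Type} [Monoid Γ]

theorem l1_half_sub {P Q : Ms Γ} (hP : Prob P) (hQ : Prob Q) : l1 ((1 / 2 : ℝ) • (P - Q)) ≤ 1 := by
  have h := l1_sub_le P Q
  rw [hP.l1_eq, hQ.l1_eq] at h
  rw [l1_smul, abs_of_nonneg (by norm_num)]
  linarith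

theorem l1_even {P Q T : Ms Γ} (hP : Prob P) (hQ : Prob Q) (hT : Prob T) :
    l1 ((1 / 2 : ℝ) • (P + Q) - T) ≤ 2 := by
  have h := l1_add_le P Q
  have h' := l1_sub_le ((1 / 2 : ℝ) • (P + Q)) T
  rw [hP.l1_eq, hQ.l1_eq] at h
  rw [hT.l1_eq, l1_smul, abs_of_nonneg (by norm_num)] at h'
  linarith

theorem l1_sandwich {P Q : Ms Γ} (hP : Prob P) (hQ : Prob Q) (E : Ms Γ) :
    l1 (P * E * Q) ≤ l1 E := by
  have h := l1_mul_le (P * E) Q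
  have h' := l1_mul_le P E
  rw [hQ.l1_eq] at h
  rw [hP.l1_eq] at h'
  linarith

theorem slip_mono {B : Ms Γ} {G : ℕ} {c c' : ℝ} (h : Slip B G c) (hc : c' ≤ c) : Slip B G c' := by
  obtain ⟨V, h1, h2, h3, h4⟩ := h
  exact ⟨V, h1, h2, h3, hc.trans h4⟩

theorem ni_sandwich {T E : Ms Γ} (hT : Prob T) {N D : ℕ} {η τ : ℝ} (hη : 0 ≤ η)
    (h : NI E (T ^ D) η τ) : NI (T ^ N * E * T ^ N) (T ^ (2 * N + D)) η τ := by
  have h1 := (h.mul_left hη (hT.pow D).1 (hT.pow N)).mul_right hη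
    ((hT.pow N).mul (hT.pow D)).1 (hT.pow N)
  rwa [← pow_add, ← pow_add, show N + D + N = 2 * N + D by ring] at h1

theorem to_o {B T E Et : Ms Γ} (hB : Prob B) (hT : Prob T) {m s : ℕ} {σ τ τ' ηg : ℝ}
    (hE : E = B ^ s * Et * B ^ s) (h : F2 (range (2 * s + 1)) (shf B Et s) (B ^ m) σ τ)
    (hg : NI (T - B ^ m) (B ^ m) ηg τ) (hσ : 0 ≤ σ) (hσ1 : σ ≤ 1) (hηg : ηg ≤ 1 / 2)
    (hτ' : τ + Real.sqrt (2 * τ) ≤ τ') :
    F2 (range (2 * 0 + 1)) (shf T E 0) (T ^ 1) (2 * σ) τ' := by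
  have h1 : N2 (shf B Et s s) (B ^ m) σ τ := h.n2 (mem_range.2 (by omega))
  have e : shf B Et s s = E := by rw [hE, shf, show 2 * s - s = s by omega]
  rw [e] at h1
  have h2 := h1.dom hσ (by norm_num) (hB.pow m).1 (Dom.of_ni (hB.pow m).1 hT.1 hg hηg)
  have h3 : Real.sqrt 2 ≤ 2 := Real.sqrt_le_iff.2 ⟨by norm_num, by norm_num⟩
  have h4 : σ * Real.sqrt (2 * τ) ≤ Real.sqrt (2 * τ) :=
    mul_le_of_le_one_left (Real.sqrt_nonneg _) hσ1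
  rw [pow_one]
  refine (n2_iff_f2 (by simp [shf])).1 (h2.mono (mul_le_mul_of_nonneg_right h3 hσ) (by linarith))

theorem exp_neg_le {J : ℝ} (hJ : 4 ≤ J) : 10 * Real.exp (-J) ≤ 1 / 4 := by
  have h1 : (40 : ℝ) ≤ Real.exp J := by
    have e1 := Real.exp_one_gt_d9
    have e2 : Real.exp 4 = Real.exp 1 ^ 4 := by rw [← Real.exp_nat_mul]; norm_num
    have e3 : (2.7 : ℝ) ^ 4 ≤ Real.exp 1 ^ 4 := pow_le_pow_left₀ (by norm_num) (by linarith) 4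
    have e4 := Real.exp_le_exp.2 hJ
    norm_num at e3
    linarith
  have h2 : Real.exp (-J) ≤ 1 / 40 := by
    rw [Real.exp_neg, ← one_div]
    exact one_div_le_one_div_of_le (by norm_num) h1
  linarith

/-- The error terms. -/
theorem errs {Z X Y τ e P η : ℝ} (hZ : 1 ≤ Z) (hX : 1 ≤ X) (hYX : Y ≤ X)
    (hτ : 0 ≤ τ) (hτ1 : τ ≤ 1) (he : 0 ≤ e) (he1 : e ≤ 1) (hP : 1 ≤ P) (hη : 0 ≤ η)
    (hη1 : η ≤ 1) :
    0 ≤ Z * X * Real.sqrt (τ + e + 1 / P) ∧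
    Z * τ ≤ 2 * (Z * X * Real.sqrt (τ + e + 1 / P)) ∧
    Y * (τ + 20 * η * e) ≤ 42 * (Z * X * Real.sqrt (τ + e + 1 / P)) ∧
    ∀ σ, σ ≤ 1 → 200 * X * τ + 42 * (Z * τ) + 8 * Z * e + σ * Real.sqrt (21 / P + 18 * X * τ) ≤
      505 * (Z * X * Real.sqrt (τ + e + 1 / P)) := by
  have hP0 : 0 ≤ 1 / P := by positivity
  have hP1 : 1 / P ≤ 1 := (div_le_one (by linarith)).2 hP
  set u := τ + e + 1 / P with hu
  have hu0 : 0 ≤ u := by positivity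
  set r := Real.sqrt u with hr
  have hr0 : 0 ≤ r := Real.sqrt_nonneg _
  have hrr : r * r = u := Real.mul_self_sqrt hu0
  have hr2 : r ≤ 2 := Real.sqrt_le_iff.2 ⟨by norm_num, by linarith⟩
  have hur : u ≤ 2 * r := by nlinarith
  have h1 : τ ≤ 2 * r := by linarith
  have h2 : e ≤ 2 * r := by linarith
  have hZr : Z * r ≤ Z * X * r :=
    mul_le_mul_of_nonneg_right (le_mul_of_one_le_right (by linarith) hX) hr0
  have hXr : X * r ≤ Z * X * r :=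
    mul_le_mul_of_nonneg_right (le_mul_of_one_le_left (by linarith) hZ) hr0
  have hZτ : Z * τ ≤ Z * (2 * r) := mul_le_mul_of_nonneg_left h1 (by linarith)
  have hZe : Z * e ≤ Z * (2 * r) := mul_le_mul_of_nonneg_left h2 (by linarith)
  have hXτ : X * τ ≤ X * (2 * r) := mul_le_mul_of_nonneg_left h1 (by linarith)
  refine ⟨by positivity, by linarith, ?_, fun σ hσ => ?_⟩
  · have e1 : η * e ≤ e := mul_le_of_le_one_left he hη1
    have e2 : Y * (τ + 20 * η * e) ≤ X * (42 * r) :=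
      mul_le_mul hYX (by linarith) (by positivity) (by linarith)
    linarith
  · have e1 : Real.sqrt (21 / P + 18 * X * τ) ≤ 5 * X * r := by
      refine Real.sqrt_le_iff.2 ⟨by positivity, ?_⟩
      have a1 : (5 * X * r) ^ 2 = 25 * (X * X) * u := by rw [← hrr]; ring
      have a2 : X ≤ X * X := le_mul_of_one_le_left (by linarith) hX
      have a3 : X * u ≤ X * X * u := mul_le_mul_of_nonneg_right a2 hu0
      have a4 : 1 / P ≤ X * (1 / P) := le_mul_of_one_le_left hP0 hX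
      have a5 : X * u = X * τ + X * e + X * (1 / P) := by rw [hu]; ring
      have a6 : 0 ≤ X * e := by positivity
      have a7 : 0 ≤ X * τ := by positivity
      have a8 : 21 / P = 21 * (1 / P) := by ring
      rw [a1, a8]
      linarith
    have e2 : σ * Real.sqrt (21 / P + 18 * X * τ) ≤ Real.sqrt (21 / P + 18 * X * τ) :=
      mul_le_of_le_one_left (Real.sqrt_nonneg _) hσ
    linarith

end LStep

/-- One stage.  With `B = law q b`, `T = law q t`, `A_i = law q x_i`, `m' = 2 N + 2 ^ M`,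
`t' = t^N (tmW x₀ x₁ M).1 t^N`, `v' = t^N (tmW x₀ x₁ M).2 t^N`: both the odd and the even part of the
new pair `(t', v')` relative to the background `t'` equal `o' = T ^ N Od_M T ^ N`
`= T ^ s' (T ^ (N - s') Od_M T ^ (N - s')) T ^ s'`, and `law t' - T ^ m' = T ^ N (Ev_M - Od_M) T ^ N`
(`tmM_fst`).  Split `Od_M = Hi_M + omg T o M`.
* Family bound for `o'`: `pipe` (with `D = 2 ^ M`) for `Hi_M` (`win_he`), `omega_ni`, `NI.n2` and
  `F2.of_n2` for the `omg` part (slack `N₀` from `slack_of_slip`).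
* `g2`: `pipe` with `s' = 0` for `Ev_M` and for `Hi_M` (member `w = 0`; `σo ≤ 1`), `omega_ni`.
* `gI`: `win_ni`, `omega_ni`.  `oddI`, `evenI`: the same relative to `T ^ m'`, then `Dom.of_ni`
  (`3 Z ηo ≤ 1/2`) and `NI.dom`.
* `slipT`: `slip_transfer` with `l1_shift` (`θ = 1/4`, `10 exp (-J) ≤ 1/4`).
* Errors: with `u = τ + exp (-J) + 1 / 2 ^ p ≤ 3`, `u ≤ 2 √u`, `X = 2 N₁ + 2 ^ M ≥ 1`, each is at most
  `10000 Z X √u` (`σ₁ ≤ 1` because `σ' ≤ 1`, `σg' ≤ 1`). -/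
theorem Pre.step {q : ℝ} (hq0 : 0 ≤ q) (hq1 : q ≤ 1) {b t x₀ x₁ : List Bool} {m s GB G : ℕ}
    {cB c σo σf σg ηo ηg τ : ℝ} (h : Pre q b t x₀ x₁ m s GB G cB c σo σf σg ηo ηg τ)
    {M N₀ N N₁ s' a ρ p Q G' : ℕ} {J θ σ' σg' η' ηg' τ' : ℝ}
    (hn : StepNum m s GB G cB c σo σf σg ηo ηg τ M N₀ N N₁ s' a ρ p Q G' J θ σ' σg' η' ηg' τ') :
    ∃ t' v' : List Bool, t'.length = (2 * N + 2 ^ M) * t.length ∧
      Pre q t t' t' v' (2 * N + 2 ^ M) s' G G' c (1 / 2) σ' σ' σg' η' ηg' τ' := by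
  obtain ⟨ot, ho, hol, ho2⟩ := h.odd
  obtain ⟨ft, hf, hfl, hf2⟩ := h.even
  have hB := prob_law hq0 hq1 b
  have hT := prob_law hq0 hq1 t
  have h₀ := prob_law hq0 hq1 x₀
  have h₁ := prob_law hq0 hq1 x₁
  have hx : x₀.length = x₁.length := h.len₀.trans h.len₁.symm
  obtain ⟨hl₀, hl₁⟩ := length_tmW hx M
  obtain ⟨hw₀, hw₁⟩ := law_tmW q x₀ x₁ M
  have hoI := h.oddI
  have heI := h.evenI
  have hg2 := h.g2
  have hgI := h.gI
  have hsB := h.slipB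
  have hsT := h.slipT
  set B := law q b
  set T := law q t
  set A₀ := law q x₀
  set A₁ := law q x₁
  obtain ⟨hP₀, hP₁⟩ := tmM_prob h₀ h₁ M
  -- numerics
  have hσo := hn.hσo
  have hσf := hn.hσf
  have hηo := hn.hηo
  have hτ := hn.hτ
  have hτg := hn.hτg
  have hσg : 0 ≤ σg := hτ.trans hτg
  have hθ := hn.hθ
  have hJ : 1 ≤ J := by linarith [hn.hJ]
  have hZ : (1 : ℝ) ≤ 1000 ^ M := one_le_pow₀ (by norm_num)
  have hZo := hn.hZo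
  have hZf := hn.hZf
  have hZg := hn.hZg
  have hZη := hn.hZη
  have hZτ : 1000 ^ M * τ ≤ 1 := (mul_le_mul_of_nonneg_left hτg (by linarith)).trans hZg
  have hσo1 : σo ≤ 1 := (le_mul_of_one_le_left hσo hZ).trans hZo
  have hσf1 : σf ≤ 1 := (le_mul_of_one_le_left hσf hZ).trans hZf
  have hτ1 : τ ≤ 1 := (le_mul_of_one_le_left hτ hZ).trans hZτ
  have hηZ : ηo ≤ 1000 ^ M * ηo := le_mul_of_one_le_left hηo hZ
  have hηo1 : ηo ≤ 1 := by linarith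
  have hθM : (4 * θ) ^ M ≤ 1 := pow_le_one₀ (by linarith) (by linarith [hn.hθ1])
  have hθη0 : 0 ≤ (4 * θ) ^ M * ηo := by positivity
  have hθη : (4 * θ) ^ M * ηo ≤ ηo := mul_le_of_le_one_left hηo hθM
  have hZη2 : 1000 ^ M * ηo ^ 2 ≤ 1000 ^ M * ηo :=
    mul_le_mul_of_nonneg_left (by nlinarith) (by linarith)
  have hZη20 : 0 ≤ 1000 ^ M * ηo ^ 2 := by positivity
  have hε0 : 0 ≤ σf + σo ^ 2 := by positivity
  have hα' : 1000 ^ M * (σf + σo ^ 2) ≤ 2 := by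
    have : 1000 ^ M * σo * σo ≤ 1 := mul_le_one₀ hZo hσo hσo1
    nlinarith
  have hαα : 1000 ^ M * σo * (σf + σo ^ 2) ≤ 1000 ^ M * (σf + σo ^ 2) :=
    mul_le_mul_of_nonneg_right (mul_le_of_le_one_right (by linarith) hσo1) hε0
  have hα0 : 0 ≤ 1000 ^ M * σo * (σf + σo ^ 2) := by positivity
  have hY : (1 : ℝ) ≤ 2 ^ M := one_le_pow₀ (by norm_num)
  have hN₁0 : (0 : ℝ) ≤ N₁ := Nat.cast_nonneg _
  obtain ⟨hW, hE0, hE2, hE1⟩ := LStep.errs (Z := 1000 ^ M) (X := 2 * N₁ + 2 ^ M) (Y := 2 ^ M)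
    (P := 2 ^ p) hZ (by linarith) (by linarith) hτ hτ1 (Real.exp_pos (-J)).le
    (Real.exp_le_one_iff.2 (by linarith)) (one_le_pow₀ (by norm_num)) hηo hηo1
  have hτ' := hn.hτ'
  rw [mul_assoc, mul_assoc, ← mul_assoc ((1000 : ℝ) ^ M)] at hτ'
  have hτ'0 : 0 ≤ τ' := by linarith
  have hσg'1 : σg' ≤ 1 := by
    by_contra hc
    have e1 : 1 ≤ σg' ^ 2 := one_le_pow₀ (not_le.1 hc).le
    have e2 := hn.hG'σ
    have e3 : (0 : ℝ) ≤ G' := Nat.cast_nonneg _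
    nlinarith
  have hMN := hn.hMN
  have hN₁ := hn.hN₁
  have hs' := hn.hs'
  -- the pieces
  obtain ⟨hHi, hEv⟩ := win_he hB hT h₀ h₁ hn.hM hσo hσf hτ hτg hZo hZf hZg ho hol ho2 hf hfl hf2 hg2
  obtain ⟨hHiI, hEvI⟩ := win_ni hT (M := M) hηo hτ (by linarith) hZτ hoI heI
  have hsl := slack_of_slip hT hsT hn.hc (by positivity) (by linarith) hn.hN₀
  have hom : ∀ x y : ℕ, M * N₀ ≤ x → M * N₀ ≤ y → x + y = 2 * N →
      NI (T ^ x * omg T ((1 / 2 : ℝ) • (A₁ - A₀)) M * T ^ y) (T ^ (2 * N + 2 ^ M))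
        ((4 * θ) ^ M * ηo) (2 ^ M * (τ + 20 * ηo * Real.exp (-J))) := fun x y hx hy hxy => by
    rw [← hxy]
    exact omega_ni hT hJ hθ hn.hθ1 hηo hτ hsl (Nat.le_ceil _) hoI hx hy
  have hfst := tmM_fst T A₀ A₁ M
  have hOd : tmOd A₀ A₁ M = (1 / 2 : ℝ) • ((tmM A₀ A₁ M).2 - (tmM A₀ A₁ M).1) := rfl
  set Od := tmOd A₀ A₁ M
  set Ev := tmEv T A₀ A₁ M
  set Om := omg T ((1 / 2 : ℝ) • (A₁ - A₀)) M
  set P₀ := (tmM A₀ A₁ M).1
  set P₁ := (tmM A₀ A₁ M).2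
  have hTm := hT.pow (2 * N + 2 ^ M)
  have hpσ : (p : ℝ) ^ 2 * (2 * N₁ + ((2 ^ M : ℕ) : ℝ)) * σg ^ 2 ≤ 1 := by
    push_cast; exact hn.hpσ
  have hpτ : (p : ℝ) * (2 * N₁ + ((2 ^ M : ℕ) : ℝ)) * τ ≤ 1 / 3 := by
    push_cast; exact hn.hpτ
  have hT' : Prob (T ^ N * P₀ * T ^ N) := ((hT.pow N).mul hP₀).mul (hT.pow N)
  have hdiff : T ^ N * P₀ * T ^ N - T ^ (2 * N + 2 ^ M) =
      T ^ N * Ev * T ^ N - T ^ N * (Od - Om) * T ^ N - T ^ N * Om * T ^ N := by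
    rw [hfst, show 2 * N + 2 ^ M = N + 2 ^ M + N by ring, pow_add, pow_add]
    noncomm_ring
  have hodd : (1 / 2 : ℝ) • (T ^ N * P₁ * T ^ N - T ^ N * P₀ * T ^ N) = T ^ N * Od * T ^ N := by
    rw [hOd, mul_smul_comm, smul_mul_assoc, mul_sub, sub_mul]
  have heven : (1 / 2 : ℝ) • (T ^ N * P₀ * T ^ N + T ^ N * P₁ * T ^ N) - T ^ N * P₀ * T ^ N =
      T ^ N * Od * T ^ N := by
    rw [← hodd]; module
  -- the family
  have hfam : ∃ ot', T ^ N * Od * T ^ N = T ^ s' * ot' * T ^ s' ∧ l1 ot' ≤ 2 ∧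
      F2 (range (2 * s' + 1)) (shf T ot' s') (T ^ (2 * N + 2 ^ M)) σ' τ' := by
    refine ⟨T ^ (N - s') * Od * T ^ (N - s'), ?_, ?_, ?_⟩
    · rw [← mul_assoc, ← mul_assoc, ← pow_add, mul_assoc _ (T ^ (N - s')), ← pow_add,
        show s' + (N - s') = N by omega, show N - s' + s' = N by omega]
    · refine (LStep.l1_sandwich (hT.pow _) (hT.pow _) _).trans ?_
      rw [hOd]
      linarith [LStep.l1_half_sub hP₁ hP₀]
    · have hσ' := hn.hσ'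
      set σ₁ : ℝ := 1000 ^ M *
        (4 * Real.sqrt Q * (σo * (σf + σo ^ 2) + τ * Real.sqrt (2 * s + 1)) /
          Real.sqrt (Real.sqrt (a + 1)) +
        16 * σg * (σo * (σf + σo ^ 2)) * Real.sqrt (2 * N₁ + 1) * Real.sqrt (2 * s' + 1)) with hσ₁
      rw [mul_assoc 2, ← hσ₁] at hσ'
      have e0 : 0 ≤ Real.sqrt (2 * s' + 1) * ((4 * θ) ^ M * ηo) := by positivity
      have e1 := pipe hB hT hsB hn.hcB hJ hτ hτg hn.hηg hα0 (hαα.trans hα') (by positivity) hZτ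
        Nat.one_le_two_pow hg2 hgI hHi hN₁ hs' hn.hQ hn.hQD hn.hL hn.hR hn.hρ hn.hm hn.hp hn.hpη
        hpσ hpτ (σ₁ := σ₁) (le_of_eq (by rw [hσ₁]; ring))
      have e2 := F2.of_n2 (I := range (2 * s' + 1))
        (F := fun w => T ^ (N - s' + w) * Om * T ^ (N + s' - w)) hθη0 fun w hw => by
          have := mem_range.1 hw
          exact (hom _ _ (by omega) (by omega) (by omega)).n2 hθη0 hTm
      have e3 := hE1 σ₁ (by linarith [hn.hσ'1])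
      rw [card_range] at e2
      push_cast at e1 e2
      refine ((e1.add e2).mono hσ' (by linarith)).congr fun w hw => ?_
      have := mem_range.1 hw
      rw [shf, ← mul_assoc, ← mul_assoc, ← pow_add, mul_assoc _ (T ^ (N - s')), ← pow_add,
        show w + (N - s') = N - s' + w by omega, show N - s' + (2 * s' - w) = N + s' - w by omega]
      noncomm_ring
  -- the new background against the old one
  have hg2' : N2 (T ^ N * P₀ * T ^ N - T ^ (2 * N + 2 ^ M)) (T ^ (2 * N + 2 ^ M)) σg' τ' := by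
    have hσg' := hn.hσg'
    set σ₁ : ℝ := 1000 ^ M *
      (4 * Real.sqrt Q * ((σf + σo ^ 2) + τ * Real.sqrt (2 * s + 1)) /
          Real.sqrt (Real.sqrt (a + 1)) +
        16 * σg * (σf + σo ^ 2) * Real.sqrt (2 * N₁ + 1)) with hσ₁
    rw [mul_assoc 4, ← hσ₁] at hσg'
    have hle : ((m * (N₁ - s') + s : ℕ) : ℝ) ≤ ((m * (N₁ - 0) + s : ℕ) : ℝ) := by
      exact_mod_cast Nat.add_le_add_right (Nat.mul_le_mul_left m (by omega)) s
    have hpipe : ∀ (E : Ms W) (α : ℝ), 0 ≤ α → α ≤ 1000 ^ M * (σf + σo ^ 2) →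
        HE B s (m * 2 ^ M) E α (σg * α) (1000 ^ M * τ) (1000 ^ M) →
        N2 (T ^ N * E * T ^ N) (T ^ (2 * N + 2 ^ M)) (2 * σ₁)
          (505 * (1000 ^ M * (2 * N₁ + 2 ^ M) * Real.sqrt (τ + Real.exp (-J) + 1 / 2 ^ p))) := by
      intro E α a0 a1 hE
      have e1 := pipe hB hT hsB hn.hcB hJ hτ hτg hn.hηg a0 (a1.trans hα') (by positivity) hZτ
        Nat.one_le_two_pow hg2 hgI hE hN₁ (Nat.zero_le _) hn.hQ hn.hQD (hn.hL.trans hle)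
        (hn.hR.trans hle) hn.hρ (Or.inl rfl) hn.hp hn.hpη hpσ hpτ (σ₁ := σ₁) (by
          have b1 : σ₁ = 4 * Real.sqrt Q * (1000 ^ M * (σf + σo ^ 2) +
              1000 ^ M * τ * Real.sqrt (2 * s + 1)) / Real.sqrt (Real.sqrt (a + 1)) +
              16 * σg * (1000 ^ M * (σf + σo ^ 2)) * Real.sqrt (2 * N₁ + 1) := by
            rw [hσ₁]; ring
          rw [b1, Nat.cast_zero, mul_zero, zero_add, Real.sqrt_one, mul_one]
          gcongr)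
      have e2 := e1.n2 (i := 0) (by simp)
      push_cast at e2
      exact e2.mono le_rfl (hE1 σ₁ (by linarith))
    have e1 := hpipe _ _ (by positivity) le_rfl hEv
    have e2 := hpipe _ _ hα0 hαα hHi
    have e3 := (hom N N (by omega) (by omega) (by omega)).n2 hθη0 hTm
    rw [hdiff]
    exact ((e1.sub e2).sub e3).mono (by linarith) (by linarith)
  have i1 := LStep.ni_sandwich hT (N := N) (by positivity) hEvI
  have i2 := LStep.ni_sandwich hT (N := N) hZη20 hHiI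
  have i3 := hom N N (by omega) (by omega) (by omega)
  have hgI' := (i1.sub i2).sub i3
  rw [← hdiff] at hgI'
  have hoI' : NI (T ^ N * Od * T ^ N) (T ^ N * P₀ * T ^ N) η' τ' := by
    have e1 := i2.add i3
    rw [show T ^ N * (Od - Om) * T ^ N + T ^ N * Om * T ^ N = T ^ N * Od * T ^ N by
      noncomm_ring] at e1
    have e2 := e1.dom (by linarith) hTm.1 (Dom.of_ni hTm.1 hT'.1 hgI' (by linarith))
    refine e2.mono hT'.1 hn.hη' ?_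
    have e3 : 0 ≤ 1000 ^ M * τ + 1000 ^ M * τ + 2 ^ M * (τ + 20 * ηo * Real.exp (-J)) := by
      positivity
    have e4 := mul_le_of_le_one_left (a := 1000 ^ M * ηo ^ 2 + (4 * θ) ^ M * ηo)
      (mul_nonneg (show (0 : ℝ) ≤ 2 by norm_num) e3) (by linarith)
    linarith
  have hslip : Slip (T ^ N * P₀ * T ^ N) G' (1 / 2) := by
    refine slip_transfer hT hT' hτ'0 hn.hτ'g hg2' hn.hG'σ hn.hG'τ ?_
    have e1 := slack_of_slip hT hsT hn.hc (by positivity) (by linarith) hn.hG'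
    have e2 := l1_shift hT (h := 2 * N + 2 ^ M) (θ := 1 / 4) hJ (by norm_num) (by norm_num) e1
      (le_trans (le_of_eq (by push_cast; ring)) (Nat.le_ceil _))
    linarith [LStep.exp_neg_le hn.hJ]
  have hlaw₀ : law q (rep t N ++ (tmW x₀ x₁ M).1 ++ rep t N) = T ^ N * P₀ * T ^ N := by
    rw [law_append, law_append, law_rep, hw₀]
  have hlaw₁ : law q (rep t N ++ (tmW x₀ x₁ M).2 ++ rep t N) = T ^ N * P₁ * T ^ N := by
    rw [law_append, law_append, law_rep, hw₁]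
  refine ⟨rep t N ++ (tmW x₀ x₁ M).1 ++ rep t N, rep t N ++ (tmW x₀ x₁ M).2 ++ rep t N, ?_,
    ⟨rfl, ?_, ?_, le_add_right (by omega), hsT, ?_, ?_, ?_, ?_, ?_, ?_, ?_⟩⟩
  · rw [List.length_append, List.length_append, length_rep, hl₀, h.len₀]; ring
  · simp only [List.length_append, hl₀, hl₁]
  · intro he
    exact tmW_ne hx h.ne M (List.append_cancel_left (List.append_cancel_right he))
  · rw [hlaw₀]; exact hslip
  · rw [hlaw₀, hlaw₁, hodd]; exact hfam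
  · rw [hlaw₀, hlaw₁, heven]; exact hfam
  · rw [hlaw₀, hlaw₁, hodd]; exact hoI'
  · rw [hlaw₀, hlaw₁, heven]; exact hoI'
  · rw [hlaw₀]; exact hg2'
  · rw [hlaw₀]; exact hgI'.mono hTm.1 (by linarith [hn.hηg']) (by linarith)

/-- Forget the finer background: the member `w = s` of the families is `o` (resp. `f`); change the
reference from `B ^ m` to `T` by `Dom.of_ni` and `N2.dom`. -/
theorem Pre.toO {q : ℝ} (hq0 : 0 ≤ q) (hq1 : q ≤ 1) {b t x₀ x₁ : List Bool} {m s GB G : ℕ}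
    {cB c σo σf σg ηo ηg τ τ' : ℝ} (h : Pre q b t x₀ x₁ m s GB G cB c σo σf σg ηo ηg τ)
    (hσo : 0 ≤ σo) (hσo1 : σo ≤ 1) (hσf : 0 ≤ σf) (hσf1 : σf ≤ 1) (hηg : ηg ≤ 1 / 2)
    (hτ' : τ + Real.sqrt (2 * τ) ≤ τ') :
    Pre q t t x₀ x₁ 1 0 G G c c (2 * σo) (2 * σf) τ' ηo 0 τ' := by
  obtain ⟨ot, ho, -, ho2⟩ := h.odd
  obtain ⟨ft, hf, -, hf2⟩ := h.even
  have hB := prob_law hq0 hq1 b
  have hT := prob_law hq0 hq1 t
  have h₀ := prob_law hq0 hq1 x₀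
  have h₁ := prob_law hq0 hq1 x₁
  have hτ : 0 ≤ τ := by
    obtain ⟨E, -, hE⟩ := h.gI
    exact (l1_nonneg _).trans hE
  have hττ : τ ≤ τ' := by linarith [Real.sqrt_nonneg (2 * τ)]
  refine ⟨h.len₀, h.len₁, h.ne, by omega, h.slipT, h.slipT,
    ⟨_, by rw [pow_zero, one_mul, mul_one], (LStep.l1_half_sub h₁ h₀).trans (by norm_num),
      LStep.to_o hB hT ho ho2 h.gI hσo hσo1 hηg hτ'⟩,
    ⟨_, by rw [pow_zero, one_mul, mul_one], LStep.l1_even h₀ h₁ hT,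
      LStep.to_o hB hT hf hf2 h.gI hσf hσf1 hηg hτ'⟩,
    h.oddI.mono hT.1 le_rfl hττ, h.evenI.mono hT.1 le_rfl hττ, ?_, ?_⟩
  · refine ⟨0, L2.zero _ (hτ.trans hττ), ?_⟩
    rw [pow_one, sub_self, sub_self, l1_zero]
    exact hτ.trans hττ
  · refine ⟨0, fun w => by simp, ?_⟩
    rw [pow_one, sub_self, sub_self, l1_zero]
    exact hτ.trans hττ

theorem Pre.mono {q : ℝ} (hq0 : 0 ≤ q) (hq1 : q ≤ 1) {b t x₀ x₁ : List Bool} {m s GB G : ℕ}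
    {cB c σo σf σg ηo ηg τ cB' c' σo' σf' σg' ηo' ηg' τ' : ℝ}
    (h : Pre q b t x₀ x₁ m s GB G cB c σo σf σg ηo ηg τ) (h₁ : cB' ≤ cB) (h₂ : c' ≤ c)
    (h₃ : σo ≤ σo') (h₄ : σf ≤ σf') (h₅ : σg ≤ σg') (h₆ : ηo ≤ ηo') (h₇ : ηg ≤ ηg')
    (h₈ : τ ≤ τ') : Pre q b t x₀ x₁ m s GB G cB' c' σo' σf' σg' ηo' ηg' τ' := by
  obtain ⟨ot, ho, hol, ho2⟩ := h.odd
  obtain ⟨ft, hf, hfl, hf2⟩ := h.even
  have hB := prob_law hq0 hq1 b
  have hT := prob_law hq0 hq1 t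
  exact ⟨h.len₀, h.len₁, h.ne, h.sm, LStep.slip_mono h.slipB h₁, LStep.slip_mono h.slipT h₂,
    ⟨ot, ho, hol, ho2.mono h₃ h₈⟩, ⟨ft, hf, hfl, hf2.mono h₄ h₈⟩, h.oddI.mono hT.1 h₆ h₈,
    h.evenI.mono hT.1 h₆ h₈, h.g2.mono h₅ h₈, h.gI.mono (hB.pow m).1 h₇ h₈⟩

end Crest.Agent.R300
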