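import Crest.Agent.R300.UDefs
import Crest.Prelude.Def_TraceRecon

/-!
# R300 upper bound: trace statistics (task UAcc1)

It is convenient to prove list versions first (induction on the mask `S`, summing over all masks of a
given length), and to describe `gapW` by a recursion on masks: for `w : ℕ → ℂ`,
`gw w [] = 1`, `gw w (false :: S) = (if S.any id then w 0 else 1) * gw w S`,
`gw w (true :: S) = gw (fun j => w (j + 1)) S`.
-/

set_option autoImplicit false

namespace Crest.Agent.R300

open Finset Crest.FinProb Crest.TraceRecon

variable {n : ℕ}

private theorem uacc1_sum_succ {M : Type} [AddCommMonoid M] (F : (Fin (n + 1) → Bool) → M) :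
    ∑ s, F s = ∑ s : Fin n → Bool, F (Fin.cons true s) + ∑ s : Fin n → Bool, F (Fin.cons false s) := by
  rw [← (Fin.consEquiv fun _ : Fin (n + 1) => Bool).sum_comp, Fintype.sum_prod_type,
    Fintype.sum_bool]
  rfl

private theorem uacc1_sum_set {M : Type} [AddCommMonoid M] (F : (Fin n → Bool) → M) :
    ∑ S : Finset (Fin n), F (fun i => decide (i ∈ S)) = ∑ s, F s := by
  refine Fintype.sum_bijective (fun (S : Finset (Fin n)) i => decide (i ∈ S)) ⟨?_, ?_⟩ _ _
    fun _ => rfl
  · intro S T h
    ext i
    simpa using congrFun h i
  · intro s
    exact ⟨univ.filter fun i => s i = true, by funext i; simp⟩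

private theorem uacc1_ofFn_cons (b : Bool) (s : Fin n → Bool) :
    List.ofFn (Fin.cons b s : Fin (n + 1) → Bool) = b :: List.ofFn s := by
  simp [List.ofFn_succ]

private theorem uacc1_any (S : List Bool) : S.any id = true ↔ S.count true ≠ 0 := by
  simp [List.count_eq_zero]

private theorem uacc1_any' (S : List Bool) : S.any id = true ↔ ∃ i, S.getD i false = true := by
  induction S with
  | nil => simp
  | cons b S ih =>
    rw [List.any_cons, Bool.or_eq_true, ih]
    constructor
    · rintro (h | ⟨i, hi⟩)
      · exact ⟨0, by simpa using h⟩
      · exact ⟨i + 1, by simpa using hi⟩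
    · rintro ⟨_ | i, hi⟩
      · exact Or.inl (by simpa using hi)
      · exact Or.inr ⟨i, by simpa using hi⟩

theorem pm_nonneg {p : ℚ} (h0 : 0 ≤ p) (h1 : p ≤ 1) (S U : List Bool) : 0 ≤ pm p S U := by
  have h2 : 0 ≤ 1 - p := by linarith
  induction S generalizing U with
  | nil => unfold pm; split_ifs <;> norm_num
  | cons b S ih =>
    unfold pm
    have h3 := ih U
    have h4 := ih U.tail
    split_ifs <;> positivity

theorem pm_eq_zero (p : ℚ) {S U : List Bool} (h : S.count true ≠ U.count true) : pm p S U = 0 := by
  induction S generalizing U with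
  | nil =>
    have : U.any id = true := (uacc1_any U).2 fun h' => h (by simp [h'])
    simp [pm, this]
  | cons b S ih =>
    cases b <;> cases U with
    | nil =>
      simp only [pm, List.headD_nil, List.tail_nil]
      first
        | (have := ih (U := []) (by simpa using h); simp [this])
        | simp
    | cons u U =>
      cases u
      all_goals simp only [pm, List.headD_cons, List.tail_cons]
      all_goals first
        | (have h1 := ih (U := false :: U) (by simpa using h)
           have h2 := ih (U := U) (by simpa using h)
           simp [h1, h2])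
        | (have h1 := ih (U := true :: U) (by simpa using h); simp [h1])
        | simp

theorem count_toMask (S : Finset (Fin n)) : (toMask S).count true = S.card := by
  have key : ∀ (m : ℕ) (s : Fin m → Bool),
      (List.ofFn s).count true = ∑ i, if s i = true then 1 else 0 := by
    intro m s
    induction m with
    | zero => simp
    | succ m ih =>
      rw [List.ofFn_succ, List.count_cons, ih, Fin.sum_univ_succ, add_comm]
      simp
  rw [toMask, key]
  simp

theorem sum_pm_le {p : ℚ} (h0 : 0 ≤ p) (h1 : p ≤ 1) (U : List Bool) :
    ∑ S : Finset (Fin n), pm p (toMask S) U ≤ 1 := by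
  have h2 : 0 ≤ 1 - p := by linarith
  have key : ∀ (m : ℕ) (U : List Bool), ∑ s : Fin m → Bool, pm p (List.ofFn s) U ≤ 1 := by
    intro m
    induction m with
    | zero =>
      intro U
      simp only [Finset.univ_unique, Finset.sum_singleton, List.ofFn_zero, pm]
      split_ifs <;> norm_num
    | succ m ih =>
      intro U
      rw [uacc1_sum_succ]
      have e1 := mul_le_mul_of_nonneg_left (ih U) h2
      have e2 := mul_le_mul_of_nonneg_left (ih U.tail) h0
      cases hU : U.headD false
      all_goals
        simp only [uacc1_ofFn_cons, pm, hU, if_true, Bool.false_eq_true, Bool.true_eq_false,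
          if_false, add_zero, zero_add, Finset.sum_const_zero, Finset.sum_add_distrib,
          ← Finset.mul_sum]
        linarith
  exact (uacc1_sum_set fun s => pm p (List.ofFn s) U).trans_le (key n U)

private theorem uacc1_hit_iff (U τ : List Bool) :
    hit U τ = true ↔ ∀ j, U.getD j false = true → τ.getD j false = true := by
  simp only [hit, List.all_eq_true, List.mem_range, Bool.or_eq_true, Bool.not_eq_true']
  constructor
  · intro h j hj
    by_cases hlt : j < U.length
    · rcases h j hlt with h1 | h1
      · rw [h1] at hj; exact absurd hj (by simp)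
      · exact h1
    · rw [List.getD_eq_default _ _ (by omega)] at hj
      exact absurd hj (by simp)
  · intro h j _
    cases hU : U.getD j false
    · exact Or.inl rfl
    · exact Or.inr (h j hU)

private theorem uacc1_hit_nil (U : List Bool) : hit U [] = true ↔ ¬ U.any id = true := by
  rw [uacc1_hit_iff, uacc1_any']
  simp

private theorem uacc1_hit_cons (U τ : List Bool) (a : Bool) :
    hit U (a :: τ) = true ↔ (U.headD false = true → a = true) ∧ hit U.tail τ = true := by
  rw [uacc1_hit_iff, uacc1_hit_iff]
  cases U with
  | nil => simp
  | cons u U =>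
    constructor
    · intro h
      exact ⟨by simpa using h 0, fun j => by simpa using h (j + 1)⟩
    · rintro ⟨h1, h2⟩ (_ | j)
      · simpa using h1
      · simpa using h2 j

private theorem uacc1_trace_cons (x : Fin (n + 1) → Bool) (b : Bool) (keep : Fin n → Bool) :
    traceOf x (Fin.cons b keep) =
      if b then x 0 :: traceOf (fun i => x i.succ) keep else traceOf (fun i => x i.succ) keep := by
  cases b <;> simp [traceOf, List.finRange_succ, List.filter_map, Function.comp_def]

private theorem uacc1_weight_cons (p : ℝ) (b : Bool) (keep : Fin n → Bool) :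
    bernoulliWeight p (Fin.cons b keep : Fin (n + 1) → Bool) =
      (if b then p else 1 - p) * bernoulliWeight p keep := by
  simp [bernoulliWeight, Fin.prod_univ_succ]

private theorem uacc1_expect (p : ℚ) (x : Fin n → Bool) (U : List Bool) :
    ∑ keep : Fin n → Bool, bernoulliWeight (p : ℝ) keep *
        (if hit U (traceOf x keep) = true then 1 else 0) =
      ∑ s : Fin n → Bool, (pm p (List.ofFn s) U : ℝ) *
        (if ∀ i, s i = true → x i = true then 1 else 0) := by
  induction n generalizing U with
  | zero =>
    simp only [Finset.univ_unique, Finset.sum_singleton, List.ofFn_zero, pm, traceOf,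
      List.finRange_zero, List.filter_nil, List.map_nil, uacc1_hit_nil, bernoulliWeight]
    by_cases h : U.any id = true <;> simp [h]
  | succ n ih =>
    rw [uacc1_sum_succ, uacc1_sum_succ]
    simp only [uacc1_trace_cons, uacc1_weight_cons, uacc1_ofFn_cons, pm, if_true,
      Bool.false_eq_true, if_false, uacc1_hit_cons, Fin.forall_fin_succ, Fin.cons_zero,
      Fin.cons_succ, mul_assoc, ← Finset.mul_sum]
    have e1 := ih (fun i => x i.succ) U
    have e2 := ih (fun i => x i.succ) U.tail
    cases hU : U.headD false <;> cases hx : x 0
    all_goals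
      simp only [Bool.false_eq_true, Bool.true_eq_false, false_implies, true_and, if_true, if_false,
        imp_self, forall_const, false_and, add_zero, zero_add, Rat.cast_zero, zero_mul, mul_zero,
        Finset.sum_const_zero, Rat.cast_add, Rat.cast_mul, Rat.cast_sub, Rat.cast_one, add_mul,
        mul_assoc, Finset.sum_add_distrib, ← Finset.mul_sum, e1, e2]
    all_goals ring

/-- Induction on `n` (first letter deleted or kept), for all `U`. -/
theorem expect_hit (p : ℚ) (x : Fin n → Bool) (U : List Bool) :
    ∑ keep : Fin n → Bool, bernoulliWeight (p : ℝ) keep *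
        (if hit U (traceOf x keep) = true then 1 else 0) =
      ((∑ S : Finset (Fin n), pm p (toMask S) U * (if ∀ i ∈ S, x i = true then 1 else 0) : ℚ) : ℝ) := by
  rw [uacc1_expect, ← uacc1_sum_set]
  push_cast
  refine Finset.sum_congr rfl fun S _ => ?_
  simp only [toMask, decide_eq_true_eq]
  split_ifs <;> simp

/-- The gap weight of a mask. -/
private noncomputable def gw : (ℕ → ℂ) → List Bool → ℂ
  | _, [] => 1
  | w, false :: S => (if S.any id then w 0 else 1) * gw w S
  | w, true :: S => gw (fun j => w (j + 1)) S

private theorem uacc1_gw_nil (m : ℕ) (w : ℕ → ℂ) :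
    ∑ u : Fin m → Bool, gw w (List.ofFn u) * (if (List.ofFn u).any id then 0 else 1) = 1 := by
  induction m with
  | zero => simp [gw]
  | succ m ih =>
    rw [uacc1_sum_succ]
    simp only [uacc1_ofFn_cons, gw, List.any_cons, id, Bool.true_or, if_true, mul_zero,
      Finset.sum_const_zero, zero_add, Bool.false_or]
    refine Eq.trans (Finset.sum_congr rfl fun u _ => ?_) ih
    by_cases h : (List.ofFn u).any id = true <;> simp [h]

private theorem uacc1_gw_pm (p : ℚ) (S : List Bool) (m : ℕ) (hm : S.length ≤ m) (w : ℕ → ℂ) :
    ∑ u : Fin m → Bool, gw w (List.ofFn u) * ((pm p S (List.ofFn u) : ℚ) : ℂ) =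
      (p : ℂ) ^ S.count true * gw (fun j => (1 - (p : ℂ)) + p * w j) S := by
  induction S generalizing m w with
  | nil =>
    have := uacc1_gw_nil m w
    simp only [pm, List.count_nil, pow_zero, gw, mul_one]
    rw [← this]
    refine Finset.sum_congr rfl fun u _ => ?_
    by_cases h : (List.ofFn u).any id = true <;> simp [h]
  | cons b S ih =>
    obtain ⟨m, rfl⟩ : ∃ k, m = k + 1 := ⟨m - 1, by simp at hm; omega⟩
    have hm' : S.length ≤ m := by simpa using hm
    cases b with
    | true =>
      rw [uacc1_sum_succ]
      have e := ih m hm' fun j => w (j + 1)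
      simp only [uacc1_ofFn_cons, pm, gw, if_true, List.headD_cons, List.tail_cons,
        Bool.true_eq_false, if_false, add_zero, zero_add, Rat.cast_zero, mul_zero,
        Finset.sum_const_zero, Rat.cast_mul, List.count_cons_self, pow_succ]
      rw [mul_comm (_ ^ _) (p : ℂ), mul_assoc, ← e, Finset.mul_sum]
      exact Finset.sum_congr rfl fun u _ => by ring
    | false =>
      have e1 := ih (m + 1) (by omega) w
      have e2 := ih m hm' w
      have e3 : ∑ u : Fin (m + 1) → Bool, gw w (List.ofFn u) *
          (((if false = (List.ofFn u).headD false then p * pm p S (List.ofFn u).tail else 0 : ℚ)) : ℂ) =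
          (p : ℂ) * ((if S.any id then w 0 else 1) *
            ∑ u : Fin m → Bool, gw w (List.ofFn u) * ((pm p S (List.ofFn u) : ℚ) : ℂ)) := by
        rw [uacc1_sum_succ]
        simp only [uacc1_ofFn_cons, gw, if_true, List.headD_cons, List.tail_cons,
          Bool.false_eq_true, if_false, zero_add, Rat.cast_zero, mul_zero,
          Finset.sum_const_zero, Rat.cast_mul, Finset.mul_sum]
        refine Finset.sum_congr rfl fun u _ => ?_
        by_cases h : S.count true = (List.ofFn u).count true
        · have : (List.ofFn u).any id = S.any id := by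
            rw [Bool.eq_iff_iff, uacc1_any, uacc1_any, h]
          rw [this]
          ring
        · simp [pm_eq_zero p h]
      simp only [pm, Bool.false_eq_true, if_false, Rat.cast_add, mul_add, Finset.sum_add_distrib]
      rw [e3, e2]
      have e4 : ∑ u : Fin (m + 1) → Bool, gw w (List.ofFn u) *
          (((1 - p) * pm p S (List.ofFn u) : ℚ) : ℂ) = (1 - (p : ℂ)) *
          ∑ u : Fin (m + 1) → Bool, gw w (List.ofFn u) * ((pm p S (List.ofFn u) : ℚ) : ℂ) := by
        rw [Finset.mul_sum]
        refine Finset.sum_congr rfl fun u _ => ?_
        push_cast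
        ring
      rw [e4, e1]
      have e5 : (false :: S).count true = S.count true := by simp
      rw [e5]
      simp only [gw]
      split_ifs <;> ring

private def gapN (σ : ℕ → ℕ) : ℕ → ℕ
  | 0 => σ 0
  | j + 1 => σ (j + 1) - σ j - 1

private theorem uacc1_gw_eq (S : List Bool) (w : ℕ → ℂ) (r : ℕ) (σ : ℕ → ℕ)
    (hσ : ∀ i j, i < j → j < r → σ i < σ j)
    (hS : ∀ i, S.getD i false = true ↔ ∃ j, j < r ∧ σ j = i) :
    gw w S = ∏ j ∈ range r, w j ^ gapN σ j := by
  induction S generalizing w r σ with
  | nil =>
    have : r = 0 := by
      by_contra h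
      simpa using (hS (σ 0)).2 ⟨0, by omega, rfl⟩
    simp [this, gw]
  | cons b S ih =>
    cases b with
    | true =>
      obtain ⟨j0, hj0, h0⟩ := (hS 0).1 (by simp)
      have hσ0 : σ 0 = 0 := by
        rcases Nat.eq_zero_or_pos j0 with rfl | h
        · exact h0
        · have := hσ 0 j0 h hj0
          omega
      obtain ⟨r, rfl⟩ : ∃ k, r = k + 1 := ⟨r - 1, by omega⟩
      have hpos : ∀ j, j < r → 0 < σ (j + 1) := fun j hj => by
        have := hσ 0 (j + 1) (by omega) (by omega)
        omega
      rw [gw, ih (fun j => w (j + 1)) r (fun j => σ (j + 1) - 1), Finset.prod_range_succ']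
      · simp only [gapN, hσ0, pow_zero, mul_one]
        refine Finset.prod_congr rfl fun j hj => ?_
        have hj' := Finset.mem_range.1 hj
        congr 1
        cases j with
        | zero => simp [hσ0]
        | succ j =>
          have := hpos j (by omega)
          simp only
          omega
      · intro i j hij hj
        have h1 := hσ (i + 1) (j + 1) (by omega) (by omega)
        have h2 := hpos i (by omega)
        omega
      · intro i
        have h1 := hS (i + 1)
        rw [List.getD_cons_succ] at h1
        rw [h1]
        constructor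
        · rintro ⟨_ | j, hj, h2⟩
          · omega
          · exact ⟨j, by omega, by omega⟩
        · rintro ⟨j, hj, h2⟩
          have := hpos j hj
          exact ⟨j + 1, by omega, by omega⟩
    | false =>
      have hpos : ∀ j, j < r → 0 < σ j := fun j hj => by
        by_contra h
        simpa using (hS 0).2 ⟨j, hj, by omega⟩
      have hS' : ∀ i, S.getD i false = true ↔ ∃ j, j < r ∧ σ j - 1 = i := by
        intro i
        have h1 := hS (i + 1)
        rw [List.getD_cons_succ] at h1
        rw [h1]
        constructor
        · rintro ⟨j, hj, h2⟩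
          exact ⟨j, hj, by omega⟩
        · rintro ⟨j, hj, h2⟩
          have := hpos j hj
          exact ⟨j, hj, by omega⟩
      rw [gw, ih w r (fun j => σ j - 1) _ hS']
      · cases r with
        | zero =>
          have : ¬ S.any id = true := by
            rw [uacc1_any']
            rintro ⟨i, hi⟩
            obtain ⟨j, hj, -⟩ := (hS' i).1 hi
            omega
          simp [this]
        | succ r =>
          have : S.any id = true := (uacc1_any' S).2 ⟨_, (hS' _).2 ⟨0, by omega, rfl⟩⟩
          rw [if_pos this, Finset.prod_range_succ', Finset.prod_range_succ']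
          have h0 := hpos 0 (by omega)
          have e0 : gapN σ 0 = gapN (fun j => σ j - 1) 0 + 1 := by
            simp only [gapN]
            omega
          have e1 : ∏ j ∈ range r, w (j + 1) ^ gapN (fun j => σ j - 1) (j + 1) =
              ∏ j ∈ range r, w (j + 1) ^ gapN σ (j + 1) := by
            refine Finset.prod_congr rfl fun j hj => ?_
            have hj' := Finset.mem_range.1 hj
            have := hpos j (by omega)
            congr 1
            simp only [gapN]
            omega
          rw [e0, e1, pow_succ]
          ring
      · intro i j hij hj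
        have h1 := hσ i j hij hj
        have h2 := hpos i (by omega)
        omega

private theorem uacc1_gapW {r : ℕ} (z : Fin r → ℂ) (S : Finset (Fin n)) (h : S.card = r) :
    gapW z S = gw (fun j => if hj : j < r then z ⟨j, hj⟩ else 1) (toMask S) := by
  rw [gapW, dif_pos h, uacc1_gw_eq (toMask S) _ r
    (fun j => if hj : j < r then (S.orderEmbOfFin h ⟨j, hj⟩ : ℕ) else 0),
    Finset.prod_range]
  · refine Finset.prod_congr rfl fun j _ => ?_
    obtain ⟨j, hj⟩ := j
    simp only [hj, dif_pos]
    congr 1
    cases j with
    | zero => simp [gap, gapN, hj]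
    | succ j =>
      have hj' : j < r := by omega
      simp [gap, gapN, hj, hj']
  · intro i j hij hj
    have hi : i < r := by omega
    simp only [hi, hj, dif_pos]
    exact (S.orderEmbOfFin h).strictMono (show (⟨i, hi⟩ : Fin r) < ⟨j, hj⟩ from hij)
  · intro i
    constructor
    · intro hi
      have hlt : i < n := by
        by_contra hn
        rw [List.getD_eq_default _ _ (by simp [toMask]; omega)] at hi
        exact absurd hi (by simp)
      have hmem : (⟨i, hlt⟩ : Fin n) ∈ S := by
        simpa [toMask, List.getD_eq_getElem?_getD, hlt] using hi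
      have : (⟨i, hlt⟩ : Fin n) ∈ Set.range (S.orderEmbOfFin h) := by
        rw [Finset.range_orderEmbOfFin]
        exact hmem
      obtain ⟨j, hj⟩ := this
      exact ⟨j, j.2, by simp [hj]⟩
    · rintro ⟨j, hj, rfl⟩
      simp only [hj, dif_pos]
      simp [toMask, List.getD_eq_getElem?_getD]

/-- The generating identity.  List version: for `S` of length `≤ n'` with `r` marks,
`∑_{U of length n'} gw w U * pm p S U = p ^ r * gw (fun j => (1 - p) + p * w j) S` if `U` ranges over the
masks with `r` marks (the others have `pm = 0`). -/
theorem sum_gapW_pm (p : ℚ) {r : ℕ} (w : Fin r → ℂ) (S : Finset (Fin n)) :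
    ∑ U : Finset (Fin n), gapW w U * ((pm p (toMask S) (toMask U) : ℚ) : ℂ) =
      (p : ℂ) ^ r * gapW (fun j => (1 - (p : ℂ)) + p * w j) S := by
  by_cases hS : S.card = r
  · have e := uacc1_gw_pm p (toMask S) n (by simp [toMask])
      fun j => if hj : j < r then w ⟨j, hj⟩ else 1
    rw [← uacc1_sum_set, count_toMask, hS] at e
    have e2 : (fun j => (1 - (p : ℂ)) + p * (if hj : j < r then w ⟨j, hj⟩ else 1)) =
        fun j => if hj : j < r then (1 - (p : ℂ)) + p * w ⟨j, hj⟩ else 1 := by
      funext j
      split_ifs <;> ring
    rw [uacc1_gapW _ S hS, ← e2, ← e]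
    refine Finset.sum_congr rfl fun U _ => ?_
    by_cases hU : U.card = r
    · rw [uacc1_gapW _ U hU]
      rfl
    · have : pm p (toMask S) (toMask U) = 0 :=
        pm_eq_zero p (by rw [count_toMask, count_toMask]; omega)
      change _ = _ * ((pm p (toMask S) (toMask U) : ℚ) : ℂ)
      simp [this]
  · rw [gapW, dif_neg hS, mul_zero]
    refine Finset.sum_eq_zero fun U _ => ?_
    by_cases hU : U.card = r
    · have : pm p (toMask S) (toMask U) = 0 :=
        pm_eq_zero p (by rw [count_toMask, count_toMask]; omega)
      simp [this]
    · simp [gapW, hU]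

end Crest.Agent.R300
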