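import Crest.Agent.R300.UAcc1

/-!
# R300 upper bound: gap generating functions are controlled by the trace statistics (task UAcc2)
-/

set_option autoImplicit false

namespace Crest.Agent.R300

open Finset

variable {n : ℕ}

/-- With `x = exp (-a)` the claim is `2 q' (1 - x cos θ) ≤ 1 - x²`.  If `5 q' ≤ a` then `2 q' ≤ 1 - x`.
If `2 q' θ² ≤ a` then `1 - x cos θ ≤ (1 - x) + x θ² / 2` and `x a ≤ 1 - x`. -/
theorem good_mem_disc {q' : ℝ} (h0 : 0 < q') (h1 : q' ≤ 1 / 8) {N : ℕ} (hN : 1 ≤ N) {a θ : ℝ}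
    (h : Good q' N N a θ) : ‖Complex.exp (-(a : ℂ) + Complex.I * θ) - q'‖ ≤ 1 - q' := by
  obtain ⟨ha, h⟩ := h
  obtain ⟨x, hx⟩ : ∃ x, x = Real.exp (-a) := ⟨_, rfl⟩
  have hx0 : 0 < x := by rw [hx]; exact Real.exp_pos _
  have hxa : x * (a + 1) ≤ 1 := by
    have h2 := Real.add_one_le_exp a
    have h3 : x * Real.exp a = 1 := by rw [hx, ← Real.exp_add]; simp
    nlinarith
  have hx1 : x ≤ 1 := by nlinarith
  have key : 2 * q' * (1 - x * Real.cos θ) ≤ 1 - x ^ 2 := by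
    rcases h with h | h
    · have h2 : 2 * q' ≤ 1 - x := by
        have h3 : x * (5 * q' + 1) ≤ 1 := by nlinarith
        nlinarith
      have h3 : 1 - x * Real.cos θ ≤ 1 + x := by nlinarith [Real.neg_one_le_cos θ]
      calc 2 * q' * (1 - x * Real.cos θ) ≤ 2 * q' * (1 + x) := by gcongr
        _ ≤ (1 - x) * (1 + x) := by gcongr
        _ = 1 - x ^ 2 := by ring
    · have hN' : (0 : ℝ) < N := by exact_mod_cast hN
      have h2 : 2 * q' * θ ^ 2 ≤ a := by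
        refine le_of_mul_le_mul_left ?_ hN'
        linarith
      have h3 : 1 - x * Real.cos θ ≤ 1 - x + x * θ ^ 2 / 2 := by
        nlinarith [Real.one_sub_sq_div_two_le_cos (x := θ)]
      have h4 : x * (2 * q' * θ ^ 2) ≤ x * a := by gcongr
      calc 2 * q' * (1 - x * Real.cos θ) ≤ 2 * q' * (1 - x + x * θ ^ 2 / 2) := by gcongr
        _ = 2 * q' * (1 - x) + x * (2 * q' * θ ^ 2) / 2 := by ring
        _ ≤ 1 - x ^ 2 := by nlinarith
  have hre : (Complex.exp (-(a : ℂ) + Complex.I * θ) - q').re = x * Real.cos θ - q' := by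
    simp [Complex.exp_re, hx]
  have him : (Complex.exp (-(a : ℂ) + Complex.I * θ) - q').im = x * Real.sin θ := by
    simp [Complex.exp_im, hx]
  refine abs_le_of_sq_le_sq' ?_ (by linarith) |>.2
  rw [← Complex.normSq_eq_norm_sq, Complex.normSq_apply, hre, him]
  nlinarith [Real.sin_sq_add_cos_sq θ]

private theorem gapF_le_unit' {r : ℕ} {z : Fin r → ℂ} (hz : ∀ j, ‖z j‖ ≤ 1) {Δ : Tab n} {c : ℝ}
    (hc : 0 ≤ c) (hΔ : ∀ S, S.card = r → ‖Δ S‖ ≤ c) : ‖gapF z Δ‖ ≤ (n : ℝ) ^ r * c := by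
  have h1 : gapF z Δ = ∑ S ∈ powersetCard r (univ : Finset (Fin n)), gapW z S * Δ S := by
    refine (sum_subset (subset_univ _) fun S _ hS => ?_).symm
    have : S.card ≠ r := fun h => hS (mem_powersetCard.2 ⟨subset_univ _, h⟩)
    rw [gapW, dif_neg this, zero_mul]
  have h2 : ∀ S ∈ powersetCard r (univ : Finset (Fin n)), ‖gapW z S * Δ S‖ ≤ c := by
    intro S hS
    have h := (mem_powersetCard.1 hS).2
    have h3 : ‖gapW z S‖ ≤ 1 := by
      rw [gapW, dif_pos h, norm_prod]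
      exact prod_le_one (fun _ _ => norm_nonneg _) fun j _ => by
        rw [norm_pow]; exact pow_le_one₀ (norm_nonneg _) (hz j)
    rw [norm_mul]
    exact (mul_le_of_le_one_left (norm_nonneg _) h3).trans (hΔ S h)
  rw [h1]
  refine (norm_sum_le _ _).trans ((sum_le_sum h2).trans ?_)
  rw [sum_const, card_powersetCard, card_univ, Fintype.card_fin, nsmul_eq_mul]
  gcongr
  exact_mod_cast Nat.choose_le_pow n r

/-- On the unit polydisc there are at most `n ^ r` terms. -/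
theorem gapF_le_unit {r : ℕ} {z : Fin r → ℂ} (hz : ∀ j, ‖z j‖ ≤ 1) {Δ : Tab n} {c : ℝ}
    (hc : 0 ≤ c) (hΔ : ∀ S, ‖Δ S‖ ≤ c) : ‖gapF z Δ‖ ≤ (n : ℝ) ^ r * c := by
  exact gapF_le_unit' hz hc fun S _ => hΔ S

/-- On the polydisc `D(q, p)^r` write `z j = (1 - p) + p w j` with `|w j| ≤ 1` and use `sum_gapW_pm`. -/
theorem gapF_le_trace {p : ℚ} (hp0 : 0 < p) (hp1 : p < 1) {N r : ℕ} (hr : r ≤ N) {ε : ℝ}
    (hε : 0 ≤ ε) {Δ : Tab n} (h : TraceOK p N ε Δ) {z : Fin r → ℂ}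
    (hz : ∀ j, ‖z j - (1 - (p : ℂ))‖ ≤ p) : (p : ℝ) ^ r * ‖gapF z Δ‖ ≤ (n : ℝ) ^ r * ε := by
  have hp : (0 : ℝ) < p := by exact_mod_cast hp0
  have hpc : (p : ℂ) ≠ 0 := by exact_mod_cast hp0.ne'
  have hpn : ‖(p : ℂ)‖ = p := by
    rw [← Complex.ofReal_ratCast, Complex.norm_real, Real.norm_of_nonneg hp.le]
  have hw : ∀ j, ‖(z j - (1 - (p : ℂ))) / p‖ ≤ 1 := fun j => by
    rw [norm_div, hpn, div_le_one hp]
    exact hz j
  have hzw : (fun j => (1 - (p : ℂ)) + p * ((z j - (1 - (p : ℂ))) / p)) = z := by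
    funext j
    field_simp
    ring
  have h1 : (p : ℂ) ^ r * gapF z Δ = gapF (fun j => (z j - (1 - (p : ℂ))) / p)
      fun U : Finset (Fin n) => ∑ S, ((pm p (toMask S) (toMask U) : ℚ) : ℂ) * Δ S := by
    simp only [gapF, mul_sum]
    rw [sum_comm]
    refine sum_congr rfl fun S _ => ?_
    simp only [← mul_assoc]
    rw [← sum_mul, sum_gapW_pm, hzw]
  have h2 := gapF_le_unit' hw hε
    (Δ := fun U => ∑ S, ((pm p (toMask S) (toMask U) : ℚ) : ℂ) * Δ S)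
    fun U hU => h U (hU.le.trans hr)
  rwa [← h1, norm_mul, norm_pow, hpn] at h2

private theorem moeb_ne {v t : ℂ} (hv : Complex.normSq v ≤ 7 / 4 * v.re) (ht : -(1 / 7) ≤ t.re) :
    2 + t * v ≠ 0 := by
  intro h
  have h1 := congrArg Complex.re h
  have h2 := congrArg Complex.im h
  simp only [Complex.add_re, Complex.mul_re, Complex.add_im, Complex.mul_im, Complex.zero_re,
    Complex.zero_im, Complex.re_ofNat, Complex.im_ofNat] at h1 h2
  rw [Complex.normSq_apply] at hv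
  have h3 : t.re * (v.re * v.re + v.im * v.im) = -2 * v.re := by
    linear_combination v.re * h1 + v.im * h2
  have h4 : 0 ≤ v.re * v.re + v.im * v.im := by nlinarith
  have h5 : v.re * v.re + v.im * v.im ≤ 0 := by nlinarith
  have h6 : v.re = 0 := by nlinarith
  have h7 : v.im = 0 := by nlinarith
  rw [h6, h7] at h1
  norm_num at h1

private theorem moeb_le {v t : ℂ} {s : ℝ} (hv : Complex.normSq v ≤ 7 / 4 * v.re)
    (ht : -(1 / 7) ≤ t.re) (hs : 0 < s) (hst : 1 ≤ s * (8 / 7 + t.re)) :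
    ‖(1 - 2 * v / (2 + t * v)) - (1 - (s : ℂ))‖ ≤ s := by
  have hD := moeb_ne hv ht
  have h1 : (1 - 2 * v / (2 + t * v)) - (1 - (s : ℂ)) =
      (s * (2 + t * v) - 2 * v) / (2 + t * v) := by
    rw [sub_div, mul_div_cancel_right₀ _ hD]
    ring
  rw [h1, norm_div, div_le_iff₀ (norm_pos_iff.2 hD)]
  refine abs_le_of_sq_le_sq' ?_ (by positivity) |>.2
  rw [mul_pow, ← Complex.normSq_eq_norm_sq, ← Complex.normSq_eq_norm_sq, Complex.normSq_apply,
    Complex.normSq_apply]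
  rw [Complex.normSq_apply] at hv
  simp only [Complex.add_re, Complex.mul_re, Complex.add_im, Complex.mul_im, Complex.sub_re,
    Complex.sub_im, Complex.re_ofNat, Complex.im_ofNat, Complex.ofReal_re, Complex.ofReal_im]
  have h4 : 0 ≤ v.re * v.re + v.im * v.im := by nlinarith
  have h5 : v.re * v.re + v.im * v.im ≤
      s * (2 * v.re + t.re * (v.re * v.re + v.im * v.im)) := by
    have h6 := mul_le_mul_of_nonneg_right hst h4
    have h7 := mul_le_mul_of_nonneg_left hv hs.le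
    nlinarith
  nlinarith

private theorem gapF_diff {r : ℕ} {z : ℂ → Fin r → ℂ} {w : ℂ}
    (hz : ∀ j, DifferentiableAt ℂ (fun w => z w j) w) (Δ : Tab n) :
    DifferentiableAt ℂ (fun w => gapF (z w) Δ) w := by
  unfold gapF
  refine DifferentiableAt.fun_sum fun S _ => DifferentiableAt.mul_const ?_ _
  unfold gapW
  by_cases h : S.card = r
  · simp only [dif_pos h]
    exact DifferentiableAt.fun_finsetProd fun j _ => (hz j).fun_pow _
  · simp only [dif_neg h]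
    exact differentiableAt_const _

/-- If `q = 1 - p ≤ q'` then `D(q', 1 - q') ⊆ D(q, p)` and `gapF_le_trace` suffices.  Otherwise
`q' = 1/8 < q`.  In the coordinate `u = (1 + z) / (1 - z)` the disc `D(c, 1 - c)` is the half plane
`Re u ≥ c / (1 - c)`.  For `z j ≠ 1` put `u j (w) = u j - 1/7 + w q / p` and `z j (w) = (u j w - 1) / (u j w + 1)`
(and `z j (w) = 1` if `z j = 1`).  `w ↦ gapF (z · w) Δ` is analytic and bounded by `2 n^r` on the strip
`0 ≤ Re w ≤ 1` (indeed for `Re w ≥ 0`), bounded by `n^r ε / p^r` on `Re w = 1`, and `w = θ = p / (7 q)` gives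
back `z`.  Three lines (`Complex.HadamardThreeLines.norm_le_interp_of_mem_verticalClosedStrip'`), and
`θ ⌈7/p⌉ ≥ 1`. -/
theorem gapF_le {p : ℚ} (hp0 : 0 < p) (hp1 : p < 1) {q' : ℝ}
    (hq' : ((1 - p : ℚ) : ℝ) ≤ q' ∨ q' = 1 / 8) (hq'1 : q' ≤ 1 / 8) {N r B : ℕ} (hr : r ≤ N)
    {ε : ℝ} (hε0 : 0 ≤ ε) (hε : ε ≤ 2 * (p : ℝ) ^ r / 2 ^ (⌈7 / p⌉₊ * B)) {Δ : Tab n}
    (hΔ : ∀ S, ‖Δ S‖ ≤ 2) (h : TraceOK p N ε Δ) {z : Fin r → ℂ}
    (hz : ∀ j, ‖z j - q'‖ ≤ 1 - q') : ‖gapF z Δ‖ ≤ 2 * (n : ℝ) ^ r / 2 ^ B := by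
  have hp : (0 : ℝ) < p := by exact_mod_cast hp0
  have hp' : (p : ℝ) < 1 := by exact_mod_cast hp1
  have hk : 7 / (p : ℝ) ≤ (⌈7 / p⌉₊ : ℕ) := by exact_mod_cast Nat.le_ceil (7 / p)
  have hk1 : 1 ≤ ⌈7 / p⌉₊ := Nat.one_le_iff_ne_zero.2 (Nat.ceil_pos.2 (by positivity)).ne'
  have htr : ∀ {y : Fin r → ℂ}, (∀ j, ‖y j - (1 - (p : ℂ))‖ ≤ p) →
      ‖gapF y Δ‖ ≤ (n : ℝ) ^ r * 2 * (1 / 2 ^ (⌈7 / p⌉₊ * B)) := fun {y} hy => by
    have h1 := gapF_le_trace hp0 hp1 hr hε0 h hy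
    refine le_of_mul_le_mul_left (h1.trans ?_) (pow_pos hp r)
    calc (n : ℝ) ^ r * ε ≤ (n : ℝ) ^ r * (2 * (p : ℝ) ^ r / 2 ^ (⌈7 / p⌉₊ * B)) := by gcongr
      _ = _ := by ring
  push_cast at hq'
  by_cases hc : 1 - (p : ℝ) ≤ q'
  · have h1 : ∀ j, ‖z j - (1 - (p : ℂ))‖ ≤ p := fun j => by
      have h2 : z j - (1 - (p : ℂ)) = (z j - q') + ((q' - (1 - p) : ℝ) : ℂ) := by
        push_cast; ring
      rw [h2]
      refine (norm_add_le _ _).trans ?_
      rw [Complex.norm_real, Real.norm_of_nonneg (by linarith)]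
      linarith [hz j]
    refine (htr h1).trans ?_
    rw [mul_one_div, mul_comm]
    gcongr
    · norm_num
    · exact Nat.le_mul_of_pos_left B hk1
  have hq8 : q' = 1 / 8 := hq'.resolve_left hc
  subst hq8
  have hq : 1 / 8 < 1 - (p : ℝ) := not_le.1 hc
  have hv : ∀ j, Complex.normSq (1 - z j) ≤ 7 / 4 * (1 - z j).re := fun j => by
    have h1 : ‖z j - ((1 / 8 : ℝ) : ℂ)‖ ^ 2 ≤ (1 - 1 / 8) ^ 2 := by
      gcongr
      exact hz j
    rw [← Complex.normSq_eq_norm_sq, Complex.normSq_apply] at h1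
    rw [Complex.normSq_apply]
    simp only [Complex.sub_re, Complex.sub_im, Complex.ofReal_re, Complex.ofReal_im,
      Complex.one_re, Complex.one_im] at h1 ⊢
    nlinarith
  obtain ⟨κ, hκ⟩ : ∃ κ : ℝ, κ = (1 - p) / p := ⟨_, rfl⟩
  have hκ0 : 0 < κ := by rw [hκ]; exact div_pos (by linarith) hp
  have hκp : p * κ = 1 - p := by rw [hκ]; field_simp
  obtain ⟨t, ht⟩ : ∃ t : ℂ → ℂ, t = fun w => ((-(1 / 7) : ℝ) : ℂ) + κ * w := ⟨_, rfl⟩
  have htre : ∀ w, (t w).re = -(1 / 7) + κ * w.re := fun w => by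
    rw [ht]
    simp only [Complex.add_re, Complex.ofReal_re, Complex.re_ofReal_mul]
  have ht0 : ∀ w : ℂ, 0 ≤ w.re → -(1 / 7) ≤ (t w).re := fun w hw => by
    rw [htre]
    nlinarith
  obtain ⟨y, hy⟩ : ∃ y : ℂ → Fin r → ℂ,
      y = fun w j => 1 - 2 * (1 - z j) / (2 + t w * (1 - z j)) := ⟨_, rfl⟩
  have hb0 : ∀ w : ℂ, 0 ≤ w.re → ‖gapF (y w) Δ‖ ≤ (n : ℝ) ^ r * 2 := fun w hw => by
    refine gapF_le_unit (fun j => ?_) (by norm_num) hΔ
    have h1 := moeb_le (hv j) (ht0 w hw) one_pos (by linarith [ht0 w hw])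
    rw [hy]
    simpa using h1
  have hb1 : ∀ w : ℂ, w.re = 1 →
      ‖gapF (y w) Δ‖ ≤ (n : ℝ) ^ r * 2 * (1 / 2 ^ (⌈7 / p⌉₊ * B)) := fun w hw => by
    refine htr fun j => ?_
    have h1 := moeb_le (hv j) (ht0 w (by linarith)) hp (by rw [htre, hw]; nlinarith)
    rw [hy]
    simpa using h1
  have hd : DiffContOnCl ℂ (fun w => gapF (y w) Δ)
      (Complex.HadamardThreeLines.verticalStrip 0 1) := by
    refine DifferentiableOn.diffContOnCl fun w hw => DifferentiableAt.differentiableWithinAt ?_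
    have hw0 : 0 ≤ w.re :=
      closure_minimal (t := {w : ℂ | 0 ≤ w.re}) (fun u hu => le_of_lt hu.1)
        (isClosed_le continuous_const Complex.continuous_re) hw
    refine gapF_diff (fun j => ?_) Δ
    have h1 := moeb_ne (hv j) (ht0 w hw0)
    have h2 : DifferentiableAt ℂ t w := by rw [ht]; fun_prop
    rw [hy]
    exact (differentiableAt_const _).fun_sub ((differentiableAt_const _).fun_div
      ((differentiableAt_const _).fun_add (h2.mul_const _)) h1)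
  obtain ⟨θ, hθ⟩ : ∃ θ : ℝ, θ = 1 / (7 * κ) := ⟨_, rfl⟩
  have hθ0 : 0 < θ := by rw [hθ]; positivity
  have hθκ : κ * θ = 1 / 7 := by rw [hθ]; field_simp
  have hθp : 7 * (1 - p) * θ = p := by
    rw [← hκp]
    linear_combination 7 * p * hθκ
  have hθ1 : θ ≤ 1 := by nlinarith
  have hθk : 1 ≤ (⌈7 / p⌉₊ : ℕ) * θ := by
    have h1 : 7 / (p : ℝ) * θ ≤ (⌈7 / p⌉₊ : ℕ) * θ := by gcongr
    refine le_trans ?_ h1
    rw [div_mul_eq_mul_div, le_div_iff₀ hp]
    nlinarith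
  have hyθ : y θ = z := by
    have h1 : t θ = 0 := by
      rw [ht]
      simp only
      rw [← Complex.ofReal_mul, hθκ, ← Complex.ofReal_add]
      norm_num
    funext j
    rw [hy]
    simp only [h1]
    ring
  have H := Complex.HadamardThreeLines.norm_le_interp_of_mem_verticalClosedStrip₀₁'
    (fun w => gapF (y w) Δ) (z := θ) (a := (n : ℝ) ^ r * 2)
    (b := (n : ℝ) ^ r * 2 * (1 / 2 ^ (⌈7 / p⌉₊ * B))) ⟨hθ0.le, hθ1⟩ hd
    ⟨(n : ℝ) ^ r * 2, by
      rintro _ ⟨w, hw, rfl⟩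
      exact hb0 w hw.1⟩
    (fun w hw => hb0 w (le_of_eq (Eq.symm hw))) fun w hw => hb1 w hw
  simp only [hyθ, Complex.ofReal_re] at H
  have ha0 : (0 : ℝ) ≤ (n : ℝ) ^ r * 2 := by positivity
  rw [Real.mul_rpow ha0 (by positivity), ← mul_assoc, ← Real.rpow_add' ha0 (by norm_num),
    sub_add_cancel, Real.rpow_one] at H
  refine H.trans ?_
  rw [mul_comm _ (2 : ℝ), div_eq_mul_one_div (2 * (n : ℝ) ^ r)]
  refine mul_le_mul_of_nonneg_left ?_ (by positivity)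
  rw [← one_div_pow, ← one_div_pow, ← Real.rpow_natCast, ← Real.rpow_natCast,
    ← Real.rpow_mul (by norm_num)]
  refine Real.rpow_le_rpow_of_exponent_ge (by norm_num) (by norm_num) ?_
  push_cast
  have hB : (0 : ℝ) ≤ B := Nat.cast_nonneg _
  nlinarith

end Crest.Agent.R300
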