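import Crest.Agent.R300.UEdge

/-!
# R300 upper bound: the features are accessible (task UAcc3)

Call the first clause of `Acc` *rooted* and the second clause `Acc2`.
* `leaf` is rooted with `Acc2` (`A = 1`, `m = 0`, the single term `(1, {ρ}, 0, 0)`).
* `Acc2` is monotone in `m` (`r ≥ 1`, `a ≥ 0`) and in `A`.
* If `K₁`, `K₂` satisfy `Acc2` then so does `fun i => sta (K₁ i) (K₂ i)` with `A₁ A₂`, `m₁ + m₂` (all pairs
  of terms: multiply the coefficients, unite the sets, add the exponents;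
  `(θ₁ + θ₂)² / (m₁ + m₂) ≤ θ₁² / m₁ + θ₂² / m₂`); the tables `S' ↦ Λ (S ∪ S')` and
  `S ↦ ψ (S' ↦ Λ (S ∪ S'))` are again supported on subsets of the image of `σ`.  It is rooted if `K₁` is.
* If `K` is rooted with `Acc2 A m`, then `edge J L α K` satisfies `Acc2 (9 ^ J A) (m + 1)` provided
  `Good q' N 1 a α` for all `a ≥ J / (32 L)`: only `j = σ ρ'` contribute (`r` choices); expand
  `uu J L d = ∑ c_i exp (-a_i d)` with `∑ |c_i| ≤ 3 ^ (2 J)` and `a_i = -i log (1 - 1/(32 L)) ≥ J / (32 L)`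
  (binomial theorem for `(1 - y) ^ (2J - k)`); `dist (σ ρ) (σ ρ') = ∑ dst σ j` over `min ρ ρ' < j ≤ max ρ ρ'`.
-/

set_option autoImplicit false

namespace Crest.Agent.R300

open Finset

variable {n : ℕ}

/-- `uu` as a short sum of exponentials. -/
theorem uu_expand {J L : ℕ} (hL : 1 ≤ L) :
    ∃ cs : List (ℝ × ℝ), (cs.map fun c => |c.1|).sum ≤ 9 ^ J ∧
      (∀ c ∈ cs, (J : ℝ) / (32 * L) ≤ c.2) ∧
      ∀ d : ℕ, uu J L d = (cs.map fun c => c.1 * Real.exp (-(c.2 * d))).sum := by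
  have hL' : (1 : ℝ) ≤ L := by exact_mod_cast hL
  set x : ℝ := 1 - 1 / (32 * (L : ℝ)) with hx
  have hx0 : 0 < x := by
    rw [hx, sub_pos, div_lt_one (by positivity)]
    linarith
  have hlog : 1 / (32 * (L : ℝ)) ≤ -Real.log x := by
    have := Real.log_le_sub_one_of_pos hx0
    linarith
  refine ⟨(((Icc J (2 * J)).sigma fun k => range (2 * J - k + 1)).toList).map fun p =>
    (((2 * J).choose p.1 : ℝ) * ((-1) ^ p.2 * (2 * J - p.1).choose p.2),
      ((p.1 + p.2 : ℕ) : ℝ) * -Real.log x), ?_, ?_, fun d => ?_⟩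
  · rw [List.map_map, sum_map_toList, sum_sigma]
    calc _ = ∑ k ∈ Icc J (2 * J), (1 : ℝ) ^ k * 2 ^ (2 * J - k) * (2 * J).choose k := by
          refine sum_congr rfl fun k _ => ?_
          simp only [Function.comp_apply, abs_mul, abs_pow, abs_neg, abs_one, one_pow, one_mul,
            Nat.abs_cast]
          rw [← mul_sum, ← Nat.cast_sum, Nat.sum_range_choose]
          push_cast
          ring
      _ ≤ ∑ k ∈ range (2 * J + 1), (1 : ℝ) ^ k * 2 ^ (2 * J - k) * (2 * J).choose k :=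
          sum_le_sum_of_subset_of_nonneg (fun k hk => mem_range.2 (Nat.lt_succ_of_le (mem_Icc.1 hk).2))
            fun _ _ _ => by positivity
      _ = 9 ^ J := by rw [← add_pow, pow_mul]; norm_num
  · intro c hc
    obtain ⟨p, hp, rfl⟩ := List.mem_map.1 hc
    have h1 : J ≤ p.1 + p.2 := (mem_Icc.1 (mem_sigma.1 (mem_toList.1 hp)).1).1.trans (Nat.le_add_right _ _)
    rw [div_eq_mul_one_div]
    exact mul_le_mul (by exact_mod_cast h1) hlog (by positivity) (by positivity)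
  · rw [List.map_map, sum_map_toList, sum_sigma, uu]
    refine sum_congr rfl fun k _ => ?_
    rw [← hx, sub_eq_neg_add, add_pow, mul_sum]
    refine sum_congr rfl fun i _ => ?_
    have e : Real.exp (-(((k + i : ℕ) : ℝ) * -Real.log x * d)) = (x ^ d) ^ k * (x ^ d) ^ i := by
      rw [← pow_add, ← pow_mul, show -(((k + i : ℕ) : ℝ) * -Real.log x * d) =
        ((d * (k + i) : ℕ) : ℝ) * Real.log x by push_cast; ring, Real.exp_nat_mul, Real.exp_log hx0]
    simp only [Function.comp_apply]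
    rw [e, neg_pow]
    ring

namespace UAcc3

theorem good_mono {q' a θ : ℝ} {N m m' : ℕ} (h : Good q' N m a θ) (hm : m ≤ m') :
    Good q' N m' a θ :=
  ⟨h.1, h.2.imp id fun h2 => h2.trans (mul_le_mul_of_nonneg_right (by exact_mod_cast hm) h.1)⟩

theorem good_zero (q' : ℝ) (N m : ℕ) : Good q' N m 0 0 := ⟨le_rfl, Or.inr (by simp)⟩

theorem good_add {q' a θ a' θ' : ℝ} {N m m' : ℕ} (hq : 0 ≤ q') (h : Good q' N m a θ)
    (h' : Good q' N m' a' θ') : Good q' N (m + m') (a + a') (θ + θ') := by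
  obtain ⟨h0, h1⟩ := h
  obtain ⟨h0', h1'⟩ := h'
  refine ⟨add_nonneg h0 h0', ?_⟩
  rcases h1 with h1 | h1
  · exact Or.inl (by linarith)
  rcases h1' with h1' | h1'
  · exact Or.inl (by linarith)
  right
  have hc : 0 ≤ 2 * N * q' := by positivity
  generalize 2 * N * q' = c at *
  have h2 : (2 * (c * θ * θ')) ^ 2 ≤ (m * a' + m' * a) ^ 2 := by
    have := mul_le_mul h1 h1' (by positivity) (by positivity)
    nlinarith [sq_nonneg (m * a' - m' * a)]
  have h3 := (abs_le_of_sq_le_sq' h2 (by positivity)).2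
  push_cast
  nlinarith

/-- the gap exponential -/
noncomputable def ew {r : ℕ} (a θ : Fin r → ℝ) (σ : Fin r → Fin n) : ℂ :=
  ∏ j, Complex.exp (-(a j : ℂ) + Complex.I * θ j) ^ dst σ j

theorem ew_add {r : ℕ} (a θ a' θ' : Fin r → ℝ) (σ : Fin r → Fin n) :
    ew (a + a') (θ + θ') σ = ew a θ σ * ew a' θ' σ := by
  rw [ew, ew, ew, ← prod_mul_distrib]
  refine prod_congr rfl fun j _ => ?_
  rw [← mul_pow, ← Complex.exp_add]
  congr 2
  simp only [Pi.add_apply]
  push_cast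
  ring

/-- a family of functionals that is a short combination of gap exponentials -/
def Rep {r : ℕ} (Z : Prop) (q' : ℝ) (N : ℕ) (F : (Fin r ↪o Fin n) → Fn n) (B : ℝ) (m : ℕ) : Prop :=
  ∃ (ι : Type) (_ : Fintype ι) (c : ι → ℂ) (U : ι → Finset (Fin r)) (a θ : ι → Fin r → ℝ),
    ∑ i, ‖c i‖ ≤ B ∧ (∀ i j, Good q' N m (a i j) (θ i j)) ∧
    (Z → ∀ i, ∀ j : Fin r, (j : ℕ) = 0 → a i j = 0 ∧ θ i j = 0) ∧
    ∀ (σ : Fin r ↪o Fin n) (Λ : Tab n), (∀ S', ¬ S' ⊆ univ.image σ → Λ S' = 0) →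
      F σ Λ = ∑ i, c i * ew (a i) (θ i) σ * Λ ((U i).image σ)

def Root (K : Feat n) : Prop :=
  ∀ (S : Finset (Fin n)) (Λ : Tab n) (i : Fin n), (∀ S', ¬ S' ⊆ S → Λ S' = 0) → i ∉ S → K i Λ = 0

def Acc2 (q' : ℝ) (N : ℕ) (K : Feat n) (A : ℝ) (m : ℕ) : Prop :=
  ∀ (r : ℕ) (ρ : Fin r), Rep True q' N (fun σ : Fin r ↪o Fin n => K (σ ρ)) (A * (r : ℝ) ^ m) m

theorem acc_iff {q' A : ℝ} {N m : ℕ} {K : Feat n} : Acc q' N K A m ↔ Root K ∧ Acc2 q' N K A m := by
  refine and_congr Iff.rfl (forall₂_congr fun r ρ => ⟨?_, ?_⟩)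
  · rintro ⟨ts, h1, h2, h3⟩
    refine ⟨Fin ts.length, inferInstance, fun i => ts[i].1, fun i => ts[i].2.1, fun i => ts[i].2.2.1,
      fun i => ts[i].2.2.2, ?_, fun i => (h2 _ (List.getElem_mem _)).1,
      fun _ i => (h2 _ (List.getElem_mem _)).2, fun σ Λ hΛ => ?_⟩
    · rwa [← Fin.sum_univ_fun_getElem] at h1
    · rw [h3 σ Λ hΛ, ← Fin.sum_univ_fun_getElem]
      rfl
  · rintro ⟨ι, _, c, U, a, θ, h1, h2, h3, h4⟩
    refine ⟨univ.toList.map fun i => (c i, U i, a i, θ i), ?_, fun τ hτ => ?_, fun σ Λ hΛ => ?_⟩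
    · rwa [List.map_map, sum_map_toList]
    · obtain ⟨i, -, rfl⟩ := List.mem_map.1 hτ
      exact ⟨h2 i, h3 trivial i⟩
    · rw [List.map_map, sum_map_toList]
      exact h4 σ Λ hΛ

section Rep
variable {r : ℕ} {Z : Prop} {q' B B' : ℝ} {N m m' : ℕ} {F F' : (Fin r ↪o Fin n) → Fn n}

theorem Rep.mono {Z' : Prop} (h : Rep Z q' N F B m) (hZ : Z' → Z) (hB : B ≤ B') (hm : m ≤ m')
    (hF : ∀ (σ : Fin r ↪o Fin n) (Λ : Tab n), (∀ S', ¬ S' ⊆ univ.image σ → Λ S' = 0) →
      F' σ Λ = F σ Λ) : Rep Z' q' N F' B' m' := by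
  obtain ⟨ι, _, c, U, a, θ, h1, h2, h3, h4⟩ := h
  exact ⟨ι, _, c, U, a, θ, h1.trans hB, fun i j => good_mono (h2 i j) hm, fun z => h3 (hZ z),
    fun σ Λ hΛ => (hF σ Λ hΛ).trans (h4 σ Λ hΛ)⟩

theorem Rep.sum {κ : Type} [Fintype κ] {F : κ → (Fin r ↪o Fin n) → Fn n}
    (h : ∀ k, Rep Z q' N (F k) B m) :
    Rep Z q' N (fun σ => ∑ k, F k σ) (Fintype.card κ * B) m := by
  choose ι _ c U a θ h1 h2 h3 h4 using h
  refine ⟨Σ k, ι k, inferInstance, fun p => c p.1 p.2, fun p => U p.1 p.2, fun p => a p.1 p.2,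
    fun p => θ p.1 p.2, ?_, fun p => h2 p.1 p.2, fun z p => h3 p.1 z p.2, fun σ Λ hΛ => ?_⟩
  · rw [Fintype.sum_sigma]
    refine (sum_le_sum fun k _ => h1 k).trans ?_
    rw [sum_const, card_univ, nsmul_eq_mul]
  · rw [Fintype.sum_sigma, LinearMap.sum_apply]
    exact sum_congr rfl fun k _ => h4 k σ Λ hΛ

theorem Rep.sta (hq : 0 ≤ q') (h : Rep Z q' N F B m) (h' : Rep Z q' N F' B' m') :
    Rep Z q' N (fun σ => sta (F σ) (F' σ)) (B * B') (m + m') := by
  obtain ⟨ι, _, c, U, a, θ, h1, h2, h3, h4⟩ := h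
  obtain ⟨ι', _, c', U', a', θ', h1', h2', h3', h4'⟩ := h'
  refine ⟨ι × ι', inferInstance, fun p => c p.1 * c' p.2, fun p => U p.1 ∪ U' p.2,
    fun p => a p.1 + a' p.2, fun p => θ p.1 + θ' p.2, ?_, fun p j => good_add hq (h2 _ j) (h2' _ j),
    fun z p j hj => ?_, fun σ Λ hΛ => ?_⟩
  · simp only [norm_mul, Fintype.sum_prod_type]
    rw [← sum_mul_sum]
    exact mul_le_mul h1 h1' (sum_nonneg fun _ _ => norm_nonneg _)
      ((sum_nonneg fun _ _ => norm_nonneg _).trans h1)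
  · simp [h3 z p.1 j hj, h3' z p.2 j hj]
  · rw [sta_apply, h4 σ _ fun S hS => by
      rw [show (fun S' => Λ (S ∪ S')) = 0 from
        funext fun S' => hΛ _ fun e => hS (subset_union_left.trans e), map_zero],
      Fintype.sum_prod_type]
    refine sum_congr rfl fun i _ => ?_
    rw [h4' σ _ fun S hS => hΛ _ fun e => hS (subset_union_right.trans e), mul_sum]
    refine sum_congr rfl fun i' _ => ?_
    rw [ew_add, image_union]
    ring

/-- the weight of an edge -/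
theorem rep_weight {J L : ℕ} (hL : 1 ≤ L) {α : ℝ} {κ : ℂ} (hκ : ‖κ‖ ≤ 1)
    (hα : ∀ a, (J : ℝ) / (32 * L) ≤ a → Good q' N 1 a α) (T : Finset (Fin r))
    (hT : Z → ∀ j ∈ T, (j : ℕ) ≠ 0) :
    Rep Z q' N (fun σ : Fin r ↪o Fin n => (κ * uu J L (∑ j ∈ T, dst σ j) *
      Complex.exp (Complex.I * α * (∑ j ∈ T, dst σ j : ℕ))) • oneF) (9 ^ J) 1 := by
  obtain ⟨cs, h1, h2, h3⟩ := uu_expand (J := J) hL
  refine ⟨Fin cs.length, inferInstance, fun i => κ * cs[i].1, fun _ => ∅,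
    fun i j => if j ∈ T then cs[i].2 else 0, fun i j => if j ∈ T then α else 0, ?_, fun i j => ?_,
    fun z i j hj => ?_, fun σ Λ _ => ?_⟩
  · rw [← Fin.sum_univ_fun_getElem] at h1
    refine le_trans (sum_le_sum fun i _ => ?_) h1
    rw [norm_mul, Complex.norm_real, Real.norm_eq_abs]
    exact mul_le_of_le_one_left (abs_nonneg _) hκ
  · dsimp only
    split_ifs
    · exact hα _ (h2 _ (List.getElem_mem _))
    · exact good_zero _ _ _
  · simp [show j ∉ T from fun h => hT z j h hj]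
  · rw [LinearMap.smul_apply, smul_eq_mul, h3, ← Fin.sum_univ_fun_getElem]
    push_cast
    rw [mul_sum, sum_mul, sum_mul]
    refine sum_congr rfl fun i _ => ?_
    have e : ew (fun j => if j ∈ T then cs[i].2 else 0) (fun j => if j ∈ T then α else 0) σ =
        Complex.exp (-(cs[i].2 * ∑ j ∈ T, (dst σ j : ℂ))) *
          Complex.exp (Complex.I * α * ∑ j ∈ T, (dst σ j : ℂ)) := by
      rw [← Complex.exp_add, ← neg_mul, ← add_mul, mul_sum, Complex.exp_sum, ew,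
        ← prod_subset (subset_univ T) fun j _ hj => by simp [hj]]
      refine prod_congr rfl fun j hj => ?_
      simp only [if_pos hj]
      rw [← Complex.exp_nat_mul, mul_comm]
    rw [e, image_empty]
    change _ * Λ ∅ = _
    simp only [Fin.getElem_fin]
    ring

end Rep

theorem sum_dst_Iic {r : ℕ} (σ : Fin r ↪o Fin n) (ρ : Fin r) : ∑ j ∈ Iic ρ, dst σ j = σ ρ := by
  obtain ⟨k, hk⟩ := ρ
  induction k with
  | zero =>
    rw [show Iic (⟨0, hk⟩ : Fin r) = {⟨0, hk⟩} by ext j; simp [Fin.ext_iff, Fin.le_def],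
      sum_singleton, dst, dif_pos rfl]
  | succ k ih =>
    rw [show Iic (⟨k + 1, hk⟩ : Fin r) = insert ⟨k + 1, hk⟩ (Iic ⟨k, by omega⟩) by
      ext j; simp only [mem_Iic, mem_insert, Fin.ext_iff, Fin.le_def]; omega,
      sum_insert (by simp [Fin.le_def]), ih, dst, dif_neg (by simp)]
    have : σ ⟨k, by omega⟩ ≤ σ ⟨k + 1, hk⟩ := σ.monotone (by simp [Fin.le_def])
    exact Nat.sub_add_cancel this

theorem sum_dst_Ioc {r : ℕ} (σ : Fin r ↪o Fin n) {ρ ρ' : Fin r} (h : ρ ≤ ρ') :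
    ∑ j ∈ Ioc ρ ρ', dst σ j + σ ρ = σ ρ' := by
  rw [← sum_dst_Iic σ ρ, ← sum_dst_Iic σ ρ', ← sum_union (by simp [disjoint_left]; tauto)]
  congr 1
  ext j
  simp only [mem_union, mem_Ioc, mem_Iic, Fin.le_def, Fin.lt_def] at h ⊢
  omega

theorem wf_rep {r : ℕ} {Z : Prop} {q' A B : ℝ} {N m : ℕ} (hq : 0 ≤ q') {K : Feat n} (hK : Root K)
    (hK2 : Acc2 q' N K A m) {G : (Fin r ↪o Fin n) → Fin n → ℝ} {t : (Fin r ↪o Fin n) → Fin n}
    {α : ℝ} (hw : ∀ ρ, Rep Z q' N (fun σ : Fin r ↪o Fin n =>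
      ((G σ (σ ρ) : ℂ) * ph α (t σ) (σ ρ)) • oneF) B 1) :
    Rep Z q' N (fun σ => wf (G σ) (t σ) α K) (B * A * (r : ℝ) ^ (m + 1)) (m + 1) := by
  refine (Rep.sum fun ρ => (hw ρ).sta hq ((hK2 r ρ).mono (fun _ => trivial) le_rfl le_rfl
    fun _ _ _ => rfl)).mono id (le_of_eq ?_) (by omega) fun σ Λ hΛ => ?_
  · rw [Fintype.card_fin]; ring
  · rw [wf_apply, LinearMap.sum_apply, ← sum_subset (subset_univ (univ.image σ)) fun j _ hj => by
      rw [hK _ Λ j hΛ hj, mul_zero], sum_image fun _ _ _ _ e => σ.injective e]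
    refine sum_congr rfl fun ρ _ => ?_
    rw [sta_smul_left, oneF_sta]
    rfl

theorem acc2_edge {q' A : ℝ} {N m J L : ℕ} (hq : 0 ≤ q') (hL : 1 ≤ L) {K : Feat n} (hK : Root K)
    (hK2 : Acc2 q' N K A m) {α : ℝ} (hα : ∀ a, (J : ℝ) / (32 * L) ≤ a → Good q' N 1 a α) :
    Acc2 q' N (edge J L α K) (9 ^ J * A) (m + 1) := by
  intro r ρ
  refine wf_rep hq hK hK2 (G := fun σ j => uu J L (Nat.dist (σ ρ) j) / (256 * L))
    (t := fun σ => σ ρ) fun ρ' => ?_
  have hL' : (1 : ℝ) ≤ L := by exact_mod_cast hL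
  have hκ : ‖((1 / (256 * L) : ℝ) : ℂ)‖ ≤ 1 := by
    rw [Complex.norm_real, Real.norm_of_nonneg (by positivity), div_le_one (by positivity)]
    linarith
  rcases le_total ρ ρ' with h | h
  · refine (rep_weight hL hκ hα (Ioc ρ ρ') fun _ j hj => ?_).mono id le_rfl le_rfl fun σ Λ _ => ?_
    · exact ((Nat.zero_le _).trans_lt (mem_Ioc.1 hj).1).ne'
    · have e := sum_dst_Ioc σ h
      rw [ph, ← e, show Nat.dist (σ ρ) (∑ j ∈ Ioc ρ ρ', dst σ j + σ ρ) = ∑ j ∈ Ioc ρ ρ', dst σ j by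
        unfold Nat.dist; omega]
      congr 2
      generalize ∑ j ∈ Ioc ρ ρ', dst σ j = D
      push_cast
      rw [add_sub_cancel_right]
      ring_nf
  · refine (rep_weight hL hκ (α := -α) (fun a ha => ?_) (Ioc ρ' ρ) fun _ j hj => ?_).mono id le_rfl
      le_rfl fun σ Λ _ => ?_
    · have := hα a ha
      rwa [Good, ← neg_sq α] at this
    · exact ((Nat.zero_le _).trans_lt (mem_Ioc.1 hj).1).ne'
    · have e := sum_dst_Ioc σ h
      rw [ph, ← e, show Nat.dist (∑ j ∈ Ioc ρ' ρ, dst σ j + σ ρ') (σ ρ') = ∑ j ∈ Ioc ρ' ρ, dst σ j by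
        unfold Nat.dist; omega]
      congr 2
      generalize ∑ j ∈ Ioc ρ' ρ, dst σ j = D
      push_cast
      rw [sub_add_cancel_right]
      ring_nf

theorem Acc2.mono {q' A A' : ℝ} {N m m' : ℕ} {K : Feat n} (h : Acc2 q' N K A m) (hA : A ≤ A')
    (hA' : 0 ≤ A') (hm : m ≤ m') : Acc2 q' N K A' m' := fun r ρ => by
  have hr : (1 : ℝ) ≤ r := by exact_mod_cast ρ.pos
  exact (h r ρ).mono id (mul_le_mul hA (pow_le_pow_right₀ hr hm) (by positivity) hA') hm
    fun _ _ _ => rfl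

theorem acc_node {q' A : ℝ} {N m J L : ℕ} (hq : 0 ≤ q') (hL : 1 ≤ L) (l : List (Feat n × ℝ))
    (hl : ∀ e ∈ l, Root e.1 ∧ Acc2 q' N e.1 A m ∧ ∀ a, (J : ℝ) / (32 * L) ≤ a → Good q' N 1 a e.2)
    {K : Feat n} {A₁ : ℝ} {m₁ : ℕ} (hK : Root K) (hK2 : Acc2 q' N K A₁ m₁) :
    Root (node J L K l) ∧
      Acc2 q' N (node J L K l) (A₁ * (9 ^ J * A) ^ l.length) (m₁ + l.length * (m + 1)) := by
  induction l generalizing K A₁ m₁ with
  | nil => exact ⟨hK, by rw [List.length_nil, pow_zero, mul_one, zero_mul, add_zero]; exact hK2⟩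
  | cons e l ih =>
    obtain ⟨h1, h2, h3⟩ := hl e List.mem_cons_self
    have := ih (fun e he => hl e (List.mem_cons_of_mem _ he))
      (K := fun i => sta (K i) (edge J L e.2 e.1 i)) (A₁ := A₁ * (9 ^ J * A)) (m₁ := m₁ + (m + 1))
      (fun S Λ i hΛ hi => hK S _ i (fun S' hS' => by
        rw [show (fun S'' => Λ (S' ∪ S'')) = 0 from
          funext fun S'' => hΛ _ fun e => hS' (subset_union_left.trans e), map_zero]) hi)
      fun r ρ => ((hK2 r ρ).sta hq (acc2_edge hq hL h1 h2 h3 r ρ)).mono id (le_of_eq (by ring)) le_rfl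
        fun _ _ _ => rfl
    rw [node_cons, List.length_cons]
    convert this using 2 <;> ring

theorem acc_leaf (q' : ℝ) (N : ℕ) : Root (leaf : Feat n) ∧ Acc2 q' N (leaf : Feat n) 1 0 :=
  ⟨fun S Λ i hΛ hi => hΛ _ (by simpa using hi), fun r ρ => ⟨Unit, inferInstance, fun _ => 1,
    fun _ => {ρ}, fun _ _ => 0, fun _ _ => 0, by simp, fun _ _ => good_zero _ _ _,
    fun _ _ _ _ => ⟨rfl, rfl⟩, fun σ Λ _ => by simp [ew, leaf]⟩⟩

theorem good_level {s k l : ℕ} (hs : 3 ≤ s) (hk : 1 ≤ k) (b : Bool) {e : ℤ}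
    (he : |e| ≤ 3 * pMT s k l) {a : ℝ} (ha : (pJ s k l : ℝ) / (32 * pL s k l b) ≤ a)
    (hL : 1 ≤ pL s k l b) : Good (1 / 2 ^ s) (4 ^ k) 1 a (e * eta (pS s k l)) := by
  have hL' : (0 : ℝ) < pL s k l b := by exact_mod_cast hL
  have hLA : (pL s k l b : ℝ) ≤ pLA s k l := by exact_mod_cast pL_le s k l b
  refine ⟨le_trans (by positivity) ha, ?_⟩
  cases l with
  | zero =>
    refine Or.inl (le_trans ?_ ha)
    have h1 : (160 * pLA s k 0 : ℝ) ≤ pJ s k 0 * 2 ^ s := by exact_mod_cast acc_zero s k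
    rw [mul_one_div, div_le_div_iff₀ (by positivity) (by positivity)]
    linarith
  | succ l =>
    refine Or.inr ?_
    rw [Nat.cast_one, one_mul]
    refine le_trans ?_ ha
    have h1 : (64 * 4 ^ k * (2 ^ 40 * pE s k (l + 1) ^ 2) ^ 2 * pLA s k (l + 1) : ℝ) ≤
      pJ s k (l + 1) * 2 ^ s * pLA s k l ^ 2 := by exact_mod_cast acc_succ s k l
    have h2 : (pMT s k (l + 1) * pLA s k l : ℝ) = 2 ^ 37 * pE s k (l + 1) ^ 2 * pS s k (l + 1) := by
      exact_mod_cast pMT_mul hs hk l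
    have hS : 1 ≤ pS s k (l + 1) := Nat.one_le_two_pow
    have hS' : (0 : ℝ) < pS s k (l + 1) := by exact_mod_cast hS
    have hA : (0 : ℝ) < pLA s k l := by exact_mod_cast (Nat.one_le_two_pow : 1 ≤ pLA s k l)
    obtain ⟨h3, h4⟩ := eta_bounds hS
    have h5 : |(e : ℝ)| ≤ 3 * pMT s k (l + 1) := by exact_mod_cast he
    have h6 : |(e : ℝ) * eta (pS s k (l + 1))| * pLA s k l ≤ 2 ^ 40 * pE s k (l + 1) ^ 2 := by
      rw [abs_mul, abs_of_nonneg (le_trans (by positivity) h3)]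
      calc _ ≤ 3 * pMT s k (l + 1) * (2 / pS s k (l + 1)) * (pLA s k l : ℝ) := by
            gcongr
            exact le_trans (by positivity) h3
        _ = 6 * (pMT s k (l + 1) * pLA s k l) / pS s k (l + 1) := by ring
        _ = 6 * (2 ^ 37 * pE s k (l + 1) ^ 2) := by rw [h2]; field_simp
        _ ≤ _ := by nlinarith [sq_nonneg (pE s k (l + 1) : ℝ)]
    have h7 := pow_le_pow_left₀ (by positivity) h6 2
    rw [mul_pow, sq_abs] at h7
    generalize (e * eta (pS s k (l + 1))) ^ 2 = w at *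
    have h8 : 64 * 4 ^ k * w * pL s k (l + 1) b * pLA s k l ^ 2 ≤
        pJ s k (l + 1) * 2 ^ s * (pLA s k l : ℝ) ^ 2 := by
      refine le_trans ?_ h1
      calc _ = 64 * 4 ^ k * (w * pLA s k l ^ 2) * (pL s k (l + 1) b : ℝ) := by ring
        _ ≤ _ := by gcongr
    have h9 := le_of_mul_le_mul_right h8 (by positivity)
    rw [le_div_iff₀ (by positivity)]
    push_cast
    calc _ = 64 * 4 ^ k * w * pL s k (l + 1) b / (2 : ℝ) ^ s := by ring
      _ ≤ _ := by rwa [div_le_iff₀ (by positivity)]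

theorem dst_eq_gap {r : ℕ} (σ : Fin r ↪o Fin n) (j : Fin r) :
    dst σ j = (if (j : ℕ) = 0 then 0 else 1) + gap σ j := by
  unfold dst gap
  split_ifs with h
  · rw [zero_add]
  · have : σ ⟨j - 1, by omega⟩ < σ j := σ.strictMono (by rw [Fin.lt_def]; dsimp only; omega)
    rw [Fin.lt_def] at this
    omega

/-- the part of a table on the sets of size `r` -/
theorem rep_le {r : ℕ} {q' B Y : ℝ} {N m : ℕ} {φ : Fn n} (h : Rep (r := r) False q' N (fun _ => φ) B m)
    {Δ : Tab n} (hY0 : 0 ≤ Y) (hY : ∀ a θ : Fin r → ℝ, (∀ j, Good q' N m (a j) (θ j)) →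
      ‖gapF (fun j => Complex.exp (-(a j : ℂ) + Complex.I * θ j)) Δ‖ ≤ Y) :
    ‖φ fun S => if S.card = r then Δ S else 0‖ ≤ B * Y := by
  obtain ⟨ι, _, c, U, a, θ, h1, h2, -, h4⟩ := h
  set z : ι → Fin r → ℂ := fun i j => Complex.exp (-(a i j : ℂ) + Complex.I * θ i j) with hz
  set d : ι → ℂ := fun i =>
    if U i = univ then c i * ∏ j : Fin r, z i j ^ (if (j : ℕ) = 0 then 0 else 1) else 0 with hd
  have key : ∀ S, φ (Pi.single S (if S.card = r then Δ S else 0)) =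
      ∑ i, d i * (gapW (z i) S * Δ S) := fun S => by
    by_cases hS : S.card = r
    · have e := image_orderEmbOfFin_univ S hS
      rw [if_pos hS, h4 (S.orderEmbOfFin hS) _ fun S' hS' =>
        Pi.single_eq_of_ne (by rintro rfl; exact hS' e.ge) _]
      refine sum_congr rfl fun i _ => ?_
      simp only [hd]
      split_ifs with hU
      · rw [hU, e, Pi.single_eq_same, gapW, dif_pos hS, ew]
        simp only [dst_eq_gap, pow_add, prod_mul_distrib, hz]
        ring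
      · rw [Pi.single_eq_of_ne, mul_zero, zero_mul]
        intro e'
        exact hU (image_injective (S.orderEmbOfFin hS).injective (e'.trans e.symm))
    · simp [hS, gapW]
  rw [← univ_sum_single fun S => if S.card = r then Δ S else 0, map_sum]
  simp only [key]
  rw [sum_comm]
  refine (norm_sum_le _ _).trans (le_trans (sum_le_sum fun i _ => ?_)
    ((sum_mul ..).symm.trans_le (mul_le_mul_of_nonneg_right h1 hY0)))
  rw [← mul_sum, norm_mul]
  refine mul_le_mul ?_ (hY _ _ (h2 i)) (norm_nonneg _) (norm_nonneg _)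
  simp only [hd]
  split_ifs
  · rw [norm_mul, norm_prod]
    refine mul_le_of_le_one_right (norm_nonneg _) (prod_le_one (fun _ _ => norm_nonneg _)
      fun j _ => ?_)
    rw [norm_pow]
    refine pow_le_one₀ (norm_nonneg _) ?_
    simp only [hz]
    rw [Complex.norm_exp, Real.exp_le_one_iff]
    simpa using (h2 i j).1
  · simp

end UAcc3

open UAcc3

/-- Induction on `l`, using `acc_zero`, `acc_succ` (edge frequencies at level `l + 1` are at most
`3 pMT · 2 / S ≤ 2^40 e² / pLA l` by `pMT_mul`, `eta_bounds`), `9 ^ J ≤ 2 ^ (4 J)`. -/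
theorem fam_acc {s k l : ℕ} (hs : 3 ≤ s) (hk : 1 ≤ k) {K : Feat n} (h : K ∈ famS n s k l) :
    Acc (1 / 2 ^ s) (4 ^ k) K (2 ^ (3 * l * pJ s k l)) (4 ^ l - 1) := by
  rw [acc_iff]
  induction l generalizing K with
  | zero =>
    obtain rfl : K = leaf := h
    simpa using acc_leaf (n := n) (1 / 2 ^ s) (4 ^ k)
  | succ l ih =>
    obtain ⟨b, K₁, es, h1, h2, h3, rfl⟩ := h
    have hL : 1 ≤ pL s k l b := by
      obtain ⟨a1, a2⟩ := pL_div s k l b
      have := pE_ge s k (l + 1)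
      rw [← a1]
      exact Nat.mul_pos (by omega) a2
    obtain ⟨a1, a2⟩ := acc_node (J := pJ s k l) (by positivity) hL (onGrid (eta (pS s k l)) es)
      (fun e he => by
        obtain ⟨e, he', rfl⟩ := List.mem_map.1 he
        exact ⟨(ih (h3 e he').1).1, (ih (h3 e he').1).2,
          fun a ha => good_level hs hk b (h3 e he').2 ha hL⟩) (ih h1).1 (ih h1).2
    have hlen : (onGrid (eta (pS s k l)) es).length ≤ 3 := by rwa [onGrid, List.length_map]
    refine ⟨a1, a2.mono ?_ (by positivity) ?_⟩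
    · have e : pJ s k (l + 1) = 4 * pJ s k l := by rw [pJ, pJ]; ring
      calc _ ≤ 2 ^ (3 * l * pJ s k l) * ((2 ^ 4) ^ pJ s k l * (2 : ℝ) ^ (3 * l * pJ s k l)) ^ 3 := by
            refine mul_le_mul_of_nonneg_left ((pow_le_pow_right₀
              (one_le_mul_of_one_le_of_one_le (one_le_pow₀ (by norm_num))
                (one_le_pow₀ one_le_two)) hlen).trans ?_) (by positivity)
            gcongr
            norm_num
        _ = _ := by
            rw [← pow_mul, ← pow_add, ← pow_mul, ← pow_add, e]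
            congr 1
            ring
    · have h4 : 1 ≤ 4 ^ l := Nat.one_le_pow _ _ (by norm_num)
      have := Nat.mul_le_mul_right (4 ^ l - 1 + 1) hlen
      rw [pow_succ]
      omega

/-- The top level.  By `Deg.congr` replace `Δ` by its restriction to the sets of size `≤ N`, and write
it as the sum over `S` of the tables supported at `S` only; `S = ∅` contributes nothing (rooted).  For
`|S| = r ≥ 1`, `σ = S.orderEmbOfFin`, only `i = σ ρ` contribute, `(σ ρ : ℕ) = ∑_{j ≤ ρ} dst σ j`, so the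
weight `uu J L i / L * ph β t i` acts as one more edge (from the origin, `uu_expand`).  Only terms with
the full set `univ` survive, and `∏ z j ^ dst σ j = (∏_{j ≥ 1} z j) ∏ z j ^ gap σ j`.  The terms do not depend
on `S`; exchange the sums to get `gapF`. -/
theorem top_le {q' : ℝ} (hq' : 0 ≤ q') {N m J L : ℕ} (hL : 1 ≤ L) (hm : m + 1 ≤ N) {K : Feat n}
    {A : ℝ} (hA : 0 ≤ A) (hK : Acc q' N K A m) (hdeg : ∀ i, Deg (K i) N) {β : ℝ}
    (hβ : 2 * N * q' * β ^ 2 ≤ (J : ℝ) / (32 * L)) (t : Fin n) {Δ : Tab n} {Y : ℝ} (hY0 : 0 ≤ Y)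
    (hY : ∀ r ≤ N, ∀ a θ : Fin r → ℝ, (∀ j, Good q' N N (a j) (θ j)) →
      ‖gapF (fun j => Complex.exp (-(a j : ℂ) + Complex.I * θ j)) Δ‖ ≤ Y) :
    ‖wf (fun i : Fin n => uu J L i / L) t β K Δ‖ ≤ 9 ^ J * A * (N : ℝ) ^ (N + 1) * Y := by
  obtain ⟨hK1, hK2⟩ := acc_iff.1 hK
  have hL' : (1 : ℝ) ≤ L := by exact_mod_cast hL
  have hκ : ‖Complex.exp (Complex.I * (-(β * (t : ℕ)) : ℝ)) * ((1 / L : ℝ) : ℂ)‖ ≤ 1 := by
    rw [norm_mul, Complex.norm_exp_I_mul_ofReal, one_mul, Complex.norm_real,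
      Real.norm_of_nonneg (by positivity), div_le_one (by positivity)]
    exact hL'
  have hrep : ∀ r, Rep (r := r) False q' N (fun _ => wf (fun i : Fin n => uu J L i / L) t β K)
      (9 ^ J * A * (r : ℝ) ^ (m + 1)) N := fun r => by
    refine (wf_rep hq' hK1 hK2 fun ρ => ?_).mono id le_rfl hm fun _ _ _ => rfl
    refine (rep_weight hL hκ (α := β) (fun a ha => ⟨le_trans (by positivity) ha, Or.inr ?_⟩) (Iic ρ)
      False.elim).mono id le_rfl le_rfl fun σ Λ _ => ?_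
    · rw [Nat.cast_one, one_mul]
      exact hβ.trans ha
    · rw [ph, sum_dst_Iic]
      congr 2
      rw [mul_right_comm, mul_right_comm (Complex.exp _), ← Complex.exp_add]
      push_cast
      ring_nf
  rw [(Deg.wf hdeg _ t β).congr
    (Λ' := ∑ r ∈ range (N + 1), fun S => if S.card = r then Δ S else 0) fun S hS => by
      simp [Nat.lt_succ_of_le hS], map_sum]
  refine (norm_sum_le _ _).trans ((sum_le_sum fun r hr =>
    rep_le (hrep r) hY0 (hY r (Nat.lt_succ_iff.1 (mem_range.1 hr)))).trans ?_)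
  rw [← sum_mul, ← mul_sum, sum_range_succ', Nat.cast_zero, zero_pow (Nat.succ_ne_zero m), add_zero]
  gcongr
  have hN : (1 : ℝ) ≤ N := by exact_mod_cast (by omega : 1 ≤ N)
  calc _ ≤ ∑ _r ∈ range N, (N : ℝ) ^ N := sum_le_sum fun r hr =>
        (pow_le_pow_left₀ (by positivity) (by exact_mod_cast mem_range.1 hr) _).trans
          (pow_le_pow_right₀ hN hm)
    _ = _ := by rw [sum_const, card_range, nsmul_eq_mul, pow_succ']

end Crest.Agent.R300
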