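import Crest.Agent.R300.UDefs
import Crest.Agent.Lib.PT.All
import Crest.Prelude.Def_TraceDecoder

/-!
# R300 upper bound: the algorithm

Complex rationals are pairs; a functional is a list of (mask, coefficient) terms; a candidate table is
a list of (mask, value) terms (values of equal masks add up).
-/

set_option autoImplicit false

namespace Crest.Agent.R300

open Crest.Agent.Lib.PT

abbrev QC := ℚ × ℚ
abbrev Mask := List Bool
abbrev QFn := List (Mask × QC)
abbrev QFeat := List QFn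
abbrev RV := List (Mask × ℚ)
abbrev Con := RV × ℚ

def qmul (z w : QC) : QC := (z.1 * w.1 - z.2 * w.2, z.1 * w.2 + z.2 * w.1)
def qcj (z : QC) : QC := (z.1, -z.2)
def qsm (r : ℚ) (z : QC) : QC := (r * z.1, r * z.2)
def qdiv (z w : QC) : QC := qsm (1 / (w.1 * w.1 + w.2 * w.2)) (qmul z (qcj w))

/-! ### functionals -/

def staQ (φ ψ : QFn) : QFn :=
  φ.flatMap fun a => ψ.map fun b => (List.zipWith (fun x y => x || y) a.1 b.1, qmul a.2 b.2)
def cjQ (φ : QFn) : QFn := φ.map fun a => (a.1, qcj a.2)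
def unitM (n i : ℕ) : Mask := (List.range n).map fun j => decide (j = i)
def oneQ (n : ℕ) : QFn := [(List.replicate n false, (1, 0))]
def leafQ (n : ℕ) : QFeat := (List.range n).map fun i => [(unitM n i, (1, 0))]

/-- `(S + i) ^ (2 m)` as a Gaussian integer. -/
def gpw (S m : ℕ) : ℤ × ℤ :=
  (fun z : ℤ × ℤ => (z.1 * ((S : ℤ) * S - 1) - z.2 * (2 * S), z.1 * (2 * S) + z.2 * ((S : ℤ) * S - 1)))^[m]
    (1, 0)
/-- The table of `exp (i j η)`, `j ≤ cap`. -/
def pwTab (S cap : ℕ) : List QC :=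
  (List.range (cap + 1)).map fun j =>
    (((gpw S j).1 : ℚ) / ((S * S + 1 : ℕ) : ℚ) ^ j, ((gpw S j).2 : ℚ) / ((S * S + 1 : ℕ) : ℚ) ^ j)
def gamT (pw : List QC) (a : ℤ) : QC :=
  if a < 0 then qcj (pw.getD a.natAbs (0, 0)) else pw.getD a.natAbs (0, 0)

def wfQ (pw : List QC) (g : List ℚ) (i : ℕ) (a : ℤ) (K : QFeat) : QFn :=
  (List.range g.length).flatMap fun j => (K.getD j []).map fun e =>
    (e.1, qmul (qsm (g.getD j 0) (gamT pw (a * ((j : ℤ) - i)))) e.2)

def uuQ (J L d : ℕ) : ℚ :=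
  ((List.range (J + 1)).map fun j => ((2 * J).choose (J + j) : ℚ) *
    ((1 - 1 / (32 * (L : ℚ))) ^ d) ^ (J + j) * (1 - (1 - 1 / (32 * (L : ℚ))) ^ d) ^ (J - j)).sum
/-- The edge weights as a table indexed by the distance. -/
def uTab (n J L : ℕ) : List ℚ := (List.range n).map fun d => uuQ J L d / (256 * (L : ℚ))

def edgeQ (pw : List QC) (ut : List ℚ) (a : ℤ) (K : QFeat) : QFeat :=
  (List.range ut.length).map fun i =>
    wfQ pw ((List.range ut.length).map fun j => ut.getD (i - j + (j - i)) 0) i a K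
def staF (K K' : QFeat) : QFeat :=
  (List.range K.length).map fun i => staQ (K.getD i []) (K'.getD i [])
def zrange (M : ℕ) : List ℤ := (List.range (2 * M + 1)).map fun j : ℕ => (j : ℤ) - M
/-- The trivial edge and all edges to members of `F`. -/
def edgesQ (one : QFeat) (pw : List QC) (ut : List ℚ) (zs : List ℤ) (F : List QFeat) : List QFeat :=
  one :: F.flatMap fun K => zs.map fun a => edgeQ pw ut a K
def nodesQ (E F : List QFeat) : List QFeat :=
  F.flatMap fun K => E.flatMap fun e₁ => E.flatMap fun e₂ => E.map fun e₃ =>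
    staF (staF (staF K e₁) e₂) e₃
def lvPw (n s k l : ℕ) : List QC := pwTab (pS s k l) (3 * pMT s k l * n)
def famStep (n s k l : ℕ) (F : List QFeat) : List QFeat :=
  nodesQ (edgesQ (List.replicate n (oneQ n)) (lvPw n s k l) (uTab n (pJ s k l) (pLA s k l))
      (zrange (3 * pMT s k l)) F) F ++
    nodesQ (edgesQ (List.replicate n (oneQ n)) (lvPw n s k l) (uTab n (pJ s k l) (pLB s k l))
      (zrange (3 * pMT s k l)) F) F
def famQ (n s k : ℕ) : ℕ → List QFeat
  | 0 => [leafQ n]
  | l + 1 => famStep n s k l (famQ n s k l)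

def winStep (h : ℕ) (row : List ℕ) : List ℕ :=
  (List.range row.length).map fun d =>
    ((List.range (2 * h + 1)).map fun u => if u ≤ d then row.getD (d - u) 0 else 0).sum
def winRow (L h r : ℕ) : List ℕ :=
  (winStep h)^[r] ((List.range (2 * L + 1)).map fun d => if d ≤ 2 * (L - r * h) then 1 else 0)
def winQ (n L h r t : ℕ) : List ℚ :=
  (List.range n).map fun i =>
    if t ≤ i + L then ((winRow L h r).getD (i + L - t) 0 : ℚ) / (((2 * h + 1 : ℕ) : ℚ) ^ r * (2 * L))
    else 0
def lwinQ (n s k l : ℕ) (b : Bool) (t : ℕ) : List ℚ :=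
  winQ n (pL s k l b) (pL s k l b / (4 * pE s k (l + 1))) (pE s k (l + 1)) t

/-! ### linear constraints and the perceptron -/

def val (v : RV) (S : Mask) : ℚ := (v.map fun e => if e.1 = S then e.2 else 0).sum
def dot (a v : RV) : ℚ := (a.map fun e => e.2 * val v e.1).sum
def reQ (φ : QFn) : RV := φ.map fun e => (e.1, e.2.1)
def imQ (φ : QFn) : RV := φ.map fun e => (e.1, e.2.2)
def evQ (φ : QFn) (v : RV) : QC := (dot (reQ φ) v, dot (imQ φ) v)
def scaleR (c : ℚ) (a : RV) : RV := a.map fun e => (e.1, c * e.2)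
/-- `|⟨a, v⟩ - c| ≤ r`. -/
def con2 (a : RV) (c r : ℚ) : List Con := [(a, c + r), (scaleR (-1) a, -c + r)]
def conC (φ : QFn) (c : QC) (r : ℚ) : List Con := con2 (reQ φ) c.1 r ++ con2 (imQ φ) c.2 r
def lpStep (ζ : ℚ) (cs : List Con) (v : RV) : RV :=
  v ++ scaleR (-ζ) ((cs.filter fun c => decide (c.2 + ζ < dot c.1 v)).headD ([], 0)).1
def lp (ζ : ℚ) (cs : List Con) (T : ℕ) : RV := (lpStep ζ cs)^[T] []

def keys (n N : ℕ) : List Mask :=
  (List.replicate n false ::
    (PT.words (List.range n) N).map fun w => (List.range n).map fun j => decide (j ∈ w)).dedup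
def baseCons (ks : List Mask) (known : List Bool) : List Con :=
  (ks.flatMap fun S => con2 [(S, 1)] (1 / 2) (1 / 2)) ++
    (ks.filter fun S => !(S.drop known.length).any fun b => b).flatMap fun S =>
      con2 [(S, 1)] (if (List.zipWith (fun a b => !a || b) S known).all (fun b => b) then 1 else 0) 0

def pmStep (a d : ℤ) (U : Mask) (b : Bool) (row : List ℤ) : List ℤ :=
  (List.range row.length).map fun j =>
    (if b then 0 else (d - a) * row.getD j 0) +
      (if b = U.getD j false then a * row.getD (j + 1) 0 else 0)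
def pmQ (p : ℚ) (S U : Mask) : ℚ :=
  ((S.foldr (pmStep p.num p.den U)
    ((List.range (S.length + 1)).map fun j => if (U.drop j).any (fun b => b) then 0 else 1)).getD 0 0 :
      ℤ) / (p.den : ℚ) ^ S.length
def freq (U : Mask) (τs : List (List Bool)) : ℚ := (τs.countP fun τ => hit U τ : ℚ) / τs.length
def trCons (p ε : ℚ) (ks : List Mask) (τs : List (List Bool)) : List Con :=
  ks.flatMap fun U => con2 (ks.map fun S => (S, pmQ p S U)) (freq U τs) ε

/-! ### recovering single transforms from products -/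

/-- Phase table, window, position, step, candidate table. -/
abbrev Orc := List QC × List ℚ × ℕ × ℕ × RV

def fw (D : Orc) (K : QFeat) (a : ℤ) : QFn := wfQ D.1 D.2.1 D.2.2.1 a K
def car (D : Orc) (c : QFeat × ℤ) (m : ℕ) : QFn :=
  staQ (fw D c.1 (c.2 + (m * D.2.2.2.1 : ℕ))) (cjQ (fw D c.1 c.2))
def e2 (D : Orc) (c : QFeat × ℤ) : QC := evQ (car D c 0) D.2.2.2.2
def e3 (D : Orc) (K : QFeat) (b : ℤ) (c : QFeat × ℤ) (m : ℕ) : QC :=
  evQ (staQ (fw D K b) (cjQ (car D c m))) D.2.2.2.2
def e4 (D : Orc) (c : QFeat × ℤ) (m : ℕ) (c' : QFeat × ℤ) (m' : ℕ) : QC :=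
  evQ (staQ (car D c m) (cjQ (car D c' m'))) D.2.2.2.2
def best (D : Orc) (cand : List (QFeat × ℤ)) (m : ℕ) : QFeat × ℤ :=
  (cand.argmax fun c => (e4 D c m c m).1).getD ([], 0)
def isA (D : Orc) (cand : List (QFeat × ℤ)) (ms : List ℕ) (κ : ℚ) : Bool :=
  ms.all fun m => decide (κ ^ 4 ≤ (e4 D (best D cand m) m (best D cand m) m).1)
def rnd1 (u : ℕ) (x : ℚ) : ℚ := max (-2) (min 2 ((⌊x * u⌋ : ℚ) / u))
def rnd (u : ℕ) (z : QC) : QC := (rnd1 u z.1, rnd1 u z.2)
def chain (D : Orc) (cand : List (QFeat × ℤ)) (ms : List ℕ) (u : ℕ) : List QC :=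
  ms.foldl (fun cs m => cs ++ [rnd u (qdiv (e4 D (best D cand (m + 1)) (m + 1) (best D cand m) m)
    (qcj (cs.getD m (0, 0))))]) [rnd u (e2 D (best D cand 0))]
def fhat (D : Orc) (cand : List (QFeat × ℤ)) (cs : List QC) (K : QFeat) (b : ℕ) : QC :=
  qdiv (e3 D K b (best D cand (b / D.2.2.2.1)) (b / D.2.2.2.1)) (qcj (cs.getD (b / D.2.2.2.1) (0, 0)))
def rad (ps : List ℚ) (y : ℚ) : ℚ := (ps.filter fun r => decide (y ≤ r * r)).getLastD 2
def candQ (F : List QFeat) (zs : List ℤ) : List (QFeat × ℤ) := F.flatMap fun K => zs.map fun a => (K, a)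
def consA (D : Orc) (F : List QFeat) (cand : List (QFeat × ℤ)) (ms' bs : List ℕ) (u : ℕ)
    (κ : ℚ) : List Con :=
  F.flatMap fun K => bs.flatMap fun b : ℕ => conC (fw D K b) (fhat D cand (chain D cand ms' u) K b) (κ / 4)
def consB (D : Orc) (cand2 : List (QFeat × ℤ)) (ps : List ℚ) (κ : ℚ) : List Con :=
  cand2.flatMap fun c => conC (fw D c.1 c.2) (0, 0) (rad ps ((e2 D c).1 + κ ^ 6))

/-- The case and the constraints of level `l`, from the candidate table `v` of the level above. -/
def lvl (n s k l : ℕ) (b : Bool) (t : ℕ) (v : RV) : Bool × List Con :=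
  let D : Orc := (lvPw n s k l, lwinQ n s k l b t, t, pSg s k l, v)
  let F := famQ n s k l
  let κ : ℚ := 1 / 2 ^ pE s k l
  let mm := pMA s k l / pSg s k l
  let cand := candQ F (zrange (pMT s k l))
  if isA D cand (List.range (mm + 1)) κ then
    (true, consA D F cand (List.range mm) (List.range (pMA s k l + 1))
      (pS s k l) κ)
  else
    (false, consB D (candQ F (zrange (2 * pMT s k l)))
      ((List.range (3 * pE s k l + 1)).map fun j => 1 / (2 : ℚ) ^ j) κ)

def zetaQ (n : ℕ) (p : ℚ) : ℚ := 1 / 2 ^ pB n p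
def itQ (n : ℕ) (p : ℚ) : ℕ := 2 ^ (3 * pB n p)
def keysQ (n : ℕ) (p : ℚ) : List Mask := keys n (4 ^ pK n p)

def levelStep (n : ℕ) (p : ℚ) (known : List Bool) (st : RV × Bool) (l : ℕ) : RV × Bool :=
  (lp (zetaQ n p) (baseCons (keysQ n p) known ++
      (lvl n (pSs n p) (pK n p) l st.2 known.length st.1).2) (itQ n p),
    (lvl n (pSs n p) (pK n p) l st.2 known.length st.1).1)
def topV (n : ℕ) (p : ℚ) (τs : List (List Bool)) (known : List Bool) : RV :=
  lp (zetaQ n p) (baseCons (keysQ n p) known ++ trCons p (zetaQ n p) (keysQ n p) τs) (itQ n p)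
def bitStep (n : ℕ) (p : ℚ) (τs : List (List Bool)) (known : List Bool) : Bool :=
  decide (1 / 2 < val ((List.range (pK n p)).reverse.foldl (levelStep n p known)
    (topV n p τs known, true)).1 (unitM n known.length))
def decode (n : ℕ) (p : ℚ) (τs : List (List Bool)) : List Bool :=
  (List.range n).foldl (fun known _ => known ++ [bitStep n p τs known]) []

/-- Enough traces. -/
def okQ (n : ℕ) (p : ℚ) (m : ℕ) : Prop := 0 < p ∧ 4 * pB n p ≤ Nat.log 2 m
instance (n : ℕ) (p : ℚ) (m : ℕ) : Decidable (okQ n p m) := by unfold okQ; infer_instance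

def decodeG (n : ℕ) (p : ℚ) (τs : List (List Bool)) : List Bool :=
  if okQ n p τs.length then decode n p τs else []

def alg (x : List Bool) : List Bool :=
  decodeG (parseNat x).1 (parseRat (parseNat x).2).1
    (parseList (parseList parseBool) (parseRat (parseNat x).2).2).1

/-! ### semantics -/

def toC (z : QC) : ℂ := ⟨z.1, z.2⟩
noncomputable def semFn (n : ℕ) (φ : QFn) : Fn n :=
  (φ.map fun e => toC e.2 • (LinearMap.proj (toSet n e.1) : Fn n)).sum
noncomputable def semF (n : ℕ) (K : QFeat) : Feat n := fun i => semFn n (K.getD i [])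
def WF (n : ℕ) (φ : QFn) : Prop := ∀ e ∈ φ, e.1.length = n
def WFF (n : ℕ) (K : QFeat) : Prop := K.length = n ∧ ∀ φ ∈ K, WF n φ
def tabV (n : ℕ) (v : RV) : Tab n := fun S => (val v (toMask S) : ℂ)
/-- The difference between the candidate and the truth on the sets of size at most `N`. -/
def dif {n : ℕ} (N : ℕ) (x : Fin n → Bool) (v : RV) : Tab n := fun S =>
  if S.card ≤ N then tabV n v S - tabOf x S else 0
/-- A constraint that is normalized, of degree at most `N`, and satisfied by the word `x`. -/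
def ConOK {n : ℕ} (N : ℕ) (x : Fin n → Bool) (c : Con) : Prop :=
  (∀ e ∈ c.1, e.1.length = n) ∧ (∀ S : Finset (Fin n), N < S.card → val c.1 (toMask S) = 0) ∧
    ∑ S : Finset (Fin n), |val c.1 (toMask S)| ≤ 1 ∧
    ∑ S : Finset (Fin n), val c.1 (toMask S) * (if ∀ i ∈ S, x i = true then 1 else 0) ≤ c.2
/-- All constraints hold up to `ζ`. -/
def Sat (ζ : ℚ) (cs : List Con) (v : RV) : Prop := ∀ c ∈ cs, dot c.1 v ≤ c.2 + ζ
/-- The empirical frequencies are accurate. -/
def GoodTr {n : ℕ} (p ε : ℚ) (N : ℕ) (x : Fin n → Bool) (τs : List (List Bool)) : Prop :=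
  ∀ U : Finset (Fin n), U.card ≤ N →
    |freq (toMask U) τs - ∑ S : Finset (Fin n),
      pm p (toMask S) (toMask U) * (if ∀ i ∈ S, x i = true then 1 else 0)| ≤ ε

/-! Realize the equation lemmas of the recursive definitions once, in this module. -/
theorem famQ_eqns_realized : True := by
  have := @famQ.eq_def
  have := @famQ.eq_1
  have := @famQ.eq_2
  trivial

end Crest.Agent.R300
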