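import Crest.Agent.R300.ULevel

/-!
# R300 upper bound: reading off the bit at level `0` (task UBase)
-/

set_option autoImplicit false

namespace Crest.Agent.R300

open Finset

variable {n s k : ℕ}

theorem ubase_int (m : ℤ) : ∫ β in (-Real.pi)..Real.pi, Complex.exp (Complex.I * m * β) =
    if m = 0 then 2 * (Real.pi : ℂ) else 0 := by
  split_ifs with hm
  · simp [hm]
    ring
  · have hc : Complex.I * m ≠ 0 := mul_ne_zero Complex.I_ne_zero (by exact_mod_cast hm)
    rw [integral_exp_mul_complex hc]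
    have : Complex.exp (Complex.I * m * (Real.pi : ℝ)) =
        Complex.exp (Complex.I * m * ((-Real.pi : ℝ) : ℂ)) := by
      rw [Complex.exp_eq_exp_iff_exists_int]
      exact ⟨m, by push_cast; ring⟩
    rw [this, sub_self, zero_div]

/-- The constant term of a trigonometric polynomial is at most its sup norm. -/
theorem ubase_const {ι : Type} [Fintype ι] (a : ι → ℂ) (m : ι → ℤ) (i₀ : ι) (h₀ : m i₀ = 0)
    (hz : ∀ i, i ≠ i₀ → m i = 0 → a i = 0) {X : ℝ}
    (hX : ∀ β : ℝ, |β| ≤ Real.pi → ‖∑ i, a i * Complex.exp (Complex.I * m i * β)‖ ≤ X) :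
    ‖a i₀‖ ≤ X := by
  have hpi := Real.pi_pos
  have h1 : ∫ β in (-Real.pi)..Real.pi, ∑ i, a i * Complex.exp (Complex.I * m i * β) =
      a i₀ * (2 * Real.pi) := by
    rw [intervalIntegral.integral_finsetSum fun i _ =>
      (by fun_prop : Continuous fun β : ℝ => a i * Complex.exp (Complex.I * m i * β)).intervalIntegrable
        _ _]
    simp only [intervalIntegral.integral_const_mul, ubase_int]
    rw [Finset.sum_eq_single i₀]
    · rw [if_pos h₀]
    · intro i _ hi
      split_ifs with hm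
      · rw [hz i hi hm, zero_mul]
      · rw [mul_zero]
    · simp
  have h2 := intervalIntegral.norm_integral_le_of_norm_le_const (a := -Real.pi) (b := Real.pi)
    (C := X) (f := fun β : ℝ => ∑ i, a i * Complex.exp (Complex.I * m i * β)) (fun β hβ => by
      rw [Set.uIoc_of_le (by linarith)] at hβ
      exact hX β (abs_le.2 ⟨hβ.1.le, hβ.2⟩))
  rw [h1, norm_mul, sub_neg_eq_add, abs_of_pos (by linarith)] at h2
  have e : ‖(2 * Real.pi : ℂ)‖ = Real.pi + Real.pi := by
    rw [norm_mul, Complex.norm_real, Real.norm_eq_abs, abs_of_pos hpi]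
    simp
    ring
  rw [e] at h2
  exact le_of_mul_le_mul_right h2 (by linarith)

theorem ubase_wf (g : Fin n → ℝ) (t : Fin n) (β : ℝ) (Δ : Tab n) :
    wf g t β leaf Δ = ∑ i, (g i : ℂ) * Δ {i} *
      Complex.exp (Complex.I * ((((i : ℕ) : ℤ) - ((t : ℕ) : ℤ) : ℤ) : ℂ) * β) := by
  simp only [wf, leaf, ph, LinearMap.sum_apply, LinearMap.smul_apply, LinearMap.proj_apply,
    smul_eq_mul]
  refine Finset.sum_congr rfl fun i _ => ?_
  push_cast
  ring_nf

theorem ubase_norm_exp (m : ℤ) (β : ℝ) : ‖Complex.exp (Complex.I * m * β)‖ = 1 := by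
  have : Complex.I * m * β = ((m * β : ℝ) : ℂ) * Complex.I := by push_cast; ring
  rw [this, Complex.norm_exp_ofReal_mul_I]

theorem ubase_neg (g : Fin n → ℝ) (t : Fin n) (β : ℝ) {Δ : Tab n} (h : ∀ S, (Δ S).im = 0) :
    ‖wf g t (-β) leaf Δ‖ = ‖wf g t β leaf Δ‖ := by
  have := cj_real (wf g t β leaf) h
  rw [cj_wf, cjF_leaf] at this
  rw [this, Complex.norm_conj]

/-- The analytic part of case B. -/
theorem ubase_B {g : Fin n → ℝ} (hg : ∀ i, 0 ≤ g i) (hg1 : ∑ i, g i ≤ 1) (t : Fin n) {Δ : Tab n}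
    {ζ : ℝ} (hΔ : Diff t ζ Δ) (hζ0 : 0 ≤ ζ) {η₀ X : ℝ}
    (hX : ∀ β : ℝ, |β| ≤ Real.pi →
      (‖wf g t β leaf Δ‖ + ζ) * (‖wf g t (β + η₀) leaf Δ‖ + ζ) ≤ X) :
    (g t * ‖Δ {t}‖) ^ 2 ≤ X := by
  set m : Fin n → ℤ := fun i => ((i : ℕ) : ℤ) - ((t : ℕ) : ℤ) with hm
  set c : Fin n → ℂ := fun i => if i < t then 0 else (g i : ℂ) * Δ {i} with hc
  have hF : ∀ β : ℝ, ‖∑ i, c i * Complex.exp (Complex.I * m i * β)‖ ≤ ‖wf g t β leaf Δ‖ + ζ := by
    intro β
    have e : ∑ i, c i * Complex.exp (Complex.I * m i * β) = wf g t β leaf Δ -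
        ∑ i, (if i < t then (g i : ℂ) * Δ {i} else 0) * Complex.exp (Complex.I * m i * β) := by
      rw [ubase_wf, ← Finset.sum_sub_distrib]
      refine Finset.sum_congr rfl fun i _ => ?_
      simp only [hc, hm]
      split_ifs <;> simp
    rw [e]
    refine (norm_sub_le _ _).trans (add_le_add le_rfl ((norm_sum_le _ _).trans ?_))
    calc ∑ i, ‖(if i < t then (g i : ℂ) * Δ {i} else 0) * Complex.exp (Complex.I * m i * β)‖
        ≤ ∑ i, g i * ζ := by
          refine Finset.sum_le_sum fun i _ => ?_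
          rw [norm_mul, ubase_norm_exp, mul_one]
          split_ifs with hi
          · rw [norm_mul, Complex.norm_real, Real.norm_eq_abs, abs_of_nonneg (hg i)]
            exact mul_le_mul_of_nonneg_left (hΔ.known _ (by simpa using hi)) (hg i)
          · rw [norm_zero]
            exact mul_nonneg (hg i) hζ0
      _ ≤ ζ := by
          rw [← Finset.sum_mul]
          exact mul_le_of_le_one_left hζ0 hg1
  have key := ubase_const
    (fun p : Fin n × Fin n => c p.1 * (c p.2 * Complex.exp (Complex.I * m p.2 * η₀)))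
    (fun p => m p.1 + m p.2) (t, t) (by simp [hm]) (fun p hp hp0 => by
      by_cases h1 : p.1 < t
      · simp [hc, h1]
      · by_cases h2 : p.2 < t
        · simp [hc, h2]
        · exfalso
          refine hp (Prod.ext (Fin.ext ?_) (Fin.ext ?_)) <;>
          · rw [Fin.lt_def] at h1 h2
            simp only [hm] at hp0
            dsimp only
            omega) (X := X) (fun β hβ => by
      have e : ∑ p : Fin n × Fin n, c p.1 * (c p.2 * Complex.exp (Complex.I * m p.2 * η₀)) *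
          Complex.exp (Complex.I * ((m p.1 + m p.2 : ℤ) : ℂ) * β) =
          (∑ i, c i * Complex.exp (Complex.I * m i * β)) *
            ∑ j, c j * Complex.exp (Complex.I * m j * ((β + η₀ : ℝ) : ℂ)) := by
        rw [Finset.sum_mul_sum, Fintype.sum_prod_type]
        refine Finset.sum_congr rfl fun i _ => Finset.sum_congr rfl fun j _ => ?_
        have : Complex.exp (Complex.I * m j * η₀) *
            Complex.exp (Complex.I * ((m i + m j : ℤ) : ℂ) * β) =
            Complex.exp (Complex.I * m i * β) *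
              Complex.exp (Complex.I * m j * ((β + η₀ : ℝ) : ℂ)) := by
          rw [← Complex.exp_add, ← Complex.exp_add]
          congr 1
          push_cast
          ring
        linear_combination (c i * c j) * this
      rw [e, norm_mul]
      exact (mul_le_mul (hF β) (hF (β + η₀)) (norm_nonneg _) (by positivity)).trans (hX β hβ))
  simp only [norm_mul, ubase_norm_exp, hc, lt_irrefl, if_false, Complex.norm_real,
    Real.norm_eq_abs, abs_of_nonneg (hg t), mul_one] at key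
  rw [sq]
  exact key

theorem ubase_num {κ x y θ : ℝ} (hκ0 : 0 ≤ κ) (hκ : κ ≤ 1) (hx : x ≤ 2)
    (hy : y ≤ 2) (hθ0 : 0 ≤ θ) (hθ : θ ≤ κ ^ 2 / 8) (hxy : x * y ≤ 15 * κ ^ 2) :
    (x + θ) * (y + θ) ≤ (4 * κ) ^ 2 := by
  have h1 : κ ^ 2 ≤ 1 := pow_le_one₀ hκ0 hκ
  have h2 : θ * (x + y + θ) ≤ θ * 5 := mul_le_mul_of_nonneg_left (by linarith) hθ0
  nlinarith

/-- Let `g = lwin s k 0 b' t`, `L = pL 0 b' ≤ pLA 0`, `g t = 1 / (2 L)` (`gwin_plateau`),
`F β = wf g t β leaf Δ = ∑ g i Δ{i} exp (i β (i - t))`.  The grid of `4 S` points covers `[-π, π]`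
(`exists_grid`), and moving to the grid costs `η · pLA 0 · 2` (`wf_lip`).
Case A: `g t Δ{t} = (1/2π) ∫ F`, and `|F β| ≤ 2 κ` (negative `β` by conjugation).
Case B: let `F⁺` be the part `i ≥ t`; `|F - F⁺| ≤ ζ`.  The constant term of the trigonometric polynomial
`β ↦ F⁺ β * F⁺ (β + η₀)` is `(g t Δ{t})²`, so this is at most `sup |F⁺ β F⁺ (β + η₀)| ≤ 17 κ²`.
Finally `2 L · 5 κ ≤ 1/4` (`pLam_le`, `pE_ge`).  (Instead of integrals one can average over the
`P`-th roots of unity, `P > 2 n`.) -/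
theorem bit_of_grid (hs : 3 ≤ s) (hk : 1 ≤ k) (b b' : Bool) (t : Fin n) {Δ : Tab n} {ζ : ℝ}
    (hΔ : Diff t ζ Δ) (hζ0 : 0 ≤ ζ) (hζ : ζ ≤ kap s k 0 ^ 8)
    (h : Grid s k 0 b (lwin s k 0 b' t) t Δ) : ‖Δ {t}‖ ≤ 1 / 4 := by
  set g := lwin s k 0 b' t with hg
  set κ := kap s k 0 with hκ
  set η := eta (pS s k 0) with hη
  have hg0 : ∀ i, 0 ≤ g i := lwin_nonneg b' t
  have hg1 : ∑ i, g i ≤ 1 := sum_lwin_le b' t
  obtain ⟨hdiv, hdiv1⟩ := pL_div s k 0 b'
  have hE := pE_ge s k 0
  have hE1 := pE_ge s k (0 + 1)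
  have hL0 : 0 < pL s k 0 b' := by
    rw [← hdiv]
    positivity
  have hL0' : (0 : ℝ) < pL s k 0 b' := by exact_mod_cast hL0
  have hgt : g t = 1 / (2 * pL s k 0 b') := by
    refine gwin_plateau ?_
    rw [Nat.dist_self, zero_add]
    nlinarith
  have hκ0 : 0 < κ := by rw [hκ, kap]; positivity
  have hLA : (pLA s k 0 : ℝ) * κ ≤ 1 / 64 := by
    have a1 := pLam_le hs hk 0
    have a2 := pLam_succ s k 0
    have a3 : (2 : ℝ) ^ (pLam s k 0 + 6) ≤ 2 ^ pE s k 0 := pow_le_pow_right₀ one_le_two (by omega)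
    rw [hκ, kap, pLA, mul_one_div, div_le_div_iff₀ (by positivity) (by norm_num)]
    push_cast
    rw [pow_add] at a3
    linarith
  have hLA1 : (1 : ℝ) ≤ pLA s k 0 := by
    rw [pLA]
    exact_mod_cast Nat.one_le_two_pow
  have hκ1 : κ ≤ 1 / 64 := le_trans (le_mul_of_one_le_left hκ0.le hLA1) hLA
  have hLκ : (pL s k 0 b' : ℝ) * κ ≤ 1 / 64 :=
    le_trans (mul_le_mul_of_nonneg_right (by exact_mod_cast pL_le s k 0 b') hκ0.le) hLA
  have hS : 1 ≤ pS s k 0 := Nat.one_le_two_pow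
  have hη0 : 0 ≤ η := le_trans (by positivity) (eta_bounds hS).1
  have hη1 : η ≤ 2 * κ ^ 8 := by
    refine (eta_bounds hS).2.trans (le_of_eq ?_)
    rw [hκ, kap, pS, one_div, inv_pow, ← pow_mul, mul_comm (pE s k 0)]
    push_cast
    rw [div_eq_mul_inv]
  have hκ5 : κ ^ 5 ≤ 1 := pow_le_one₀ hκ0.le (by linarith)
  have hκ7 : κ ^ 7 ≤ κ ^ 2 := pow_le_pow_of_le_one hκ0.le (by linarith) (by norm_num)
  have hε : η * pLA s k 0 * 2 ≤ κ ^ 2 / 16 := by
    have a1 : η * pLA s k 0 ≤ 2 * κ ^ 8 * pLA s k 0 :=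
      mul_le_mul_of_nonneg_right hη1 (by positivity)
    have a2 : κ ^ 7 * (pLA s k 0 * κ) ≤ κ ^ 7 * (1 / 64) :=
      mul_le_mul_of_nonneg_left hLA (by positivity)
    nlinarith
  have hζ1 : ζ ≤ κ ^ 2 / 16 := by
    have a2 : κ ^ 7 * κ ≤ κ ^ 7 * (1 / 64) := mul_le_mul_of_nonneg_left hκ1 (by positivity)
    nlinarith [sq_nonneg κ]
  have hleaf : ∀ j : Fin n, Bd0 (leaf j) := fun j => bd0_proj _
  have hlip : ∀ β β' : ℝ, |β - β'| ≤ η →
      ‖wf g t β leaf Δ‖ ≤ ‖wf g t β' leaf Δ‖ + κ ^ 2 / 16 := by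
    intro β β' hβ
    have a1 := wf_lip hg0 (lwin_moment b' t) hleaf zero_le_two hΔ.bd β β'
    have a2 := norm_sub_norm_le (wf g t β leaf Δ) (wf g t β' leaf Δ)
    have a3 : |β - β'| * pLA s k 0 ≤ η * pLA s k 0 := mul_le_mul_of_nonneg_right hβ (by positivity)
    linarith
  have hgrid : ∀ β : ℝ, |β| ≤ Real.pi → ∃ a : ℤ, |a| ≤ (4 * pS s k 0 : ℕ) ∧ |β - a * η| ≤ η := by
    intro β hβ
    refine exists_grid hS ?_
    push_cast
    exact mul_le_mul_of_nonneg_right (hβ.trans Real.pi_le_four) (by positivity)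
  have hmain : g t * ‖Δ {t}‖ ≤ 4 * κ := by
    cases b with
    | true =>
      have hA : GridA s k 0 g t Δ := h
      have key := ubase_const (fun i => (g i : ℂ) * Δ {i}) (fun i => ((i : ℕ) : ℤ) - ((t : ℕ) : ℤ))
        t (by simp) (fun i hi h0 => absurd (Fin.ext (by omega)) hi) (X := 4 * κ) (fun β hβ => by
          rw [← ubase_wf]
          obtain ⟨a, ha, hβa⟩ := hgrid β hβ
          have a1 := hlip β _ hβa
          have a2 := hA leaf rfl a.natAbs (by
            have : pMA s k 0 = 4 * pS s k 0 := rfl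
            rw [Int.abs_eq_natAbs] at ha
            omega)
          have a3 : ‖wf g t (a * η) leaf Δ‖ = ‖wf g t ((a.natAbs : ℝ) * η) leaf Δ‖ := by
            rcases Int.natAbs_eq a with e | e
            · conv_lhs => rw [e]
              simp
            · conv_lhs => rw [e]
              rw [← ubase_neg g t _ hΔ.re]
              simp
          rw [a3] at a1
          nlinarith)
      rwa [norm_mul, Complex.norm_real, Real.norm_eq_abs, abs_of_nonneg (hg0 t)] at key
    | false =>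
      obtain ⟨d, -, hB⟩ : GridB s k 0 g t Δ := h
      have hbd : ∀ β, ‖wf g t β leaf Δ‖ ≤ 2 := fun β =>
        Bd0.wf hg0 hg1 hleaf t β Δ 2 zero_le_two hΔ.bd
      have key := ubase_B hg0 hg1 t hΔ hζ0 (η₀ := d * η) (X := (4 * κ) ^ 2) (fun β hβ => by
        obtain ⟨a, ha, hβa⟩ := hgrid β hβ
        have a1 := hlip β _ hβa
        have a2 := hlip (β + d * η) (((a + d : ℤ) : ℝ) * η) (by
          have : β + d * η - ((a + d : ℤ) : ℝ) * η = β - a * η := by push_cast; ring
          rw [this]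
          exact hβa)
        have a3 := hB leaf rfl a ha
        refine le_trans (mul_le_mul ?_ ?_ (by positivity) (by positivity))
          (ubase_num (θ := κ ^ 2 / 8) hκ0.le (by linarith) (hbd _)
            (hbd _) (by positivity) le_rfl a3) <;> linarith)
      exact le_of_sq_le_sq key (by positivity)
  rw [hgt, one_div, inv_mul_le_iff₀ (by positivity)] at hmain
  linarith

end Crest.Agent.R300
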