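import Crest.Agent.R300.UDefs

/-!
# R300 upper bound: algebra of functionals, `Bd`, `Bd0`, `Deg` (task UCalc)
-/

set_option autoImplicit false

namespace Crest.Agent.R300

open Finset

variable {n : ℕ}

theorem sta_apply (φ ψ : Fn n) (Λ : Tab n) :
    sta φ ψ Λ = φ fun S => ψ fun S' => Λ (S ∪ S') := rfl

theorem sta_assoc (φ ψ χ : Fn n) : sta (sta φ ψ) χ = sta φ (sta ψ χ) := by
  refine LinearMap.ext fun Λ => ?_
  simp only [sta_apply, union_assoc]

@[simp] theorem sta_oneF (φ : Fn n) : sta φ oneF = φ := by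
  refine LinearMap.ext fun Λ => ?_
  simp only [sta_apply, oneF, LinearMap.proj_apply, union_empty]

@[simp] theorem oneF_sta (φ : Fn n) : sta oneF φ = φ := by
  refine LinearMap.ext fun Λ => ?_
  simp only [sta_apply, oneF, LinearMap.proj_apply, empty_union]

theorem sta_add_left (φ φ' ψ : Fn n) : sta (φ + φ') ψ = sta φ ψ + sta φ' ψ := by
  rfl

theorem sta_add_right (φ ψ ψ' : Fn n) : sta φ (ψ + ψ') = sta φ ψ + sta φ ψ' := by
  refine LinearMap.ext fun Λ => ?_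
  exact φ.map_add _ _

theorem sta_sub_left (φ φ' ψ : Fn n) : sta (φ - φ') ψ = sta φ ψ - sta φ' ψ := by
  rfl

theorem sta_sub_right (φ ψ ψ' : Fn n) : sta φ (ψ - ψ') = sta φ ψ - sta φ ψ' := by
  refine LinearMap.ext fun Λ => ?_
  exact φ.map_sub _ _

theorem sta_smul_left (c : ℂ) (φ ψ : Fn n) : sta (c • φ) ψ = c • sta φ ψ := by
  rfl

theorem sta_smul_right (c : ℂ) (φ ψ : Fn n) : sta φ (c • ψ) = c • sta φ ψ := by
  refine LinearMap.ext fun Λ => ?_
  exact φ.map_smul c _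

theorem sta_sum_left {ι : Type} (I : Finset ι) (φ : ι → Fn n) (ψ : Fn n) :
    sta (∑ i ∈ I, φ i) ψ = ∑ i ∈ I, sta (φ i) ψ := by
  refine LinearMap.ext fun Λ => ?_
  simp only [sta_apply, LinearMap.sum_apply]

theorem sta_sum_right {ι : Type} (I : Finset ι) (φ : Fn n) (ψ : ι → Fn n) :
    sta φ (∑ i ∈ I, ψ i) = ∑ i ∈ I, sta φ (ψ i) := by
  refine LinearMap.ext fun Λ => ?_
  simp only [sta_apply, LinearMap.sum_apply]
  rw [← map_sum]
  congr 1
  funext S
  rw [Finset.sum_apply]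

theorem sta_proj (S S' : Finset (Fin n)) :
    sta (LinearMap.proj S : Fn n) (LinearMap.proj S') = LinearMap.proj (S ∪ S') := by
  rfl

theorem tabOf_union (x : Fin n → Bool) (S S' : Finset (Fin n)) :
    tabOf x (S ∪ S') = tabOf x S * tabOf x S' := by
  simp only [tabOf, forall_mem_union]
  rw [ite_zero_mul_ite_zero, mul_one]

theorem norm_tabOf_le (x : Fin n → Bool) (S : Finset (Fin n)) : ‖tabOf x S‖ ≤ 1 := by
  unfold tabOf
  split_ifs <;> simp

theorem tabOf_im (x : Fin n → Bool) (S : Finset (Fin n)) : (tabOf x S).im = 0 := by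
  unfold tabOf
  split_ifs <;> simp

theorem sta_tabOf (φ ψ : Fn n) (x : Fin n → Bool) :
    sta φ ψ (tabOf x) = φ (tabOf x) * ψ (tabOf x) := by
  have h : ∀ (χ : Fn n) (c : ℂ), (χ fun S => c * tabOf x S) = c * χ (tabOf x) :=
    fun χ c => χ.map_smul c _
  simp only [sta_apply, tabOf_union, h]
  simp only [mul_comm _ (ψ (tabOf x)), h]

theorem wf_apply (G : Fin n → ℝ) (i : Fin n) (α : ℝ) (K : Feat n) (Λ : Tab n) :
    wf G i α K Λ = ∑ j, (G j : ℂ) * ph α i j * K j Λ := by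
  simp only [wf, LinearMap.sum_apply, LinearMap.smul_apply, smul_eq_mul]

@[simp] theorem norm_ph (α : ℝ) (i j : Fin n) : ‖ph α i j‖ = 1 := by
  exact Complex.norm_exp_I_mul_ofReal _

theorem ph_add (α β : ℝ) (i j : Fin n) : ph (α + β) i j = ph α i j * ph β i j := by
  unfold ph
  rw [← Complex.exp_add]
  congr 1
  push_cast
  ring

theorem ph_trans (α : ℝ) (i j l : Fin n) : ph α i l = ph α i j * ph α j l := by
  unfold ph
  rw [← Complex.exp_add]
  congr 1
  push_cast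
  ring

private theorem ucalc_dist (i j : ℕ) : |(j : ℝ) - i| = Nat.dist i j := by
  rcases le_total i j with h | h
  · rw [Nat.dist_eq_sub_of_le h, Nat.cast_sub h, abs_of_nonneg (sub_nonneg.2 (Nat.cast_le.2 h))]
  · rw [Nat.dist_eq_sub_of_le_right h, Nat.cast_sub h, abs_sub_comm,
      abs_of_nonneg (sub_nonneg.2 (Nat.cast_le.2 h))]

theorem norm_ph_sub (α β : ℝ) (i j : Fin n) :
    ‖ph α i j - ph β i j‖ ≤ |α - β| * Nat.dist i j := by
  have h : ph α i j - ph β i j = (ph (α - β) i j - 1) * ph β i j := by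
    rw [sub_mul, ← ph_add, sub_add_cancel, one_mul]
  rw [h, norm_mul, norm_ph, mul_one]
  refine Real.norm_exp_I_mul_ofReal_sub_one_le.trans_eq ?_
  rw [Real.norm_eq_abs, abs_mul, ucalc_dist]

theorem cj_apply (φ : Fn n) (Λ : Tab n) :
    cj φ Λ = (starRingEnd ℂ) (φ fun S => (starRingEnd ℂ) (Λ S)) := rfl

@[simp] theorem cj_cj (φ : Fn n) : cj (cj φ) = φ := by
  refine LinearMap.ext fun Λ => ?_
  simp only [cj_apply, Complex.conj_conj]

theorem cj_sta (φ ψ : Fn n) : cj (sta φ ψ) = sta (cj φ) (cj ψ) := by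
  refine LinearMap.ext fun Λ => ?_
  simp only [cj_apply, sta_apply, Complex.conj_conj]

@[simp] theorem cj_proj (S : Finset (Fin n)) :
    cj (LinearMap.proj S : Fn n) = LinearMap.proj S := by
  refine LinearMap.ext fun Λ => ?_
  simp only [cj_apply, LinearMap.proj_apply, Complex.conj_conj]

theorem cj_add (φ ψ : Fn n) : cj (φ + ψ) = cj φ + cj ψ := by
  refine LinearMap.ext fun Λ => ?_
  simp only [cj_apply, LinearMap.add_apply, map_add]

theorem cj_smul (c : ℂ) (φ : Fn n) : cj (c • φ) = (starRingEnd ℂ c) • cj φ := by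
  refine LinearMap.ext fun Λ => ?_
  simp only [cj_apply, LinearMap.smul_apply, smul_eq_mul, map_mul]

theorem cj_real (φ : Fn n) {Λ : Tab n} (h : ∀ S, (Λ S).im = 0) :
    cj φ Λ = starRingEnd ℂ (φ Λ) := by
  simp only [cj_apply, fun S => Complex.conj_eq_iff_im.2 (h S)]

theorem cj_wf (G : Fin n → ℝ) (i : Fin n) (α : ℝ) (K : Feat n) :
    cj (wf G i α K) = wf G i (-α) (cjF K) := by
  refine LinearMap.ext fun Λ => ?_
  simp only [cj_apply, wf_apply, map_sum, map_mul, Complex.conj_ofReal, cjF]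
  refine sum_congr rfl fun j _ => ?_
  congr 2
  unfold ph
  rw [← Complex.exp_conj, map_mul, Complex.conj_ofReal, Complex.conj_I]
  congr 1
  push_cast
  ring

theorem cjF_leaf : cjF (leaf : Feat n) = leaf := by
  funext i
  exact cj_proj _

theorem cjF_node (J L : ℕ) (K₁ : Feat n) (l : List (Feat n × ℝ)) :
    cjF (node J L K₁ l) = node J L (cjF K₁) (l.map fun e => (cjF e.1, -e.2)) := by
  induction l generalizing K₁ with
  | nil => rfl
  | cons e l ih =>
    refine (ih fun i => sta (K₁ i) (edge J L e.2 e.1 i)).trans ?_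
    funext i
    simp only [node, List.map_cons, List.foldl_cons, cjF, cj_sta, edge, cj_wf]

theorem node_cons (J L : ℕ) (K₁ : Feat n) (e : Feat n × ℝ) (l : List (Feat n × ℝ)) :
    node J L K₁ (e :: l) = node J L (fun i => sta (K₁ i) (edge J L e.2 e.1 i)) l := rfl

theorem bd0_iff (φ : Fn n) (i : Fin n) : Bd0 φ ↔ Bd φ i 0 1 := by
  simp only [Bd0, Bd, zero_mul, Real.exp_zero, mul_one, one_mul]

theorem bd0_proj (S : Finset (Fin n)) : Bd0 (LinearMap.proj S : Fn n) := by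
  exact fun Λ c _ h => h S

theorem Bd0.sta {φ ψ : Fn n} (h : Bd0 φ) (h' : Bd0 ψ) : Bd0 (sta φ ψ) := by
  exact fun Λ c hc hΛ => h _ c hc fun S => h' _ c hc fun S' => hΛ _

theorem Bd0.cj {φ : Fn n} (h : Bd0 φ) : Bd0 (cj φ) := by
  intro Λ c hc hΛ
  rw [cj_apply, Complex.norm_conj]
  exact h _ c hc fun S => by rw [Complex.norm_conj]; exact hΛ S

private theorem ucalc_wf {G : Fin n → ℝ} (hG : ∀ j, 0 ≤ G j) (i : Fin n) (α : ℝ) (K : Feat n)
    (Λ : Tab n) : ‖wf G i α K Λ‖ ≤ ∑ j, G j * ‖K j Λ‖ := by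
  rw [wf_apply]
  refine norm_sum_le_of_le _ fun j _ => ?_
  rw [norm_mul, norm_mul, norm_ph, mul_one, Complex.norm_of_nonneg (hG j)]

theorem Bd0.wf {G : Fin n → ℝ} (hG : ∀ j, 0 ≤ G j) (hG1 : ∑ j, G j ≤ 1) {K : Feat n}
    (hK : ∀ j, Bd0 (K j)) (i : Fin n) (α : ℝ) : Bd0 (wf G i α K) := by
  intro Λ c hc hΛ
  calc _ ≤ ∑ j, G j * ‖K j Λ‖ := ucalc_wf hG i α K Λ
    _ ≤ ∑ j, G j * c := sum_le_sum fun j _ => mul_le_mul_of_nonneg_left (hK j Λ c hc hΛ) (hG j)
    _ ≤ c := by rw [← sum_mul]; exact mul_le_of_le_one_left hc hG1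

/-- The coefficients of a `Bd0` functional have `ℓ¹` norm at most one (test on the conjugate
phases; `φ Λ = ∑ S, Λ S * φ (Pi.single S 1)`). -/
theorem Bd0.sum_norm_le {φ : Fn n} (h : Bd0 φ) : ∑ S, ‖φ (Pi.single S 1)‖ ≤ 1 := by
  have h1 := h (fun S => starRingEnd ℂ (φ (Pi.single S 1)) / ‖φ (Pi.single S 1)‖) 1 zero_le_one
    fun S => by
      rw [norm_div, Complex.norm_conj, Complex.norm_real, norm_norm]
      exact div_self_le_one _
  rw [pi_eq_sum_univ' fun S => starRingEnd ℂ (φ (Pi.single S 1)) / ‖φ (Pi.single S 1)‖,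
    map_sum] at h1
  have h2 : ∀ a : ℂ, starRingEnd ℂ a / ‖a‖ * a = ‖a‖ := fun a => by
    rw [div_mul_eq_mul_div, Complex.conj_mul', sq, mul_self_div_self]
  simp only [map_smul, smul_eq_mul, h2] at h1
  rwa [← Complex.ofReal_sum, Complex.norm_of_nonneg (sum_nonneg fun _ _ => norm_nonneg _)] at h1

theorem Bd.mono {φ : Fn n} {i : Fin n} {μ N N' : ℝ} (h : Bd φ i μ N) (hN : N ≤ N') :
    Bd φ i μ N' := by
  exact fun Λ c hc hΛ => (h Λ c hc hΛ).trans (mul_le_mul_of_nonneg_right hN hc)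

theorem bd_leaf (i : Fin n) (μ : ℝ) : Bd (leaf i) i μ 1 := by
  intro Λ c _ hΛ
  simpa [reach, leaf] using hΛ {i}

/-- `reach i (S ∪ S') ≤ reach i S + reach i S'`. -/
theorem Bd.sta {φ ψ : Fn n} {i : Fin n} {μ N N' : ℝ} (hμ : 0 ≤ μ) (hN' : 0 ≤ N') (h : Bd φ i μ N)
    (h' : Bd ψ i μ N') : Bd (sta φ ψ) i μ (N * N') := by
  intro Λ c hc hΛ
  rw [mul_assoc]
  refine h _ _ (mul_nonneg hN' hc) fun S => ?_
  rw [mul_assoc]
  refine h' _ _ (by positivity) fun S' => (hΛ _).trans ?_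
  have : reach i (S ∪ S') ≤ reach i S + reach i S' := by
    unfold reach
    rw [sup_union]
    exact sup_le (Nat.le_add_right _ _) (Nat.le_add_left _ _)
  rw [mul_assoc, ← Real.exp_add, ← mul_add, ← Nat.cast_add]
  gcongr

/-- `reach i S ≤ dist i j + reach j S`. -/
theorem Bd.wf {G : Fin n → ℝ} (hG : ∀ j, 0 ≤ G j) {K : Feat n} {μ N M : ℝ} (hμ : 0 ≤ μ)
    (hN : 0 ≤ N) (hK : ∀ j, Bd (K j) j μ N) {i : Fin n}
    (hM : ∑ j, G j * Real.exp (μ * Nat.dist i j) ≤ M) (α : ℝ) : Bd (wf G i α K) i μ (M * N) := by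
  intro Λ c hc hΛ
  have h1 : ∀ j, ‖K j Λ‖ ≤ N * (c * Real.exp (μ * Nat.dist i j)) := fun j =>
    hK j Λ _ (by positivity) fun S => (hΛ S).trans (by
      have : reach i S ≤ Nat.dist i j + reach j S := Finset.sup_le fun l hl =>
        (Nat.dist.triangle_inequality i j l).trans
          (Nat.add_le_add_left (le_sup (f := fun l : Fin n => Nat.dist j l) hl) _)
      rw [mul_assoc, ← Real.exp_add, ← mul_add, ← Nat.cast_add]
      gcongr)
  calc _ ≤ ∑ j, G j * ‖K j Λ‖ := ucalc_wf hG i α K Λ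
    _ ≤ ∑ j, G j * Real.exp (μ * Nat.dist i j) * (N * c) := sum_le_sum fun j _ =>
        (mul_le_mul_of_nonneg_left (h1 j) (hG j)).trans_eq (by ring)
    _ ≤ M * N * c := by
        rw [← sum_mul, mul_assoc]
        exact mul_le_mul_of_nonneg_right hM (mul_nonneg hN hc)

/-- Locality: if `Δ` is tiny on the sets of positions `< t`, a feature anchored far to the left of `t`
is small.  Split `Δ` into its part on those sets (bounded by `ζ`, use `Bd0`) and the rest, which is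
bounded by `2 exp (-μ (t - i)) exp (μ reach i S)`. -/
theorem Diff.local {t i : Fin n} {ζ μ N : ℝ} {Δ : Tab n} (hΔ : Diff t ζ Δ) (hζ : 0 ≤ ζ)
    (hμ : 0 ≤ μ) {φ : Fn n} (h0 : Bd0 φ) (h : Bd φ i μ N) (hi : i ≤ t) :
    ‖φ Δ‖ ≤ ζ + N * (2 * Real.exp (-(μ * (((t : ℕ) : ℝ) - ((i : ℕ) : ℝ))))) := by
  have e : Δ = (fun S => if ∀ j ∈ S, j < t then Δ S else 0) +
      fun S => if ∀ j ∈ S, j < t then 0 else Δ S := by
    funext S
    rw [Pi.add_apply]
    split_ifs <;> simp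
  rw [e, map_add]
  refine (norm_add_le _ _).trans (add_le_add (h0 _ _ hζ fun S => ?_)
    (h _ _ (by positivity) fun S => ?_))
  · split_ifs with hS
    · exact hΔ.known S hS
    · rwa [norm_zero]
  · split_ifs with hS
    · rw [norm_zero]
      positivity
    · obtain ⟨j, hj, hjt⟩ : ∃ j ∈ S, t ≤ j := by simpa using hS
      have h1 : Nat.dist i j ≤ reach i S := le_sup (f := fun l : Fin n => Nat.dist i l) hj
      have h2 : (t : ℕ) ≤ i + reach i S := by
        have : (t : ℕ) ≤ j := hjt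
        unfold Nat.dist at h1
        omega
      have h3 : ((t : ℕ) : ℝ) ≤ (i : ℕ) + reach i S := by exact_mod_cast h2
      rw [mul_assoc, ← Real.exp_add]
      refine (hΔ.bd S).trans (le_mul_of_one_le_right zero_le_two (Real.one_le_exp ?_))
      nlinarith

theorem wf_lip {G : Fin n → ℝ} (hG : ∀ j, 0 ≤ G j) {t : Fin n} {Lw : ℝ}
    (hL : ∑ j, G j * (Nat.dist t j : ℝ) ≤ Lw) {K : Feat n} (hK : ∀ j, Bd0 (K j)) {Λ : Tab n}
    {c : ℝ} (hc : 0 ≤ c) (hΛ : ∀ S, ‖Λ S‖ ≤ c) (β β' : ℝ) :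
    ‖wf G t β K Λ - wf G t β' K Λ‖ ≤ |β - β'| * Lw * c := by
  rw [wf_apply, wf_apply, ← sum_sub_distrib]
  calc _ ≤ ∑ j, G j * (Nat.dist t j : ℝ) * (|β - β'| * c) := norm_sum_le_of_le _ fun j _ => by
        rw [← sub_mul, ← mul_sub, norm_mul, norm_mul, Complex.norm_of_nonneg (hG j)]
        calc _ ≤ G j * (|β - β'| * Nat.dist t j) * c :=
              mul_le_mul (mul_le_mul_of_nonneg_left (norm_ph_sub β β' t j) (hG j))
                (hK j Λ c hc hΛ) (norm_nonneg _) (mul_nonneg (hG j) (by positivity))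
          _ = _ := by ring
    _ ≤ Lw * (|β - β'| * c) := by
        rw [← sum_mul]
        exact mul_le_mul_of_nonneg_right hL (by positivity)
    _ = _ := by ring

theorem Deg.mono {φ : Fn n} {N N' : ℕ} (h : Deg φ N) (hN : N ≤ N') : Deg φ N' := by
  exact fun Λ hΛ => h Λ fun S hS => hΛ S (hS.trans hN)

theorem deg_proj (S : Finset (Fin n)) : Deg (LinearMap.proj S : Fn n) S.card := by
  exact fun Λ hΛ => hΛ S le_rfl

theorem Deg.sta {φ ψ : Fn n} {N N' : ℕ} (h : Deg φ N) (h' : Deg ψ N') :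
    Deg (sta φ ψ) (N + N') := by
  exact fun Λ hΛ => h _ fun S hS => h' _ fun S' hS' =>
    hΛ _ ((card_union_le S S').trans (add_le_add hS hS'))

theorem Deg.cj {φ : Fn n} {N : ℕ} (h : Deg φ N) : Deg (cj φ) N := by
  intro Λ hΛ
  rw [cj_apply, h _ fun S hS => by rw [hΛ S hS, map_zero], map_zero]

theorem Deg.wf {K : Feat n} {N : ℕ} (h : ∀ j, Deg (K j) N) (G : Fin n → ℝ) (i : Fin n) (α : ℝ) :
    Deg (wf G i α K) N := by
  intro Λ hΛ
  rw [wf_apply]
  exact sum_eq_zero fun j _ => by rw [h j Λ hΛ, mul_zero]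

theorem Deg.congr {φ : Fn n} {N : ℕ} (h : Deg φ N) {Λ Λ' : Tab n}
    (hΛ : ∀ S, S.card ≤ N → Λ S = Λ' S) : φ Λ = φ Λ' := by
  rw [← sub_eq_zero, ← map_sub]
  exact h _ fun S hS => sub_eq_zero.2 (hΛ S hS)

end Crest.Agent.R300
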