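import Mathlib

/-!
# R300 (trace reconstruction), upper bound: analytic definitions

A *table* assigns a number to every set of positions; the word `x` gives the multiplicative table
`tabOf x`.  A *functional* is a linear map on tables; `sta` is the product of functionals (it is the
ordinary product on `tabOf x`).  A *feature* is a functional for every anchor position.
-/

set_option autoImplicit false

namespace Crest.Agent.R300

open Finset

abbrev Tab (n : ℕ) := Finset (Fin n) → ℂ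
abbrev Fn (n : ℕ) := Tab n →ₗ[ℂ] ℂ
abbrev Feat (n : ℕ) := Fin n → Fn n

section
variable {n : ℕ}

/-- The table of the monomials of a word. -/
def tabOf (x : Fin n → Bool) : Tab n := fun S => if ∀ i ∈ S, x i = true then 1 else 0

/-- Product of functionals. -/
def sta (φ ψ : Fn n) : Fn n where
  toFun Λ := φ fun S => ψ fun S' => Λ (S ∪ S')
  map_add' Λ Λ' := by
    rw [← map_add]; congr 1; funext S
    simp only [Pi.add_apply]; rw [← map_add]; rfl
  map_smul' c Λ := by
    rw [RingHom.id_apply, ← map_smul]; congr 1; funext S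
    simp only [Pi.smul_apply]; rw [← map_smul]; rfl

/-- The unit functional. -/
def oneF : Fn n := LinearMap.proj ∅

/-- The feature `x i`. -/
def leaf : Feat n := fun i => LinearMap.proj {i}

/-- Complex conjugate of a functional. -/
def cj (φ : Fn n) : Fn n where
  toFun Λ := (starRingEnd ℂ) (φ fun S => (starRingEnd ℂ) (Λ S))
  map_add' Λ Λ' := by
    rw [← map_add, ← map_add]; congr 2; funext S; simp
  map_smul' c Λ := by
    have : (fun S => (starRingEnd ℂ) ((c • Λ) S)) =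
        (starRingEnd ℂ c) • fun S => (starRingEnd ℂ) (Λ S) := by funext S; simp
    rw [this, map_smul]; simp

def cjF (K : Feat n) : Feat n := fun i => cj (K i)

/-- The phase `exp (i α (j - i))`. -/
noncomputable def ph (α : ℝ) (i j : Fin n) : ℂ :=
  Complex.exp (Complex.I * (α * (((j : ℕ) : ℝ) - ((i : ℕ) : ℝ)) : ℝ))

/-- Weighted Fourier transform of a feature, with phase anchored at `i`. -/
noncomputable def wf (G : Fin n → ℝ) (i : Fin n) (α : ℝ) (K : Feat n) : Fn n :=
  ∑ j : Fin n, ((G j : ℂ) * ph α i j) • K j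

/-- A smooth cut-off that is a short sum of exponentials in `d`. -/
noncomputable def uu (J L d : ℕ) : ℝ :=
  ∑ k ∈ Icc J (2 * J), ((2 * J).choose k : ℝ) * ((1 - 1 / (32 * (L : ℝ))) ^ d) ^ k *
    (1 - (1 - 1 / (32 * (L : ℝ))) ^ d) ^ (2 * J - k)

/-- An edge of scale `L` and frequency `α` to a copy of the feature `K`. -/
noncomputable def edge (J L : ℕ) (α : ℝ) (K : Feat n) : Feat n := fun i =>
  wf (fun j => uu J L (Nat.dist i j) / (256 * L)) i α K

/-- A root feature with a list of edges. -/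
noncomputable def node (J L : ℕ) (K₁ : Feat n) (l : List (Feat n × ℝ)) : Feat n := fun i =>
  l.foldl (fun acc e => sta acc (edge J L e.2 e.1 i)) (K₁ i)

/-- A product of windowed transforms. -/
noncomputable def prodF (g : Fin n → ℝ) (t : Fin n) (l : List (Feat n × ℝ)) : Fn n :=
  l.foldl (fun acc e => sta acc (wf g t e.2 e.1)) oneF

/-- Integer frequencies on the grid of mesh `η`. -/
noncomputable def onGrid (η : ℝ) (l : List (Feat n × ℤ)) : List (Feat n × ℝ) :=
  l.map fun e => (e.1, (e.2 : ℝ) * η)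

/-- The largest distance of a point of `S` from `i`. -/
def reach (i : Fin n) (S : Finset (Fin n)) : ℕ := S.sup fun j => Nat.dist i j

/-- Weighted `ℓ¹` bound of a functional (dual form). -/
def Bd (φ : Fn n) (i : Fin n) (μ N : ℝ) : Prop :=
  ∀ (Λ : Tab n) (c : ℝ), 0 ≤ c → (∀ S, ‖Λ S‖ ≤ c * Real.exp (μ * reach i S)) → ‖φ Λ‖ ≤ N * c

/-- Plain `ℓ¹` bound `1` (dual form). -/
def Bd0 (φ : Fn n) : Prop := ∀ (Λ : Tab n) (c : ℝ), 0 ≤ c → (∀ S, ‖Λ S‖ ≤ c) → ‖φ Λ‖ ≤ c

/-- The functional only looks at sets of at most `N` positions. -/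
def Deg (φ : Fn n) (N : ℕ) : Prop := ∀ Λ : Tab n, (∀ S, S.card ≤ N → Λ S = 0) → φ Λ = 0

end

/-- Counts for the box `[0, 2 M]` convolved `r` times with `[0, 2 h]`. -/
def wN (M h : ℕ) : ℕ → ℕ → ℕ
  | 0, d => if d ≤ 2 * M then 1 else 0
  | r + 1, d => ∑ u ∈ range (2 * h + 1), if u ≤ d then wN M h r (d - u) else 0

/-- The normalized window of half-width `L` around `t`. -/
noncomputable def gwin {n : ℕ} (L h r : ℕ) (t i : Fin n) : ℝ :=
  if (t : ℕ) ≤ i + L then
    (wN (L - r * h) h r (i + L - t) : ℝ) / (((2 * h + 1 : ℕ) : ℝ) ^ r * (2 * L))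
  else 0

/-- The mesh of the frequency grid: `exp (i η) = (S + i)² / (S² + 1)`. -/
noncomputable def eta (S : ℕ) : ℝ := 2 * Real.arctan (1 / (S : ℝ))

/-! ### parameters (functions of `s`, where `q' = 2 ^ (-s)`, and of the depth `k`) -/

def pEps (s k : ℕ) : ℕ := 15 + Nat.log 2 (s + k)
def pTau (s k : ℕ) : ℕ := 80 + pEps s k + (2 * pEps s k - s / 2)
def pT (s k : ℕ) : ℕ := 2 ^ (k + pTau s k)
def pJ (s k l : ℕ) : ℕ := 4 ^ l * pT s k
def pE (s k l : ℕ) : ℕ := 8 ^ l * 2 ^ pEps s k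
def pH (s k : ℕ) : ℕ := 90 + k + 4 * pEps s k - pTau s k
def pRho (s k : ℕ) : ℕ := s + 40 + 2 * pEps s k
def pLam (s k l : ℕ) : ℕ := 2 ^ l * pRho s k + pH s k + 10 * l + 20 - s
def pLA (s k l : ℕ) : ℕ := 2 ^ pLam s k l
def pLB (s k l : ℕ) : ℕ := pLA s k l / (2 ^ 27 * pE s k (l + 1))
/-- Window half-width at level `l`: case A (`true`) or case B (`false`). -/
def pL (s k l : ℕ) (b : Bool) : ℕ := if b then pLA s k l else pLB s k l
def pS (s k l : ℕ) : ℕ := 2 ^ (8 * pE s k l)
def pMA (s k l : ℕ) : ℕ :=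
  if l = 0 then 4 * pS s k 0 else 256 * pE s k l * pS s k l / pLA s k (l - 1)
def pMT (s k l : ℕ) : ℕ :=
  if l = 0 then 4 * pS s k 0 else 2 ^ 37 * pE s k l ^ 2 * pS s k l / pLA s k (l - 1)
def pSg (s k l : ℕ) : ℕ := pE s k (l + 1) * pS s k l / (2 * pLA s k l)
def pB2 (s k : ℕ) : ℕ := 32 * (k + 1) * pJ s k k
def pNu (n : ℕ) : ℕ := Nat.log 2 n + 1
def pSs (n : ℕ) (p : ℚ) : ℕ := max 3 (min (Nat.log 2 ⌊1 / (1 - p)⌋₊) (pNu n))
def pK (n : ℕ) (p : ℚ) : ℕ := Nat.log 2 (pNu n / pSs n p + 1) + 1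
def pB (n : ℕ) (p : ℚ) : ℕ := ⌈7 / p⌉₊ * pB2 (pSs n p) (pK n p)

/-- `κ_l = 2 ^ (-e_l)`. -/
noncomputable def kap (s k l : ℕ) : ℝ := 1 / 2 ^ pE s k l

/-- The window of level `l` around `t`. -/
noncomputable def lwin {n : ℕ} (s k l : ℕ) (b : Bool) (t : Fin n) : Fin n → ℝ :=
  gwin (pL s k l b) (pL s k l b / (4 * pE s k (l + 1))) (pE s k (l + 1)) t

/-- The weight used at the top level. -/
noncomputable def topG {n : ℕ} (s k ν : ℕ) : Fin n → ℝ := fun i => uu (pJ s k k) (2 ^ ν) i / 2 ^ ν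

/-- The features of level `l`. -/
def famS (n s k : ℕ) : ℕ → Set (Feat n)
  | 0 => {leaf}
  | l + 1 => {K | ∃ (b : Bool) (K₁ : Feat n) (es : List (Feat n × ℤ)), K₁ ∈ famS n s k l ∧
      es.length ≤ 3 ∧ (∀ e ∈ es, e.1 ∈ famS n s k l ∧ |e.2| ≤ 3 * pMT s k l) ∧
      K = node (pJ s k l) (pL s k l b) K₁ (onGrid (eta (pS s k l)) es)}

/-- All products of at most four transforms of level `l` with small total frequency are small
on `Δ`. -/
def Inv {n : ℕ} (s k l : ℕ) (g : Fin n → ℝ) (t : Fin n) (Δ : Tab n) : Prop :=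
  ∀ es : List (Feat n × ℤ), es ≠ [] → es.length ≤ 4 →
    (∀ e ∈ es, e.1 ∈ famS n s k l ∧ |e.2| ≤ 2 * pMT s k l) →
    |(es.map Prod.snd).sum| ≤ pSg s k l →
    ‖prodF g t (onGrid (eta (pS s k l)) es) Δ‖ ≤ kap s k l ^ 6

/-- A weight that is flat, at height `1 / W`, on the windows of level `l`. -/
def UpWin {n : ℕ} (s k l : ℕ) (t : Fin n) (G : Fin n → ℝ) : Prop :=
  (∀ i, 0 ≤ G i) ∧ ∑ i, G i ≤ 1 ∧ ∃ W : ℝ, 0 < W ∧ W ≤ 2 * pLA s k (l + 1) ∧
    ∀ i : Fin n, Nat.dist i t ≤ pLA s k l → |W * G i - 1| ≤ 1 / 4 ^ pJ s k l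

/-- The difference of a candidate table and the true table: real, bounded, and tiny on the sets of
already known positions. -/
structure Diff {n : ℕ} (t : Fin n) (ζ : ℝ) (Δ : Tab n) : Prop where
  re : ∀ S, (Δ S).im = 0
  bd : ∀ S, ‖Δ S‖ ≤ 2
  known : ∀ S, (∀ i ∈ S, i < t) → ‖Δ S‖ ≤ ζ

/-- Case A: all transforms of level `l` on the short grid are small on `Δ`. -/
def GridA {n : ℕ} (s k l : ℕ) (g : Fin n → ℝ) (t : Fin n) (Δ : Tab n) : Prop :=
  ∀ K ∈ famS n s k l, ∀ a : ℕ, a ≤ pMA s k l →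
    ‖wf g t ((a : ℝ) * eta (pS s k l)) K Δ‖ ≤ kap s k l

/-- Case B: for some shift, all products of a transform and its shift are small on `Δ`. -/
def GridB {n : ℕ} (s k l : ℕ) (g : Fin n → ℝ) (t : Fin n) (Δ : Tab n) : Prop :=
  ∃ d : ℕ, d ≤ pMA s k l ∧ ∀ K ∈ famS n s k l, ∀ a : ℤ, |a| ≤ pMT s k l →
    ‖wf g t ((a : ℝ) * eta (pS s k l)) K Δ‖ *
      ‖wf g t (((a + d : ℤ) : ℝ) * eta (pS s k l)) K Δ‖ ≤ 15 * kap s k l ^ 2

def Grid {n : ℕ} (s k l : ℕ) (b : Bool) (g : Fin n → ℝ) (t : Fin n) (Δ : Tab n) : Prop :=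
  if b then GridA s k l g t Δ else GridB s k l g t Δ

/-! ### trace statistics -/

/-- `pm p S U`: probability that the marked positions `S` of the word are retained and land exactly
on the marked positions `U` of the trace (masks as lists). -/
def pm (p : ℚ) : List Bool → List Bool → ℚ
  | [], U => if U.any id then 0 else 1
  | b :: S, U => (if b then 0 else (1 - p) * pm p S U) +
      (if b = U.headD false then p * pm p S U.tail else 0)

/-- The mask of a set of positions. -/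
def toMask {n : ℕ} (S : Finset (Fin n)) : List Bool := List.ofFn fun i => decide (i ∈ S)

/-- The set of positions of a mask. -/
def toSet (n : ℕ) (m : List Bool) : Finset (Fin n) := univ.filter fun i => m.getD i false = true

/-- The trace has the letter `true` at all marked positions. -/
def hit (U τ : List Bool) : Bool := (List.range U.length).all fun j => !U.getD j false || τ.getD j false

/-- Number of unmarked positions before the `j`-th marked one (after the previous marked one). -/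
def gap {n r : ℕ} (σ : Fin r → Fin n) (j : Fin r) : ℕ :=
  if h : (j : ℕ) = 0 then σ j else σ j - σ ⟨j - 1, by omega⟩ - 1

/-- Distance of the `j`-th marked position from the previous one (from `0` for the first). -/
def dst {n r : ℕ} (σ : Fin r → Fin n) (j : Fin r) : ℕ :=
  if h : (j : ℕ) = 0 then σ j else σ j - σ ⟨j - 1, by omega⟩

/-- The gap weight `∏ z j ^ gap j` of a set with `r` points (zero for other sets). -/
noncomputable def gapW {n r : ℕ} (z : Fin r → ℂ) (S : Finset (Fin n)) : ℂ :=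
  if h : S.card = r then ∏ j, z j ^ gap (S.orderEmbOfFin h) j else 0

/-- The gap generating function of a table. -/
noncomputable def gapF {n r : ℕ} (z : Fin r → ℂ) (Δ : Tab n) : ℂ := ∑ S, gapW z S * Δ S

/-- All trace statistics of order at most `N` are `ε`-small on `Δ`. -/
def TraceOK {n : ℕ} (p : ℚ) (N : ℕ) (ε : ℝ) (Δ : Tab n) : Prop :=
  ∀ U : Finset (Fin n), U.card ≤ N →
    ‖∑ S, ((pm p (toMask S) (toMask U) : ℚ) : ℂ) * Δ S‖ ≤ ε

/-- A damping `a` that pays for the frequency `θ` accumulated by `m` edges. -/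
def Good (q' : ℝ) (N m : ℕ) (a θ : ℝ) : Prop := 0 ≤ a ∧ (5 * q' ≤ a ∨ 2 * N * q' * θ ^ 2 ≤ m * a)

/-- Accessible features: on tables supported on subsets of an `r`-point set the feature, anchored at the
`ρ`-th point, is a short combination of gap exponentials. -/
def Acc {n : ℕ} (q' : ℝ) (N : ℕ) (K : Feat n) (A : ℝ) (m : ℕ) : Prop :=
  (∀ (S : Finset (Fin n)) (Λ : Tab n) (i : Fin n), (∀ S', ¬ S' ⊆ S → Λ S' = 0) → i ∉ S →
    K i Λ = 0) ∧
  ∀ (r : ℕ) (ρ : Fin r), ∃ ts : List (ℂ × Finset (Fin r) × (Fin r → ℝ) × (Fin r → ℝ)),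
    (ts.map fun τ => ‖τ.1‖).sum ≤ A * (r : ℝ) ^ m ∧
    (∀ τ ∈ ts, (∀ j, Good q' N m (τ.2.2.1 j) (τ.2.2.2 j)) ∧
      ∀ j : Fin r, (j : ℕ) = 0 → τ.2.2.1 j = 0 ∧ τ.2.2.2 j = 0) ∧
    ∀ (σ : Fin r ↪o Fin n) (Λ : Tab n), (∀ S', ¬ S' ⊆ univ.image σ → Λ S' = 0) →
      K (σ ρ) Λ = (ts.map fun τ => τ.1 *
        (∏ j, Complex.exp (-(τ.2.2.1 j : ℂ) + Complex.I * τ.2.2.2 j) ^ dst σ j) *
          Λ (τ.2.1.image σ)).sum

/-! Realize the equation lemmas of the recursive definitions once, in this module. -/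
theorem wN_eqns_realized : True := by
  have := @wN.eq_def
  have := @wN.eq_1
  have := @wN.eq_2
  trivial

theorem famS_eqns_realized : True := by
  have := @famS.eq_def
  have := @famS.eq_1
  have := @famS.eq_2
  trivial

theorem pm_eqns_realized : True := by
  have := @pm.eq_def
  have := @pm.eq_1
  have := @pm.eq_2
  trivial

end Crest.Agent.R300
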