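import Crest.Agent.R300.UDefs

/-!
# R300 upper bound: arithmetic of the parameters (task UPar)

All quantities are powers of two; everything reduces to linear inequalities between exponents.
With `ϵ = pEps`, `ϱ = pRho`, `h = pH`, `τ₀ = pTau`: `pE l = 2 ^ (3 l + ϵ)`, `pJ l = 2 ^ (2 l + k + τ₀)`,
`pLam l + s = 2 ^ l ϱ + h + 10 l + 20`.
-/

set_option autoImplicit false

namespace Crest.Agent.R300

variable {s k l : ℕ}

private theorem p2 {a b : ℕ} (h : a ≤ b) : 2 ^ a ≤ 2 ^ b := Nat.pow_le_pow_right two_pos h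

private theorem four_pow (k : ℕ) : 4 ^ k = 2 ^ (2 * k) := by rw [pow_mul]; rfl

theorem two_pow_pEps (hk : 1 ≤ k) :
    2 ^ 14 * (s + k) < 2 ^ pEps s k ∧ 2 ^ pEps s k ≤ 2 ^ 15 * (s + k) := by
  have h1 := Nat.lt_pow_succ_log_self one_lt_two (s + k)
  have h2 := Nat.pow_log_le_self 2 (by omega : s + k ≠ 0)
  rw [pEps, pow_add]
  rw [Nat.pow_succ] at h1
  omega

theorem pE_eq (s k l : ℕ) : pE s k l = 2 ^ (3 * l + pEps s k) := by
  rw [pE, pow_add, pow_mul]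
  rfl

theorem pE_succ (s k l : ℕ) : pE s k (l + 1) = 8 * pE s k l := by
  rw [pE, pE, pow_succ]
  ring

theorem pE_ge (s k l : ℕ) : 2 ^ 15 ≤ pE s k l := by
  rw [pE_eq]
  exact p2 (by unfold pEps; omega)

theorem pJ_eq (s k l : ℕ) : pJ s k l = 2 ^ (2 * l + k + pTau s k) := by
  rw [pJ, pT, four_pow, ← pow_add, add_assoc]

theorem pLam_add (s k l : ℕ) : pLam s k l + s = 2 ^ l * pRho s k + pH s k + 10 * l + 20 := by
  have h : pRho s k ≤ 2 ^ l * pRho s k := Nat.le_mul_of_pos_left _ (by positivity)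
  have h2 : s ≤ pRho s k := by unfold pRho; omega
  unfold pLam
  omega

theorem pLam_succ (s k l : ℕ) : pLam s k (l + 1) = pLam s k l + 2 ^ l * pRho s k + 10 := by
  have h1 := pLam_add s k l
  have h2 := pLam_add s k (l + 1)
  rw [pow_succ, mul_right_comm] at h2
  omega

/-- `ϵ ≤ 15 + (s + k) / 2`, hence `ϱ ≤ 20 (s + k)`, `h ≤ 17 (s + k)`, `pLam l ≤ 42 · 2 ^ l (s + k)`. -/
theorem pLam_le (hs : 3 ≤ s) (hk : 1 ≤ k) (l : ℕ) : 128 * pLam s k (l + 1) ≤ pE s k l := by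
  have h1 := pLam_add s k (l + 1)
  have h2 : Nat.log 2 (s + k) ≤ s + k := Nat.log_le_self _ _
  have h3 : pRho s k ≤ 21 * (s + k) := by unfold pRho pEps; omega
  have h4 : pH s k ≤ 18 * (s + k) := by unfold pH pTau pEps; omega
  have h5 : 2 ^ l * pRho s k ≤ 21 * (2 ^ l * (s + k)) :=
    (Nat.mul_le_mul_left _ h3).trans_eq (by ring)
  have h6 : s + k ≤ 2 ^ l * (s + k) := Nat.le_mul_of_pos_left _ (by positivity)
  have h7 : 2 ^ l * 4 ≤ 2 ^ l * (s + k) := Nat.mul_le_mul_left _ (by omega)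
  have h8 : l < 2 ^ l := Nat.lt_two_pow_self
  have h9 : 2 ^ l * (2 ^ 14 * (s + k)) ≤ pE s k l :=
    Nat.mul_le_mul (Nat.pow_le_pow_left (by norm_num) l) (two_pow_pEps hk).1.le
  rw [mul_left_comm] at h9
  rw [pow_succ, mul_right_comm] at h1
  omega

theorem pLam_ge (s k l : ℕ) : 60 + 6 * l + 2 * pEps s k ≤ pLam s k l := by
  have h : pRho s k ≤ 2 ^ l * pRho s k := Nat.le_mul_of_pos_left _ (by positivity)
  have h1 := pLam_add s k l
  have h2 : pRho s k = s + 40 + 2 * pEps s k := rfl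
  omega

private theorem pLB_eq (s k l : ℕ) :
    pLB s k l = 2 ^ (pLam s k l - (30 + 3 * l + pEps s k)) := by
  have h := pLam_ge s k l
  rw [pLB, pLA, pE_eq, ← pow_add, Nat.pow_div (by omega) two_pos]
  congr 1
  omega

private theorem pLA_dvd (hs : 3 ≤ s) (hk : 1 ≤ k) (l : ℕ) : pLA s k l ∣ pS s k l := by
  have h1 := pLam_le hs hk l
  have h2 := pLam_succ s k l
  exact pow_dvd_pow 2 (by omega)

private theorem pLA_dvd' (hs : 3 ≤ s) (hk : 1 ≤ k) (l : ℕ) : pLA s k l ∣ pS s k (l + 1) :=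
  (pLA_dvd hs hk l).trans (pow_dvd_pow 2 (by rw [pE_succ]; omega))

private theorem pS_pos (s k l : ℕ) : 0 < pS s k l := by unfold pS; positivity

theorem pLB_mul (s k l : ℕ) : pLB s k l * (2 ^ 27 * pE s k (l + 1)) = pLA s k l := by
  have h := pLam_ge s k l
  rw [pLB_eq, pLA, pE_eq, ← pow_add, ← pow_add]
  congr 1
  omega

theorem pL_le (s k l : ℕ) (b : Bool) : pL s k l b ≤ pLA s k l := by
  cases b
  · exact Nat.div_le_self _ _
  · exact le_rfl

theorem pLB_le_pL (s k l : ℕ) (b : Bool) : pLB s k l ≤ pL s k l b := by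
  cases b
  · exact le_rfl
  · exact Nat.div_le_self _ _

/-- The window half-width is an exact positive multiple of `4 r`. -/
theorem pL_div (s k l : ℕ) (b : Bool) :
    4 * pE s k (l + 1) * (pL s k l b / (4 * pE s k (l + 1))) = pL s k l b ∧
      1 ≤ pL s k l b / (4 * pE s k (l + 1)) := by
  have h := pLam_ge s k l
  have e : 4 * pE s k (l + 1) = 2 ^ (2 + (3 * (l + 1) + pEps s k)) := by
    rw [pE_eq, pow_add 2 2]; rfl
  obtain ⟨a, ha, h2⟩ : ∃ a, 2 + (3 * (l + 1) + pEps s k) ≤ a ∧ pL s k l b = 2 ^ a := by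
    cases b
    · exact ⟨_, by omega, pLB_eq s k l⟩
    · exact ⟨pLam s k l, by omega, rfl⟩
  rw [h2, e]
  exact ⟨Nat.mul_div_cancel' (pow_dvd_pow 2 ha), Nat.div_pos (p2 ha) (by positivity)⟩

theorem pLA_ge (s k l : ℕ) : 2 ^ 50 * pE s k (l + 1) ^ 2 ≤ pLA s k l := by
  have h := pLam_ge s k l
  rw [pLA, pE_eq, ← pow_mul, ← pow_add]
  exact p2 (by omega)

theorem pLA_sep (hs : 3 ≤ s) (k l : ℕ) :
    2 ^ 14 * pE s k (l + 2) * pLA s k l ≤ pLB s k (l + 1) := by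
  have h1 := pLam_succ s k l
  have h2 : (l + 1) * pRho s k ≤ 2 ^ l * pRho s k := Nat.mul_le_mul_right _ Nat.lt_two_pow_self
  have h3 : pRho s k = s + 40 + 2 * pEps s k := rfl
  have h4 : l * 6 ≤ l * pRho s k := Nat.mul_le_mul_left _ (by omega)
  rw [add_mul] at h2
  rw [pLB_eq, pLA, pE_eq, ← pow_add, ← pow_add]
  exact p2 (by omega)

theorem pE_le_pJ (hl : l ≤ k) : 2 ^ 70 * pE s k (l + 1) ≤ pJ s k l := by
  rw [pE_eq, pJ_eq, ← pow_add]
  exact p2 (by unfold pTau; omega)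

theorem pJ_mono {l l' : ℕ} (h : l ≤ l') : pJ s k l ≤ pJ s k l' := by
  rw [pJ_eq, pJ_eq]
  exact p2 (by omega)

theorem pMA_mul (hs : 3 ≤ s) (hk : 1 ≤ k) (l : ℕ) :
    pMA s k (l + 1) * pLA s k l = 256 * pE s k (l + 1) * pS s k (l + 1) := by
  rw [pMA, if_neg l.succ_ne_zero, Nat.add_sub_cancel]
  exact Nat.div_mul_cancel ((pLA_dvd' hs hk l).mul_left _)

theorem pMT_mul (hs : 3 ≤ s) (hk : 1 ≤ k) (l : ℕ) :
    pMT s k (l + 1) * pLA s k l = 2 ^ 37 * pE s k (l + 1) ^ 2 * pS s k (l + 1) := by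
  rw [pMT, if_neg l.succ_ne_zero, Nat.add_sub_cancel]
  exact Nat.div_mul_cancel ((pLA_dvd' hs hk l).mul_left _)

theorem pSg_mul (hs : 3 ≤ s) (hk : 1 ≤ k) (l : ℕ) :
    pSg s k l * (2 * pLA s k l) = pE s k (l + 1) * pS s k l := by
  exact Nat.div_mul_cancel (mul_dvd_mul (by rw [pE_succ]; omega) (pLA_dvd hs hk l))

theorem pSg_pos (hs : 3 ≤ s) (hk : 1 ≤ k) (l : ℕ) : 1 ≤ pSg s k l := by
  have h := pSg_mul hs hk l
  have h1 := Nat.mul_pos (lt_of_lt_of_le (by norm_num) (pE_ge s k (l + 1))) (pS_pos s k l)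
  rw [← h] at h1
  exact Nat.pos_of_mul_pos_right h1

theorem pMA_le_pMT (hs : 3 ≤ s) (hk : 1 ≤ k) (l : ℕ) : pMA s k l ≤ pMT s k l := by
  unfold pMA pMT
  split_ifs
  · exact le_rfl
  · refine Nat.div_le_div_right (Nat.mul_le_mul_right _ (Nat.mul_le_mul (by norm_num) ?_))
    exact Nat.le_self_pow two_ne_zero _

theorem pMT_le (s k l : ℕ) : pMT s k l ≤ 4 * pS s k l := by
  cases l with
  | zero => exact le_rfl
  | succ l =>
    rw [pMT, if_neg l.succ_ne_zero, Nat.add_sub_cancel]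
    have h := pLA_ge s k l
    exact Nat.div_le_of_le_mul (Nat.mul_le_mul (by omega) (by omega))

/-- The number of links of the chain is at most `1024 · pLA l`. -/
theorem pMA_div_le (hs : 3 ≤ s) (hk : 1 ≤ k) (l : ℕ) :
    pMA s k l / pSg s k l ≤ 1024 * pLA s k l := by
  refine Nat.div_le_of_le_mul (((pMA_le_pMT hs hk l).trans (pMT_le s k l)).trans ?_)
  have h1 := pSg_mul hs hk l
  have h2 : pS s k l ≤ pE s k (l + 1) * pS s k l :=
    Nat.le_mul_of_pos_left _ (lt_of_lt_of_le (by norm_num) (pE_ge s k (l + 1)))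
  calc 4 * pS s k l ≤ 512 * (pSg s k l * (2 * pLA s k l)) := by omega
    _ = _ := by ring

/-- The band of the windows of level `l` fits into the range of the edges. -/
theorem band_le (hs : 3 ≤ s) (hk : 1 ≤ k) (l : ℕ) :
    48 * pE s k (l + 1) * pS s k l + pLB s k l ≤ pMT s k l * pLB s k l := by
  cases l with
  | zero =>
    have h1 : 48 * pE s k 1 ≤ pLB s k 0 := by
      have h := pLam_ge s k 0
      have h2 : 2 ^ 6 * pE s k 1 ≤ pLB s k 0 := by
        rw [pLB_eq, pE_eq, ← pow_add]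
        exact p2 (by omega)
      omega
    have h2 := Nat.mul_le_mul_right (pS s k 0) h1
    have h3 : pLB s k 0 ≤ pLB s k 0 * pS s k 0 := Nat.le_mul_of_pos_right _ (pS_pos s k 0)
    rw [pMT, if_pos rfl, mul_assoc 4, mul_comm (pS s k 0), zero_add]
    omega
  | succ l =>
    have h1 := pMT_mul hs hk l
    have h2 := Nat.mul_le_mul_left (pMT s k (l + 1)) (pLA_sep hs k l)
    have h3 : 1 ≤ pE s k (l + 1) ^ 2 := Nat.pow_pos (lt_of_lt_of_le (by norm_num) (pE_ge s k _))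
    have h4 : pS s k (l + 1) ≤ pE s k (l + 1) ^ 2 * pS s k (l + 1) := Nat.le_mul_of_pos_left _ h3
    have h5 := Nat.le_of_dvd (pS_pos _ _ _) (pLA_dvd' hs hk l)
    rw [mul_assoc] at h1
    have h6 : 2 ≤ pMT s k (l + 1) :=
      Nat.le_of_mul_le_mul_right (c := pLA s k l) (by omega) (by unfold pLA; positivity)
    have h7 := Nat.mul_le_mul_right (pLB s k (l + 1)) h6
    have h8 := Nat.mul_le_mul_left (pE s k (l + 2)) h4
    rw [mul_left_comm, h1, show 2 ^ 14 * pE s k (l + 2) * (2 ^ 37 * (pE s k (l + 1) ^ 2 *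
      pS s k (l + 1))) = 2 ^ 51 * (pE s k (l + 2) * (pE s k (l + 1) ^ 2 * pS s k (l + 1))) by
      ring] at h2
    rw [mul_assoc, add_assoc l 1 1, one_add_one_eq_two]
    omega

/-- Damping pays for arbitrary frequencies at level `0`. -/
theorem acc_zero (s k : ℕ) : 160 * pLA s k 0 ≤ pJ s k 0 * 2 ^ s := by
  have h1 := pLam_add s k 0
  have h2 : 2 ^ 8 * pLA s k 0 ≤ pJ s k 0 * 2 ^ s := by
    rw [pLA, pJ_eq, ← pow_add, ← pow_add]
    refine p2 ?_
    unfold pRho pH at h1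
    have h3 : pTau s k = 80 + pEps s k + (2 * pEps s k - s / 2) := rfl
    omega
  omega

/-- Damping pays for the frequencies `2 ^ 40 e² / pLA l` at level `l + 1`. -/
theorem acc_succ (s k l : ℕ) :
    64 * 4 ^ k * (2 ^ 40 * pE s k (l + 1) ^ 2) ^ 2 * pLA s k (l + 1) ≤
      pJ s k (l + 1) * 2 ^ s * pLA s k l ^ 2 := by
  have h1 := pLam_add s k l
  have h2 := pLam_succ s k l
  have h3 : pH s k = 90 + k + 4 * pEps s k - pTau s k := rfl
  rw [show 64 = 2 ^ 6 from rfl, four_pow, pE_eq, pJ_eq, pLA, pLA]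
  simp only [← pow_mul, ← pow_add]
  exact p2 (by omega)

theorem le_pLam {ν : ℕ} (h : ν + s ≤ 2 ^ k * s) : ν ≤ pLam s k k := by
  have h1 := pLam_add s k k
  have h2 : 2 ^ k * s ≤ 2 ^ k * pRho s k := Nat.mul_le_mul_left _ (by unfold pRho; omega)
  omega

theorem lt_two_pow_pNu (n : ℕ) : n < 2 ^ pNu n := by
  exact Nat.lt_pow_succ_log_self one_lt_two n

theorem pSs_ge (n : ℕ) (p : ℚ) : 3 ≤ pSs n p := by
  exact le_max_left _ _

theorem pK_pos (n : ℕ) (p : ℚ) : 1 ≤ pK n p := by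
  exact Nat.le_add_left _ _

theorem pNu_add_le (n : ℕ) (p : ℚ) : pNu n + pSs n p ≤ 2 ^ pK n p * pSs n p := by
  have h1 : pNu n / pSs n p + 1 + 1 ≤ 2 ^ pK n p := Nat.lt_pow_succ_log_self one_lt_two _
  have h2 := Nat.lt_div_mul_add (a := pNu n) (lt_of_lt_of_le (by norm_num) (pSs_ge n p))
  have h3 := Nat.mul_le_mul_right (pSs n p) h1
  rw [add_mul, add_mul] at h3
  omega

theorem pSs_spec (n : ℕ) {p : ℚ} (hp1 : p < 1) :
    (1 - p : ℚ) ≤ 1 / 2 ^ pSs n p ∨ pSs n p = 3 := by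
  refine or_iff_not_imp_right.2 fun h => ?_
  have h1 : 3 < pSs n p := lt_of_le_of_ne (pSs_ge n p) (Ne.symm h)
  have h2 : pSs n p ≤ Nat.log 2 ⌊1 / (1 - p)⌋₊ := by unfold pSs at h1 ⊢; omega
  have h3 : ⌊1 / (1 - p)⌋₊ ≠ 0 := fun h0 => by
    rw [h0, Nat.log_zero_right] at h2
    omega
  have h4 : ((2 ^ pSs n p : ℕ) : ℚ) ≤ 1 / (1 - p) :=
    (Nat.le_floor_iff' (by positivity)).1 ((p2 h2).trans (Nat.pow_log_le_self 2 h3))
  rw [Nat.cast_pow, Nat.cast_ofNat] at h4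
  exact (le_one_div (sub_pos.2 hp1) (by positivity)).2 h4

/-- `2 ^ k s ≤ pT`, so `4 ^ k ν ≤ pJ k`; also `8 e_k`, `2 k 4 ^ k` are at most `pJ k`. -/
theorem le_pJ_top (hk : 1 ≤ k) {ν : ℕ} (h : ν + s ≤ 2 ^ k * s) :
    4 ^ k * (ν + 1) ≤ pJ s k k ∧ 100 * pE s k k ≤ pJ s k k ∧ (2 * k + 2) * 4 ^ k ≤ pJ s k k := by
  have h1 := (two_pow_pEps (s := s) hk).1
  have h2 : 2 ^ pEps s k ≤ 2 ^ pTau s k := p2 (by unfold pTau; omega)
  have h3 : 2 ^ k * (s + 2) ≤ pT s k := by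
    rw [pT, pow_add]
    exact Nat.mul_le_mul_left _ (by omega)
  have h4 : k < 2 ^ k := Nat.lt_two_pow_self
  have h5 := pE_le_pJ (s := s) (le_refl k)
  rw [pE_succ] at h5
  rw [mul_add] at h3
  exact ⟨Nat.mul_le_mul_left _ (by omega), by omega,
    (mul_comm _ _).trans_le (Nat.mul_le_mul_left _ (by omega))⟩

theorem pB2_le_pB (n : ℕ) {p : ℚ} (hp : 0 < p) : pB2 (pSs n p) (pK n p) ≤ pB n p := by
  exact Nat.le_mul_of_pos_left _ (Nat.ceil_pos.2 (by positivity))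

theorem keys_bound (n : ℕ) {p : ℚ} (hp : 0 < p) : (n + 1) ^ 4 ^ pK n p ≤ 2 ^ pB n p := by
  have h1 := (le_pJ_top (pK_pos n p) (pNu_add_le n p)).1
  have h2 : pJ (pSs n p) (pK n p) (pK n p) ≤ pB2 (pSs n p) (pK n p) :=
    Nat.le_mul_of_pos_left _ (by positivity)
  refine (Nat.pow_le_pow_left (lt_two_pow_pNu n) _).trans ?_
  rw [← pow_mul]
  refine p2 (le_trans ?_ (h1.trans (h2.trans (pB2_le_pB n hp))))
  rw [mul_comm]
  exact Nat.mul_le_mul_left _ (Nat.le_succ _)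

end Crest.Agent.R300
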