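import Crest.Agent.R300.UCalc
import Crest.Agent.R300.UPar

/-!
# R300 upper bound: the cut-off `uu`, edges, the grid, the families (task UEdge)

`uu J L d` is the probability that `Bin(2 J, y) ≥ J` with `y = (1 - 1/(32 L)) ^ d`.
-/

set_option autoImplicit false

namespace Crest.Agent.R300

open Finset

variable {n : ℕ}

private theorem uedge_base {L : ℕ} (hL : 1 ≤ L) :
    0 ≤ 1 - 1 / (32 * (L : ℝ)) ∧ 1 - 1 / (32 * (L : ℝ)) ≤ 1 := by
  have h : (1 : ℝ) ≤ L := by exact_mod_cast hL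
  have h1 : 1 / (32 * (L : ℝ)) ≤ 1 := by
    rw [div_le_one (by positivity)]; linarith
  have h2 : 0 ≤ 1 / (32 * (L : ℝ)) := by positivity
  constructor <;> linarith

private theorem uedge_y {L : ℕ} (hL : 1 ≤ L) (d : ℕ) :
    0 ≤ (1 - 1 / (32 * (L : ℝ))) ^ d ∧ (1 - 1 / (32 * (L : ℝ))) ^ d ≤ 1 :=
  ⟨pow_nonneg (uedge_base hL).1 d, pow_le_one₀ (uedge_base hL).1 (uedge_base hL).2⟩

private theorem uedge_total (J : ℕ) (y : ℝ) :
    ∑ k ∈ range J, ((2 * J).choose k : ℝ) * y ^ k * (1 - y) ^ (2 * J - k) +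
      ∑ k ∈ Icc J (2 * J), ((2 * J).choose k : ℝ) * y ^ k * (1 - y) ^ (2 * J - k) = 1 := by
  have h := add_pow y (1 - y) (2 * J)
  rw [add_sub_cancel, one_pow] at h
  rw [range_eq_Ico, ← Ico_add_one_right_eq_Icc,
    sum_Ico_consecutive _ (Nat.zero_le J) (by omega), ← range_eq_Ico]
  exact (sum_congr rfl fun k _ => by ring).trans h.symm

private theorem uedge_choose {J : ℕ} {A : Finset ℕ} (hA : A ⊆ range (2 * J + 1)) :
    ∑ k ∈ A, ((2 * J).choose k : ℝ) ≤ 4 ^ J := by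
  refine (sum_le_sum_of_subset_of_nonneg hA fun _ _ _ => by positivity).trans ?_
  have h := Nat.sum_range_choose (2 * J)
  have h' : ∑ k ∈ range (2 * J + 1), ((2 * J).choose k : ℝ) = 2 ^ (2 * J) := by exact_mod_cast h
  rw [h', pow_mul]
  norm_num

theorem uu_nonneg {J L : ℕ} (hL : 1 ≤ L) (d : ℕ) : 0 ≤ uu J L d := by
  obtain ⟨h0, h1⟩ := uedge_y hL d
  unfold uu
  refine sum_nonneg fun k _ => ?_
  have := sub_nonneg.mpr h1
  positivity

theorem uu_le_one {J L : ℕ} (hL : 1 ≤ L) (d : ℕ) : uu J L d ≤ 1 := by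
  obtain ⟨h0, h1⟩ := uedge_y hL d
  have h := uedge_total J ((1 - 1 / (32 * (L : ℝ))) ^ d)
  have h2 : 0 ≤ ∑ k ∈ range J, ((2 * J).choose k : ℝ) * ((1 - 1 / (32 * (L : ℝ))) ^ d) ^ k *
      (1 - (1 - 1 / (32 * (L : ℝ))) ^ d) ^ (2 * J - k) := by
    refine sum_nonneg fun k _ => ?_
    have := sub_nonneg.mpr h1
    positivity
  unfold uu
  linarith

/-- `1 - y ≤ d / (32 L) ≤ 1/16`, and `1 - uu = ∑_{k < J} C(2J,k) y^k (1-y)^(2J-k) ≤ 4^J 16^(-J)`. -/
theorem uu_plateau {J L d : ℕ} (hL : 1 ≤ L) (hd : d ≤ 2 * L) : 1 - 1 / 4 ^ J ≤ uu J L d := by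
  obtain ⟨h0, h1⟩ := uedge_y hL d
  have hL' : (1 : ℝ) ≤ L := by exact_mod_cast hL
  have hd' : (d : ℝ) ≤ 2 * L := by exact_mod_cast hd
  have hB : 1 + (d : ℝ) * (-(1 / (32 * (L : ℝ)))) ≤ (1 + -(1 / (32 * (L : ℝ)))) ^ d :=
    one_add_mul_le_pow (by have := (uedge_base hL).1; linarith) d
  have h16 : (d : ℝ) * (1 / (32 * (L : ℝ))) ≤ 1 / 16 := by
    rw [mul_one_div, div_le_iff₀ (by positivity)]; linarith
  rw [← sub_eq_add_neg] at hB
  have h := uedge_total J ((1 - 1 / (32 * (L : ℝ))) ^ d)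
  unfold uu
  set y := (1 - 1 / (32 * (L : ℝ))) ^ d
  have hy : 1 - y ≤ 1 / 16 := by linarith
  have h2 : ∑ k ∈ range J, ((2 * J).choose k : ℝ) * y ^ k * (1 - y) ^ (2 * J - k) ≤
      ∑ k ∈ range J, ((2 * J).choose k : ℝ) * (1 / 16) ^ J := by
    refine sum_le_sum fun k hk => ?_
    have hk' := mem_range.mp hk
    rw [mul_assoc]
    refine mul_le_mul_of_nonneg_left ?_ (by positivity)
    have a1 : y ^ k ≤ 1 := pow_le_one₀ h0 h1
    have a2 : (1 - y) ^ (2 * J - k) ≤ (1 / 16) ^ (2 * J - k) :=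
      pow_le_pow_left₀ (by linarith) hy _
    have a3 : ((1 : ℝ) / 16) ^ (2 * J - k) ≤ (1 / 16) ^ J :=
      pow_le_pow_of_le_one (by norm_num) (by norm_num) (by omega)
    have a4 : 0 ≤ (1 - y) ^ (2 * J - k) := pow_nonneg (by linarith) _
    nlinarith
  rw [← sum_mul] at h2
  have h3 : ∑ k ∈ range J, ((2 * J).choose k : ℝ) ≤ 4 ^ J :=
    uedge_choose (range_subset_range.mpr (by omega))
  have h4 : (4 : ℝ) ^ J * (1 / 16) ^ J = 1 / 4 ^ J := by
    rw [← mul_pow, one_div (4 ^ J : ℝ), ← inv_pow]; norm_num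
  have h5 := mul_le_mul_of_nonneg_right h3 (show (0 : ℝ) ≤ (1 / 16) ^ J by positivity)
  linarith

private theorem uedge_tail {J L : ℕ} (hL : 1 ≤ L) (d : ℕ) :
    uu J L d ≤ 4 ^ J * Real.exp (-(J * d / (32 * L))) := by
  obtain ⟨h0, h1⟩ := uedge_y hL d
  have hy : (1 - 1 / (32 * (L : ℝ))) ^ d ≤ Real.exp (-(1 / (32 * (L : ℝ)))) ^ d :=
    pow_le_pow_left₀ (uedge_base hL).1
      (by have := Real.add_one_le_exp (-(1 / (32 * (L : ℝ)))); linarith) d
  have hy2 : ((1 - 1 / (32 * (L : ℝ))) ^ d) ^ J ≤ Real.exp (-(J * d / (32 * L))) := by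
    refine (pow_le_pow_left₀ h0 hy J).trans (le_of_eq ?_)
    rw [← Real.exp_nat_mul, ← Real.exp_nat_mul]
    congr 1
    ring
  unfold uu
  set y := (1 - 1 / (32 * (L : ℝ))) ^ d
  have h2 : ∑ k ∈ Icc J (2 * J), ((2 * J).choose k : ℝ) * y ^ k * (1 - y) ^ (2 * J - k) ≤
      ∑ k ∈ Icc J (2 * J), ((2 * J).choose k : ℝ) * y ^ J := by
    refine sum_le_sum fun k hk => ?_
    have hk' := mem_Icc.mp hk
    rw [mul_assoc]
    refine mul_le_mul_of_nonneg_left ?_ (by positivity)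
    have a1 : y ^ k ≤ y ^ J := pow_le_pow_of_le_one h0 h1 hk'.1
    have a2 : (1 - y) ^ (2 * J - k) ≤ 1 := pow_le_one₀ (by linarith) (by linarith)
    have a3 : 0 ≤ y ^ k := pow_nonneg h0 _
    nlinarith
  rw [← sum_mul] at h2
  have h3 : ∑ k ∈ Icc J (2 * J), ((2 * J).choose k : ℝ) ≤ 4 ^ J :=
    uedge_choose fun k hk => mem_range.mpr (by have := (mem_Icc.mp hk).2; omega)
  refine h2.trans (mul_le_mul h3 hy2 (pow_nonneg h0 _) (by positivity))

/-- the majorant of the terms -/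
private noncomputable def uedge_w (L d : ℕ) : ℝ :=
  if d ≤ 96 * L then 1 else 1 / 4 * Real.exp (-(1 / (64 * (L : ℝ)))) ^ (d - 96 * L)

private theorem uedge_w_nonneg (L d : ℕ) : 0 ≤ uedge_w L d := by
  unfold uedge_w
  split_ifs <;> positivity

private theorem uedge_term {J L : ℕ} (hJ : 1 ≤ J) (hL : 1 ≤ L) {μ : ℝ} (hμ : 0 ≤ μ)
    (hμ' : 64 * L * μ ≤ J) (d : ℕ) :
    uu J L d * Real.exp (μ * d) ≤ Real.exp (96 * L * μ) * uedge_w L d := by
  have hL' : (1 : ℝ) ≤ L := by exact_mod_cast hL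
  have hJ' : (1 : ℝ) ≤ J := by exact_mod_cast hJ
  unfold uedge_w
  split_ifs with hd
  · have hd' : (d : ℝ) ≤ 96 * L := by exact_mod_cast hd
    rw [mul_one]
    calc uu J L d * Real.exp (μ * d) ≤ 1 * Real.exp (μ * d) :=
          mul_le_mul_of_nonneg_right (uu_le_one hL d) (Real.exp_pos _).le
      _ ≤ Real.exp (96 * L * μ) := by
          rw [one_mul]; exact Real.exp_le_exp.mpr (by nlinarith)
  · obtain ⟨m, rfl⟩ : ∃ m, d = 96 * L + m := ⟨d - 96 * L, by omega⟩
    rw [Nat.add_sub_cancel_left]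
    have hm : (0 : ℝ) ≤ m := by positivity
    have e3 : (16 : ℝ) ≤ Real.exp 3 := by
      have h1 := Real.exp_one_gt_d9
      have h2 : Real.exp 3 = Real.exp 1 ^ 3 := by rw [← Real.exp_nat_mul]; norm_num
      have h3 : (2.7 : ℝ) ^ 3 ≤ Real.exp 1 ^ 3 := pow_le_pow_left₀ (by norm_num) (by linarith) 3
      rw [h2]; linarith [show (16 : ℝ) ≤ 2.7 ^ 3 by norm_num]
    have e4 : 4 * Real.exp (-3) ≤ 1 / 4 := by
      rw [Real.exp_neg, ← div_eq_mul_inv, div_le_iff₀ (Real.exp_pos _)]; linarith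
    have e5 : (4 : ℝ) ^ J * Real.exp (-(3 * J)) ≤ 1 / 4 := by
      have : (4 : ℝ) ^ J * Real.exp (-(3 * J)) = (4 * Real.exp (-3)) ^ J := by
        rw [mul_pow, ← Real.exp_nat_mul]; congr 2; ring
      rw [this]
      calc (4 * Real.exp (-3)) ^ J ≤ (1 / 4) ^ J := pow_le_pow_left₀ (by positivity) e4 J
        _ ≤ (1 / 4) ^ 1 := pow_le_pow_of_le_one (by norm_num) (by norm_num) hJ
        _ = 1 / 4 := pow_one _
    have e6 : μ * m - J * m / (32 * L) ≤ m * -(1 / (64 * (L : ℝ))) := by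
      have a1 : μ ≤ J / (64 * L) := by rw [le_div_iff₀ (by positivity)]; linarith
      have a2 : (1 : ℝ) / (64 * L) ≤ J / (64 * L) := by gcongr
      have a3 : (J : ℝ) * m / (32 * L) = 2 * (J / (64 * L)) * m := by field_simp; ring
      rw [a3]
      nlinarith
    calc uu J L (96 * L + m) * Real.exp (μ * ((96 * L + m : ℕ) : ℝ))
        ≤ 4 ^ J * Real.exp (-(J * ((96 * L + m : ℕ) : ℝ) / (32 * L))) *
            Real.exp (μ * ((96 * L + m : ℕ) : ℝ)) :=
          mul_le_mul_of_nonneg_right (uedge_tail hL _) (Real.exp_pos _).le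
      _ = Real.exp (96 * L * μ) *
            (4 ^ J * Real.exp (-(3 * J)) * Real.exp (μ * m - J * m / (32 * L))) := by
          have : -(J * ((96 * L + m : ℕ) : ℝ) / (32 * L)) + μ * ((96 * L + m : ℕ) : ℝ) =
              96 * L * μ + (-(3 * J) + (μ * m - J * m / (32 * L))) := by
            push_cast; field_simp; ring
          rw [mul_assoc, ← Real.exp_add, this, Real.exp_add, Real.exp_add]; ring
      _ ≤ Real.exp (96 * L * μ) * (1 / 4 * Real.exp (-(1 / (64 * (L : ℝ)))) ^ m) := by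
          refine mul_le_mul_of_nonneg_left ?_ (Real.exp_pos _).le
          refine mul_le_mul e5 ?_ (Real.exp_pos _).le (by norm_num)
          rw [← Real.exp_nat_mul]
          exact Real.exp_le_exp.mpr e6

private theorem uedge_geom {L : ℕ} (hL : 1 ≤ L) (N : ℕ) :
    ∑ m ∈ range N, Real.exp (-(1 / (64 * (L : ℝ)))) ^ (m + 1) ≤
      64 * L * (1 - Real.exp (-(1 / (64 * (L : ℝ)))) ^ N) := by
  have hL' : (1 : ℝ) ≤ L := by exact_mod_cast hL
  have hr : Real.exp (-(1 / (64 * (L : ℝ)))) * (1 + 64 * L) ≤ 64 * L := by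
    have h1 := Real.add_one_le_exp (1 / (64 * (L : ℝ)))
    rw [Real.exp_neg, inv_mul_le_iff₀ (Real.exp_pos _)]
    have h2 : (1 / (64 * (L : ℝ)) + 1) * (64 * L) = 1 + 64 * L := by field_simp
    nlinarith
  have h0 := Real.exp_pos (-(1 / (64 * (L : ℝ))))
  set r := Real.exp (-(1 / (64 * (L : ℝ))))
  induction N with
  | zero => simp
  | succ N ih =>
    rw [sum_range_succ, pow_succ]
    have := mul_le_mul_of_nonneg_left hr (pow_pos h0 N).le
    nlinarith

private theorem uedge_w_sum {L : ℕ} (hL : 1 ≤ L) (N : ℕ) :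
    ∑ d ∈ range N, uedge_w L d ≤ 128 * L := by
  have hL' : (1 : ℝ) ≤ L := by exact_mod_cast hL
  refine (sum_le_sum_of_subset_of_nonneg
    (range_subset_range.mpr (show N ≤ 96 * L + 1 + N by omega))
    fun d _ _ => uedge_w_nonneg L d).trans ?_
  rw [sum_range_add]
  have h1 : ∑ d ∈ range (96 * L + 1), uedge_w L d = 96 * L + 1 := by
    rw [sum_congr rfl (g := fun _ => (1 : ℝ)) fun d hd => by
      unfold uedge_w; rw [if_pos (by have := mem_range.mp hd; omega)]]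
    simp
  have h2 : ∑ m ∈ range N, uedge_w L (96 * L + 1 + m) =
      1 / 4 * ∑ m ∈ range N, Real.exp (-(1 / (64 * (L : ℝ)))) ^ (m + 1) := by
    rw [mul_sum]
    refine sum_congr rfl fun m _ => ?_
    unfold uedge_w
    rw [if_neg (by omega), show 96 * L + 1 + m - 96 * L = m + 1 by omega]
  have h3 := uedge_geom hL N
  have h4 : 0 ≤ Real.exp (-(1 / (64 * (L : ℝ)))) ^ N := by positivity
  rw [h1, h2]
  nlinarith

private theorem uedge_dist_sum (w : ℕ → ℝ) (hw : ∀ d, 0 ≤ w d) (i : Fin n) :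
    ∑ j : Fin n, w (Nat.dist i j) ≤ 2 * ∑ d ∈ range n, w d := by
  have key : ∀ A : Finset (Fin n), Set.InjOn (fun j : Fin n => Nat.dist i j) A →
      ∑ j ∈ A, w (Nat.dist i j) ≤ ∑ d ∈ range n, w d := by
    intro A hA
    rw [← sum_image (f := w) hA]
    refine sum_le_sum_of_subset_of_nonneg (fun d hd => ?_) fun d _ _ => hw d
    obtain ⟨j, -, rfl⟩ := mem_image.mp hd
    have := i.2
    have := j.2
    simp only [mem_range, Nat.dist]
    omega
  rw [← sum_filter_add_sum_filter_not univ (fun j : Fin n => (j : ℕ) ≤ i), two_mul]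
  refine add_le_add (key _ ?_) (key _ ?_)
  · intro a ha b hb hab
    simp only [coe_filter, mem_univ, true_and, Set.mem_ofPred_eq, Nat.dist] at ha hb hab
    exact Fin.ext (by omega)
  · intro a ha b hb hab
    simp only [coe_filter, mem_univ, true_and, Set.mem_ofPred_eq, Nat.dist] at ha hb hab
    exact Fin.ext (by omega)

/-- For `d ≤ 96 L` use `uu ≤ 1` (at most `192 L + 1` positions).  For `d > 96 L`,
`uu ≤ 4^J y^J ≤ 4^J exp (-J d / (32 L))`, so the term is at most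
`exp (96 L μ) (4 / e³)^J exp (-(d - 96 L) / (64 L))`, and these sum to at most `26 L exp (96 L μ)`. -/
theorem uu_moment {J L : ℕ} (hJ : 1 ≤ J) (hL : 1 ≤ L) {μ : ℝ} (hμ : 0 ≤ μ) (hμ' : 64 * L * μ ≤ J)
    (i : Fin n) :
    ∑ j : Fin n, uu J L (Nat.dist i j) / (256 * L) * Real.exp (μ * Nat.dist i j) ≤
      Real.exp (96 * L * μ) := by
  have hL' : (1 : ℝ) ≤ L := by exact_mod_cast hL
  have h1 : ∑ j : Fin n, uu J L (Nat.dist i j) / (256 * L) * Real.exp (μ * Nat.dist i j) ≤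
      ∑ j : Fin n, Real.exp (96 * L * μ) / (256 * L) * uedge_w L (Nat.dist i j) := by
    refine sum_le_sum fun j _ => ?_
    have := uedge_term hJ hL hμ hμ' (Nat.dist i j)
    rw [div_mul_eq_mul_div, div_mul_eq_mul_div]
    gcongr
  rw [← mul_sum] at h1
  have h2 := uedge_dist_sum (uedge_w L) (uedge_w_nonneg L) i
  have h3 := uedge_w_sum hL n
  refine h1.trans ?_
  rw [div_mul_eq_mul_div, div_le_iff₀ (by positivity)]
  exact mul_le_mul_of_nonneg_left (by linarith) (Real.exp_pos _).le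

/-- `uu_moment` with `μ = 1 / (96 L)` and `x ≤ exp (x - 1)`. -/
theorem uu_first_moment {J L : ℕ} (hJ : 1 ≤ J) (hL : 1 ≤ L) (i : Fin n) :
    ∑ j : Fin n, uu J L (Nat.dist i j) / (256 * L) * (Nat.dist i j : ℝ) ≤ 96 * L := by
  have hL' : (1 : ℝ) ≤ L := by exact_mod_cast hL
  have hJ' : (1 : ℝ) ≤ J := by exact_mod_cast hJ
  have h := uu_moment hJ hL (μ := 1 / (96 * L)) (by positivity) (by
    rw [mul_one_div, div_le_iff₀ (by positivity)]; nlinarith) i
  rw [mul_one_div_cancel (by positivity)] at h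
  have h1 : ∑ j : Fin n, uu J L (Nat.dist i j) / (256 * L) * (Nat.dist i j : ℝ) ≤
      ∑ j : Fin n, 96 * L * Real.exp (-1) * (uu J L (Nat.dist i j) / (256 * L) *
        Real.exp (1 / (96 * L) * Nat.dist i j)) := by
    refine sum_le_sum fun j _ => ?_
    have a0 : 0 ≤ uu J L (Nat.dist i j) / (256 * L) :=
      div_nonneg (uu_nonneg hL _) (by positivity)
    have a1 := Real.add_one_le_exp (-1 + 1 / (96 * L) * (Nat.dist i j : ℝ))
    rw [Real.exp_add] at a1
    have a2 : (Nat.dist i j : ℝ) = 96 * L * (1 / (96 * L) * (Nat.dist i j : ℝ)) := by field_simp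
    have a3 : (Nat.dist i j : ℝ) ≤
        96 * L * (Real.exp (-1) * Real.exp (1 / (96 * L) * (Nat.dist i j : ℝ))) := by
      conv_lhs => rw [a2]
      exact mul_le_mul_of_nonneg_left (by linarith) (by positivity)
    calc _ ≤ uu J L (Nat.dist i j) / (256 * L) *
          (96 * L * (Real.exp (-1) * Real.exp (1 / (96 * L) * (Nat.dist i j : ℝ)))) :=
          mul_le_mul_of_nonneg_left a3 a0
      _ = _ := by ring
  rw [← mul_sum] at h1
  refine h1.trans ?_
  calc _ ≤ 96 * L * Real.exp (-1) * Real.exp 1 := mul_le_mul_of_nonneg_left h (by positivity)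
    _ = 96 * L := by rw [mul_assoc, ← Real.exp_add]; simp

theorem bd0_edge {J L : ℕ} (hJ : 1 ≤ J) (hL : 1 ≤ L) (α : ℝ) {K : Feat n} (hK : ∀ j, Bd0 (K j))
    (i : Fin n) : Bd0 (edge J L α K i) := by
  have h := uu_moment hJ hL (μ := 0) le_rfl (by rw [mul_zero]; positivity) i
  simp only [zero_mul, mul_zero, Real.exp_zero, mul_one] at h
  exact Bd0.wf (fun j => div_nonneg (uu_nonneg hL _) (by positivity)) h hK i α

theorem bd0_node {J L : ℕ} (hJ : 1 ≤ J) (hL : 1 ≤ L) {K₁ : Feat n} {l : List (Feat n × ℝ)}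
    (hK : ∀ j, Bd0 (K₁ j)) (hl : ∀ e ∈ l, ∀ j, Bd0 (e.1 j)) (i : Fin n) :
    Bd0 (node J L K₁ l i) := by
  induction l generalizing K₁ with
  | nil => exact hK i
  | cons e l ih =>
    rw [node_cons]
    exact ih (fun j => (hK j).sta (bd0_edge hJ hL _ (hl e List.mem_cons_self) j))
      fun e' he' => hl e' (List.mem_cons_of_mem _ he')

private theorem uedge_bd_node {J L : ℕ} (hJ : 1 ≤ J) (hL : 1 ≤ L) {μ M : ℝ} (hμ : 0 ≤ μ)
    (hμ' : 64 * L * μ ≤ J) (hM : 0 ≤ M) {l : List (Feat n × ℝ)}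
    (hl : ∀ e ∈ l, ∀ j, Bd (e.1 j) j μ M) : ∀ {K₁ : Feat n} {N : ℝ}, (∀ j, Bd (K₁ j) j μ N) →
    ∀ i, Bd (node J L K₁ l i) i μ (N * (Real.exp (96 * L * μ) * M) ^ l.length) := by
  induction l with
  | nil => intro K₁ N hK i; simpa [node] using hK i
  | cons e l ih =>
    intro K₁ N hK i
    rw [node_cons]
    have h := ih (fun e' he' => hl e' (List.mem_cons_of_mem _ he'))
      (K₁ := fun i => sta (K₁ i) (edge J L e.2 e.1 i)) (N := N * (Real.exp (96 * L * μ) * M))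
      (fun j => Bd.sta hμ (by positivity) (hK j)
        (Bd.wf (fun j => div_nonneg (uu_nonneg hL _) (by positivity)) hμ hM
          (hl e List.mem_cons_self) (uu_moment hJ hL hμ hμ' j) e.2)) i
    refine h.mono (le_of_eq ?_)
    rw [List.length_cons]; ring

theorem bd_node {J L : ℕ} (hJ : 1 ≤ J) (hL : 1 ≤ L) {μ R : ℝ} (hμ : 0 ≤ μ) (hμ' : 64 * L * μ ≤ J)
    (hR : 0 ≤ R) {K₁ : Feat n} {l : List (Feat n × ℝ)} (hlen : l.length ≤ 3)
    (hK : ∀ j, Bd (K₁ j) j μ (Real.exp (μ * R)))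
    (hl : ∀ e ∈ l, ∀ j, Bd (e.1 j) j μ (Real.exp (μ * R))) (i : Fin n) :
    Bd (node J L K₁ l i) i μ (Real.exp (μ * (4 * R + 288 * L))) := by
  refine (uedge_bd_node hJ hL hμ hμ' (Real.exp_pos _).le hl hK i).mono ?_
  rw [← Real.exp_add, ← Real.exp_nat_mul, ← Real.exp_add]
  refine Real.exp_le_exp.mpr ?_
  have h1 : (l.length : ℝ) ≤ 3 := by exact_mod_cast hlen
  have h2 : 0 ≤ 96 * L * μ + μ * R := by positivity
  nlinarith

theorem eta_bounds {S : ℕ} (hS : 1 ≤ S) : 1 / (S : ℝ) ≤ eta S ∧ eta S ≤ 2 / S := by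
  have hS' : (1 : ℝ) ≤ S := by exact_mod_cast hS
  have hx0 : 0 ≤ 1 / (S : ℝ) := by positivity
  have hx1 : 1 / (S : ℝ) ≤ 1 := by rw [div_le_one (by positivity)]; exact hS'
  have h2 : (2 : ℝ) / S = 2 * (1 / S) := by ring
  rw [h2]
  unfold eta
  set x := 1 / (S : ℝ)
  have ha : 0 ≤ Real.arctan x := Real.arctan_nonneg.mpr hx0
  constructor
  · have h1 := Real.sin_le ha
    rw [Real.sin_arctan] at h1
    have h3 : √(1 + x ^ 2) ≤ 2 := Real.sqrt_le_iff.mpr ⟨by norm_num, by nlinarith⟩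
    have h4 : 0 < √(1 + x ^ 2) := Real.sqrt_pos.mpr (by positivity)
    rw [div_le_iff₀ h4] at h1
    nlinarith
  · have h1 := Real.le_tan ha (Real.arctan_lt_pi_div_two x)
    rw [Real.tan_arctan] at h1
    linarith

theorem exp_eta {S : ℕ} (hS : 1 ≤ S) :
    Complex.exp (Complex.I * eta S) = ((S : ℂ) * S - 1 + 2 * S * Complex.I) / ((S : ℂ) * S + 1) := by
  have hS' : (0 : ℝ) < S := by exact_mod_cast hS
  have hc : Real.cos (eta S) = ((S : ℝ) * S - 1) / (S * S + 1) := by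
    unfold eta
    rw [Real.cos_two_mul, Real.cos_sq_arctan]
    field_simp
    ring
  have hs : Real.sin (eta S) = 2 * (S : ℝ) / (S * S + 1) := by
    unfold eta
    rw [Real.sin_two_mul, Real.sin_arctan, Real.cos_arctan, mul_assoc, div_mul_div_comm,
      Real.mul_self_sqrt (by positivity)]
    field_simp
  rw [mul_comm, Complex.exp_mul_I, ← Complex.ofReal_cos, ← Complex.ofReal_sin, hc, hs]
  push_cast
  ring

theorem exists_grid {S M : ℕ} (hS : 1 ≤ S) {β : ℝ} (hβ : |β| * S ≤ M) :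
    ∃ a : ℤ, |a| ≤ M ∧ |β - a * eta S| ≤ eta S := by
  have hS' : (0 : ℝ) < S := by exact_mod_cast hS
  have h1 := (eta_bounds hS).1
  have hη : 0 < eta S := lt_of_lt_of_le (by positivity) h1
  have key : ∀ γ : ℝ, 0 ≤ γ → γ * S ≤ M → ∃ a : ℤ, |a| ≤ M ∧ |γ - a * eta S| ≤ eta S := by
    intro γ h0 hγ
    have a0 : 0 ≤ γ / eta S := by positivity
    have a1 := Int.floor_le (γ / eta S)
    have a2 := Int.lt_floor_add_one (γ / eta S)
    have a3 : γ / eta S ≤ M := by
      rw [div_le_iff₀ hη]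
      rw [div_le_iff₀ hS'] at h1
      have : (0 : ℝ) ≤ M := by positivity
      nlinarith
    refine ⟨⌊γ / eta S⌋, ?_, ?_⟩
    · rw [abs_of_nonneg (Int.floor_nonneg.mpr a0)]
      exact_mod_cast a1.trans a3
    · rw [le_div_iff₀ hη] at a1
      rw [div_lt_iff₀ hη] at a2
      rw [abs_le]
      constructor <;> nlinarith
  rcases le_total 0 β with h | h
  · exact key β h (by rwa [abs_of_nonneg h] at hβ)
  · obtain ⟨a, ha, hb⟩ := key (-β) (by linarith) (by rwa [abs_of_nonpos h] at hβ)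
    refine ⟨-a, by rwa [abs_neg], ?_⟩
    rw [← abs_neg]
    convert hb using 2
    push_cast
    ring

theorem fam_cj {s k l : ℕ} {K : Feat n} (h : K ∈ famS n s k l) : cjF K ∈ famS n s k l := by
  induction l generalizing K with
  | zero =>
    obtain rfl : K = leaf := h
    exact cjF_leaf
  | succ l ih =>
    obtain ⟨b, K₁, es, h1, h2, h3, rfl⟩ := h
    refine ⟨b, cjF K₁, es.map fun e => (cjF e.1, -e.2), ih h1, by simpa using h2, ?_, ?_⟩
    · intro e he
      obtain ⟨e', he', rfl⟩ := List.mem_map.mp he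
      exact ⟨ih (h3 e' he').1, by simpa using (h3 e' he').2⟩
    · rw [cjF_node]
      simp [onGrid, Function.comp_def]

private theorem uedge_pJ (s k l : ℕ) : 1 ≤ pJ s k l := by
  rw [pJ_eq]; exact Nat.one_le_two_pow

private theorem uedge_pL (s k l : ℕ) (b : Bool) : 1 ≤ pL s k l b := by
  obtain ⟨h1, h2⟩ := pL_div s k l b
  have h3 := pE_ge s k (l + 1)
  rw [← h1]
  exact Nat.mul_pos (by omega) h2

private theorem uedge_onGrid {η : ℝ} {es : List (Feat n × ℤ)} {e : Feat n × ℝ}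
    (he : e ∈ onGrid η es) : ∃ e' ∈ es, e.1 = e'.1 := by
  obtain ⟨e', he', rfl⟩ := List.mem_map.mp he
  exact ⟨e', he', rfl⟩

theorem fam_bd0 {s k l : ℕ} {K : Feat n} (h : K ∈ famS n s k l) (i : Fin n) : Bd0 (K i) := by
  induction l generalizing K i with
  | zero =>
    obtain rfl : K = leaf := h
    exact bd0_proj _
  | succ l ih =>
    obtain ⟨b, K₁, es, h1, -, h3, rfl⟩ := h
    refine bd0_node (uedge_pJ s k l) (uedge_pL s k l b) (ih h1) (fun e he j => ?_) i
    obtain ⟨e', he', h4⟩ := uedge_onGrid he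
    rw [h4]
    exact ih (h3 e' he').1 j

private theorem uedge_deg_node (J L : ℕ) {M : ℕ} {l : List (Feat n × ℝ)}
    (hl : ∀ e ∈ l, ∀ j, Deg (e.1 j) M) : ∀ {K₁ : Feat n} {N : ℕ}, (∀ j, Deg (K₁ j) N) →
    ∀ i, Deg (node J L K₁ l i) (N + l.length * M) := by
  induction l with
  | nil => intro K₁ N hK i; simpa [node] using hK i
  | cons e l ih =>
    intro K₁ N hK i
    rw [node_cons]
    have h := ih (fun e' he' => hl e' (List.mem_cons_of_mem _ he'))
      (K₁ := fun i => sta (K₁ i) (edge J L e.2 e.1 i)) (N := N + M)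
      (fun j => (hK j).sta (Deg.wf (hl e List.mem_cons_self) _ j e.2)) i
    refine h.mono (le_of_eq ?_)
    rw [List.length_cons]; ring

theorem fam_deg {s k l : ℕ} {K : Feat n} (h : K ∈ famS n s k l) (i : Fin n) :
    Deg (K i) (4 ^ l) := by
  induction l generalizing K i with
  | zero =>
    obtain rfl : K = leaf := h
    simpa [leaf] using deg_proj ({i} : Finset (Fin n))
  | succ l ih =>
    obtain ⟨b, K₁, es, h1, h2, h3, rfl⟩ := h
    refine (uedge_deg_node _ _ (M := 4 ^ l) (fun e he j => ?_) (ih h1) i).mono ?_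
    · obtain ⟨e', he', h4⟩ := uedge_onGrid he
      rw [h4]
      exact ih (h3 e' he').1 j
    · have h5 : (onGrid (eta (pS s k l)) es).length = es.length := by simp [onGrid]
      rw [h5, pow_succ]
      nlinarith [Nat.zero_le (4 ^ l)]

/-- Induction on `l` with `bd_node`; `4 · 300 pLA (l-1) ≤ 12 pLB l` by `pLA_sep`. -/
theorem fam_bd {s k l : ℕ} (hs : 3 ≤ s) {K : Feat n} (h : K ∈ famS n s k l) {μ : ℝ} (hμ : 0 ≤ μ)
    (hμ' : l = 0 ∨ 64 * (pLA s k (l - 1) : ℝ) * μ ≤ 1) (i : Fin n) :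
    Bd (K i) i μ (Real.exp (μ * (if l = 0 then 0 else 300 * (pLA s k (l - 1) : ℝ)))) := by
  induction l generalizing K i with
  | zero =>
    obtain rfl : K = leaf := h
    simpa using bd_leaf i μ
  | succ l ih =>
    obtain ⟨b, K₁, es, h1, h2, h3, rfl⟩ := h
    have hA : 64 * (pLA s k l : ℝ) * μ ≤ 1 := by simpa using hμ'
    have hL : (pL s k l b : ℝ) ≤ pLA s k l := by exact_mod_cast pL_le s k l b
    have hJ : (1 : ℝ) ≤ pJ s k l := by exact_mod_cast uedge_pJ s k l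
    have hsep : l = 0 ∨ 100 * (pLA s k (l - 1) : ℝ) ≤ pLA s k l := by
      rcases l with _ | l
      · exact Or.inl rfl
      · right
        have a1 := pLA_sep hs k l
        have a2 := (pLB_le_pL s k (l + 1) b).trans (pL_le s k (l + 1) b)
        have a3 := pE_ge s k (l + 2)
        have a4 : 100 * pLA s k l ≤ pLA s k (l + 1) :=
          (Nat.mul_le_mul_right _ (by omega)).trans (a1.trans a2)
        rw [Nat.add_sub_cancel]
        exact_mod_cast a4
    have hprev : l = 0 ∨ 64 * (pLA s k (l - 1) : ℝ) * μ ≤ 1 := by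
      refine hsep.imp_right fun h => ?_
      have : (0 : ℝ) ≤ pLA s k (l - 1) := by positivity
      nlinarith
    have hR : 0 ≤ (if l = 0 then 0 else 300 * (pLA s k (l - 1) : ℝ)) := by
      split_ifs <;> positivity
    have hlen : (onGrid (eta (pS s k l)) es).length ≤ 3 := by simpa [onGrid] using h2
    refine (bd_node (uedge_pJ s k l) (uedge_pL s k l b) hμ (by nlinarith) hR hlen
      (fun j => ih h1 hprev j) (fun e he j => ?_) i).mono ?_
    · obtain ⟨e', he', h4⟩ := uedge_onGrid he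
      rw [h4]
      exact ih (h3 e' he').1 hprev j
    · refine Real.exp_le_exp.mpr (mul_le_mul_of_nonneg_left ?_ hμ)
      rw [if_neg (Nat.succ_ne_zero l), Nat.add_sub_cancel]
      have h0 : (0 : ℝ) ≤ pLA s k l := by positivity
      split_ifs with hl
      · linarith
      · have := hsep.resolve_left hl
        linarith

end Crest.Agent.R300
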