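import Crest.Agent.R300.UPT3

/-!
# R300 upper bound: the decoder runs in polynomial time (task UPT4)
-/

set_option autoImplicit false

namespace Crest.Agent.R300

open Crest.Agent.Lib.PT

variable {α : Type} [Enc α]

theorem Inp.lvl {n l t : α → ℕ} {p : α → ℚ} {b : α → Bool} {v : α → RV} (h : Inp n p) (hl : PT l)
    (hlk : ∀ a, l a ≤ pK (n a) (p a)) (hb : PT b) (ht : PT t) (hv : PT v) :
    PT fun a => lvl (n a) (pSs (n a) (p a)) (pK (n a) (p a)) (l a) (b a) (t a) (v a) := by
  obtain ⟨-, ⟨hE, hE'⟩, -, -, -, ⟨hS, -⟩, ⟨hMA, hMA'⟩, ⟨hMT, hMT'⟩, hSg⟩ := h.par hl hlk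
  have hD : PT fun a => ((R300.lvPw (n a) (pSs (n a) (p a)) (pK (n a) (p a)) (l a),
      R300.lwinQ (n a) (pSs (n a) (p a)) (pK (n a) (p a)) (l a) (b a) (t a), t a,
      pSg (pSs (n a) (p a)) (pK (n a) (p a)) (l a), v a) : Orc) :=
    (h.lvPw hl hlk).pair ((h.lwinQ hl hlk hb ht).pair (ht.pair (hSg.pair hv)))
  have hF := h.famQ hl hlk
  have hκ : PT fun a => (1 / 2 ^ pE (pSs (n a) (p a)) (pK (n a) (p a)) (l a) : ℚ) :=
    PT.rat_div (PT.const 1) (PT.rat_pow (PT.const 2) hE hE')
  have hmm : PT fun a => pMA (pSs (n a) (p a)) (pK (n a) (p a)) (l a) /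
      pSg (pSs (n a) (p a)) (pK (n a) (p a)) (l a) := hMA.nat_div hSg
  have hmm' : PB fun a => pMA (pSs (n a) (p a)) (pK (n a) (p a)) (l a) /
      pSg (pSs (n a) (p a)) (pK (n a) (p a)) (l a) := hMA'.div _
  have hc := candQ_pt hF (zrange_pt hMT hMT')
  have hc2 := candQ_pt hF (zrange_pt ((PT.const 2).nat_mul hMT) ((PB.const 2).mul hMT'))
  have h3 : PT fun a => 3 * pE (pSs (n a) (p a)) (pK (n a) (p a)) (l a) + 1 :=
    ((PT.const 3).nat_mul hE).nat_add (PT.const 1)
  have h3' : PB fun a => 3 * pE (pSs (n a) (p a)) (pK (n a) (p a)) (l a) + 1 :=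
    ((PB.const 3).mul hE').add (PB.const 1)
  have hps : PT fun a => (List.range (3 * pE (pSs (n a) (p a)) (pK (n a) (p a)) (l a) + 1)).map
      fun j => 1 / (2 : ℚ) ^ j :=
    PT.map_range (f := fun _ j => 1 / (2 : ℚ) ^ j) h3 h3'
      (PT.rat_div (PT.const 1) (PT.rat_pow (PT.const 2) PT.id.val.snd (PB.idx h3')))
  have hA := isA_pt hD hc (PT.range (hmm.nat_add (PT.const 1)) (hmm'.add (PB.const 1))) hκ
  have hCA := consA_pt hD hF hc (PT.range hmm hmm')
    (PT.range (hMA.nat_add (PT.const 1)) (hMA'.add (PB.const 1))) hS hκ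
  have hCB := consB_pt hD hc2 hps hκ
  exact (PT.ite hA.eq_true ((PT.const true).pair hCA) ((PT.const false).pair hCB)).of_eq
    fun a => rfl

/-- All the functionals whose real and imaginary parts are constrained at a level. -/
def lvFns (n s k l : ℕ) (b : Bool) (t : ℕ) : List QFn :=
  (candQ (famQ n s k l) (zrange (2 * pMT s k l))).map fun c =>
    wfQ (lvPw n s k l) (lwinQ n s k l b t) t c.2 c.1

/-- The vectors of the constraints attached to a functional. -/
def fnVecs (φ : QFn) : List RV := [reQ φ, scaleR (-1) (reQ φ), imQ φ, scaleR (-1) (imQ φ)]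

/-- All constraint vectors of a level. -/
def lvVecs (n s k l : ℕ) (b : Bool) (t : ℕ) : List RV := (lvFns n s k l b t).flatMap fnVecs

theorem mem_conC {φ : QFn} {z : QC} {r : ℚ} {c : Con} (h : c ∈ conC φ z r) : c.1 ∈ fnVecs φ := by
  simp only [conC, con2, List.mem_append, List.mem_cons, List.not_mem_nil, or_false] at h
  simp only [fnVecs, List.mem_cons, List.not_mem_nil, or_false]
  rcases h with (rfl | rfl) | (rfl | rfl) <;> simp

theorem mem_zrange_nat {M b : ℕ} (h : b ≤ M) : (b : ℤ) ∈ zrange M := by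
  unfold zrange
  refine List.mem_map.2 ⟨b + M, List.mem_range.2 (by omega), ?_⟩
  push_cast; ring

theorem mem_lvl {n s k l : ℕ} (hs : 3 ≤ s) (hk : 1 ≤ k) {b : Bool} {t : ℕ} {v : RV} {c : Con}
    (h : c ∈ (lvl n s k l b t v).2) : c.1 ∈ lvVecs n s k l b t := by
  unfold lvl at h
  simp only [] at h
  unfold lvVecs lvFns
  split_ifs at h
  · simp only [consA, List.mem_flatMap, List.mem_range] at h
    obtain ⟨K, hK, j, hj, hc⟩ := h
    refine List.mem_flatMap.2 ⟨_, List.mem_map.2 ⟨(K, (j : ℤ)), ?_, rfl⟩, mem_conC hc⟩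
    have := pMA_le_pMT hs hk l
    exact List.mem_flatMap.2 ⟨K, hK, List.mem_map.2 ⟨j, mem_zrange_nat (by omega), rfl⟩⟩
  · simp only [consB, List.mem_flatMap] at h
    obtain ⟨x, hx, hc⟩ := h
    exact List.mem_flatMap.2 ⟨_, List.mem_map.2 ⟨x, hx, rfl⟩, mem_conC hc⟩

theorem Inp.lvVecs {n l t : α → ℕ} {p : α → ℚ} {b : α → Bool} (h : Inp n p) (hl : PT l)
    (hlk : ∀ a, l a ≤ pK (n a) (p a)) (hb : PT b) (ht : PT t) :
    PT fun a => lvVecs (n a) (pSs (n a) (p a)) (pK (n a) (p a)) (l a) (b a) (t a) := by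
  obtain ⟨-, -, -, -, -, -, -, ⟨hMT, hMT'⟩, -⟩ := h.par hl hlk
  have hc2 := candQ_pt (h.famQ hl hlk)
    (zrange_pt ((PT.const 2).nat_mul hMT) ((PB.const 2).mul hMT'))
  have h1 := h.lvPw hl hlk
  have h2 := h.lwinQ hl hlk hb ht
  have hF : PT fun a => lvFns (n a) (pSs (n a) (p a)) (pK (n a) (p a)) (l a) (b a) (t a) :=
    PT.map (f := fun a (c : QFeat × ℤ) =>
      wfQ (R300.lvPw (n a) (pSs (n a) (p a)) (pK (n a) (p a)) (l a))
        (R300.lwinQ (n a) (pSs (n a) (p a)) (pK (n a) (p a)) (l a) (b a) (t a)) (t a) c.2 c.1) hc2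
      (wfQ_pt (h1.comp PT.id.fst) (h2.comp PT.id.fst) (ht.comp PT.id.fst) PT.id.snd.snd
        PT.id.snd.fst)
  refine PT.flatMap (f := fun _ φ => fnVecs φ) hF ?_
  unfold fnVecs
  fun_prop

theorem three_le_pSs' (n : ℕ) (p : ℚ) : 3 ≤ pSs n p := le_max_left _ _

theorem one_le_pK' (n : ℕ) (p : ℚ) : 1 ≤ pK n p := Nat.le_add_left _ _

/-- A list that contains all the increments of the perceptron at a level. -/
def incs (n : ℕ) (p : ℚ) (known : List Bool) (l : ℕ) : List RV :=
  ((baseCons (keysQ n p) known).map Prod.fst ++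
    (lvVecs n (pSs n p) (pK n p) l true known.length ++
      lvVecs n (pSs n p) (pK n p) l false known.length)).map (scaleR (-zetaQ n p))

theorem sz_levelStep_le (n : ℕ) (p : ℚ) (known : List Bool) (st : RV × Bool) (l : ℕ) :
    sz (levelStep n p known st l) ≤ itQ n p * sz (incs n p known l) + 5 := by
  unfold levelStep
  rw [sz_mk]
  have h1 := sz_bool_le (lvl n (pSs n p) (pK n p) l st.2 known.length st.1).1
  have h2 := sz_lp_le (ζ := zetaQ n p) (G := sz (incs n p known l))
    (cs := baseCons (keysQ n p) known ++ (lvl n (pSs n p) (pK n p) l st.2 known.length st.1).2)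
    (fun c hc => by
      refine sz_le_of_mem (List.mem_map.2 ⟨c.1, ?_, rfl⟩)
      rcases List.mem_append.1 hc with hc | hc
      · exact List.mem_append_left _ (List.mem_map.2 ⟨c, hc, rfl⟩)
      · have := mem_lvl (three_le_pSs' n p) (one_le_pK' n p) hc
        refine List.mem_append_right _ ?_
        cases hb : st.2
        · rw [hb] at this; exact List.mem_append_right _ this
        · rw [hb] at this; exact List.mem_append_left _ this) (itQ n p)
  omega

theorem Inp.incs {n l : α → ℕ} {p : α → ℚ} {kn : α → List Bool} (h : Inp n p) (hl : PT l)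
    (hlk : ∀ a, l a ≤ pK (n a) (p a)) (hk : PT kn) :
    PT fun a => incs (n a) (p a) (kn a) (l a) := by
  have h1 := h.lvVecs hl hlk (PT.const true) hk.length
  have h2 := h.lvVecs hl hlk (PT.const false) hk.length
  have h3 := baseCons_pt h.keysQ hk
  have h4 := h.zetaQ
  exact PT.map (f := fun a v => scaleR (-R300.zetaQ (n a) (p a)) v)
    ((PT.map (f := fun _ (c : Con) => c.1) h3 PT.id.snd.fst).append (h1.append h2))
    (scaleR_pt (h4.comp PT.id.fst).rat_neg PT.id.snd)

theorem Inp.levelStep {n l : α → ℕ} {p : α → ℚ} {kn : α → List Bool} {st : α → RV × Bool}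
    (h : Inp n p) (hl : PT l) (hlk : ∀ a, l a ≤ pK (n a) (p a)) (hk : PT kn) (hst : PT st) :
    PT fun a => levelStep (n a) (p a) (kn a) (st a) (l a) := by
  have h1 := h.lvl hl hlk hst.snd hk.length hst.fst
  exact (lp_pt h.zetaQ ((baseCons_pt h.keysQ hk).append h1.snd) h.itQ.1 h.itQ.2).pair h1.fst

/-- The constraint vectors of a level do not depend on the candidate table: each is
`reQ φ`, `imQ φ` or its negative for some `φ = fw D K a` with `(K, a) ∈ candQ F (zrange (2 pMT))`
(`pMA ≤ pMT`), and `fw D` ignores the last component of `D`.  So all vectors occur in a list that is a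
`PT` function of `(n, p, known, l, b)` alone; with `sz_lp_le` the size of the state after each level is
polynomially bounded in the input (`foldl_inv`). -/
theorem Inp.bitStep {n : α → ℕ} {p : α → ℚ} {τs : α → List (List Bool)} {kn : α → List Bool}
    (h : Inp n p) (hτ : PT τs) (hk : PT kn) :
    PT fun a => bitStep (n a) (p a) (τs a) (kn a) := by
  obtain ⟨hK, hK'⟩ := pK_pt h.hn h.hp
  have hL : PT fun a => (List.range (pK (n a) (p a))).reverse := (PT.range hK hK').reverse
  have hmem : ∀ a l, l ∈ (List.range (pK (n a) (p a))).reverse → l ≤ pK (n a) (p a) :=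
    fun a l hl => (List.mem_range.1 (List.mem_reverse.1 hl)).le
  have htop : PT fun a => topV (n a) (p a) (τs a) (kn a) :=
    lp_pt h.zetaQ ((baseCons_pt h.keysQ hk).append (trCons_pt h.hp h.zetaQ h.keysQ hτ))
      h.itQ.1 h.itQ.2
  have hinc : PT fun x : {x : α × ℕ // x.2 ∈ (List.range (pK (n x.1) (p x.1))).reverse} =>
      R300.incs (n x.1.1) (p x.1.1) (kn x.1.1) x.1.2 :=
    (h.comp (f := fun x : {x : α × ℕ // x.2 ∈ (List.range (pK (n x.1) (p x.1))).reverse} => x.1.1)
      PT.id.val.fst).incs PT.id.val.snd (fun x => hmem _ _ x.2) (hk.comp PT.id.val.fst)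
  obtain ⟨G, hG, hG'⟩ := PB.mem_bound' hL (PB.sz hinc)
  have hfold : PT fun a => (List.range (pK (n a) (p a))).reverse.foldl
      (R300.levelStep (n a) (p a) (kn a)) (topV (n a) (p a) (τs a) (kn a), true) := by
    refine PT.foldl_grow' (f := fun a => R300.levelStep (n a) (p a) (kn a)) hL
      (htop.pair (PT.const true)) ?_ (G := fun a => R300.itQ (n a) (p a) * G a + 5)
      ((h.itQ.2.mul hG).add (PB.const 5)) fun a c l hl => ?_
    · exact (h.comp (f := fun x : {x : α × (RV × Bool) × ℕ //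
          x.2.2 ∈ (List.range (pK (n x.1) (p x.1))).reverse} => x.1.1) PT.id.val.fst).levelStep
        PT.id.val.snd.snd (fun x => hmem _ _ x.2) (hk.comp PT.id.val.fst) PT.id.val.snd.fst
    · have h1 := sz_levelStep_le (n a) (p a) (kn a) c l
      have h2 := Nat.mul_le_mul_left (R300.itQ (n a) (p a)) (hG' a l hl)
      simp only [] at h2
      omega
  exact PT.decide (PT.rat_lt (PT.const (1 / 2)) (val_pt hfold.fst (unitM_pt h.hn h.pb_n hk.length)))

theorem Inp.decode {n : α → ℕ} {p : α → ℚ} {τs : α → List (List Bool)} (h : Inp n p)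
    (hτ : PT τs) : PT fun a => decode (n a) (p a) (τs a) := by
  refine PT.foldl_grow (f := fun a known (_ : ℕ) => known ++ [R300.bitStep (n a) (p a) (τs a) known])
    (PT.range h.hn h.pb_n) (PT.const []) ?_ (G := fun _ => 4) (PB.const 4) fun a c j _ => ?_
  · exact PT.id.snd.fst.append
      (((h.comp (f := fun x : α × List Bool × ℕ => x.1) PT.id.fst).bitStep
        (hτ.comp PT.id.fst) PT.id.snd.fst).cons (PT.const []))
  · have h1 := sz_append c [R300.bitStep (n a) (p a) (τs a) c]
    have h2 := sz_bool_le (R300.bitStep (n a) (p a) (τs a) c)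
    simp only [sz_cons, sz_nil] at h1
    omega

/-- `PT.by_cases` / `PT.dite` on `okQ`; on the subtype `2 ^ pB ≤ τs.length`. -/
theorem decodeG_pt {n : α → ℕ} {p : α → ℚ} {τs : α → List (List Bool)} (hn : PT n) (hp : PT p)
    (hτ : PT τs) : PT fun a => decodeG (n a) (p a) (τs a) := by
  refine PT.by_cases (okQ_pt hn hp hτ.length) ?_ ?_
  · have hI : Inp (fun a : {a // okQ (n a) (p a) (τs a).length} => n a.1) fun a => p a.1 := by
      refine ⟨hn.comp PT.id.val, hp.comp PT.id.val, fun a => a.2.1, ?_⟩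
      refine ((PB.length (hτ.comp PT.id.val)).add (PB.const 1)).mono fun a => ?_
      have h1 := a.2.2
      calc 2 ^ pB (n a.1) (p a.1) ≤ 2 ^ Nat.log 2 (τs a.1).length :=
            Nat.pow_le_pow_right (by norm_num) (by omega)
        _ ≤ (τs a.1).length + 1 := Nat.pow_log_le_add_one _ _
    exact (hI.decode (hτ.comp PT.id.val)).of_eq fun a => by rw [decodeG, if_pos a.2]
  · exact (PT.const []).of_eq fun a => by rw [decodeG, if_neg a.2]

theorem alg_pt : PT alg := by
  have h1 : PT fun x : List Bool => parseNat x := PT.id.parseNat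
  have h2 : PT fun x : List Bool => parseRat (parseNat x).2 := h1.snd.parseRat
  have h3 : PT fun x : List Bool =>
      parseList (parseList parseBool) (parseRat (parseNat x).2).2 :=
    PT.parseList (p := fun _ => parseList parseBool)
      (PT.parseList (p := fun _ => parseBool) PT.id.snd.parseBool (fun _ => shrinks_parseBool)
        PT.id.snd)
      (fun _ => shrinks_parseBool.parseList) h2.snd
  exact decodeG_pt h1.fst h2.fst h3.fst

end Crest.Agent.R300
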