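import Crest.Agent.R300.ULP
import Crest.Agent.R300.UAcc1
import Crest.Agent.R300.UPar

/-!
# R300 upper bound: probability of good samples, and the budget (task UProb)
-/

set_option autoImplicit false

namespace Crest.Agent.R300

open Finset Crest.FinProb Crest.TraceRecon

variable {n : ℕ}

private theorem uprob_var {Ω : Type} [Fintype Ω] (w g : Ω → ℝ) (hw : ∑ ω, w ω = 1)
    (hg : ∑ ω, w ω * g ω = 0) (m : ℕ) :
    ∑ ω : Fin m → Ω, ∏ k, w (ω k) = 1 ∧ ∑ ω : Fin m → Ω, (∏ k, w (ω k)) * ∑ k, g (ω k) = 0 ∧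
      ∑ ω : Fin m → Ω, (∏ k, w (ω k)) * (∑ k, g (ω k)) ^ 2 = m * ∑ ω, w ω * g ω ^ 2 := by
  induction m with
  | zero => simp
  | succ m ih =>
    obtain ⟨h0, h1, h2⟩ := ih
    have e : ∀ F : (Fin (m + 1) → Ω) → ℝ,
        ∑ ω, F ω = ∑ a : Ω, ∑ ω : Fin m → Ω, F (Fin.cons a ω) := fun F => by
      rw [← (Fin.consEquiv fun _ : Fin (m + 1) => Ω).sum_comp, Fintype.sum_prod_type]
      rfl
    simp only [e, Fin.prod_univ_succ, Fin.sum_univ_succ, Fin.cons_zero, Fin.cons_succ]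
    refine ⟨?_, ?_, ?_⟩
    · simp only [← mul_sum, h0, mul_one, hw]
    · have : ∀ a, ∑ ω : Fin m → Ω, (w a * ∏ k, w (ω k)) * (g a + ∑ k, g (ω k)) = w a * g a := by
        intro a
        have e2 : ∀ ω : Fin m → Ω, (w a * ∏ k, w (ω k)) * (g a + ∑ k, g (ω k)) =
            w a * g a * ∏ k, w (ω k) + w a * ((∏ k, w (ω k)) * ∑ k, g (ω k)) := fun ω => by ring
        simp only [e2, sum_add_distrib, ← mul_sum, h0, h1]
        ring
      simp only [this, hg]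
    · have : ∀ a, ∑ ω : Fin m → Ω, (w a * ∏ k, w (ω k)) * (g a + ∑ k, g (ω k)) ^ 2 =
          w a * g a ^ 2 + w a * (m * ∑ ω, w ω * g ω ^ 2) := by
        intro a
        have e2 : ∀ ω : Fin m → Ω, (w a * ∏ k, w (ω k)) * (g a + ∑ k, g (ω k)) ^ 2 =
            w a * g a ^ 2 * ∏ k, w (ω k) + 2 * w a * g a * ((∏ k, w (ω k)) * ∑ k, g (ω k)) +
              w a * ((∏ k, w (ω k)) * (∑ k, g (ω k)) ^ 2) := fun ω => by ring
        simp only [e2, sum_add_distrib, ← mul_sum, h0, h1, h2]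
        ring
      simp only [this, sum_add_distrib, ← sum_mul, hw]
      push_cast
      ring

private theorem uprob_ind {Ω : Type} [Fintype Ω] (w : Ω → ℝ) (q : Ω → Bool) (hw : ∑ ω, w ω = 1)
    {μ : ℝ} (hμ : ∑ ω, w ω * (if q ω = true then 1 else 0) = μ) (m : ℕ) :
    ∑ ω : Fin m → Ω, (∏ k, w (ω k)) * (∑ k, ((if q (ω k) = true then 1 else 0) - μ)) ^ 2 ≤
      m / 4 := by
  rw [(uprob_var w (fun ω => (if q ω = true then 1 else 0) - μ) hw (by
    simp only [mul_sub, sum_sub_distrib, ← sum_mul, hw, hμ]; ring) m).2.2]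
  have e : ∀ ω, w ω * ((if q ω = true then 1 else 0) - μ) ^ 2 =
      (1 - 2 * μ) * (w ω * (if q ω = true then 1 else 0)) + μ ^ 2 * w ω := fun ω => by
    split_ifs <;> ring
  simp only [e, sum_add_distrib, ← mul_sum, hw, hμ]
  have h : (1 - 2 * μ) * μ + μ ^ 2 * 1 ≤ 1 / 4 := by nlinarith [sq_nonneg (μ - 1 / 2)]
  have := mul_le_mul_of_nonneg_left h (Nat.cast_nonneg (α := ℝ) m)
  linarith

private theorem uprob_countP {α : Type} (q : α → Bool) (m : ℕ) (τ : Fin m → α) :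
    (((List.ofFn τ).countP q : ℕ) : ℝ) = ∑ k, if q (τ k) = true then 1 else 0 := by
  induction m with
  | zero => simp
  | succ m ih =>
    rw [List.ofFn_succ, List.countP_cons, Fin.sum_univ_succ, Nat.cast_add, ih, add_comm]
    congr 1
    split_ifs <;> simp

private theorem uprob_sum_weight (p : ℝ) : ∑ s : Fin n → Bool, bernoulliWeight p s = 1 := by
  have := Finset.prod_univ_sum (fun _ : Fin n => (univ : Finset Bool))
    (fun _ b => if b = true then p else 1 - p)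
  rw [Fintype.piFinset_univ] at this
  unfold bernoulliWeight
  rw [← this]
  simp

open Classical in
/-- Chebyshev for each `U` (the variance of an average of `m` independent indicators is at most
`1 / (4 m)`; `expect_hit` identifies the mean), and a union bound (`card_small_le`). -/
theorem prob_bad_le {p ε : ℚ} (hp0 : 0 ≤ p) (hp1 : p ≤ 1) (hε : 0 < ε) (N : ℕ) {m : ℕ} (hm : 1 ≤ m)
    (x : Fin n → Bool) :
    ∑ keeps : Fin m → Fin n → Bool, (∏ k, bernoulliWeight (p : ℝ) (keeps k)) *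
        (if GoodTr p ε N x (List.ofFn fun k => traceOf x (keeps k)) then 0 else 1) ≤
      ((n : ℝ) + 1) ^ N / (4 * m * (ε : ℝ) ^ 2) := by
  have hp0' : (0 : ℝ) ≤ p := by exact_mod_cast hp0
  have hp1' : (p : ℝ) ≤ 1 := by exact_mod_cast hp1
  have hε' : (0 : ℝ) < ε := by exact_mod_cast hε
  have hm' : (0 : ℝ) < m := by exact_mod_cast hm
  have hw : ∀ keeps : Fin m → Fin n → Bool, 0 ≤ ∏ k, bernoulliWeight (p : ℝ) (keeps k) :=
    fun keeps => prod_nonneg fun k _ => prod_nonneg fun i _ => by split_ifs <;> linarith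
  obtain ⟨μ, hμ⟩ : ∃ μ : Finset (Fin n) → ℚ, ∀ U, μ U = ∑ S : Finset (Fin n),
      pm p (toMask S) (toMask U) * (if ∀ i ∈ S, x i = true then 1 else 0) := ⟨_, fun _ => rfl⟩
  obtain ⟨Y, hY⟩ : ∃ Y : Finset (Fin n) → (Fin m → Fin n → Bool) → ℝ, ∀ U keeps, Y U keeps =
      (∑ k, ((if hit (toMask U) (traceOf x (keeps k)) = true then 1 else 0) - (μ U : ℝ))) ^ 2 :=
    ⟨_, fun _ _ => rfl⟩
  have hY0 : ∀ U keeps, 0 ≤ Y U keeps := fun U keeps => by rw [hY]; positivity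
  have h1 : ∀ keeps : Fin m → Fin n → Bool,
      (if GoodTr p ε N x (List.ofFn fun k => traceOf x (keeps k)) then (0 : ℝ) else 1) ≤
        ∑ U ∈ univ.filter fun S : Finset (Fin n) => S.card ≤ N,
          Y U keeps / ((m : ℝ) * ε) ^ 2 := by
    intro keeps
    split_ifs with h
    · exact sum_nonneg fun U _ => div_nonneg (hY0 _ _) (by positivity)
    · unfold GoodTr at h
      push Not at h
      obtain ⟨U, hU, h⟩ := h
      refine le_trans ?_ (single_le_sum (f := fun U => Y U keeps / ((m : ℝ) * ε) ^ 2)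
        (fun U _ => div_nonneg (hY0 _ _) (by positivity)) (mem_filter.2 ⟨mem_univ U, hU⟩))
      rw [← hμ] at h
      have h' : (ε : ℝ) <
          |((freq (toMask U) (List.ofFn fun k => traceOf x (keeps k)) : ℚ) : ℝ) - μ U| := by
        exact_mod_cast h
      have e : ∑ k, ((if hit (toMask U) (traceOf x (keeps k)) = true then 1 else 0) - (μ U : ℝ)) =
          m * (((freq (toMask U) (List.ofFn fun k => traceOf x (keeps k)) : ℚ) : ℝ) - μ U) := by
        rw [sum_sub_distrib, freq, List.length_ofFn]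
        push_cast
        rw [uprob_countP]
        simp only [sum_const, card_univ, Fintype.card_fin, nsmul_eq_mul]
        field_simp
      rw [le_div_iff₀ (by positivity), one_mul, hY, e, mul_pow, mul_pow, ← sq_abs (_ - _)]
      exact mul_le_mul_of_nonneg_left (pow_le_pow_left₀ hε'.le h'.le 2) (by positivity)
  refine (sum_le_sum fun keeps _ => mul_le_mul_of_nonneg_left (h1 keeps) (hw keeps)).trans ?_
  simp only [mul_sum]
  rw [sum_comm]
  refine (sum_le_card_nsmul _ _ (1 / (4 * m * (ε : ℝ) ^ 2)) fun U _ => ?_).trans ?_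
  · simp only [← mul_div_assoc, ← sum_div, hY]
    have := uprob_ind (bernoulliWeight (p : ℝ)) (fun keep => hit (toMask U) (traceOf x keep))
      (uprob_sum_weight p) (μ := μ U) (by rw [expect_hit, hμ]) m
    refine (div_le_div_of_nonneg_right this (by positivity)).trans (le_of_eq ?_)
    field_simp
  · rw [nsmul_eq_mul, mul_one_div]
    refine div_le_div_of_nonneg_right ?_ (by positivity)
    exact_mod_cast card_small_le n N

private theorem uprob_sq (j : ℕ) : (2 * j + 5) ^ 2 ≤ 25 * 2 ^ j := by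
  induction j with
  | zero => norm_num
  | succ j ih =>
    have : (2 * (j + 1) + 5) ^ 2 ≤ 2 * (2 * j + 5) ^ 2 := by nlinarith [Nat.zero_le j]
    rw [pow_succ 2 j]
    omega

private theorem uprob_pB2 {s k : ℕ} (hs : 1 ≤ s) (hk : 1 ≤ k) :
    pB2 s k ≤ 2 ^ 135 * (k + 1) ^ 4 * (2 ^ k) ^ 2 * (2 ^ k * s) := by
  have h1 : 2 ^ pEps s k ≤ 2 ^ 15 * (s * (k + 1)) :=
    (two_pow_pEps hk).2.trans (Nat.mul_le_mul_left _ (by nlinarith))
  have h2 : 2 ^ (2 * pEps s k - s / 2) ≤ 2 ^ 35 * (k + 1) ^ 2 := by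
    rcases le_total (2 * pEps s k) (s / 2) with h | h
    · rw [Nat.sub_eq_zero_of_le h, pow_zero]
      exact Nat.succ_le_of_lt (by positivity)
    · refine Nat.le_of_mul_le_mul_right ?_ (show 0 < 2 ^ (s / 2) by positivity)
      rw [← pow_add, Nat.sub_add_cancel h, mul_comm 2, pow_mul]
      have h3 : s ^ 2 ≤ 32 * 2 ^ (s / 2) :=
        (Nat.pow_le_pow_left (by omega) 2).trans ((uprob_sq (s / 2)).trans (by omega))
      calc (2 ^ pEps s k) ^ 2 ≤ (2 ^ 15 * (s * (k + 1))) ^ 2 := Nat.pow_le_pow_left h1 2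
        _ = 2 ^ 30 * (k + 1) ^ 2 * s ^ 2 := by ring
        _ ≤ 2 ^ 30 * (k + 1) ^ 2 * (32 * 2 ^ (s / 2)) := Nat.mul_le_mul_left _ h3
        _ = _ := by ring
  have e : pB2 s k = 2 ^ 85 * (k + 1) * (2 ^ k) ^ 3 *
      (2 ^ pEps s k * 2 ^ (2 * pEps s k - s / 2)) := by
    rw [pB2, pJ_eq, pTau]
    generalize 2 * pEps s k - s / 2 = a
    ring
  rw [e]
  refine (Nat.mul_le_mul_left _ (Nat.mul_le_mul h1 h2)).trans (le_of_eq ?_)
  ring

/-- With `s = pSs`, `k = pK`, `ν = pNu`, `X = 1 + log n / (1 + log (1 / (1 - p)))`: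
`⌈7/p⌉ ≤ 8/p`; `2^ϵ ≤ 2^15 s (k+1)`; `2^(2ϵ - s/2) ≤ 2^34 (k+1)²` (as `s² ≤ 16 · 2^(s/2)`), so
`pB2 ≤ 2^134 (k+1)⁴ (2^k)² (2^k s)`.  Next `2^k ≤ 2 (ν/s + 1)`, `2^k s ≤ 10 ν ≤ 30 log n`, and `2^k ≤ 10 X`
(either `s ≥ ν`, or `s ≥ max 3 (Nat.log 2 ⌊1/(1-p)⌋₊)` and then `1 + log (1/(1-p)) ≤ 1.3 s`), hence
`k + 1 ≤ 5 (1 + log X)`. -/
theorem budget : ∃ C : ℝ, 1 ≤ C ∧ ∀ n : ℕ, 2 ≤ n → ∀ p : ℚ, 0 < p → p < 1 →
    2 ^ (4 * pB n p) ≤ traceBudget C n p := by
  refine ⟨2 ^ 200, by norm_num, fun n hn p hp0 hp1 => ?_⟩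
  have hp0' : (0 : ℝ) < p := by exact_mod_cast hp0
  have hp1' : (p : ℝ) < 1 := by exact_mod_cast hp1
  have hl2 := Real.log_two_gt_d9
  have hl2' := Real.log_two_lt_d9
  have hs := pSs_ge n p
  have hk := pK_pos n p
  have hν2 : 1 ≤ Nat.log 2 n := Nat.log_pos one_lt_two hn
  have hν : (pNu n : ℝ) ≤ 3 * Real.log n := by
    have h1 : ((2 ^ Nat.log 2 n : ℕ) : ℝ) ≤ n := by
      exact_mod_cast Nat.pow_log_le_self 2 (by omega)
    have h2 := Real.log_le_log (by positivity) h1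
    rw [Nat.cast_pow, Real.log_pow, Nat.cast_ofNat] at h2
    have h3 : (1 : ℝ) ≤ Nat.log 2 n := by exact_mod_cast hν2
    rw [pNu]
    push_cast
    nlinarith
  have hν0 : (2 : ℝ) ≤ pNu n := by
    have : 2 ≤ pNu n := by unfold pNu; omega
    exact_mod_cast this
  have hlog : 0 < Real.log n := by linarith
  have h2k : 2 ^ pK n p ≤ 2 * (pNu n / pSs n p + 1) := by
    rw [pK, pow_succ, mul_comm]
    exact Nat.mul_le_mul_left _ (Nat.pow_log_le_self 2 (Nat.succ_ne_zero _))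
  have h2ks : ((2 ^ pK n p * pSs n p : ℕ) : ℝ) ≤ 18 * Real.log n := by
    have h1 : pSs n p ≤ 2 * pNu n := by unfold pSs pNu; omega
    have h2 := Nat.div_mul_le_self (pNu n) (pSs n p)
    have h3 : 2 ^ pK n p * pSs n p ≤ 6 * pNu n := by nlinarith
    have h4 : ((2 ^ pK n p * pSs n p : ℕ) : ℝ) ≤ 6 * pNu n := by exact_mod_cast h3
    linarith
  obtain ⟨Lq, hLq⟩ : ∃ Lq : ℝ, Lq = Real.log (1 / (1 - (p : ℝ))) := ⟨_, rfl⟩
  have hLq0 : 0 ≤ Lq := by
    rw [hLq]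
    exact Real.log_nonneg (by rw [le_div_iff₀ (by linarith)]; linarith)
  obtain ⟨X, hX⟩ : ∃ X : ℝ, X = 1 + Real.log n / (1 + Lq) := ⟨_, rfl⟩
  have hX1 : 1 ≤ X := by
    have : 0 ≤ Real.log n / (1 + Lq) := by positivity
    linarith
  have hlX : 0 ≤ Real.log X := Real.log_nonneg hX1
  have h2kX : ((2 ^ pK n p : ℕ) : ℝ) ≤ 12 * X := by
    rcases le_total (pNu n) (Nat.log 2 ⌊1 / (1 - p)⌋₊) with h | h
    · have h1 : pNu n ≤ pSs n p := by unfold pSs; omega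
      have h2 : pNu n / pSs n p ≤ 1 := Nat.div_le_of_le_mul (by omega)
      have h3 : 2 ^ pK n p ≤ 4 := by omega
      have h4 : ((2 ^ pK n p : ℕ) : ℝ) ≤ 4 := by exact_mod_cast h3
      linarith
    · have h1 : Nat.log 2 ⌊1 / (1 - p)⌋₊ ≤ pSs n p := by unfold pSs; omega
      have h2 : ⌊1 / (1 - p)⌋₊ + 1 ≤ 2 ^ (pSs n p + 1) :=
        (Nat.lt_pow_succ_log_self one_lt_two _).trans_le
          (Nat.pow_le_pow_right two_pos (by omega))
      have h3 : 1 / (1 - p) ≤ (2 : ℚ) ^ (pSs n p + 1) :=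
        (Nat.lt_floor_add_one _).le.trans (by exact_mod_cast h2)
      have h4 : 1 / (1 - (p : ℝ)) ≤ 2 ^ (pSs n p + 1) := by exact_mod_cast h3
      have h5 := Real.log_le_log (div_pos one_pos (by linarith)) h4
      rw [← hLq, Real.log_pow] at h5
      have hs' : (3 : ℝ) ≤ pSs n p := by exact_mod_cast hs
      push_cast at h5
      have h6 : 1 + Lq ≤ 2 * pSs n p := by nlinarith
      have h7 : ((pNu n / pSs n p : ℕ) : ℝ) ≤ 6 * (Real.log n / (1 + Lq)) := by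
        refine Nat.cast_div_le.trans ?_
        rw [← mul_div_assoc, div_le_div_iff₀ (by linarith) (by linarith)]
        nlinarith
      have h8 : ((2 ^ pK n p : ℕ) : ℝ) ≤ 2 * ((pNu n / pSs n p : ℕ) + 1) := by exact_mod_cast h2k
      linarith
  have hkX : (pK n p : ℝ) + 1 ≤ 5 * (1 + Real.log X) := by
    have h1 : ((2 ^ pK n p : ℕ) : ℝ) ≤ 2 ^ 4 * X := by linarith
    have h2 := Real.log_le_log (by positivity) h1
    rw [Nat.cast_pow, Real.log_pow, Nat.cast_ofNat, Real.log_mul (by positivity) (by linarith),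
      Real.log_pow] at h2
    push_cast at h2
    have h3 : (pK n p : ℝ) ≤ 4 + 2 * Real.log X := by
      refine le_of_mul_le_mul_right ?_ (show 0 < Real.log 2 by linarith)
      nlinarith
    linarith
  have hceil : ((⌈7 / p⌉₊ : ℕ) : ℝ) ≤ 8 * (p : ℝ)⁻¹ := by
    have h1 : ((⌈7 / p⌉₊ : ℕ) : ℚ) ≤ 8 * p⁻¹ := by
      have h2 := (Nat.ceil_lt_add_one (show (0 : ℚ) ≤ 7 / p by positivity)).le
      have h3 : 1 ≤ p⁻¹ := (one_le_inv₀ hp0).2 hp1.le
      rw [div_eq_mul_inv] at h2 ⊢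
      linarith
    exact_mod_cast h1
  have hB2 : (pB2 (pSs n p) (pK n p) : ℝ) ≤
      2 ^ 135 * (5 * (1 + Real.log X)) ^ 4 * (12 * X) ^ 2 * (18 * Real.log n) := by
    have h1 : (pB2 (pSs n p) (pK n p) : ℝ) ≤ 2 ^ 135 * ((pK n p : ℝ) + 1) ^ 4 *
        ((2 ^ pK n p : ℕ) : ℝ) ^ 2 * ((2 ^ pK n p * pSs n p : ℕ) : ℝ) := by
      exact_mod_cast uprob_pB2 (s := pSs n p) (by omega) hk
    refine h1.trans ?_
    gcongr
  have hB : ((4 * pB n p : ℕ) : ℝ) ≤
      2 ^ 200 * ((p : ℝ)⁻¹ * Real.log n * X ^ 2 * (1 + Real.log X) ^ 6) := by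
    have h1 : (1 + Real.log X) ^ 4 ≤ (1 + Real.log X) ^ 6 :=
      pow_le_pow_right₀ (by linarith) (by norm_num)
    have h2 : 0 ≤ (p : ℝ)⁻¹ * Real.log n * X ^ 2 := by positivity
    have h3 := mul_le_mul_of_nonneg_left h1 h2
    have h4 : 0 ≤ (p : ℝ)⁻¹ * Real.log n * X ^ 2 * (1 + Real.log X) ^ 4 := by positivity
    have h5 := mul_le_mul hceil hB2 (by positivity) (by positivity)
    have h6 : 8 * (p : ℝ)⁻¹ *
        (2 ^ 135 * (5 * (1 + Real.log X)) ^ 4 * (12 * X) ^ 2 * (18 * Real.log n)) =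
        (8 * 2 ^ 135 * 5 ^ 4 * 12 ^ 2 * 18) *
          ((p : ℝ)⁻¹ * Real.log n * X ^ 2 * (1 + Real.log X) ^ 4) := by ring
    rw [pB]
    push_cast
    linarith
  refine Nat.cast_le (α := ℝ).1 (le_trans ?_ (Nat.le_ceil _))
  rw [← hLq, ← hX]
  refine le_trans ?_ (Real.exp_le_exp.2 hB)
  rw [Nat.cast_pow, Nat.cast_ofNat, ← mul_one ((4 * pB n p : ℕ) : ℝ), Real.exp_nat_mul]
  exact pow_le_pow_left₀ (by norm_num) (by linarith [Real.add_one_le_exp (1 : ℝ)]) _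

end Crest.Agent.R300
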