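import Crest.Agent.R300.UMain
import Crest.Agent.R300.UProb
import Crest.Agent.R300.UPT4
import Crest.Prelude.Def_TraceSym

/-!
# R300 upper bound: the statements (task UFinal)
-/

set_option autoImplicit false

namespace Crest.Agent.R300

open Finset Crest.FinProb Crest.Randomized Crest.TraceRecon

namespace UFinalAux

theorem bw_nonneg {ι : Type*} [Fintype ι] {p : ℝ} (h0 : 0 ≤ p) (h1 : p ≤ 1) (ω : ι → Bool) :
    0 ≤ bernoulliWeight p ω := by
  unfold bernoulliWeight
  refine Finset.prod_nonneg fun i _ => ?_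
  split_ifs
  · exact h0
  · linarith

theorem sum_bw {ι : Type*} [Fintype ι] [DecidableEq ι] (p : ℝ) :
    ∑ ω : ι → Bool, bernoulliWeight p ω = 1 := by
  unfold bernoulliWeight
  have := Finset.prod_univ_sum (fun _ : ι => (Finset.univ : Finset Bool))
    (fun (_ : ι) (b : Bool) => if b then p else 1 - p)
  rw [Fintype.piFinset_univ] at this
  rw [← this]
  simp

theorem sum_prod_bw (n m : ℕ) (p : ℝ) :
    ∑ keeps : Fin m → Fin n → Bool, ∏ k, bernoulliWeight p (keeps k) = 1 := by
  have := Finset.prod_univ_sum (fun _ : Fin m => (Finset.univ : Finset (Fin n → Bool)))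
    (fun (_ : Fin m) (ω : Fin n → Bool) => bernoulliWeight p ω)
  rw [Fintype.piFinset_univ] at this
  rw [← this]
  simp [sum_bw]

theorem readWord_ofFn {n : ℕ} (x : Fin n → Bool) : readWord n (List.ofFn x) = x := by
  funext i
  simp [readWord]

theorem uniformProb_const {Ω : Type*} [Fintype Ω] [Nonempty Ω] (P : Prop) [Decidable P] :
    uniformProb {_ω : Ω | P} = if P then 1 else 0 := by
  unfold uniformProb
  by_cases h : P
  · simp [h]
  · simp [h]

theorem cont_bw {ι : Type*} [Fintype ι] (ω : ι → Bool) :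
    Continuous fun q : ℝ => bernoulliWeight q ω := by
  unfold bernoulliWeight
  refine continuous_finsetProd _ fun i _ => ?_
  split_ifs
  · exact continuous_id
  · exact continuous_const.sub continuous_id

theorem exists_rat_close (n m : ℕ) {p : ℝ} (hp1 : p < 1) :
    ∃ p' : ℚ, p < p' ∧ (p' : ℝ) < 1 ∧ ∑ keeps : Fin m → Fin n → Bool,
      |∏ k, bernoulliWeight (p' : ℝ) (keeps k) - ∏ k, bernoulliWeight p (keeps k)| ≤ 1 / 12 := by
  have hc : Continuous fun q : ℝ => ∑ keeps : Fin m → Fin n → Bool,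
      |∏ k, bernoulliWeight q (keeps k) - ∏ k, bernoulliWeight p (keeps k)| := by
    refine continuous_finsetSum _ fun keeps _ => Continuous.abs ?_
    exact (continuous_finsetProd _ fun k _ => cont_bw _).sub continuous_const
  obtain ⟨δ, hδ, h⟩ := Metric.continuous_iff.1 hc p (1 / 12) (by norm_num)
  obtain ⟨p', h1, h2⟩ := exists_rat_btwn (lt_min hp1 (lt_add_of_pos_right p hδ))
  refine ⟨p', h1, h2.trans_le (min_le_left _ _), ?_⟩
  have h3 := h2.trans_le (min_le_right _ _)
  have h4 := h p' (by rw [Real.dist_eq, abs_lt]; constructor <;> linarith)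
  simp only [sub_self, abs_zero, Finset.sum_const_zero, Real.dist_eq, sub_zero] at h4
  exact (le_abs_self _).trans h4.le

theorem log_inv_nonneg {p : ℝ} (h0 : 0 < p) (h1 : p < 1) : 0 ≤ Real.log (1 / (1 - p)) := by
  refine Real.log_nonneg ?_
  rw [le_div_iff₀ (by linarith)]
  linarith

theorem budget_anti {C : ℝ} (hC : 0 ≤ C) {n : ℕ} {p p' : ℝ} (h0 : 0 < p)
    (hpp : p ≤ p') (h1 : p' < 1) : traceBudget C n p' ≤ traceBudget C n p := by
  unfold traceBudget
  refine Nat.ceil_mono (Real.exp_le_exp.2 (mul_le_mul_of_nonneg_left ?_ hC))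
  have hl : 0 ≤ Real.log n := Real.log_natCast_nonneg n
  have a0 := log_inv_nonneg h0 (hpp.trans_lt h1)
  have a1 : Real.log (1 / (1 - p)) ≤ Real.log (1 / (1 - p')) := by
    refine Real.log_le_log (by apply div_pos <;> linarith) ?_
    exact one_div_le_one_div_of_le (by linarith) (by linarith)
  have a2 : Real.log n / (1 + Real.log (1 / (1 - p'))) ≤ Real.log n / (1 + Real.log (1 / (1 - p))) :=
    div_le_div_of_nonneg_left hl (by linarith) (by linarith)
  have a3 : 0 ≤ Real.log n / (1 + Real.log (1 / (1 - p'))) := div_nonneg hl (by linarith)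
  have a4 : Real.log (1 + Real.log n / (1 + Real.log (1 / (1 - p')))) ≤
      Real.log (1 + Real.log n / (1 + Real.log (1 / (1 - p)))) :=
    Real.log_le_log (by linarith) (by linarith)
  have a5 : 0 ≤ Real.log (1 + Real.log n / (1 + Real.log (1 / (1 - p')))) :=
    Real.log_nonneg (by linarith)
  have a6 : p'⁻¹ ≤ p⁻¹ := inv_anti₀ h0 hpp
  have a7 : 0 ≤ p⁻¹ := (inv_pos.2 h0).le
  have a8 : 0 ≤ p'⁻¹ := (inv_pos.2 (h0.trans_le hpp)).le
  refine mul_le_mul (mul_le_mul (mul_le_mul_of_nonneg_right a6 hl)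
    (pow_le_pow_left₀ (by linarith) (by linarith) 2) (by positivity) (mul_nonneg a7 hl))
    (pow_le_pow_left₀ (by linarith) (by linarith) 6) (pow_nonneg (by linarith) 6) ?_
  exact mul_nonneg (mul_nonneg a7 hl) (pow_nonneg (by linarith) 2)

theorem budget_le (C : ℝ) (hC : 0 ≤ C) {n : ℕ} (hn : 2 ≤ n) {p : ℝ} (h0 : 0 < p) (h1 : p < 1) :
    (traceBudget C n p : ℝ) ≤ Real.exp ((C + 1) * p⁻¹ * Real.log n *
          (1 + Real.log n / (1 + Real.log (1 / (1 - p)))) ^ 2 *
          (1 + Real.log (1 + Real.log n / (1 + Real.log (1 / (1 - p))))) ^ 6) := by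
  unfold traceBudget
  have hl : 0 ≤ Real.log n := Real.log_natCast_nonneg n
  have a0 := log_inv_nonneg h0 h1
  have a3 : 0 ≤ Real.log n / (1 + Real.log (1 / (1 - p))) := div_nonneg hl (by linarith)
  have a5 : 0 ≤ Real.log (1 + Real.log n / (1 + Real.log (1 / (1 - p)))) :=
    Real.log_nonneg (by linarith)
  have a6 : 1 ≤ p⁻¹ := (one_le_inv₀ h0).2 h1.le
  have a7 : Real.log 2 ≤ Real.log n :=
    Real.log_le_log (by norm_num) (by exact_mod_cast hn)
  have a8 : 1 ≤ (1 + Real.log n / (1 + Real.log (1 / (1 - p)))) ^ 2 := one_le_pow₀ (by linarith)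
  have a9 : 1 ≤ (1 + Real.log (1 + Real.log n / (1 + Real.log (1 / (1 - p))))) ^ 6 :=
    one_le_pow₀ (by linarith)
  set X2 := (1 + Real.log n / (1 + Real.log (1 / (1 - p)))) ^ 2
  set L6 := (1 + Real.log (1 + Real.log n / (1 + Real.log (1 / (1 - p))))) ^ 6
  have b1 : Real.log n ≤ p⁻¹ * Real.log n := le_mul_of_one_le_left hl a6
  have b2 : p⁻¹ * Real.log n ≤ p⁻¹ * Real.log n * X2 := le_mul_of_one_le_right (by linarith) a8
  have b3 : p⁻¹ * Real.log n * X2 ≤ p⁻¹ * Real.log n * X2 * L6 :=
    le_mul_of_one_le_right (by linarith) a9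
  set Y := p⁻¹ * Real.log n * X2 * L6 with hY
  have b4 : Real.log 2 ≤ Y := by linarith
  have b5 : (C + 1) * p⁻¹ * Real.log n * X2 * L6 = C * Y + Y := by rw [hY]; ring
  have b6 : 2 ≤ Real.exp Y := by
    have := Real.exp_le_exp.2 b4
    rwa [Real.exp_log (by norm_num)] at this
  have b7 : 1 ≤ Real.exp (C * Y) := Real.one_le_exp (mul_nonneg hC (by linarith))
  rw [b5, Real.exp_add]
  have b8 := (Nat.ceil_lt_add_one (Real.exp_pos (C * Y)).le).le
  have b9 := mul_le_mul_of_nonneg_left b6 (Real.exp_pos (C * Y)).le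
  linarith

theorem map_symTrace {s n : ℕ} (x : Fin n → Fin s) (a : Fin s) (keep : Fin n → Bool) :
    (symTraceOf x keep).map (fun b => b == a) = traceOf (fun i => x i == a) keep := by
  unfold symTraceOf traceOf
  rw [List.map_map]
  rfl

end UFinalAux

open UFinalAux

/-- `budget`, `prob_bad_le` with `ε = zetaQ n p`, `keys_bound`, `decode_correct`, `alg_input`. -/
theorem main_upper : ∃ C : ℝ, 1 ≤ C ∧ ∀ n : ℕ, 2 ≤ n → ∀ p : ℚ, 0 < p → p < 1 →
    ∀ m : ℕ, traceBudget C n p ≤ m → ∀ x : Fin n → Bool,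
      ∑ keeps : Fin m → Fin n → Bool, (∏ k, bernoulliWeight (p : ℝ) (keeps k)) *
        (if readWord n (alg (decoderInput n p fun k => traceOf x (keeps k))) = x then 0 else 1) ≤
          1 / (4 * ((n : ℝ) + 1)) := by
  classical
  obtain ⟨C, hC, hb⟩ := budget
  refine ⟨C, hC, fun n hn p hp0 hp1 m hm x => ?_⟩
  have h1 : 2 ^ (4 * pB n p) ≤ m := (hb n hn p hp0 hp1).trans hm
  have hm1 : 1 ≤ m := le_trans Nat.one_le_two_pow h1
  have hok : okQ n p m := ⟨hp0, Nat.le_log_of_pow_le (by norm_num) h1⟩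
  have hζ : 0 < zetaQ n p := by unfold zetaQ; positivity
  have h2 := prob_bad_le hp0.le hp1.le hζ (4 ^ pK n p) hm1 x
  have hp0' : (0 : ℝ) ≤ p := by exact_mod_cast hp0.le
  have hp1' : (p : ℝ) ≤ 1 := by exact_mod_cast hp1.le
  refine le_trans (Finset.sum_le_sum fun keeps _ => mul_le_mul_of_nonneg_left ?_
    (Finset.prod_nonneg fun k _ => bw_nonneg hp0' hp1' _)) (h2.trans ?_)
  · by_cases hg : GoodTr p (zetaQ n p) (4 ^ pK n p) x (List.ofFn fun k => traceOf x (keeps k))
    · have : readWord n (alg (decoderInput n p fun k => traceOf x (keeps k))) = x := by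
        rw [alg_input, decodeG, if_pos (by rwa [List.length_ofFn]), decode_correct hp0 hp1 hg,
          readWord_ofFn]
      rw [if_pos this, if_pos hg]
    · rw [if_neg hg]
      split_ifs <;> norm_num
  · have k1 := keys_bound n hp0
    have k2 : n + 1 ≤ 2 ^ pB n p :=
      le_trans (Nat.le_self_pow (by positivity) _) k1
    have k1' : ((n : ℝ) + 1) ^ 4 ^ pK n p ≤ 2 ^ pB n p := by exact_mod_cast k1
    have k2' : (n : ℝ) + 1 ≤ 2 ^ pB n p := by exact_mod_cast k2
    have h1' : ((2 : ℝ) ^ pB n p) ^ 4 ≤ m := by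
      rw [← pow_mul, mul_comm]; exact_mod_cast h1
    have hz : ((zetaQ n p : ℚ) : ℝ) = 1 / 2 ^ pB n p := by unfold zetaQ; push_cast; rfl
    rw [hz]
    set B : ℝ := 2 ^ pB n p with hB
    have hB0 : 0 < B := by positivity
    have hm0 : (0 : ℝ) < m := by exact_mod_cast hm1
    have hn0 : (0 : ℝ) < (n : ℝ) + 1 := by positivity
    rw [div_le_div_iff₀ (by positivity) (by positivity)]
    have k3 : ((n : ℝ) + 1) ^ 4 ^ pK n p * (4 * ((n : ℝ) + 1)) ≤ B * (4 * B) :=
      mul_le_mul k1' (by linarith) (by positivity) hB0.le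
    refine k3.trans ?_
    have k4 : 1 * (4 * (m : ℝ) * (1 / B) ^ 2) = 4 * m / B ^ 2 := by field_simp
    rw [k4, le_div_iff₀ (by positivity)]
    have k5 : B * (4 * B) * B ^ 2 = 4 * B ^ 4 := by ring
    rw [k5]
    linarith

theorem final_0457 :
    ∃ C : ℝ, 1 ≤ C ∧ ∃ (A : List Bool × List Bool → List Bool) (r : Polynomial ℕ), RandPolyTime A ∧
      ∀ n : ℕ, 2 ≤ n → ∀ p : ℚ, 0 < p → p < 1 → ∀ x : Fin n → Bool,
        2 / 3 ≤ decoderSuccessProb (traceBudget C n p) p A r x := by
  classical
  obtain ⟨C, hC, h⟩ := main_upper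
  refine ⟨C, hC, fun z => alg z.1, 0, ?_, fun n hn p hp0 hp1 x => ?_⟩
  · have := alg_pt
    exact Crest.Agent.Lib.PT.PT.randPolyTime (by fun_prop)
  · have h1 := h n hn p hp0 hp1 _ le_rfl x
    have h2 := sum_prod_bw n (traceBudget C n p) p
    unfold decoderSuccessProb
    simp only [uniformProb_const]
    have h3 : ∑ keeps : Fin (traceBudget C n p) → Fin n → Bool,
        (∏ k, bernoulliWeight (p : ℝ) (keeps k)) *
        (if readWord n (alg (decoderInput n p fun k => traceOf x (keeps k))) = x then 1 else 0) =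
        ∑ keeps : Fin (traceBudget C n p) → Fin n → Bool, (∏ k, bernoulliWeight (p : ℝ) (keeps k)) -
        ∑ keeps : Fin (traceBudget C n p) → Fin n → Bool, (∏ k, bernoulliWeight (p : ℝ) (keeps k)) *
        (if readWord n (alg (decoderInput n p fun k => traceOf x (keeps k))) = x then 0 else 1) := by
      rw [← Finset.sum_sub_distrib]
      refine Finset.sum_congr rfl fun keeps _ => ?_
      split_ifs <;> ring
    rw [h3, h2]
    have h4 : 1 / (4 * ((n : ℝ) + 1)) ≤ 1 / 4 := by
      refine one_div_le_one_div_of_le (by norm_num) ?_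
      have : (0 : ℝ) ≤ n := Nat.cast_nonneg n
      linarith
    linarith

/-- Let `m = traceBudget C n p ≤ exp ((C + 2) Y)` (`Y ≥ log 2`).  Choose a rational `p' ∈ [p, 1)` with
`n m (p' - p) ≤ 1/12`; the budget is antitone in `p`, so `traceBudget C n p' ≤ m`.  For a symbol `a` let
`y a` be the word decoded from the traces `(τ k).map (· == a)`, which are the traces of the binary word
`fun i => x i == a`.  The (deterministic) rule answers the word `x'` with `x' i =` some `a` with
`y a i = true` (a fixed symbol if there is none).  It is correct if all `y a` are correct.  The symbols that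
do not occur in `x` all give the same binary word and the same projected traces, so under `p'` the failure
probability is at most `(n + 1) / (4 (n + 1)) = 1/4`.  Changing `p'` to `p` changes the probability of
any event by at most `n m (p' - p)` (the `ℓ¹` distance of product measures is subadditive). -/
theorem final_0456 :
    ∃ C : ℝ, ∀ s : ℕ, 2 ≤ s → ∀ n : ℕ, 2 ≤ n → ∀ p : ℝ, 0 < p → p < 1 →
      ∃ m : ℕ, (m : ℝ) ≤ Real.exp (C * p⁻¹ * Real.log n *
          (1 + Real.log n / (1 + Real.log (1 / (1 - p)))) ^ 2 *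
          (1 + Real.log (1 + Real.log n / (1 + Real.log (1 / (1 - p))))) ^ 6) ∧
        ∃ K : (Fin m → List (Fin s)) → (Fin n → Fin s) → ℝ, IsSymRule K ∧
          ∀ x : Fin n → Fin s, 2 / 3 ≤ symSuccessProb p K x := by
  classical
  obtain ⟨C, hC, h⟩ := main_upper
  refine ⟨C + 1, fun s hs n hn p hp0 hp1 => ?_⟩
  refine ⟨traceBudget C n p, budget_le C (by linarith) hn hp0 hp1, ?_⟩
  set m := traceBudget C n p with hm
  obtain ⟨p', hpp, hp'1, hD⟩ := exists_rat_close n m hp1
  have hp'0 : (0 : ℝ) < p' := hp0.trans hpp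
  have hb : traceBudget C n p' ≤ m := budget_anti (by linarith) hp0 hpp.le hp'1
  have hmain := h n hn p' (by exact_mod_cast hp'0) (by exact_mod_cast hp'1) m hb
  set y : (Fin m → List (Fin s)) → Fin s → Fin n → Bool := fun τ a =>
    readWord n (alg (decoderInput n p' fun k => (τ k).map fun b => b == a)) with hy
  set dec : (Fin m → List (Fin s)) → Fin n → Fin s := fun τ i =>
    if h : ∃ a, y τ a i = true then h.choose else ⟨0, by omega⟩ with hdec
  refine ⟨fun τ x' => if x' = dec τ then 1 else 0, fun τ => ⟨fun x' => ?_, by simp⟩, fun x => ?_⟩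
  · dsimp only
    split_ifs <;> norm_num
  set B : Finset (Fin n → Bool) :=
    insert (fun _ => false) (Finset.univ.image fun i₀ : Fin n => fun i => x i == x i₀) with hB
  have hBc : B.card ≤ n + 1 := by
    refine (Finset.card_insert_le _ _).trans (Nat.succ_le_succ ?_)
    exact Finset.card_image_le.trans (by simp)
  have hBm : ∀ a : Fin s, (fun i => x i == a) ∈ B := by
    intro a
    by_cases ha : ∃ i₀, x i₀ = a
    · obtain ⟨i₀, rfl⟩ := ha
      exact Finset.mem_insert_of_mem (Finset.mem_image_of_mem _ (Finset.mem_univ i₀))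
    · have : (fun i => x i == a) = fun _ => false := by
        funext i
        simpa using fun h' => ha ⟨i, h'⟩
      rw [this]
      exact Finset.mem_insert_self _ _
  set bad : (Fin n → Bool) → (Fin m → Fin n → Bool) → ℝ := fun w keeps =>
    if readWord n (alg (decoderInput n p' fun k => traceOf w (keeps k))) = w then 0 else 1 with hbad
  have hbad0 : ∀ w keeps, 0 ≤ bad w keeps := by
    intro w keeps
    simp only [hbad]
    split_ifs <;> norm_num
  have key : ∀ keeps : Fin m → Fin n → Bool, 1 - ∑ w ∈ B, bad w keeps ≤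
      (if x = dec (fun k => symTraceOf x (keeps k)) then (1 : ℝ) else 0) := by
    intro keeps
    have hs0 : 0 ≤ ∑ w ∈ B, bad w keeps := Finset.sum_nonneg fun w _ => hbad0 w keeps
    by_cases hall : ∀ a : Fin s, y (fun k => symTraceOf x (keeps k)) a = fun i => x i == a
    · have : x = dec (fun k => symTraceOf x (keeps k)) := by
        funext i
        have hex : ∃ a, y (fun k => symTraceOf x (keeps k)) a i = true :=
          ⟨x i, by rw [hall]; simp⟩
        simp only [hdec]
        rw [dif_pos hex]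
        have := hex.choose_spec
        rw [hall] at this
        simpa using this
      rw [if_pos this]
      linarith
    · push Not at hall
      obtain ⟨a, ha⟩ := hall
      have h1 : bad (fun i => x i == a) keeps = 1 := by
        simp only [hbad]
        rw [if_neg]
        simpa only [hy, map_symTrace] using ha
      have h2 := Finset.single_le_sum (f := fun w => bad w keeps) (fun w _ => hbad0 w keeps) (hBm a)
      have h3 : (0 : ℝ) ≤ if x = dec (fun k => symTraceOf x (keeps k)) then (1 : ℝ) else 0 := by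
        split_ifs <;> norm_num
      simp only [h1] at h2
      linarith
  have hw' : ∀ keeps : Fin m → Fin n → Bool, 0 ≤ ∏ k, bernoulliWeight (p' : ℝ) (keeps k) :=
    fun keeps => Finset.prod_nonneg fun k _ => bw_nonneg hp'0.le hp'1.le _
  have s1 : 3 / 4 ≤ ∑ keeps : Fin m → Fin n → Bool, (∏ k, bernoulliWeight (p' : ℝ) (keeps k)) *
      (if x = dec (fun k => symTraceOf x (keeps k)) then (1 : ℝ) else 0) := by
    refine le_trans ?_ (Finset.sum_le_sum fun keeps _ =>
      mul_le_mul_of_nonneg_left (key keeps) (hw' keeps))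
    have e1 : ∑ keeps : Fin m → Fin n → Bool, (∏ k, bernoulliWeight (p' : ℝ) (keeps k)) *
        (1 - ∑ w ∈ B, bad w keeps) = 1 - ∑ w ∈ B, ∑ keeps : Fin m → Fin n → Bool,
          (∏ k, bernoulliWeight (p' : ℝ) (keeps k)) * bad w keeps := by
      simp only [mul_sub, mul_one, Finset.sum_sub_distrib, Finset.mul_sum]
      rw [sum_prod_bw, Finset.sum_comm]
    rw [e1]
    have e2 : ∑ w ∈ B, ∑ keeps : Fin m → Fin n → Bool,
        (∏ k, bernoulliWeight (p' : ℝ) (keeps k)) * bad w keeps ≤
        B.card • (1 / (4 * ((n : ℝ) + 1))) := Finset.sum_le_card_nsmul _ _ _ fun w _ => hmain w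
    have e3 : (B.card : ℝ) ≤ (n : ℝ) + 1 := by exact_mod_cast hBc
    have e4 : (B.card : ℝ) * (1 / (4 * ((n : ℝ) + 1))) ≤ ((n : ℝ) + 1) * (1 / (4 * ((n : ℝ) + 1))) :=
      mul_le_mul_of_nonneg_right e3 (by positivity)
    have e5 : ((n : ℝ) + 1) * (1 / (4 * ((n : ℝ) + 1))) = 1 / 4 := by field_simp
    rw [nsmul_eq_mul] at e2
    linarith
  unfold symSuccessProb
  have s2 : ∑ keeps : Fin m → Fin n → Bool, (∏ k, bernoulliWeight (p' : ℝ) (keeps k)) *
      (if x = dec (fun k => symTraceOf x (keeps k)) then (1 : ℝ) else 0) -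
      ∑ keeps : Fin m → Fin n → Bool, (∏ k, bernoulliWeight p (keeps k)) *
      (if x = dec (fun k => symTraceOf x (keeps k)) then (1 : ℝ) else 0) ≤ 1 / 12 := by
    refine le_trans ?_ hD
    rw [← Finset.sum_sub_distrib]
    refine Finset.sum_le_sum fun keeps _ => ?_
    split_ifs
    · rw [mul_one, mul_one]; exact le_abs_self _
    · rw [mul_zero, mul_zero, sub_zero]; exact abs_nonneg _
  linarith

end Crest.Agent.R300
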