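import Crest.Agent.R300.UStep

/-!
# R300 upper bound: one level with the concrete parameters (task ULevel)

Throughout `e = pE (l+1)`, `κ = kap (l+1) = 2^(-e)`, `kap l ^ 6 = 2 ^ (-3e/4)`, `r = e`,
`h = L / (4 e)` (`pL_div`), so the band is `24 / (2h+1) ≤ 48 e / L`.
-/

set_option autoImplicit false

namespace Crest.Agent.R300

open Finset

variable {n s k l : ℕ}

theorem ulev_rh (s k l : ℕ) (b : Bool) :
    1 ≤ pE s k (l + 1) * (pL s k l b / (4 * pE s k (l + 1))) ∧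
      pE s k (l + 1) * (pL s k l b / (4 * pE s k (l + 1))) ≤ pL s k l b ∧
      4 * (pE s k (l + 1) * (pL s k l b / (4 * pE s k (l + 1)))) = pL s k l b := by
  obtain ⟨h1, h2⟩ := pL_div s k l b
  have h3 := pE_ge s k (l + 1)
  rw [mul_assoc] at h1
  refine ⟨Nat.mul_pos (by omega) h2, by omega, h1⟩

theorem lwin_nonneg (b : Bool) (t i : Fin n) : 0 ≤ lwin s k l b t i := by
  exact gwin_nonneg _ _ _ _ _

theorem sum_lwin_le (b : Bool) (t : Fin n) : ∑ i, lwin s k l b t i ≤ 1 := by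
  exact sum_gwin_le (ulev_rh s k l b).1 (ulev_rh s k l b).2.1 t

theorem lwin_moment (b : Bool) (t : Fin n) :
    ∑ i, lwin s k l b t i * (Nat.dist t i : ℝ) ≤ pLA s k l := by
  have h1 : ∀ i, lwin s k l b t i * (Nat.dist t i : ℝ) ≤ lwin s k l b t i * pLA s k l := by
    intro i
    by_cases hi : pL s k l b < Nat.dist i t
    · have : lwin s k l b t i = 0 := gwin_eq_zero (ulev_rh s k l b).2.1 hi
      simp [this]
    · refine mul_le_mul_of_nonneg_left ?_ (lwin_nonneg b t i)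
      have := pL_le s k l b
      rw [Nat.dist_comm] at hi
      exact_mod_cast (by omega : Nat.dist t i ≤ pLA s k l)
  refine (Finset.sum_le_sum fun i _ => h1 i).trans ?_
  rw [← Finset.sum_mul]
  exact mul_le_of_le_one_left (by positivity) (sum_lwin_le b t)

/-- `W = 2 pL (l+1) b`; the plateau of the window has half-width `pL (l+1) b / 2 ≥ pLA l`. -/
theorem upWin_lwin (hs : 3 ≤ s) (b : Bool) (t : Fin n) : UpWin s k l t (lwin s k (l + 1) b t) := by
  obtain ⟨h1, -, h3⟩ := ulev_rh s k (l + 1) b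
  have h4 := pLA_sep hs k l
  have h5 := pLB_le_pL s k (l + 1) b
  have h6 := pE_ge s k (l + 2)
  have h7 : 2 * pLA s k l ≤ 2 ^ 14 * pE s k (l + 2) * pLA s k l :=
    Nat.mul_le_mul_right _ (by omega)
  have hL : (0 : ℝ) < pL s k (l + 1) b := by exact_mod_cast (by omega : 0 < pL s k (l + 1) b)
  refine ⟨lwin_nonneg b t, sum_lwin_le b t, 2 * pL s k (l + 1) b, by positivity, ?_, fun i hi => ?_⟩
  · have : (pL s k (l + 1) b : ℝ) ≤ pLA s k (l + 1) := by exact_mod_cast pL_le s k (l + 1) b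
    linarith
  · have : lwin s k (l + 1) b t i = 1 / (2 * pL s k (l + 1) b) := gwin_plateau (by omega)
    rw [this, mul_one_div_cancel (by positivity), sub_self, abs_zero]
    positivity

/-- `W = 2 ^ ν ≤ pLA k` (`le_pLam`), `uu_plateau`. -/
theorem upWin_top {ν : ℕ} (hn : n ≤ 2 ^ ν) (hν : ν + s ≤ 2 ^ (l + 1) * s) (t : Fin n) :
    UpWin s (l + 1) l t (topG s (l + 1) ν) := by
  have hL : 1 ≤ 2 ^ ν := Nat.one_le_two_pow
  have hW : (0 : ℝ) < 2 ^ ν := by positivity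
  refine ⟨fun i => div_nonneg (uu_nonneg hL _) hW.le, ?_, 2 ^ ν, hW, ?_, fun i _ => ?_⟩
  · calc ∑ i : Fin n, topG s (l + 1) ν i ≤ ∑ _i : Fin n, (1 / 2 ^ ν : ℝ) :=
          Finset.sum_le_sum fun i _ => div_le_div_of_nonneg_right (uu_le_one hL _) hW.le
      _ = n / 2 ^ ν := by simp [div_eq_mul_inv]
      _ ≤ 1 := by rw [div_le_one hW]; exact_mod_cast hn
  · have h1 : 2 ^ ν ≤ pLA s (l + 1) (l + 1) := Nat.pow_le_pow_right (by norm_num) (le_pLam hν)
    have h2 : (2 : ℝ) ^ ν ≤ pLA s (l + 1) (l + 1) := by exact_mod_cast h1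
    linarith
  · have h1 := uu_plateau (J := pJ s (l + 1) (l + 1)) (d := i) hL (by have := i.2; omega)
    have h2 := uu_le_one (J := pJ s (l + 1) (l + 1)) hL i
    have h3 : (1 : ℝ) / 4 ^ pJ s (l + 1) (l + 1) ≤ 1 / 4 ^ pJ s (l + 1) l :=
      one_div_le_one_div_of_le (by positivity)
        (pow_le_pow_right₀ (by norm_num) (pJ_mono (Nat.le_succ l)))
    unfold topG
    rw [mul_div_cancel₀ _ hW.ne', abs_le]
    have h4 : (0 : ℝ) ≤ 1 / 4 ^ pJ s (l + 1) l := by positivity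
    constructor <;> linarith

/-! ### numerical facts -/

theorem ulev_exp (m : ℕ) : (1 / 2 ^ m : ℝ) = Real.exp (-(m * Real.log 2)) := by
  rw [Real.exp_neg, Real.exp_nat_mul, Real.exp_log (by norm_num), one_div]

theorem ulev_exp_le (m : ℕ) : Real.exp (-(m : ℝ)) ≤ 1 / 2 ^ m := by
  rw [ulev_exp, Real.exp_le_exp, neg_le_neg_iff]
  have := Real.log_two_lt_d9
  exact mul_le_of_le_one_right (by positivity) (by linarith)

theorem kap_pos (s k l : ℕ) : 0 < kap s k l := by unfold kap; positivity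

theorem kap_succ (s k l : ℕ) : kap s k (l + 1) = kap s k l ^ 8 := by
  unfold kap
  rw [pE_succ, mul_comm, pow_mul, one_div_pow]

theorem kap_small (s k l : ℕ) : kap s k l ≤ 1 / 1000 := by
  unfold kap
  refine one_div_le_one_div_of_le (by norm_num) ?_
  have h := pE_ge s k l
  calc (1000 : ℝ) ≤ 2 ^ 10 := by norm_num
    _ ≤ _ := pow_le_pow_right₀ (by norm_num) (by omega)

theorem pS_mul_kap (s k l : ℕ) : (pS s k l : ℝ) * kap s k l ^ 8 = 1 := by
  unfold pS kap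
  rw [mul_comm 8]
  push_cast
  rw [pow_mul, ← mul_pow, mul_one_div_cancel (by positivity), one_pow]

theorem pS_pos (s k l : ℕ) : 1 ≤ pS s k l := Nat.one_le_two_pow

theorem ulev_eta (s k l : ℕ) : 0 < eta (pS s k l) ∧ eta (pS s k l) ≤ 2 * kap s k l ^ 8 ∧
    1 ≤ pS s k l * eta (pS s k l) ∧ pS s k l * eta (pS s k l) ≤ 2 := by
  obtain ⟨h1, h2⟩ := eta_bounds (pS_pos s k l)
  have hS : (0 : ℝ) < pS s k l := by exact_mod_cast pS_pos s k l
  refine ⟨lt_of_lt_of_le (by positivity) h1, ?_, ?_, ?_⟩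
  · refine h2.trans (le_of_eq ?_)
    rw [div_eq_iff hS.ne']
    linear_combination (-2) * pS_mul_kap s k l
  · rwa [div_le_iff₀' hS] at h1
  · rwa [le_div_iff₀' hS] at h2

theorem ulev_Z (hs : 3 ≤ s) (hk : 1 ≤ k) (l : ℕ) :
    (2 : ℝ) ^ 60 ≤ pLA s k (l + 1) ∧ (pLA s k (l + 1) : ℝ) ^ 128 * kap s k l ≤ 1 ∧
      (pLA s k l : ℝ) ≤ pLA s k (l + 1) := by
  refine ⟨?_, ?_, ?_⟩
  · have := pLam_ge s k (l + 1)
    unfold pLA
    push_cast
    exact pow_le_pow_right₀ (by norm_num) (by omega)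
  · have := pLam_le hs hk l
    unfold pLA kap
    push_cast
    rw [← pow_mul, mul_one_div, div_le_one (by positivity)]
    exact pow_le_pow_right₀ (by norm_num) (by omega)
  · have := pLam_succ s k l
    unfold pLA
    push_cast
    exact pow_le_pow_right₀ (by norm_num) (by omega)

theorem ulev_fin {u Z W L Y x η z : ℝ} (hu0 : 0 < u) (hu : u ≤ 1 / 1000) (hZ : 2 ^ 60 ≤ Z)
    (hZu : Z ^ 128 * u ≤ 1) (hW0 : 0 < W) (hW : W ≤ 2 * Z) (hL0 : 0 ≤ L) (hL : L ≤ Z)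
    (hY0 : 0 ≤ Y) (hY : Y * Z ^ 7 ≤ u ^ 6) (hx0 : 0 ≤ x) (hx : x ≤ u ^ 8) (hη0 : 0 ≤ η)
    (hη : η ≤ 2 * u ^ 8) (hz : z ≤ u ^ 8) :
    W * (256 * L) ^ 3 * (Y + 6 * (x + 96 * L * η)) + 2 * (z + 6 * z) ≤ u ^ 6 := by
  have hZ1 : 1 ≤ Z := le_trans (by norm_num) hZ
  have hZ0 : 0 < Z := by linarith
  have h1 : W * (256 * L) ^ 3 ≤ Z ^ 5 := by
    calc W * (256 * L) ^ 3 ≤ 2 * Z * (256 * Z) ^ 3 := by gcongr
      _ = 2 ^ 25 * Z ^ 4 := by ring
      _ ≤ Z * Z ^ 4 := by gcongr; exact le_trans (by norm_num) hZ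
      _ = _ := by ring
  have h2 : 6 * (x + 96 * L * η) ≤ Z ^ 2 * u ^ 8 := by
    calc 6 * (x + 96 * L * η) ≤ 6 * (u ^ 8 + 96 * Z * (2 * u ^ 8)) := by gcongr
      _ = (6 * 1 + 1152 * Z) * u ^ 8 := by ring
      _ ≤ (6 * Z + 1152 * Z) * u ^ 8 := by gcongr
      _ = 1158 * Z * u ^ 8 := by ring
      _ ≤ Z * Z * u ^ 8 := by gcongr; exact le_trans (by norm_num) hZ
      _ = _ := by ring
  have h3 : Z ^ 5 * Y ≤ u ^ 6 * (1 / 4) := by
    have a1 : 4 ≤ Z ^ 2 := by nlinarith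
    have a2 : Z ^ 5 * Y * 4 ≤ Z ^ 5 * Y * Z ^ 2 := by gcongr
    have a3 : Z ^ 5 * Y * Z ^ 2 = Y * Z ^ 7 := by ring
    linarith
  have h4 : Z ^ 7 * u ≤ 1 := le_trans (by gcongr; norm_num) hZu
  have h5 : Z ^ 5 * (Z ^ 2 * u ^ 8) ≤ u ^ 6 * (1 / 1000) := by
    calc Z ^ 5 * (Z ^ 2 * u ^ 8) = u ^ 6 * (Z ^ 7 * u * u) := by ring
      _ ≤ u ^ 6 * (1 * (1 / 1000)) := by gcongr
      _ = _ := by ring
  have h6 : u ^ 8 ≤ u ^ 6 * (1 / 1000) := by
    calc u ^ 8 = u ^ 6 * (u * u) := by ring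
      _ ≤ u ^ 6 * (1 * (1 / 1000)) := by gcongr; linarith
      _ = _ := by ring
  have h7 : W * (256 * L) ^ 3 * (Y + 6 * (x + 96 * L * η)) ≤ Z ^ 5 * (Y + Z ^ 2 * u ^ 8) := by
    gcongr
  have h8 : 0 < u ^ 6 := by positivity
  rw [mul_add (Z ^ 5)] at h7
  linarith

theorem ulev_band (s k l : ℕ) (b : Bool) :
    24 / (2 * ((pL s k l b / (4 * pE s k (l + 1)) : ℕ) : ℝ) + 1) * pL s k l b ≤
      48 * pE s k (l + 1) := by
  obtain ⟨-, -, h3⟩ := ulev_rh s k l b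
  generalize pL s k l b / (4 * pE s k (l + 1)) = h at h3 ⊢
  rw [← h3, div_mul_eq_mul_div, div_le_iff₀ (by positivity)]
  push_cast
  have : (0 : ℝ) ≤ pE s k (l + 1) := by positivity
  nlinarith

/-- The common part of both cases. -/
theorem ulev_core (hs : 3 ≤ s) (hl : l < k) (b : Bool) (t : Fin n) {G : Fin n → ℝ}
    (hG : UpWin s k l t G) {Δ : Tab n} (hΔ : ∀ S, ‖Δ S‖ ≤ 2) {Y : ℝ} (hY0 : 0 ≤ Y)
    (hY : Y * (pLA s k (l + 1) : ℝ) ^ 7 ≤ kap s k l ^ 6)
    (h : ∀ K₁ ∈ famS n s k l, ∀ es : List (Feat n × ℤ), es.length ≤ 3 →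
      (∀ e ∈ es, e.1 ∈ famS n s k l ∧ |e.2| ≤ 3 * pMT s k l) → ∀ σ : ℝ,
      (|σ| + 24 / (2 * ((pL s k l b / (4 * pE s k (l + 1)) : ℕ) : ℝ) + 1)) * pL s k l b ≤
        193 * pE s k (l + 1) →
      ‖wf (fun i => lwin s k l b t i * G i) t σ
        (node (pJ s k l) (pL s k l b) K₁ (onGrid (eta (pS s k l)) es)) Δ‖ ≤ Y) :
    Inv s k l (lwin s k l b t) t Δ := by
  have hk : 1 ≤ k := by omega
  obtain ⟨hG0, hG1, W, hW0, hW, hGW⟩ := hG
  intro es hne hlen hes hsum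
  obtain ⟨⟨K₁, a₁⟩, es, rfl⟩ := List.exists_cons_of_ne_nil hne
  obtain ⟨r1, r2, r3⟩ := ulev_rh s k l b
  obtain ⟨e0, e1, e2, e3⟩ := ulev_eta s k l
  obtain ⟨z1, z2, z3⟩ := ulev_Z hs hk l
  have hJ := pE_le_pJ (s := s) hl.le
  have hE := pE_ge s k (l + 1)
  have hband := ulev_band s k l b
  have hLA : (pL s k l b : ℝ) ≤ pLA s k l := by exact_mod_cast pL_le s k l b
  have hLB : (pLB s k l : ℝ) ≤ pL s k l b := by exact_mod_cast pLB_le_pL s k l b
  have hL0 : (0 : ℝ) < pL s k l b := by exact_mod_cast (by omega : 0 < pL s k l b)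
  have hLB0 : (0 : ℝ) < pLB s k l := by
    have h1 := pLB_mul s k l
    have h2 : 0 < pLA s k l := Nat.pos_of_ne_zero (by unfold pLA; positivity)
    have : 0 < pLB s k l := Nat.pos_of_ne_zero fun h0 => by rw [h0] at h1; omega
    exact_mod_cast this
  have hb0 : 0 ≤ 24 / (2 * ((pL s k l b / (4 * pE s k (l + 1)) : ℕ) : ℝ) + 1) := by positivity
  have core := step_core (J := pJ s k l) (ME := 3 * pMT s k l) (Y := Y) (by omega) r1 r2 t hG0 hG1
    hW0 (ζG := 1 / 4 ^ pJ s k l) (by positivity)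
    (by rw [div_le_one (by positivity)]; exact one_le_pow₀ (by norm_num))
    (fun i hi => hGW i (hi.trans (pL_le s k l b))) e0 (K₁ := K₁) a₁ (es := es)
    (Nat.le_of_lt_succ (by simpa using hlen)) (fam_bd0 (hes _ List.mem_cons_self).1)
    (fun e he => fam_bd0 (hes e (List.mem_cons_of_mem _ he)).1) ?_ hΔ ?_
  · refine core.trans ?_
    have hz : (1 : ℝ) / 4 ^ pJ s k l ≤ kap s k l ^ 8 := by
      rw [← kap_succ]
      unfold kap
      refine one_div_le_one_div_of_le (by positivity) ?_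
      calc (2 : ℝ) ^ pE s k (l + 1) ≤ 2 ^ pJ s k l := pow_le_pow_right₀ (by norm_num) (by omega)
        _ ≤ 4 ^ pJ s k l := by gcongr; norm_num
    have hx : Real.exp (-(pE s k (l + 1) : ℝ)) ≤ kap s k l ^ 8 := by
      rw [← kap_succ]; exact ulev_exp_le _
    have := ulev_fin (kap_pos s k l) (kap_small s k l) z1 z2 hW0 hW hL0.le (hLA.trans z3) hY0 hY
      (Real.exp_pos _).le hx e0.le e1 hz
    rwa [mul_one_div] at this
  · intro e he
    have h1 : ((|e.2| : ℤ) : ℝ) ≤ 2 * pMT s k l := by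
      exact_mod_cast (hes e (List.mem_cons_of_mem _ he)).2
    have h2 : (48 * pE s k (l + 1) * pS s k l + pLB s k l : ℝ) ≤ pMT s k l * pLB s k l := by
      exact_mod_cast band_le hs hk l
    generalize 24 / (2 * ((pL s k l b / (4 * pE s k (l + 1)) : ℕ) : ℝ) + 1) = β at *
    have h3 : β / eta (pS s k l) ≤ β * pS s k l := by
      rw [div_le_iff₀ e0, mul_assoc]
      exact le_mul_of_one_le_right hb0 e2
    have h4 : β * pLB s k l ≤ 48 * pE s k (l + 1) := le_trans (by gcongr) hband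
    have h5 : (β * pS s k l + 1) * pLB s k l ≤ pMT s k l * pLB s k l := by
      have : β * pLB s k l * pS s k l ≤ 48 * pE s k (l + 1) * pS s k l := by gcongr
      linarith
    have h6 := le_of_mul_le_mul_right h5 hLB0
    push_cast at h1 ⊢
    linarith
  · intro es' hfst hes' σ hσ
    refine h K₁ (hes _ List.mem_cons_self).1 es' ?_ (fun e he => ⟨?_, ?_⟩) σ ?_
    · have := congrArg List.length hfst
      simp only [List.length_map] at this
      simp only [List.length_cons] at hlen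
      omega
    · have : e.1 ∈ es.map Prod.fst := hfst ▸ List.mem_map_of_mem he
      obtain ⟨e', he', h1⟩ := List.mem_map.1 this
      exact h1 ▸ (hes e' (List.mem_cons_of_mem _ he')).1
    · exact_mod_cast hes' e he
    · simp only [List.map_cons, List.sum_cons] at hsum
      generalize a₁ + (es.map Prod.snd).sum = a at hsum hσ
      have h1 : |(a : ℝ)| ≤ pSg s k l := by exact_mod_cast hsum
      have h2 : (pSg s k l * (2 * pLA s k l) : ℝ) = pE s k (l + 1) * pS s k l := by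
        exact_mod_cast pSg_mul hs hk l
      have h3 : |(a : ℝ) * eta (pS s k l)| * pL s k l b ≤ pE s k (l + 1) := by
        rw [abs_mul, abs_of_pos e0]
        calc |(a : ℝ)| * eta (pS s k l) * pL s k l b ≤ pSg s k l * eta (pS s k l) * pLA s k l := by
              gcongr
          _ = pE s k (l + 1) * (pS s k l * eta (pS s k l)) / 2 := by
              linear_combination (eta (pS s k l) / 2) * h2
          _ ≤ pE s k (l + 1) * 2 / 2 := by gcongr
          _ = _ := by ring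
      generalize 24 / (2 * ((pL s k l b / (4 * pE s k (l + 1)) : ℕ) : ℝ) + 1) = β at *
      have h4 : |σ| ≤ |(a : ℝ) * eta (pS s k l)| + 3 * β := by
        have := abs_sub_abs_le_abs_sub σ ((a : ℝ) * eta (pS s k l))
        linarith
      calc (|σ| + β) * pL s k l b ≤ (|(a : ℝ) * eta (pS s k l)| + 3 * β + β) * pL s k l b := by
            gcongr
        _ = |(a : ℝ) * eta (pS s k l)| * pL s k l b + 4 * (β * pL s k l b) := by ring
        _ ≤ _ := by linarith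

/-- `step_core` with `L = pLA l`, `ME = 3 pMT l` (`band_le`), and `win_A`; the total frequency is at
most `pSg l · η + 4 · 48 e / L ≤ 193 e / L`.  Numerically `W (256 L)³ ≤ 2 ^ (25 + 4 pLam (l+1))`,
`128 pLam (l+1) ≤ pE l = e / 8`, `η ≤ 2 · 2 ^ (-8 pE l)`, `exp (-e) ≤ κ`, `2^70 e ≤ pJ l`. -/
theorem inv_A (hs : 3 ≤ s) (hl : l < k) (t : Fin n) {G : Fin n → ℝ} (hG : UpWin s k l t G)
    {Δ : Tab n} (hΔ : ∀ S, ‖Δ S‖ ≤ 2)
    (h : ∀ K ∈ famS n s k (l + 1), ∀ β : ℝ, |β| * pLA s k l ≤ 256 * pE s k (l + 1) →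
      ‖wf G t β K Δ‖ ≤ 2 * kap s k (l + 1)) :
    Inv s k l (lwin s k l true t) t Δ := by
  have hk : 1 ≤ k := by omega
  obtain ⟨z1, z2, -⟩ := ulev_Z hs hk l
  have hu0 := kap_pos s k l
  have hu := kap_small s k l
  have hκ := kap_pos s k (l + 1)
  obtain ⟨r1, r2, -⟩ := ulev_rh s k l true
  refine ulev_core hs hl true t hG hΔ (Y := 4 * kap s k (l + 1)) (by positivity) ?_
    fun K₁ hK₁ es hlen hes σ hσ => ?_
  · rw [kap_succ]
    have hZ1 : (1 : ℝ) ≤ pLA s k (l + 1) := le_trans (by norm_num) z1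
    have h4 : (pLA s k (l + 1) : ℝ) ^ 7 * kap s k l ≤ 1 := le_trans (by gcongr; norm_num) z2
    calc 4 * kap s k l ^ 8 * (pLA s k (l + 1) : ℝ) ^ 7 =
          kap s k l ^ 6 * (4 * kap s k l * ((pLA s k (l + 1) : ℝ) ^ 7 * kap s k l)) := by ring
      _ ≤ kap s k l ^ 6 * (4 * (1 / 1000) * 1) := by gcongr
      _ ≤ _ := mul_le_of_le_one_right (by positivity) (by norm_num)
  · have hK : node (pJ s k l) (pL s k l true) K₁ (onGrid (eta (pS s k l)) es) ∈ famS n s k (l + 1) :=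
      ⟨true, K₁, es, hK₁, hlen, hes, rfl⟩
    have h1 := win_A r1 r2 t hG.1 hG.2.1 (fam_bd0 hK) hΔ (σ := σ) (X := 2 * kap s k (l + 1))
      fun β hβ => h _ hK β (by
        have e : (pLA s k l : ℝ) = pL s k l true := rfl
        have h2 : |β| ≤ |σ| + 24 / (2 * ((pL s k l true / (4 * pE s k (l + 1)) : ℕ) : ℝ) + 1) := by
          have := abs_sub_abs_le_abs_sub β σ
          linarith
        have h3 : (0 : ℝ) ≤ pE s k (l + 1) := by positivity
        rw [e]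
        exact le_trans (mul_le_mul_of_nonneg_right h2 (by positivity)) (by linarith))
    have h2 : Real.exp (-(pE s k (l + 1) : ℝ)) ≤ kap s k (l + 1) := ulev_exp_le _
    exact h1.trans (by linarith)

theorem ulev_B1 {e κ ζ : ℝ} (he : 0 ≤ e) (hκ0 : 0 < κ) (hκ1 : κ ≤ 1 / 1000) (hκ : Real.exp (-e) ≤ κ)
    (hζ : ζ ≤ κ ^ 8) {L : ℝ} (hL : 0 < L) :
    ζ + 2 * Real.exp (-(e / (64 * L) * (512 * L - 300 * L))) ≤ 3 * κ ^ 3 := by
  have h1 : κ ^ 8 ≤ κ ^ 3 := pow_le_pow_of_le_one hκ0.le (by linarith) (by norm_num)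
  have h2 : Real.exp (-(e / (64 * L) * (512 * L - 300 * L))) ≤ κ ^ 3 := by
    calc _ ≤ Real.exp (((3 : ℕ) : ℝ) * (-e)) := by
          rw [Real.exp_le_exp]
          have : e / (64 * L) * (512 * L - 300 * L) = 53 / 16 * e := by field_simp; ring
          rw [this]
          push_cast
          linarith
      _ = Real.exp (-e) ^ 3 := Real.exp_nat_mul _ _
      _ ≤ κ ^ 3 := by gcongr
  linarith

theorem ulev_B2 {m : ℕ} (hm : 2 ^ 15 ≤ m) {κ : ℝ} (hκ : κ = 1 / 2 ^ m) (hκ1 : κ ≤ 1 / 1000) :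
    ((4 * κ) ^ 2 + 4 * (3 * κ ^ 3) + (3 * κ ^ 3) ^ 2) / 4 ≤ Real.exp (-(2 * (69 / 100 * m))) := by
  have hκ0 : 0 < κ := by rw [hκ]; positivity
  have h1 : ((4 * κ) ^ 2 + 4 * (3 * κ ^ 3) + (3 * κ ^ 3) ^ 2) / 4 ≤ 5 * κ ^ 2 := by
    have a1 : κ ^ 6 ≤ κ ^ 3 := pow_le_pow_of_le_one hκ0.le (by linarith) (by norm_num)
    have a2 : κ ^ 3 ≤ κ ^ 2 * (1 / 1000) := by
      rw [pow_succ]; gcongr
    have a3 : (3 * κ ^ 3) ^ 2 = 9 * κ ^ 6 := by ring
    have a4 : (4 * κ) ^ 2 = 16 * κ ^ 2 := by ring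
    have a5 : 0 < κ ^ 2 := by positivity
    rw [a3, a4]
    linarith
  refine h1.trans ?_
  have hm' : (2 : ℝ) ^ 15 ≤ m := by exact_mod_cast hm
  have h2 : κ ^ 2 = Real.exp (-(2 * (m * Real.log 2))) := by
    rw [hκ, ulev_exp, ← Real.exp_nat_mul]
    congr 1
    push_cast
    ring
  have h3 : (5 : ℝ) ≤ Real.exp (1 / 200 * m) := by
    have := Real.add_one_le_exp (1 / 200 * (m : ℝ))
    linarith
  have h4 := Real.log_two_gt_d9
  rw [h2]
  calc 5 * Real.exp (-(2 * (m * Real.log 2))) ≤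
        Real.exp (1 / 200 * m) * Real.exp (-(2 * (m * Real.log 2))) := by gcongr
    _ = Real.exp (1 / 200 * m + -(2 * (m * Real.log 2))) := (Real.exp_add _ _).symm
    _ ≤ _ := by
      rw [Real.exp_le_exp]
      have : (m : ℝ) * 0.693 ≤ m * Real.log 2 := by gcongr; linarith
      linarith

theorem ulev_B3 {e L : ℝ} (he : 0 ≤ e) (hL : 0 < L) :
    2 * Real.exp (e / (2 ^ 15 * L) * (L + 512 * L)) *
      (3 * Real.exp (-(9 / 10 * (69 / 100 * e))) + Real.exp (-e)) ≤ 8 * Real.exp (-(6 / 10 * e)) := by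
  have h1 : e / (2 ^ 15 * L) * (L + 512 * L) = 513 / 2 ^ 15 * e := by field_simp; ring
  have h2 : Real.exp (-e) ≤ Real.exp (-(9 / 10 * (69 / 100 * e))) := by
    rw [Real.exp_le_exp]; linarith
  have h3 : Real.exp (513 / 2 ^ 15 * e) * Real.exp (-(9 / 10 * (69 / 100 * e))) ≤
      Real.exp (-(6 / 10 * e)) := by
    rw [← Real.exp_add, Real.exp_le_exp]; linarith
  rw [h1]
  calc _ ≤ 2 * Real.exp (513 / 2 ^ 15 * e) * (3 * Real.exp (-(9 / 10 * (69 / 100 * e))) +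
        Real.exp (-(9 / 10 * (69 / 100 * e)))) := by gcongr
    _ = 8 * (Real.exp (513 / 2 ^ 15 * e) * Real.exp (-(9 / 10 * (69 / 100 * e)))) := by ring
    _ ≤ _ := by gcongr

theorem ulev_B4 {m : ℕ} {u Z : ℝ} (hu : u = 1 / 2 ^ m) (hZ : 2 ^ 60 ≤ Z) (hZu : Z ^ 128 * u ≤ 1) :
    8 * Real.exp (-(6 / 10 * ((8 * m : ℕ) : ℝ))) * Z ^ 7 ≤ u ^ 6 := by
  have hZ1 : 1 ≤ Z := le_trans (by norm_num) hZ
  have h4 := Real.log_two_lt_d9
  have hm : (0 : ℝ) ≤ m := by positivity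
  have hlog : (m : ℝ) * Real.log 2 ≤ m * 0.7 := by gcongr; linarith
  have h1 : (Z ^ 8) ^ 16 ≤ Real.exp (1 / 16 * m) ^ 16 := by
    rw [← Real.exp_nat_mul, ← pow_mul]
    have a1 : Z ^ 128 ≤ 2 ^ m := by
      rwa [hu, mul_one_div, div_le_one (by positivity)] at hZu
    refine a1.trans ?_
    rw [← Real.exp_log (show (0 : ℝ) < 2 by norm_num), ← Real.exp_nat_mul, Real.exp_le_exp]
    push_cast
    linarith
  have h2 : Z ^ 8 ≤ Real.exp (1 / 16 * m) :=
    (pow_le_pow_iff_left₀ (by positivity) (by positivity) (by norm_num)).1 h1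
  have h3 : u ^ 6 = Real.exp (-(6 * (m * Real.log 2))) := by
    rw [hu, ulev_exp, ← Real.exp_nat_mul]
    congr 1
    push_cast
    ring
  rw [h3]
  calc 8 * Real.exp (-(6 / 10 * ((8 * m : ℕ) : ℝ))) * Z ^ 7 ≤
        Z * Real.exp (-(6 / 10 * ((8 * m : ℕ) : ℝ))) * Z ^ 7 := by
        gcongr; exact le_trans (by norm_num) hZ
    _ = Z ^ 8 * Real.exp (-(6 / 10 * ((8 * m : ℕ) : ℝ))) := by ring
    _ ≤ Real.exp (1 / 16 * m) * Real.exp (-(6 / 10 * ((8 * m : ℕ) : ℝ))) := by gcongr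
    _ ≤ _ := by
      rw [← Real.exp_add, Real.exp_le_exp]
      push_cast
      linarith

/-- the weighted bound for a node of scale `pLB l` -/
theorem ulev_bd (hs : 3 ≤ s) (hl : l < k) {K₁ : Feat n} (hK₁ : K₁ ∈ famS n s k l)
    {es : List (Feat n × ℤ)} (hlen : es.length ≤ 3) (hes : ∀ e ∈ es, e.1 ∈ famS n s k l)
    (hL : 1 ≤ pLB s k l) (i : Fin n) :
    Bd (node (pJ s k l) (pLB s k l) K₁ (onGrid (eta (pS s k l)) es) i) i
      (pE s k (l + 1) / (64 * pLB s k l))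
      (Real.exp (pE s k (l + 1) / (64 * pLB s k l) * (300 * pLB s k l))) := by
  have hL0 : (0 : ℝ) < pLB s k l := by exact_mod_cast hL
  have hJ := pE_le_pJ (s := s) hl.le
  have hE := pE_ge s k (l + 1)
  have hμ : (0 : ℝ) ≤ pE s k (l + 1) / (64 * pLB s k l) := by positivity
  have hsep : l = 0 ∨ (2 ^ 14 * pE s k (l + 1) * pLA s k (l - 1) : ℝ) ≤ pLB s k l := by
    rcases l with _ | l
    · exact Or.inl rfl
    · right
      exact_mod_cast pLA_sep hs k l
  have hE' : (2 : ℝ) ^ 15 ≤ pE s k (l + 1) := by exact_mod_cast hE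
  have hA : (0 : ℝ) ≤ pLA s k (l - 1) := by positivity
  have hμ' : l = 0 ∨ 64 * (pLA s k (l - 1) : ℝ) * (pE s k (l + 1) / (64 * pLB s k l)) ≤ 1 := by
    refine hsep.imp id fun h => ?_
    rw [← mul_div_assoc, div_le_one (by positivity)]
    have : (0 : ℝ) ≤ pE s k (l + 1) * pLA s k (l - 1) := by positivity
    linarith
  have h1 := bd_node (J := pJ s k l) (by omega) hL hμ
    (R := if l = 0 then 0 else 300 * (pLA s k (l - 1) : ℝ))
    (by
      rw [mul_div_cancel₀ _ (by positivity)]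
      exact_mod_cast (by omega : pE s k (l + 1) ≤ pJ s k l))
    (by split_ifs <;> positivity) (l := onGrid (eta (pS s k l)) es) (by simpa [onGrid] using hlen)
    (fam_bd hs hK₁ hμ hμ')
    (fun e he => by
      obtain ⟨e', he', rfl⟩ := List.mem_map.1 he
      exact fam_bd hs (hes e' he') hμ hμ') i
  refine h1.mono ?_
  rw [Real.exp_le_exp]
  refine mul_le_mul_of_nonneg_left ?_ hμ
  split_ifs with h0
  · linarith
  · have h2 := hsep.resolve_left h0
    have : (2 : ℝ) ^ 14 * 2 ^ 15 * pLA s k (l - 1) ≤ 2 ^ 14 * pE s k (l + 1) * pLA s k (l - 1) := by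
      gcongr
    linarith

/-- `step_core` with `L = pLB l` and `win_B` with `Ext = 512 L`, `μ = e / (64 L)`, `R = 300 L`
(`bd_node` with `fam_bd`: `64 pLA (l-1) μ ≤ 1` and `4 · 300 pLA (l-1) ≤ 12 L` by `pLA_sep`),
`loc = 3 κ³`, `X = 4 κ`, `exp (-2 E) = 5 κ²` (so `0.69 e ≤ E ≤ 0.7 e`), `Θ = 2^37 e² / pLA l`,
`y = 2^12 e² / pLA l`, `y (L + Ext) = 513 e / 2^15`; then `Y ≤ 8 exp (-0.6 e)` while
`kap l ^ 6 = exp (-0.52 e)`. -/
theorem inv_B (hs : 3 ≤ s) (hl : l < k) (t : Fin n) {G : Fin n → ℝ} (hG : UpWin s k l t G)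
    {Δ : Tab n} {ζ : ℝ} (hΔ : Diff t ζ Δ) (hζ0 : 0 ≤ ζ) (hζ : ζ ≤ kap s k (l + 1) ^ 8) {η₀ : ℝ}
    (hη₀ : |η₀| * pLA s k l ≤ 512 * pE s k (l + 1))
    (h : ∀ K ∈ famS n s k (l + 1), ∀ β : ℝ, |β| * pLA s k l ≤ 2 ^ 37 * (pE s k (l + 1) : ℝ) ^ 2 →
      ‖wf G t β K Δ‖ * ‖wf G t (β + η₀) K Δ‖ ≤ 16 * kap s k (l + 1) ^ 2) :
    Inv s k l (lwin s k l false t) t Δ := by
  have hk : 1 ≤ k := by omega
  obtain ⟨z1, z2, -⟩ := ulev_Z hs hk l
  obtain ⟨r1, r2, r3⟩ := ulev_rh s k l false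
  have hE := pE_ge s k (l + 1)
  have hE' : (2 : ℝ) ^ 15 ≤ pE s k (l + 1) := by exact_mod_cast hE
  have hLA : (pLB s k l * (2 ^ 27 * pE s k (l + 1)) : ℝ) = pLA s k l := by
    exact_mod_cast pLB_mul s k l
  refine ulev_core hs hl false t hG hΔ.bd (Y := 8 * Real.exp (-(6 / 10 * pE s k (l + 1))))
    (by positivity) ?_ fun K₁ hK₁ es hlen hes σ hσ => ?_
  · rw [pE_succ]
    exact ulev_B4 rfl z1 z2
  have hK : node (pJ s k l) (pL s k l false) K₁ (onGrid (eta (pS s k l)) es) ∈ famS n s k (l + 1) :=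
    ⟨false, K₁, es, hK₁, hlen, hes, rfl⟩
  have eL : pL s k l false = pLB s k l := rfl
  unfold lwin
  simp only [eL] at r1 r2 r3 hσ hK ⊢
  have hL1 : 1 ≤ pLB s k l := by omega
  have hL0 : (0 : ℝ) < pLB s k l := by exact_mod_cast hL1
  have r3' : (4 * (pE s k (l + 1) * ((pLB s k l / (4 * pE s k (l + 1)) : ℕ) : ℝ))) = pLB s k l := by
    exact_mod_cast r3
  have hh : (1 : ℝ) ≤ ((pLB s k l / (4 * pE s k (l + 1)) : ℕ) : ℝ) := by
    exact_mod_cast (pL_div s k l false).2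
  have h1 := win_B (Ext := 512 * pLB s k l) r1 r2 (by omega) t hG.1 hG.2.1 (fam_bd0 hK)
    (by positivity) (ulev_bd hs hl hK₁ hlen (fun e he => (hes e he).1) hL1) hΔ hζ0 (σ := σ)
    (X := 4 * kap s k (l + 1)) (E := 69 / 100 * pE s k (l + 1))
    (Θ := 2 ^ 10 * pE s k (l + 1) / pLB s k l) (y := pE s k (l + 1) / (2 ^ 15 * pLB s k l))
    (η₀ := η₀) (loc := 3 * kap s k (l + 1) ^ 3)
    (by
      push_cast
      exact ulev_B1 (by positivity) (kap_pos _ _ _) (kap_small _ _ _) (ulev_exp_le _) hζ hL0)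
    (by linarith) (ulev_B2 hE rfl (kap_small _ _ _)) (by positivity) ?_ ?_ ?_ ?_ ?_
  · push_cast at h1
    exact h1.trans (ulev_B3 (by positivity) hL0)
  · rw [← mul_div_assoc, div_le_one (by positivity), ← r3']
    generalize ((pLB s k l / (4 * pE s k (l + 1)) : ℕ) : ℝ) = h at *
    have : (pE s k (l + 1) : ℝ) * 1 ≤ pE s k (l + 1) * h := by gcongr
    nlinarith
  · rw [← mul_div_assoc, div_le_div_iff₀ (by positivity) hL0]
    have : (0 : ℝ) ≤ pE s k (l + 1) * pLB s k l := by positivity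
    nlinarith
  · rw [le_div_iff₀ (by positivity)]
    have h2 : |η₀| * pLB s k l * 2 ^ 27 * pE s k (l + 1) ≤ 512 * pE s k (l + 1) := by
      rw [← hLA] at hη₀
      linarith
    have h3 : |η₀| * pLB s k l * 2 ^ 27 ≤ 512 := le_of_mul_le_mul_right h2 (by positivity)
    have h4 : |η₀| * pLB s k l ≤ 1 / 2 ^ 18 := by linarith
    calc 6 * (69 / 100 * (pE s k (l + 1) : ℝ) + 1) * |η₀| * (2 ^ 15 * pLB s k l) =
          6 * 2 ^ 15 * (69 / 100 * (pE s k (l + 1) : ℝ) + 1) * (|η₀| * pLB s k l) := by ring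
      _ ≤ 6 * 2 ^ 15 * (69 / 100 * (pE s k (l + 1) : ℝ) + 1) * (1 / 2 ^ 18) := by gcongr
      _ ≤ _ := by linarith
  · rw [div_div, le_div_iff₀ (by positivity), ← mul_assoc]
    linarith
  · intro β hβ
    have h2 := h _ hK β (by
      rw [le_div_iff₀ hL0] at hβ
      rw [← hLA, ← mul_assoc]
      calc |β| * pLB s k l * (2 ^ 27 * pE s k (l + 1)) ≤
            2 ^ 10 * pE s k (l + 1) * (2 ^ 27 * pE s k (l + 1)) := by gcongr
        _ = _ := by ring)
    exact h2.trans (le_of_eq (by ring))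

/-- Pass from the grid to all frequencies (`exists_grid`, `wf_lip`, `lwin_moment`; negative frequencies
in case A by `fam_cj`, `cj_wf`, `cj_real`), then `inv_A` / `inv_B` with `η₀ = d η`. -/
theorem inv_of_grid (hs : 3 ≤ s) (hl : l < k) (b b' : Bool) (t : Fin n) {Δ : Tab n} {ζ : ℝ}
    (hΔ : Diff t ζ Δ) (hζ0 : 0 ≤ ζ) (hζ : ζ ≤ kap s k (l + 1) ^ 8)
    (h : Grid s k (l + 1) b (lwin s k (l + 1) b' t) t Δ) : Inv s k l (lwin s k l b t) t Δ := by
  have hk : 1 ≤ k := by omega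
  obtain ⟨z1, z2, -⟩ := ulev_Z hs hk l
  obtain ⟨e0, e1, -, e3⟩ := ulev_eta s k (l + 1)
  have hκ0 := kap_pos s k (l + 1)
  have hκ := kap_small s k (l + 1)
  have hLA : (0 : ℝ) < pLA s k l := by unfold pLA; positivity
  have hZκ : (pLA s k (l + 1) : ℝ) * kap s k (l + 1) ≤ 1 := by
    have hZ1 : (1 : ℝ) ≤ pLA s k (l + 1) := le_trans (by norm_num) z1
    have hu0 := kap_pos s k l
    have hu := kap_small s k l
    refine le_trans (mul_le_mul (le_self_pow₀ hZ1 (by norm_num)) ?_ hκ0.le (by positivity)) z2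
    rw [kap_succ]
    exact pow_le_of_le_one hu0.le (by linarith) (by norm_num)
  have lip : ∀ K ∈ famS n s k (l + 1), ∀ β β' : ℝ, |β - β'| ≤ eta (pS s k (l + 1)) →
      ‖wf (lwin s k (l + 1) b' t) t β K Δ‖ ≤
        ‖wf (lwin s k (l + 1) b' t) t β' K Δ‖ + kap s k (l + 1) ^ 2 / 5 := by
    intro K hK β β' hβ
    have h1 := wf_lip (lwin_nonneg (s := s) (k := k) (l := l + 1) b' t) (lwin_moment b' t)
      (fam_bd0 hK) (by norm_num) hΔ.bd β β'
    have h2 : |β - β'| * pLA s k (l + 1) * 2 ≤ kap s k (l + 1) ^ 2 / 5 := by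
      calc |β - β'| * pLA s k (l + 1) * 2 ≤ 2 * kap s k (l + 1) ^ 8 * pLA s k (l + 1) * 2 := by
            gcongr; exact hβ.trans e1
        _ = kap s k (l + 1) ^ 2 * (4 * kap s k (l + 1) ^ 5 *
              (pLA s k (l + 1) * kap s k (l + 1))) := by ring
        _ ≤ kap s k (l + 1) ^ 2 * (4 * (1 / 1000) ^ 5 * 1) := by gcongr
        _ ≤ _ := by
          have : 0 < kap s k (l + 1) ^ 2 := by positivity
          linarith
    have h3 := norm_sub_norm_le (wf (lwin s k (l + 1) b' t) t β K Δ)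
      (wf (lwin s k (l + 1) b' t) t β' K Δ)
    linarith
  have hκ2 : kap s k (l + 1) ^ 2 ≤ kap s k (l + 1) :=
    pow_le_of_le_one hκ0.le (by linarith) (by norm_num)
  cases b
  · obtain ⟨d, hd, h⟩ : GridB s k (l + 1) (lwin s k (l + 1) b' t) t Δ := h
    refine inv_B hs hl t (upWin_lwin hs b' t) hΔ hζ0 hζ (η₀ := d * eta (pS s k (l + 1))) ?_
      fun K hK β hβ => ?_
    · have h1 : (pMA s k (l + 1) * pLA s k l : ℝ) = 256 * pE s k (l + 1) * pS s k (l + 1) := by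
        exact_mod_cast pMA_mul hs hk l
      have h2 : (d : ℝ) ≤ pMA s k (l + 1) := by exact_mod_cast hd
      rw [abs_of_nonneg (by positivity)]
      calc d * eta (pS s k (l + 1)) * pLA s k l ≤
            pMA s k (l + 1) * eta (pS s k (l + 1)) * pLA s k l := by gcongr
        _ = 256 * pE s k (l + 1) * (pS s k (l + 1) * eta (pS s k (l + 1))) := by
            linear_combination eta (pS s k (l + 1)) * h1
        _ ≤ 256 * pE s k (l + 1) * 2 := by gcongr
        _ = _ := by ring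
    · have h1 : (pMT s k (l + 1) * pLA s k l : ℝ) =
          2 ^ 37 * pE s k (l + 1) ^ 2 * pS s k (l + 1) := by exact_mod_cast pMT_mul hs hk l
      obtain ⟨a, ha, hβa⟩ := exists_grid (M := pMT s k (l + 1)) (β := β) (pS_pos s k (l + 1)) (by
        refine le_of_mul_le_mul_right ?_ hLA
        rw [h1, mul_right_comm]
        gcongr)
      have h2 := h K hK a ha
      have h3 := lip K hK β _ hβa
      have h4 := lip K hK (β + d * eta (pS s k (l + 1))) (((a + d : ℤ) : ℝ) * eta (pS s k (l + 1)))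
        (by
          convert hβa using 2
          push_cast
          ring)
      have h5 : ∀ α, ‖wf (lwin s k (l + 1) b' t) t α K Δ‖ ≤ 2 := fun α =>
        Bd0.wf (lwin_nonneg b' t) (sum_lwin_le b' t) (fam_bd0 hK) t α Δ 2 (by norm_num) hΔ.bd
      have h6 := h5 ((a : ℝ) * eta (pS s k (l + 1)))
      have h7 := h5 (((a + d : ℤ) : ℝ) * eta (pS s k (l + 1)))
      refine (mul_le_mul h3 h4 (norm_nonneg _) (by positivity)).trans ?_
      have h8 : 0 < kap s k (l + 1) ^ 2 := by positivity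
      generalize kap s k (l + 1) ^ 2 = x at *
      generalize ‖wf (lwin s k (l + 1) b' t) t ((a : ℝ) * eta (pS s k (l + 1))) K Δ‖ = A at *
      generalize ‖wf (lwin s k (l + 1) b' t) t (((a + d : ℤ) : ℝ) * eta (pS s k (l + 1))) K Δ‖ = B
        at *
      have h9 : x * x ≤ x * 1 := by gcongr; linarith
      have h10 : x * A ≤ x * 2 := by gcongr
      have h11 : x * B ≤ x * 2 := by gcongr
      nlinarith
  · have h : GridA s k (l + 1) (lwin s k (l + 1) b' t) t Δ := h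
    refine inv_A hs hl t (upWin_lwin hs b' t) hΔ.bd fun K hK β hβ => ?_
    have h1 : (pMA s k (l + 1) * pLA s k l : ℝ) = 256 * pE s k (l + 1) * pS s k (l + 1) := by
      exact_mod_cast pMA_mul hs hk l
    obtain ⟨a, ha, hβa⟩ := exists_grid (M := pMA s k (l + 1)) (β := β) (pS_pos s k (l + 1)) (by
      refine le_of_mul_le_mul_right ?_ hLA
      rw [h1, mul_right_comm]
      gcongr)
    have h3 := lip K hK β _ hβa
    have h4 : ‖wf (lwin s k (l + 1) b' t) t ((a : ℝ) * eta (pS s k (l + 1))) K Δ‖ ≤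
        kap s k (l + 1) := by
      obtain ⟨m, rfl | rfl⟩ := Int.eq_nat_or_neg a
      · exact_mod_cast h K hK m (by simpa using ha)
      · have h5 := h _ (fam_cj hK) m (by simpa using ha)
        rw [← neg_neg ((m : ℝ) * _), ← cj_wf, cj_real _ hΔ.re, RCLike.norm_conj] at h5
        simpa using h5
    linarith

end Crest.Agent.R300
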