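import Crest.Agent.R300.USem1

/-!
# R300 upper bound: recovering single transforms from products (task UMra)

`e2, e3, e4` are treated as black boxes that approximate products of the unknown numbers `f K a`.
-/

set_option autoImplicit false

namespace Crest.Agent.R300

/-- The carrier of frequency `m · sg`. -/
noncomputable def cc (f : QFeat → ℤ → ℂ) (sg : ℕ) (c : QFeat × ℤ) (m : ℕ) : ℂ :=
  f c.1 (c.2 + (m * sg : ℕ)) * starRingEnd ℂ (f c.1 c.2)

private theorem best_argmax (D : Orc) {cand : List (QFeat × ℤ)} (h : cand ≠ []) (m : ℕ) :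
    best D cand m ∈ cand.argmax fun c => (e4 D c m c m).1 := by
  unfold best
  cases hx : cand.argmax (fun c => (e4 D c m c m).1) with
  | none => exact absurd (List.argmax_eq_none.1 hx) h
  | some a => simp

theorem best_mem (D : Orc) {cand : List (QFeat × ℤ)} (h : cand ≠ []) (m : ℕ) :
    best D cand m ∈ cand :=
  List.argmax_mem (best_argmax D h m)

private theorem le_best (D : Orc) {cand : List (QFeat × ℤ)} {c : QFeat × ℤ} (hc : c ∈ cand)
    (m : ℕ) : (e4 D c m c m).1 ≤ (e4 D (best D cand m) m (best D cand m) m).1 :=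
  List.le_of_mem_argmax (f := fun c => (e4 D c m c m).1) hc
    (best_argmax D (List.ne_nil_of_mem hc) m)

private theorem abs_rnd1_sub {u : ℕ} (hu : 1 ≤ u) {x : ℚ} (hx : |x| ≤ 2) :
    |rnd1 u x - x| ≤ 1 / u := by
  have hu' : (0 : ℚ) < u := by exact_mod_cast hu
  obtain ⟨hx1, hx2⟩ := abs_le.1 hx
  have h1 : ((⌊x * u⌋ : ℤ) : ℚ) / u ≤ x := by
    rw [div_le_iff₀ hu']; exact Int.floor_le _
  have h2 : x - 1 / u ≤ ((⌊x * u⌋ : ℤ) : ℚ) / u := by
    rw [le_div_iff₀ hu', sub_mul, one_div, inv_mul_cancel₀ hu'.ne']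
    exact (Int.sub_one_lt_floor _).le
  have h3 : (0 : ℚ) ≤ 1 / u := by positivity
  unfold rnd1
  rw [min_eq_right (h1.trans hx2), abs_le]
  constructor
  · have := le_max_right (-2 : ℚ) (((⌊x * u⌋ : ℤ) : ℚ) / u)
    linarith
  · have := max_le hx1 h1
    linarith

theorem norm_rnd_sub {u : ℕ} (hu : 1 ≤ u) {z : QC} (hz : ‖toC z‖ ≤ 2) :
    ‖toC (rnd u z) - toC z‖ ≤ 2 / u := by
  have hre : |z.1| ≤ 2 := by
    have := (Complex.abs_re_le_norm (toC z)).trans hz
    simp only [toC] at this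
    exact_mod_cast this
  have him : |z.2| ≤ 2 := by
    have := (Complex.abs_im_le_norm (toC z)).trans hz
    simp only [toC] at this
    exact_mod_cast this
  have h1 : |((rnd1 u z.1 : ℚ) : ℝ) - z.1| ≤ 1 / u := by
    have := (Rat.cast_le (K := ℝ)).2 (abs_rnd1_sub hu hre)
    simpa using this
  have h2 : |((rnd1 u z.2 : ℚ) : ℝ) - z.2| ≤ 1 / u := by
    have := (Rat.cast_le (K := ℝ)).2 (abs_rnd1_sub hu him)
    simpa using this
  refine (Complex.norm_le_abs_re_add_abs_im _).trans ?_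
  simp only [toC, rnd, Complex.sub_re, Complex.sub_im]
  have : (2 : ℝ) / u = 1 / u + 1 / u := by ring
  linarith

private theorem div_err {w c x E : ℂ} {ε η : ℝ} (hc : 0 < ‖c‖) (hε : ε < 1)
    (hE : ‖E - w * starRingEnd ℂ c‖ ≤ η) (hx : ‖x - c‖ ≤ ε * ‖c‖) :
    ‖E / starRingEnd ℂ x - w‖ * ((1 - ε) * ‖c‖) ≤ η + ‖w‖ * (ε * ‖c‖) := by
  have hx1 : (1 - ε) * ‖c‖ ≤ ‖x‖ := by
    have := norm_sub_norm_le c x
    rw [norm_sub_rev] at this
    linarith
  have hx0 : 0 < ‖x‖ := lt_of_lt_of_le (mul_pos (by linarith) hc) hx1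
  have hx' : starRingEnd ℂ x ≠ 0 := by
    rw [← norm_pos_iff, Complex.norm_conj]; exact hx0
  have e : (E / starRingEnd ℂ x - w) * starRingEnd ℂ x =
      (E - w * starRingEnd ℂ c) - w * starRingEnd ℂ (x - c) := by
    rw [map_sub]; field_simp; ring
  calc ‖E / starRingEnd ℂ x - w‖ * ((1 - ε) * ‖c‖)
      ≤ ‖E / starRingEnd ℂ x - w‖ * ‖x‖ := mul_le_mul_of_nonneg_left hx1 (norm_nonneg _)
    _ = ‖(E / starRingEnd ℂ x - w) * starRingEnd ℂ x‖ := by rw [norm_mul, Complex.norm_conj]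
    _ ≤ ‖E - w * starRingEnd ℂ c‖ + ‖w * starRingEnd ℂ (x - c)‖ := by
        rw [e]; exact norm_sub_le _ _
    _ ≤ η + ‖w‖ * (ε * ‖c‖) := by
        rw [norm_mul, Complex.norm_conj]
        exact add_le_add hE (mul_le_mul_of_nonneg_left hx (norm_nonneg _))

private theorem re_sq {E : QC} {c : ℂ} {η : ℝ} (h : ‖toC E - c * starRingEnd ℂ c‖ ≤ η) :
    |(E.1 : ℝ) - ‖c‖ ^ 2| ≤ η := by
  have := (Complex.abs_re_le_norm _).trans h
  rw [Complex.mul_conj, Complex.normSq_eq_norm_sq] at this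
  simpa [toC, ← Complex.ofReal_pow] using this

/-- One step of the chain, before rounding. -/
private theorem step_err {k ε a a' t : ℝ} (hk : 0 < k) (hk1 : k ≤ 1 / 100) (hε0 : 0 ≤ ε)
    (hε : ε ≤ k / 25) (ha : 99 / 100 * k ^ 2 ≤ a) (ha' : 99 / 100 * k ^ 2 ≤ a')
    (ht : t * ((1 - ε) * a) ≤ k ^ 6 + a' * (ε * a)) : t ≤ (ε + 11 / 10 * k ^ 2) * a' := by
  have hk2 : 0 < k ^ 2 := by positivity
  have ha0 : 0 < a := by linarith
  have ha0' : 0 < a' := by linarith
  have h1 : k ^ 6 ≤ 103 / 100 * k ^ 2 * (a * a') := by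
    have : 99 / 100 * k ^ 2 * (99 / 100 * k ^ 2) ≤ a * a' :=
      mul_le_mul ha ha' (by positivity) ha0.le
    have h2 : k ^ 4 ≤ 103 / 100 * (a * a') := by nlinarith
    calc k ^ 6 = k ^ 2 * k ^ 4 := by ring
      _ ≤ k ^ 2 * (103 / 100 * (a * a')) := mul_le_mul_of_nonneg_left h2 hk2.le
      _ = _ := by ring
  have hε1 : ε ≤ 1 / 2500 := by linarith
  have hεε : ε * ε ≤ k ^ 2 / 625 := by
    have := mul_le_mul hε hε hε0 (by positivity)
    nlinarith
  have h3 : 103 / 100 * k ^ 2 + ε ≤ (ε + 11 / 10 * k ^ 2) * (1 - ε) := by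
    have : k ^ 2 * ε ≤ k ^ 2 * (1 / 2500) := mul_le_mul_of_nonneg_left hε1 hk2.le
    nlinarith
  have hpos : 0 < (1 - ε) * a := mul_pos (by linarith) ha0
  refine le_of_mul_le_mul_right (ht.trans ?_) hpos
  calc k ^ 6 + a' * (ε * a) ≤ (103 / 100 * k ^ 2 + ε) * (a * a') := by nlinarith
    _ ≤ (ε + 11 / 10 * k ^ 2) * (1 - ε) * (a * a') :=
        mul_le_mul_of_nonneg_right h3 (by positivity)
    _ = _ := by ring

private theorem chain_succ (D : Orc) (cand : List (QFeat × ℤ)) (k u : ℕ) :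
    chain D cand (List.range (k + 1)) u = chain D cand (List.range k) u ++
      [rnd u (qdiv (e4 D (best D cand (k + 1)) (k + 1) (best D cand k) k)
        (qcj ((chain D cand (List.range k) u).getD k (0, 0))))] := by
  unfold chain
  rw [List.range_succ, List.foldl_append]
  rfl

private theorem length_chain (D : Orc) (cand : List (QFeat × ℤ)) (k u : ℕ) :
    (chain D cand (List.range k) u).length = k + 1 := by
  induction k with
  | zero => rfl
  | succ k ih => rw [chain_succ, List.length_append, ih]; rfl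

/-- Let `c m = cc f sg (best D cand m) m`; `|c m|² ≥ κ⁴ - κ⁶`, so `|c m| ≥ 0.99 κ²`.  By induction the `m`-th
entry of the chain is `c m (1 + ε m)` with `|ε m| ≤ 4 (m + 1) κ² ≤ κ / 25`:
`|ε (m+1)| ≤ (|ε m| + 1.03 κ²) / (1 - |ε m|) + 2.1 κ²`.  Then
`|fhat - f K b| ≤ (κ⁶ + |c m| |ε m|) / (|c m| (1 - |ε m|)) ≤ κ / 4`. -/
theorem mra_A {D : Orc} {cand : List (QFeat × ℤ)} (hc : cand ≠ []) {f : QFeat → ℤ → ℂ} {κ : ℚ}
    (hκ : 0 < κ) {mm u : ℕ} (hmm : 100 * ((mm : ℚ) + 1) * κ ≤ 1) (hu : 1 ≤ u * κ ^ 4)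
    (h1 : ∀ c ∈ cand, ∀ m ≤ mm, ‖cc f D.2.2.2.1 c m‖ ≤ 1)
    (h2 : ∀ c ∈ cand, ‖toC (e2 D c) - cc f D.2.2.2.1 c 0‖ ≤ (κ : ℝ) ^ 6)
    (h4 : ∀ c ∈ cand, ∀ c' ∈ cand, ∀ m ≤ mm, ∀ m', m' ≤ m → m ≤ m' + 1 →
      ‖toC (e4 D c m c' m') - cc f D.2.2.2.1 c m * starRingEnd ℂ (cc f D.2.2.2.1 c' m')‖ ≤
        (κ : ℝ) ^ 6)
    (hA : isA D cand (List.range (mm + 1)) κ = true) {K : QFeat} {b : ℕ}
    (hb : b / D.2.2.2.1 ≤ mm) (hf : ‖f K b‖ ≤ 1)
    (h3 : ∀ c ∈ cand, ‖toC (e3 D K b c (b / D.2.2.2.1)) -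
      f K b * starRingEnd ℂ (cc f D.2.2.2.1 c (b / D.2.2.2.1))‖ ≤ (κ : ℝ) ^ 6) :
    ‖toC (fhat D cand (chain D cand (List.range mm) u) K b) - f K b‖ ≤ (κ : ℝ) / 4 := by
  have hk : (0 : ℝ) < κ := by exact_mod_cast hκ
  have hmm' : 100 * ((mm : ℝ) + 1) * κ ≤ 1 := by exact_mod_cast hmm
  have hu' : (1 : ℝ) ≤ u * (κ : ℝ) ^ 4 := by exact_mod_cast hu
  set k : ℝ := (κ : ℝ) with hkdef
  have hmm0 : (0 : ℝ) ≤ mm := Nat.cast_nonneg _
  have hk1 : k ≤ 1 / 100 := by nlinarith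
  have hk2 : 0 < k ^ 2 := by positivity
  have hk2' : k ^ 2 ≤ 1 / 10000 := by nlinarith
  have hu1 : 1 ≤ u := by
    rcases Nat.eq_zero_or_pos u with h | h
    · subst h; norm_num at hu'
    · exact h
  have hupos : (0 : ℝ) < u := by exact_mod_cast hu1
  have hu2 : (2 : ℝ) / u ≤ 2 * k ^ 4 := by
    rw [div_le_iff₀ hupos]; linarith
  set c : ℕ → ℂ := fun m => cc f D.2.2.2.1 (best D cand m) m with hcdef
  have hlow : ∀ m ≤ mm, 99 / 100 * k ^ 2 ≤ ‖c m‖ := by
    intro m hm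
    have e1 := re_sq (h4 _ (best_mem D hc m) _ (best_mem D hc m) m hm m le_rfl (Nat.le_succ m))
    have e2' : κ ^ 4 ≤ (e4 D (best D cand m) m (best D cand m) m).1 := by
      have := List.all_eq_true.1 hA m (List.mem_range.2 (Nat.lt_succ_of_le hm))
      exact of_decide_eq_true this
    have e3' : k ^ 4 ≤ ((e4 D (best D cand m) m (best D cand m) m).1 : ℝ) := by
      rw [hkdef]; exact_mod_cast e2'
    have e4' : k ^ 4 - k ^ 6 ≤ ‖c m‖ ^ 2 := by
      have := (abs_le.1 e1).2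
      simp only [hcdef]
      linarith
    refine abs_le_of_sq_le_sq' ?_ (norm_nonneg _) |>.2
    have : k ^ 6 ≤ k ^ 4 * (1 / 10000) := by
      calc k ^ 6 = k ^ 4 * k ^ 2 := by ring
        _ ≤ _ := mul_le_mul_of_nonneg_left hk2' (by positivity)
    have h0 : 0 < k ^ 4 := by positivity
    nlinarith
  have hup : ∀ m ≤ mm, ‖c m‖ ≤ 1 := fun m hm => h1 _ (best_mem D hc m) m hm
  have hrnd : ∀ m ≤ mm, (2 : ℝ) / u ≤ 21 / 10 * k ^ 2 * ‖c m‖ := by
    intro m hm
    refine hu2.trans ?_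
    have := mul_le_mul_of_nonneg_left (hlow m hm) hk2.le
    have h0 : 0 < k ^ 4 := by positivity
    nlinarith
  have heps : ∀ m ≤ mm, 4 * ((m : ℝ) + 1) * k ^ 2 ≤ k / 25 := by
    intro m hm
    have : (m : ℝ) ≤ mm := by exact_mod_cast hm
    have h5 : 100 * ((m : ℝ) + 1) * k ≤ 1 := by nlinarith
    nlinarith
  have main : ∀ j ≤ mm, ∀ m ≤ j,
      ‖toC ((chain D cand (List.range j) u).getD m (0, 0)) - c m‖ ≤
        4 * ((m : ℝ) + 1) * k ^ 2 * ‖c m‖ := by
    intro j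
    induction j with
    | zero =>
      intro _ m hm
      obtain rfl : m = 0 := Nat.le_zero.1 hm
      have e1 : ‖toC (e2 D (best D cand 0)) - c 0‖ ≤ k ^ 6 := h2 _ (best_mem D hc 0)
      have hl := hlow 0 (Nat.zero_le _)
      have hu0 := hup 0 (Nat.zero_le _)
      have e6 : k ^ 6 ≤ k ^ 2 * ‖c 0‖ := by
        have : k ^ 4 ≤ ‖c 0‖ := by nlinarith
        calc k ^ 6 = k ^ 2 * k ^ 4 := by ring
          _ ≤ _ := mul_le_mul_of_nonneg_left this hk2.le
      have e2' : ‖toC (e2 D (best D cand 0))‖ ≤ 2 := by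
        have := norm_le_insert' (toC (e2 D (best D cand 0))) (c 0)
        nlinarith [norm_nonneg (c 0)]
      have e3' := norm_rnd_sub hu1 e2'
      have e4' := hrnd 0 (Nat.zero_le _)
      show ‖toC (rnd u (e2 D (best D cand 0))) - c 0‖ ≤ _
      have := norm_sub_le_norm_sub_add_norm_sub (toC (rnd u (e2 D (best D cand 0))))
        (toC (e2 D (best D cand 0))) (c 0)
      have h0 : 0 ≤ k ^ 2 * ‖c 0‖ := by positivity
      push_cast
      nlinarith
    | succ j ih =>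
      intro hj m hm
      have hj' : j ≤ mm := Nat.le_of_succ_le hj
      rw [chain_succ]
      rcases Nat.lt_or_ge m (j + 1) with hlt | hge
      · rw [List.getD_append _ _ _ _ (by rw [length_chain]; exact hlt)]
        exact ih hj' m (Nat.le_of_lt_succ hlt)
      · obtain rfl : m = j + 1 := le_antisymm hm hge
        rw [List.getD_append_right _ _ _ _ (by rw [length_chain]), length_chain, Nat.sub_self]
        simp only [List.getD_cons_zero]
        have hx := ih hj' j le_rfl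
        set x := (chain D cand (List.range j) u).getD j (0, 0) with hxdef
        set E := e4 D (best D cand (j + 1)) (j + 1) (best D cand j) j with hEdef
        have hE : ‖toC E - c (j + 1) * starRingEnd ℂ (c j)‖ ≤ k ^ 6 :=
          h4 _ (best_mem D hc (j + 1)) _ (best_mem D hc j) (j + 1) hj j (Nat.le_succ j) le_rfl
        have hε := heps j hj'
        have hε0 : 0 ≤ 4 * ((j : ℝ) + 1) * k ^ 2 := by positivity
        have hd := div_err (lt_of_lt_of_le (by positivity) (hlow j hj')) (by linarith) hE hx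
        have hs := step_err hk hk1 hε0 hε (hlow j hj') (hlow (j + 1) hj) hd
        have hq : toC (qdiv E (qcj x)) = toC E / starRingEnd ℂ (toC x) := by
          rw [toC_qdiv, toC_qcj]
        rw [← hq] at hs
        have hu0 := hup (j + 1) hj
        have hn := norm_nonneg (c (j + 1))
        have e2' : ‖toC (qdiv E (qcj x))‖ ≤ 2 := by
          have := norm_le_insert' (toC (qdiv E (qcj x))) (c (j + 1))
          have h7 : (4 * ((j : ℝ) + 1) * k ^ 2 + 11 / 10 * k ^ 2) * ‖c (j + 1)‖ ≤ 1 * 1 :=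
            mul_le_mul (by linarith) hu0 hn zero_le_one
          linarith
        have e3' := norm_rnd_sub hu1 e2'
        have e4' := hrnd (j + 1) hj
        have := norm_sub_le_norm_sub_add_norm_sub (toC (rnd u (qdiv E (qcj x))))
          (toC (qdiv E (qcj x))) (c (j + 1))
        have h0 : 0 ≤ k ^ 2 * ‖c (j + 1)‖ := by positivity
        push_cast
        nlinarith
  set m := b / D.2.2.2.1 with hmdef
  have hx := main mm le_rfl m hb
  have hE : ‖toC (e3 D K b (best D cand m) m) - f K b * starRingEnd ℂ (c m)‖ ≤ k ^ 6 :=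
    h3 _ (best_mem D hc m)
  have hε := heps m hb
  have hε0 : 0 ≤ 4 * ((m : ℝ) + 1) * k ^ 2 := by positivity
  have hl := hlow m hb
  have hc0 : 0 < ‖c m‖ := lt_of_lt_of_le (by positivity) hl
  have hd := div_err hc0 (by linarith) hE hx
  have hq : toC (fhat D cand (chain D cand (List.range mm) u) K b) =
      toC (e3 D K b (best D cand m) m) /
        starRingEnd ℂ (toC ((chain D cand (List.range mm) u).getD m (0, 0))) := by
    unfold fhat
    rw [toC_qdiv, toC_qcj]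
  rw [hq]
  set ε := 4 * ((m : ℝ) + 1) * k ^ 2 with hεdef
  have hpos : 0 < (1 - ε) * ‖c m‖ := mul_pos (by linarith) hc0
  refine le_of_mul_le_mul_right (hd.trans ?_) hpos
  have e6 : k ^ 6 ≤ k / 25 * ‖c m‖ := by
    have h8 : k ^ 5 ≤ 1 / 25 * ‖c m‖ := by
      have : k ^ 3 ≤ 1 / 1000 := by nlinarith
      calc k ^ 5 = k ^ 3 * k ^ 2 := by ring
        _ ≤ 1 / 1000 * k ^ 2 := mul_le_mul_of_nonneg_right this hk2.le
        _ ≤ _ := by linarith
    calc k ^ 6 = k * k ^ 5 := by ring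
      _ ≤ k * (1 / 25 * ‖c m‖) := mul_le_mul_of_nonneg_left h8 hk.le
      _ = _ := by ring
  have e7 : ‖f K b‖ * (ε * ‖c m‖) ≤ k / 25 * ‖c m‖ := by
    calc ‖f K b‖ * (ε * ‖c m‖) ≤ 1 * (ε * ‖c m‖) :=
          mul_le_mul_of_nonneg_right hf (by positivity)
      _ = ε * ‖c m‖ := one_mul _
      _ ≤ _ := mul_le_mul_of_nonneg_right hε hc0.le
  have e8 : k / 25 + k / 25 ≤ k / 4 * (1 - ε) := by nlinarith
  calc k ^ 6 + ‖f K b‖ * (ε * ‖c m‖) ≤ (k / 25 + k / 25) * ‖c m‖ := by linarith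
    _ ≤ k / 4 * (1 - ε) * ‖c m‖ := mul_le_mul_of_nonneg_right e8 hc0.le
    _ = _ := by ring

theorem mra_B {D : Orc} {cand : List (QFeat × ℤ)} {f : QFeat → ℤ → ℂ} {κ : ℚ} {mm : ℕ}
    (h4 : ∀ c ∈ cand, ∀ m ≤ mm,
      ‖toC (e4 D c m c m) - cc f D.2.2.2.1 c m * starRingEnd ℂ (cc f D.2.2.2.1 c m)‖ ≤ (κ : ℝ) ^ 6)
    (hA : isA D cand (List.range (mm + 1)) κ = false) :
    ∃ m ≤ mm, ∀ c ∈ cand, ‖cc f D.2.2.2.1 c m‖ ^ 2 ≤ (κ : ℝ) ^ 4 + (κ : ℝ) ^ 6 := by
  obtain ⟨m, hm, hlt⟩ := List.all_eq_false.1 hA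
  have hm' : m ≤ mm := Nat.le_of_lt_succ (List.mem_range.1 hm)
  have hlt' : (e4 D (best D cand m) m (best D cand m) m).1 < κ ^ 4 := by
    simpa using hlt
  refine ⟨m, hm', fun c hc => ?_⟩
  have e1 := re_sq (h4 c hc m hm')
  have e2' : (e4 D c m c m).1 ≤ κ ^ 4 := (le_best D hc m).trans hlt'.le
  have e3' : ((e4 D c m c m).1 : ℝ) ≤ (κ : ℝ) ^ 4 := by exact_mod_cast e2'
  have := (abs_le.1 e1).1
  linarith

private theorem rad_aux (c : ℕ) {y : ℚ} (hy : y ≤ 4) :
    0 < rad ((List.range c).map fun j => 1 / (2 : ℚ) ^ j) y ∧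
      y ≤ rad ((List.range c).map fun j => 1 / (2 : ℚ) ^ j) y ^ 2 ∧
      (rad ((List.range c).map fun j => 1 / (2 : ℚ) ^ j) y = 2 / 2 ^ c ∨
        ((rad ((List.range c).map fun j => 1 / (2 : ℚ) ^ j) y : ℚ) : ℝ) ≤ 2 * Real.sqrt y) := by
  induction c with
  | zero =>
    have : rad ((List.range 0).map fun j => 1 / (2 : ℚ) ^ j) y = 2 := rfl
    rw [this]
    exact ⟨by norm_num, by linarith, Or.inl (by norm_num)⟩
  | succ c ih =>
    by_cases h : y ≤ 1 / (2 : ℚ) ^ c * (1 / (2 : ℚ) ^ c)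
    · have : rad ((List.range (c + 1)).map fun j => 1 / (2 : ℚ) ^ j) y = 1 / 2 ^ c := by
        unfold rad
        rw [List.range_succ, List.map_append, List.filter_append, List.map_singleton,
          List.filter_cons_of_pos (by simpa using h), List.filter_nil, List.getLastD_concat]
      rw [this]
      refine ⟨by positivity, by rw [sq]; exact h, Or.inl ?_⟩
      rw [pow_succ]; field_simp
    · have : rad ((List.range (c + 1)).map fun j => 1 / (2 : ℚ) ^ j) y =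
          rad ((List.range c).map fun j => 1 / (2 : ℚ) ^ j) y := by
        unfold rad
        rw [List.range_succ, List.map_append, List.filter_append, List.map_singleton,
          List.filter_cons_of_neg (by simpa using h), List.filter_nil, List.append_nil]
      rw [this]
      refine ⟨ih.1, ih.2.1, Or.inr ?_⟩
      rcases ih.2.2 with h' | h'
      · rw [h']
        have h1 : (1 / (2 : ℝ) ^ c) ^ 2 ≤ (y : ℝ) := by
          have := (Rat.cast_le (K := ℝ)).2 (not_le.1 h).le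
          rw [sq]; simpa using this
        have h2 : 1 / (2 : ℝ) ^ c ≤ Real.sqrt y := Real.le_sqrt_of_sq_le h1
        push_cast
        have : (2 : ℝ) / 2 ^ c = 2 * (1 / 2 ^ c) := by ring
        linarith
      · exact h'

theorem rad_spec (c : ℕ) {y : ℚ} (hy : y ≤ 4) :
    0 < rad ((List.range (c + 1)).map fun j => 1 / (2 : ℚ) ^ j) y ∧
      y ≤ rad ((List.range (c + 1)).map fun j => 1 / (2 : ℚ) ^ j) y ^ 2 ∧
      ((rad ((List.range (c + 1)).map fun j => 1 / (2 : ℚ) ^ j) y : ℚ) : ℝ) ≤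
        2 * Real.sqrt y + 1 / 2 ^ c := by
  obtain ⟨h1, h2, h3⟩ := rad_aux (c + 1) hy
  refine ⟨h1, h2, ?_⟩
  rcases h3 with h | h
  · rw [h]
    have := Real.sqrt_nonneg (y : ℝ)
    have e : (((2 : ℚ) / 2 ^ (c + 1) : ℚ) : ℝ) = 1 / 2 ^ c := by
      push_cast; rw [pow_succ]; field_simp
    rw [e]; linarith
  · have : (0 : ℝ) ≤ 1 / 2 ^ c := by positivity
    linarith

end Crest.Agent.R300
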