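import Crest.Agent.R300.USem2
import Crest.Agent.R300.UMra
import Crest.Agent.R300.ULevel

/-!
# R300 upper bound: correctness of one level of the algorithm (task UInv)
-/

set_option autoImplicit false

namespace Crest.Agent.R300

open Finset

variable {n : ℕ}

/-- The oracle data of level `l`. -/
abbrev uinvD (n s k l : ℕ) (b : Bool) (t : ℕ) (v : RV) : Orc :=
  (lvPw n s k l, lwinQ n s k l b t, t, pSg s k l, v)

/-- A windowed transform on the integer grid. -/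
noncomputable def uinvW (s k l : ℕ) (b : Bool) (t : Fin n) (K : Feat n) (a : ℤ) : Fn n :=
  wf (lwin s k l b t) t ((a : ℝ) * eta (pS s k l)) K

/-- The true values of the transforms. -/
noncomputable def uinvF (s k l : ℕ) (b : Bool) (t : Fin n) (x : Fin n → Bool) (K : QFeat) (a : ℤ) :
    ℂ := uinvW s k l b t (semF n K) a (tabOf x)

section aux

variable {s k l : ℕ} {b : Bool} {t : Fin n} {x : Fin n → Bool} {v : RV}

theorem uinv_cj (K : Feat n) (a : ℤ) :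
    cj (uinvW s k l b t K a) = uinvW s k l b t (cjF K) (-a) := by
  rw [uinvW, uinvW, cj_wf, Int.cast_neg, neg_mul]

theorem uinv_bd0 {K : Feat n} (hK : K ∈ famS n s k l) (a : ℤ) : Bd0 (uinvW s k l b t K a) :=
  Bd0.wf (lwin_nonneg b t) (sum_lwin_le b t) (fam_bd0 hK) _ _

theorem uinv_deg {K : Feat n} (hK : K ∈ famS n s k l) (a : ℤ) :
    Deg (uinvW s k l b t K a) (4 ^ l) :=
  Deg.wf (fam_deg hK) _ _ _

theorem uinv_deg' (hl : l < k) {K : Feat n} (hK : K ∈ famS n s k l) (a : ℤ) :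
    Deg (uinvW s k l b t K a) (4 ^ k) :=
  (uinv_deg hK a).mono (Nat.pow_le_pow_right (by norm_num) hl.le)

theorem uinv_norm_le {K : QFeat} (hK : K ∈ famQ n s k l) (a : ℤ) :
    ‖uinvF s k l b t x K a‖ ≤ 1 :=
  uinv_bd0 (famQ_sound hK).2 a _ 1 zero_le_one (norm_tabOf_le x)

theorem uinv_fw {K : QFeat} (hK : K ∈ famQ n s k l) {a : ℤ} (ha : |a| ≤ 2 * pMT s k l) :
    WF n (fw (uinvD n s k l b t v) K a) ∧
      semFn n (fw (uinvD n s k l b t v) K a) = uinvW s k l b t (semF n K) a :=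
  sem_fw b t _ v hK (ha.trans (by omega))

theorem uinv_car {c : QFeat × ℤ} (hK : c.1 ∈ famQ n s k l) {m : ℕ} (ha : |c.2| ≤ 2 * pMT s k l)
    (ha' : |c.2 + (m * pSg s k l : ℕ)| ≤ 2 * pMT s k l) :
    WF n (car (uinvD n s k l b t v) c m) ∧
      semFn n (car (uinvD n s k l b t v) c m) =
        sta (uinvW s k l b t (semF n c.1) (c.2 + (m * pSg s k l : ℕ)))
          (cj (uinvW s k l b t (semF n c.1) c.2)) := by
  obtain ⟨a1, a2⟩ := uinv_fw (b := b) (t := t) (v := v) hK ha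
  obtain ⟨a3, a4⟩ := uinv_fw (b := b) (t := t) (v := v) hK ha'
  exact ⟨a3.staQ a1.cjQ, by rw [car, sem_staQ a3 a1.cjQ, sem_cjQ, a2, a4]⟩

theorem uinv_car_tab (c : QFeat × ℤ) (m : ℕ) :
    sta (uinvW s k l b t (semF n c.1) (c.2 + (m * pSg s k l : ℕ)))
        (cj (uinvW s k l b t (semF n c.1) c.2)) (tabOf x) =
      cc (uinvF s k l b t x) (pSg s k l) c m := by
  rw [sta_tabOf, cj_real _ (tabOf_im x)]
  rfl

theorem uinv_deg_foldl {g : Fin n → ℝ} {M : ℕ} (es : List (Feat n × ℝ))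
    (h : ∀ e ∈ es, ∀ j, Deg (e.1 j) M) {acc : Fn n} {N : ℕ} (hacc : Deg acc N) :
    Deg (es.foldl (fun acc e => sta acc (wf g t e.2 e.1)) acc) (N + es.length * M) := by
  induction es generalizing acc N with
  | nil => simpa using hacc
  | cons e es ih =>
    rw [List.foldl_cons, List.length_cons, add_mul, one_mul, add_comm _ M, ← add_assoc]
    exact ih (fun e' he' => h e' (List.mem_cons_of_mem _ he'))
      (hacc.sta (Deg.wf (h e List.mem_cons_self) _ _ _))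

theorem uinv_approx (hl : l < k)
    (hInv : Inv s k l (lwin s k l b t) t (dif (4 ^ k) x v)) {φ : QFn} (hφ : WF n φ)
    (es : List (Feat n × ℤ)) (h0 : es ≠ []) (h4 : es.length ≤ 4)
    (h : ∀ e ∈ es, e.1 ∈ famS n s k l ∧ |e.2| ≤ 2 * pMT s k l)
    (hsum : |(es.map Prod.snd).sum| ≤ pSg s k l)
    (he : semFn n φ = prodF (lwin s k l b t) t (onGrid (eta (pS s k l)) es)) :
    ‖toC (evQ φ v) - semFn n φ (tabOf x)‖ ≤ kap s k l ^ 6 := by
  have hd : Deg (semFn n φ) (4 ^ k) := by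
    rw [he]
    refine (uinv_deg_foldl (M := 4 ^ l) (N := 0) _ (fun e he => ?_) (deg_proj ∅)).mono ?_
    · obtain ⟨e', he', rfl⟩ := List.mem_map.1 he
      exact fam_deg (h e' he').1
    · rw [onGrid, List.length_map, zero_add]
      calc es.length * 4 ^ l ≤ 4 * 4 ^ l := Nat.mul_le_mul_right _ h4
        _ = 4 ^ (l + 1) := by rw [pow_succ']
        _ ≤ 4 ^ k := Nat.pow_le_pow_right (by norm_num) hl
  rw [evQ_eq hφ, ← dif_eq x v hd, he]
  exact hInv es h0 h4 h hsum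

theorem uinv_e2 (hl : l < k) (hInv : Inv s k l (lwin s k l b t) t (dif (4 ^ k) x v))
    {c : QFeat × ℤ} (hK : c.1 ∈ famQ n s k l) (ha : |c.2| ≤ 2 * pMT s k l) :
    ‖toC (e2 (uinvD n s k l b t v) c) - cc (uinvF s k l b t x) (pSg s k l) c 0‖ ≤
      kap s k l ^ 6 := by
  have ha' : |c.2 + (0 * pSg s k l : ℕ)| ≤ 2 * pMT s k l := by simpa using ha
  obtain ⟨a1, a2⟩ := uinv_car (b := b) (t := t) (v := v) hK ha ha'
  have hS := (famQ_sound hK).2
  rw [← uinv_car_tab, ← a2]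
  refine uinv_approx hl hInv a1
    [(semF n c.1, c.2 + (0 * pSg s k l : ℕ)), (cjF (semF n c.1), -c.2)] (by simp) (by simp) ?_
    (by simp) ?_
  · simp only [List.mem_cons, List.not_mem_nil, or_false, forall_eq_or_imp, forall_eq, abs_neg]
    exact ⟨⟨hS, ha'⟩, fam_cj hS, ha⟩
  · rw [a2, uinv_cj]
    simp only [prodF, onGrid, List.map_cons, List.map_nil, List.foldl_cons, List.foldl_nil,
      oneF_sta, uinvW]

theorem uinv_e3 (hl : l < k) (hInv : Inv s k l (lwin s k l b t) t (dif (4 ^ k) x v))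
    {K : QFeat} (hK : K ∈ famQ n s k l) {a : ℤ} (ha : |a| ≤ 2 * pMT s k l)
    {c : QFeat × ℤ} (hc : c.1 ∈ famQ n s k l) {m : ℕ} (h1 : |c.2| ≤ 2 * pMT s k l)
    (h2 : |c.2 + (m * pSg s k l : ℕ)| ≤ 2 * pMT s k l)
    (h3 : |a - (m * pSg s k l : ℕ)| ≤ pSg s k l) :
    ‖toC (e3 (uinvD n s k l b t v) K a c m) -
      uinvF s k l b t x K a * starRingEnd ℂ (cc (uinvF s k l b t x) (pSg s k l) c m)‖ ≤
      kap s k l ^ 6 := by
  obtain ⟨a1, a2⟩ := uinv_car (b := b) (t := t) (v := v) hc h1 h2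
  obtain ⟨a3, a4⟩ := uinv_fw (b := b) (t := t) (v := v) hK ha
  have hS := (famQ_sound hK).2
  have hS' := (famQ_sound hc).2
  have e := sem_staQ a3 a1.cjQ
  rw [sem_cjQ, a2, a4] at e
  have e' : uinvF s k l b t x K a * starRingEnd ℂ (cc (uinvF s k l b t x) (pSg s k l) c m) =
      semFn n (staQ (fw (uinvD n s k l b t v) K a) (cjQ (car (uinvD n s k l b t v) c m)))
        (tabOf x) := by
    rw [e, sta_tabOf, cj_real _ (tabOf_im x), uinv_car_tab]
    rfl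
  rw [e']
  refine uinv_approx hl hInv (a3.staQ a1.cjQ)
    [(semF n K, a), (cjF (semF n c.1), -(c.2 + (m * pSg s k l : ℕ))), (semF n c.1, c.2)]
    (by simp) (by simp) ?_ ?_ ?_
  · simp only [List.mem_cons, List.not_mem_nil, or_false, forall_eq_or_imp, forall_eq, abs_neg]
    exact ⟨⟨hS, ha⟩, ⟨fam_cj hS', h2⟩, hS', h1⟩
  · refine le_trans (le_of_eq ?_) h3
    simp only [List.map_cons, List.map_nil, List.sum_cons, List.sum_nil]
    congr 1
    ring
  · rw [e, cj_sta, cj_cj, uinv_cj]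
    simp only [prodF, onGrid, List.map_cons, List.map_nil, List.foldl_cons, List.foldl_nil,
      oneF_sta, uinvW, sta_assoc]

theorem uinv_e4 (hl : l < k) (hInv : Inv s k l (lwin s k l b t) t (dif (4 ^ k) x v))
    {c c' : QFeat × ℤ} (hc : c.1 ∈ famQ n s k l) (hc' : c'.1 ∈ famQ n s k l) {m m' : ℕ}
    (h1 : |c.2| ≤ 2 * pMT s k l) (h2 : |c.2 + (m * pSg s k l : ℕ)| ≤ 2 * pMT s k l)
    (h1' : |c'.2| ≤ 2 * pMT s k l) (h2' : |c'.2 + (m' * pSg s k l : ℕ)| ≤ 2 * pMT s k l)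
    (hm : m' ≤ m) (hm' : m ≤ m' + 1) :
    ‖toC (e4 (uinvD n s k l b t v) c m c' m') -
      cc (uinvF s k l b t x) (pSg s k l) c m *
        starRingEnd ℂ (cc (uinvF s k l b t x) (pSg s k l) c' m')‖ ≤ kap s k l ^ 6 := by
  obtain ⟨a1, a2⟩ := uinv_car (b := b) (t := t) (v := v) hc h1 h2
  obtain ⟨a3, a4⟩ := uinv_car (b := b) (t := t) (v := v) hc' h1' h2'
  have hS := (famQ_sound hc).2
  have hS' := (famQ_sound hc').2
  have e := sem_staQ a1 a3.cjQ
  rw [sem_cjQ, a2, a4] at e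
  have e' : cc (uinvF s k l b t x) (pSg s k l) c m *
      starRingEnd ℂ (cc (uinvF s k l b t x) (pSg s k l) c' m') =
      semFn n (staQ (car (uinvD n s k l b t v) c m) (cjQ (car (uinvD n s k l b t v) c' m')))
        (tabOf x) := by
    rw [e, sta_tabOf, cj_real _ (tabOf_im x), uinv_car_tab, uinv_car_tab]
  rw [e']
  refine uinv_approx hl hInv (a1.staQ a3.cjQ)
    [(semF n c.1, c.2 + (m * pSg s k l : ℕ)), (cjF (semF n c.1), -c.2),
      (cjF (semF n c'.1), -(c'.2 + (m' * pSg s k l : ℕ))), (semF n c'.1, c'.2)]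
    (by simp) (by simp) ?_ ?_ ?_
  · simp only [List.mem_cons, List.not_mem_nil, or_false, forall_eq_or_imp, forall_eq, abs_neg]
    exact ⟨⟨hS, h2⟩, ⟨fam_cj hS, h1⟩, ⟨fam_cj hS', h2'⟩, hS', h1'⟩
  · simp only [List.map_cons, List.map_nil, List.sum_cons, List.sum_nil]
    obtain rfl | rfl : m = m' ∨ m = m' + 1 := by omega
    · rw [abs_le]
      constructor <;> omega
    · rw [abs_le, add_mul, one_mul]
      constructor <;> omega
  · rw [e, cj_sta, cj_cj, uinv_cj, uinv_cj]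
    simp only [prodF, onGrid, List.map_cons, List.map_nil, List.foldl_cons, List.foldl_nil,
      oneF_sta, uinvW, sta_assoc]

theorem uinv_kap (s k l : ℕ) : (((1 : ℚ) / 2 ^ pE s k l : ℚ) : ℝ) = kap s k l := by
  rw [kap]; push_cast; rfl

theorem uinv_shift (hs : 3 ≤ s) (hl : l < k) {a : ℤ} (ha : |a| ≤ pMT s k l) {m : ℕ}
    (hm : m ≤ pMA s k l / pSg s k l) :
    m * pSg s k l ≤ pMA s k l ∧ |a| ≤ 2 * pMT s k l ∧
      |a + (m * pSg s k l : ℕ)| ≤ 2 * pMT s k l := by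
  have h1 : m * pSg s k l ≤ pMA s k l :=
    (Nat.mul_le_mul_right _ hm).trans (Nat.div_mul_le_self _ _)
  have h2 := pMA_le_pMT (s := s) (k := k) hs (by omega) l
  refine ⟨h1, by omega, ?_⟩
  generalize m * pSg s k l = d at h1
  rw [abs_le] at ha ⊢
  constructor <;> omega

theorem uinv_mm (hs : 3 ≤ s) (hl : l < k) :
    100 * (((pMA s k l / pSg s k l : ℕ) : ℚ) + 1) * (1 / 2 ^ pE s k l) ≤ 1 := by
  have h1 := pMA_div_le (s := s) (k := k) hs (by omega) l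
  have h2 := pLam_le (s := s) (k := k) hs (by omega) l
  have h3 := pLam_succ s k l
  have h4 := pE_ge s k l
  have h5 : 100 * (pMA s k l / pSg s k l + 1) ≤ 2 ^ pE s k l := by
    have h6 : 1 ≤ pLA s k l := Nat.one_le_two_pow
    calc 100 * (pMA s k l / pSg s k l + 1) ≤ 2 ^ 17 * pLA s k l := by omega
      _ = 2 ^ (17 + pLam s k l) := by rw [pLA, pow_add]
      _ ≤ 2 ^ pE s k l := Nat.pow_le_pow_right two_pos (by omega)
  rw [mul_one_div, div_le_one (by positivity)]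
  exact_mod_cast h5

theorem uinv_u (s k l : ℕ) : (1 : ℚ) ≤ (pS s k l : ℕ) * (1 / 2 ^ pE s k l) ^ 4 := by
  rw [one_div_pow, mul_one_div, le_div_iff₀ (by positivity), one_mul, ← pow_mul, pS]
  push_cast
  exact pow_le_pow_right₀ one_le_two (by omega)

theorem uinv_sqrt_two : Real.sqrt 2 ≤ 1.415 := by
  rw [Real.sqrt_le_iff]
  constructor <;> norm_num

theorem uinv_A (hs : 3 ≤ s) (hl : l < k)
    (hInv : Inv s k l (lwin s k l b t) t (dif (4 ^ k) x v))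
    (hA : isA (uinvD n s k l b t v) (candQ (famQ n s k l) (zrange (pMT s k l)))
      (List.range (pMA s k l / pSg s k l + 1)) (1 / 2 ^ pE s k l) = true)
    {K : QFeat} (hK : K ∈ famQ n s k l) {a : ℕ} (ha : a ≤ pMA s k l) :
    ‖toC (fhat (uinvD n s k l b t v) (candQ (famQ n s k l) (zrange (pMT s k l)))
        (chain (uinvD n s k l b t v) (candQ (famQ n s k l) (zrange (pMT s k l)))
          (List.range (pMA s k l / pSg s k l)) (pS s k l)) K a) - uinvF s k l b t x K a‖ ≤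
      kap s k l / 4 := by
  have hmem : ∀ c ∈ candQ (famQ n s k l) (zrange (pMT s k l)),
      c.1 ∈ famQ n s k l ∧ |c.2| ≤ pMT s k l := fun c hc =>
    ⟨(mem_candQ.1 hc).1, mem_zrange.1 (mem_candQ.1 hc).2⟩
  have hdiv : a / pSg s k l ≤ pMA s k l / pSg s k l := Nat.div_le_div_right ha
  have hMM := pMA_le_pMT (s := s) (k := k) hs (by omega) l
  rw [← uinv_kap]
  refine mra_A (f := uinvF s k l b t x)
    (List.ne_nil_of_mem (mem_candQ (c := (K, 0)).2 ⟨hK, mem_zrange.2 (by simp)⟩)) (by positivity)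
    (uinv_mm hs hl) (uinv_u s k l) (fun c hc m _ => ?_) (fun c hc => ?_)
    (fun c hc c' hc' m hm m' h1 h2 => ?_) hA hdiv (uinv_norm_le hK _) (fun c hc => ?_)
  · rw [cc, norm_mul, Complex.norm_conj]
    exact mul_le_one₀ (uinv_norm_le (hmem c hc).1 _) (norm_nonneg _) (uinv_norm_le (hmem c hc).1 _)
  · rw [uinv_kap]
    exact uinv_e2 hl hInv (hmem c hc).1 (uinv_shift hs hl (hmem c hc).2 (Nat.zero_le _)).2.1
  · rw [uinv_kap]
    obtain ⟨-, b1, b2⟩ := uinv_shift hs hl (hmem c hc).2 hm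
    obtain ⟨-, b3, b4⟩ := uinv_shift hs hl (hmem c' hc').2 (h1.trans hm)
    exact uinv_e4 hl hInv (hmem c hc).1 (hmem c' hc').1 b1 b2 b3 b4 h1 h2
  · rw [uinv_kap]
    obtain ⟨-, b1, b2⟩ := uinv_shift hs hl (hmem c hc).2 hdiv
    refine uinv_e3 hl hInv hK (by rw [abs_le]; constructor <;> omega) (hmem c hc).1 b1 b2 ?_
    have b3 := Nat.div_mul_le_self a (pSg s k l)
    have b4 := Nat.lt_div_mul_add (a := a) (pSg_pos (s := s) (k := k) hs (by omega) l)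
    change |(a : ℤ) - (a / pSg s k l * pSg s k l : ℕ)| ≤ _
    generalize a / pSg s k l * pSg s k l = d at b3 b4
    rw [abs_le]
    constructor <;> omega

theorem uinv_rad (hl : l < k) (hInv : Inv s k l (lwin s k l b t) t (dif (4 ^ k) x v))
    {c : QFeat × ℤ} (hK : c.1 ∈ famQ n s k l) (ha : |c.2| ≤ 2 * pMT s k l) {r : ℚ}
    (hr : r = rad ((List.range (3 * pE s k l + 1)).map fun j => 1 / (2 : ℚ) ^ j)
      ((e2 (uinvD n s k l b t v) c).1 + (1 / 2 ^ pE s k l) ^ 6)) :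
    ‖uinvF s k l b t x c.1 c.2‖ ≤ r ∧
      (r : ℝ) ≤ 2 * ‖uinvF s k l b t x c.1 c.2‖ + 3.83 * kap s k l ^ 3 := by
  have h1 := uinv_e2 hl hInv hK ha
  have hp1 := uinv_norm_le (b := b) (t := t) (x := x) hK c.2
  have hκ0 := kap_pos s k l
  have hκ1 := kap_small s k l
  have e : cc (uinvF s k l b t x) (pSg s k l) c 0 =
      ((‖uinvF s k l b t x c.1 c.2‖ ^ 2 : ℝ) : ℂ) := by
    rw [cc, zero_mul, Nat.cast_zero, add_zero, Complex.mul_conj, Complex.normSq_eq_norm_sq]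
  have h2 := (Complex.abs_re_le_norm _).trans h1
  rw [e, Complex.sub_re, Complex.ofReal_re] at h2
  have hp0 := norm_nonneg (uinvF s k l b t x c.1 c.2)
  obtain ⟨y, hy⟩ : ∃ y : ℚ, y = (e2 (uinvD n s k l b t v) c).1 + (1 / 2 ^ pE s k l) ^ 6 := ⟨_, rfl⟩
  have hy' : (y : ℝ) = (toC (e2 (uinvD n s k l b t v) c)).re + kap s k l ^ 6 := by
    rw [hy, Rat.cast_add, Rat.cast_pow, uinv_kap]
    rfl
  have e3 : (1 : ℝ) / 2 ^ (3 * pE s k l) = kap s k l ^ 3 := by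
    rw [kap, one_div_pow, ← pow_mul, mul_comm]
  rw [← hy] at hr
  generalize ‖uinvF s k l b t x c.1 c.2‖ = p at h2 hp0 hp1 ⊢
  generalize kap s k l = κ at h2 hκ0 hκ1 hy' e3 ⊢
  have h3 := abs_le.1 h2
  have h4 : p ^ 2 ≤ y := by linarith [h3.1]
  have h5 : (y : ℝ) ≤ p ^ 2 + 2 * κ ^ 6 := by linarith [h3.2]
  have h6 : κ ^ 6 ≤ 1 := pow_le_one₀ hκ0.le (by linarith)
  have h7 : y ≤ 4 := by
    have : (y : ℝ) ≤ 4 := by nlinarith
    exact_mod_cast this
  obtain ⟨r1, r2, r3⟩ := rad_spec (3 * pE s k l) h7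
  rw [← hr] at r1 r2 r3
  have r1' : (0 : ℝ) < r := by exact_mod_cast r1
  have r2' : (y : ℝ) ≤ (r : ℝ) ^ 2 := by exact_mod_cast r2
  refine ⟨(sq_le_sq₀ hp0 r1'.le).1 (h4.trans r2'), ?_⟩
  have h8 : Real.sqrt y ≤ p + 1.415 * κ ^ 3 := by
    rw [Real.sqrt_le_iff]
    refine ⟨by positivity, h5.trans ?_⟩
    have h9 : 0 ≤ p * κ ^ 3 := by positivity
    have h10 : 0 ≤ κ ^ 6 := by positivity
    nlinarith
  rw [e3] at r3
  linarith

theorem uinv_numA {κ ζ : ℝ} (h0 : 0 < κ) (h1 : κ ≤ 1 / 1000) (hζ0 : 0 ≤ ζ) (hζ : ζ ≤ κ ^ 8) :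
    Real.sqrt 2 * (κ / 4 + ζ) + κ / 4 ≤ κ := by
  have a1 : κ ^ 7 ≤ (1 / 1000) ^ 7 := by gcongr
  have a2 : κ ^ 8 ≤ κ * (1 / 1000) ^ 7 := by
    rw [pow_succ' κ 7]
    gcongr
  have a3 : Real.sqrt 2 * (κ / 4 + ζ) ≤ 1.415 * (κ / 4 + ζ) :=
    mul_le_mul_of_nonneg_right uinv_sqrt_two (by positivity)
  linarith

theorem uinv_numB {κ ζ p r : ℝ} (h0 : 0 < κ) (h1 : κ ≤ 1 / 1000) (hζ0 : 0 ≤ ζ) (hζ : ζ ≤ κ ^ 8)
    (hr0 : 0 ≤ r) (hr : r ≤ 2 * p + 3.83 * κ ^ 3) :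
    Real.sqrt 2 * (r + ζ) + p ≤ 3.83 * p + 5.5 * κ ^ 3 := by
  have a1 : κ ^ 5 ≤ (1 / 1000) ^ 5 := by gcongr
  have a2 : κ ^ 8 ≤ κ ^ 3 * (1 / 1000) ^ 5 := by
    rw [show κ ^ 8 = κ ^ 3 * κ ^ 5 by ring]
    gcongr
  have a3 : Real.sqrt 2 * (r + ζ) ≤ 1.415 * (r + ζ) :=
    mul_le_mul_of_nonneg_right uinv_sqrt_two (by positivity)
  have a4 : 0 < κ ^ 3 := by positivity
  linarith

theorem uinv_numC {κ p q : ℝ} (h0 : 0 < κ) (h1 : κ ≤ 1 / 1000) (hp0 : 0 ≤ p) (hp : p ≤ 1)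
    (hq0 : 0 ≤ q) (hq : q ≤ 1) (h : (q * p) ^ 2 ≤ κ ^ 4 + κ ^ 6) :
    (3.83 * p + 5.5 * κ ^ 3) * (3.83 * q + 5.5 * κ ^ 3) ≤ 15 * κ ^ 2 := by
  have a0 : 0 < κ ^ 2 := by positivity
  have a1 : κ ^ 3 ≤ κ ^ 2 * (1 / 1000) := by
    rw [pow_succ κ 2]
    gcongr
  have a2 : κ ^ 6 ≤ κ ^ 4 * (1 / 1000) ^ 2 := by
    rw [show κ ^ 6 = κ ^ 4 * κ ^ 2 by ring]
    gcongr
  have a3 : q * p ≤ 1.001 * κ ^ 2 := by
    refine (sq_le_sq₀ (by positivity) (by positivity)).1 (h.trans ?_)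
    have : 0 < κ ^ 4 := by positivity
    nlinarith
  have a4 : κ ^ 3 ≤ 1 := pow_le_one₀ h0.le (by linarith)
  have a5 : 0 < κ ^ 3 := by positivity
  have a6 : κ ^ 3 * p ≤ κ ^ 3 := mul_le_of_le_one_right a5.le hp
  have a7 : κ ^ 3 * q ≤ κ ^ 3 := mul_le_of_le_one_right a5.le hq
  have a8 : κ ^ 3 * κ ^ 3 ≤ κ ^ 3 := mul_le_of_le_one_right a5.le a4
  nlinarith

end aux

/-- Let `g = lwin s k l b t`, `η = eta (pS l)`, `f K a = wf g t (a η) (semF n K) (tabOf x)` (norm `≤ 1` by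
`Bd0.wf`, `fam_bd0`).  By `evQ_eq`, `sem_staQ`, `sem_cjQ`, `sem_fw`, `cj_sta`, `cj_wf`, `sta_assoc`, each of
`e2, e3, e4` is `prodF g t (onGrid η es) (tabV n v)` for a list `es` allowed in `Inv` (`fam_cj`; the
frequencies are at most `pMT + pMA ≤ 2 pMT`, their sum is at most `pSg`); by `dif_eq` (degree
`4 · 4^l ≤ 4^k`) it differs from its value at `tabOf x`, the corresponding product of `f`'s
(`sta_tabOf`, `cj_real`), by at most `κ⁶`.
Case A: `mra_A` (`pMA_div_le`, `pLam_le`), `conOK_conC`; `sat_conC` gives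
`‖wf … (dif x v')‖ ≤ √2 (κ/4 + ζ) + κ/4 ≤ κ`; `famQ_complete`.
Case B: `mra_B`, `rad_spec` (`|f|² ≤ y ≤ |f|² + 2 κ⁶` for `y = (e2).1 + κ⁶`), so the truth satisfies the
constraints, and `‖wf … (dif x v')‖ ≤ |f| + √2 (rad + ζ) ≤ 3.83 |f| + 5.5 κ³`; with `d = m · pSg ≤ pMA` the
product is at most `14.7 √(κ⁴ + κ⁶) + 43 κ³ ≤ 15 κ²` (`κ ≤ 2^(-2^15)`). -/
theorem lvl_spec {s k l : ℕ} (hs : 3 ≤ s) (hl : l < k) (x : Fin n → Bool) (b : Bool) (t : Fin n)
    (v : RV) (hInv : Inv s k l (lwin s k l b t) t (dif (4 ^ k) x v)) {ζ : ℚ} (h0 : 0 ≤ ζ)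
    (hζ : (ζ : ℝ) ≤ kap s k l ^ 8) :
    (∀ c ∈ (lvl n s k l b t v).2, ConOK (4 ^ k) x c) ∧
      ∀ v', Sat ζ (lvl n s k l b t v).2 v' →
        Grid s k l (lvl n s k l b t v).1 (lwin s k l b t) t (dif (4 ^ k) x v') := by

  have hκ0 := kap_pos s k l
  have hκ1 := kap_small s k l
  have h0' : (0 : ℝ) ≤ ζ := by exact_mod_cast h0
  have hMM := pMA_le_pMT (s := s) (k := k) hs (by omega) l
  by_cases hA : isA (uinvD n s k l b t v) (candQ (famQ n s k l) (zrange (pMT s k l)))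
      (List.range (pMA s k l / pSg s k l + 1)) (1 / 2 ^ pE s k l) = true
  · have e : lvl n s k l b t v = (true, consA (uinvD n s k l b t v) (famQ n s k l)
        (candQ (famQ n s k l) (zrange (pMT s k l))) (List.range (pMA s k l / pSg s k l))
        (List.range (pMA s k l + 1)) (pS s k l) (1 / 2 ^ pE s k l)) := if_pos hA
    have hq : ((1 / 2 ^ pE s k l / 4 : ℚ) : ℝ) = kap s k l / 4 := by
      rw [Rat.cast_div, uinv_kap]; norm_num
    have hab : ∀ a : ℕ, a ≤ pMA s k l → |(a : ℤ)| ≤ 2 * pMT s k l := fun a ha => by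
      rw [abs_le]; constructor <;> omega
    rw [e]
    refine ⟨fun c hc => ?_, fun v' hv' => ?_⟩
    · obtain ⟨K, hK, hc⟩ := List.mem_flatMap.1 hc
      obtain ⟨a, ha, hc⟩ := List.mem_flatMap.1 hc
      have ha' : a ≤ pMA s k l := Nat.lt_succ_iff.1 (List.mem_range.1 ha)
      obtain ⟨a1, a2⟩ := uinv_fw (b := b) (t := t) (v := v) hK (hab a ha')
      refine conOK_conC a1 (a2 ▸ uinv_bd0 (famQ_sound hK).2 _)
        (a2 ▸ uinv_deg' hl (famQ_sound hK).2 _) ?_ c hc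
      rw [hq, a2, norm_sub_rev]
      exact uinv_A hs hl hInv hA hK ha'
    · change GridA s k l _ _ _
      intro K' hK' a ha
      obtain ⟨K, hK, rfl⟩ := famQ_complete hK'
      obtain ⟨a1, a2⟩ := uinv_fw (b := b) (t := t) (v := v) hK (hab a ha)
      have b1 := sat_conC (ζ := ζ) (v := v') a1 fun c hc => hv' c
        (List.mem_flatMap.2 ⟨K, hK, List.mem_flatMap.2
          ⟨a, List.mem_range.2 (Nat.lt_succ_of_le ha), hc⟩⟩)
      have b2 := uinv_A hs hl hInv hA hK ha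
      rw [hq, a2] at b1
      have b3 := dif_eq x v' (uinv_deg' (b := b) (t := t) hl hK' (a : ℤ))
      rw [← Int.cast_natCast]
      change ‖uinvW s k l b t (semF n K) a _‖ ≤ _
      rw [b3]
      exact (norm_sub_le_norm_sub_add_norm_sub _ _ _).trans
        ((add_le_add b1 b2).trans (uinv_numA hκ0 hκ1 h0' hζ))
  · have e : lvl n s k l b t v = (false, consB (uinvD n s k l b t v)
        (candQ (famQ n s k l) (zrange (2 * pMT s k l)))
        ((List.range (3 * pE s k l + 1)).map fun j => 1 / (2 : ℚ) ^ j) (1 / 2 ^ pE s k l)) :=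
      if_neg hA
    have hz : toC (0, 0) = 0 := by
      apply Complex.ext <;> simp [toC]
    rw [e]
    refine ⟨fun c hc => ?_, fun v' hv' => ?_⟩
    · obtain ⟨c', hc', hc⟩ := List.mem_flatMap.1 hc
      have hK := (mem_candQ.1 hc').1
      have ha : |c'.2| ≤ 2 * pMT s k l := by exact_mod_cast mem_zrange.1 (mem_candQ.1 hc').2
      obtain ⟨a1, a2⟩ := uinv_fw (b := b) (t := t) (v := v) hK ha
      refine conOK_conC a1 (a2 ▸ uinv_bd0 (famQ_sound hK).2 _)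
        (a2 ▸ uinv_deg' hl (famQ_sound hK).2 _) ?_ c hc
      rw [hz, sub_zero, a2]
      exact (uinv_rad hl hInv hK ha rfl).1
    · have key : ∀ K ∈ famQ n s k l, ∀ a : ℤ, |a| ≤ 2 * pMT s k l →
          ‖uinvW s k l b t (semF n K) a (dif (4 ^ k) x v')‖ ≤
            3.83 * ‖uinvF s k l b t x K a‖ + 5.5 * kap s k l ^ 3 := by
        intro K hK a ha
        obtain ⟨a1, a2⟩ := uinv_fw (b := b) (t := t) (v := v) hK ha
        have b1 := sat_conC (ζ := ζ) (v := v') a1 fun c hc => hv' c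
          (List.mem_flatMap.2 ⟨(K, a), mem_candQ.2 ⟨hK, mem_zrange.2 (by exact_mod_cast ha)⟩, hc⟩)
        obtain ⟨b2, b3⟩ := uinv_rad (c := (K, a)) hl hInv hK ha rfl
        rw [hz, sub_zero, a2] at b1
        rw [dif_eq x v' (uinv_deg' (b := b) (t := t) hl (famQ_sound hK).2 a)]
        exact (norm_sub_le _ _).trans ((add_le_add b1 le_rfl).trans
          (uinv_numB hκ0 hκ1 h0' hζ ((norm_nonneg _).trans b2) b3))
      obtain ⟨m, hm, hB⟩ := mra_B (f := uinvF s k l b t x) (fun c hc m hm => by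
        obtain ⟨-, b1, b2⟩ := uinv_shift hs hl (mem_zrange.1 (mem_candQ.1 hc).2) hm
        rw [uinv_kap]
        exact uinv_e4 hl hInv (mem_candQ.1 hc).1 (mem_candQ.1 hc).1 b1 b2 b1 b2 le_rfl
          (Nat.le_succ _)) (Bool.eq_false_iff.2 hA)
      change GridB s k l _ _ _
      refine ⟨m * pSg s k l, (uinv_shift hs hl (a := 0) (by simp) hm).1, fun K' hK' a ha => ?_⟩
      obtain ⟨K, hK, rfl⟩ := famQ_complete hK'
      obtain ⟨-, b1, b2⟩ := uinv_shift hs hl ha hm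
      have b3 := hB (K, a) (mem_candQ.2 ⟨hK, mem_zrange.2 ha⟩)
      rw [uinv_kap, cc, norm_mul, Complex.norm_conj] at b3
      refine (mul_le_mul (key K hK a b1) (key K hK _ b2) (norm_nonneg _) (by positivity)).trans ?_
      exact uinv_numC hκ0 hκ1 (norm_nonneg _) (uinv_norm_le hK _) (norm_nonneg _)
        (uinv_norm_le hK _) b3

end Crest.Agent.R300
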