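import Crest.Agent.R300.UAlg

/-!
# R300 upper bound: masks, linear constraints, the perceptron (task ULP)
-/

set_option autoImplicit false

namespace Crest.Agent.R300

open Finset

variable {n : ℕ}

@[simp] theorem length_toMask (S : Finset (Fin n)) : (toMask S).length = n := by
  simp [toMask]

@[simp] theorem toSet_toMask (S : Finset (Fin n)) : toSet n (toMask S) = S := by
  ext i
  simp [toSet, toMask]

theorem toMask_toSet {m : Mask} (h : m.length = n) : toMask (toSet n m) = m := by
  subst h
  refine List.ext_getElem (by simp) fun i h1 h2 => ?_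
  simp [toSet, toMask]

theorem card_toSet {m : Mask} (h : m.length = n) : (toSet n m).card = m.count true := by
  subst h
  conv_rhs => rw [← List.ofFn_get m]
  rw [List.count_eq_countP, List.ofFn_eq_map, List.countP_map, List.countP_eq_length_filter,
    toSet, ← List.toFinset_card_of_nodup ((List.nodup_finRange _).filter _)]
  congr 1
  ext i
  simp

theorem unitM_eq (t : Fin n) : unitM n t = toMask {t} := by
  refine List.ext_getElem (by simp [unitM]) fun i h1 h2 => ?_
  simp [unitM, toMask, Fin.ext_iff]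

theorem val_append (v w : RV) (S : Mask) : val (v ++ w) S = val v S + val w S := by
  simp [val]

theorem val_scaleR (c : ℚ) (v : RV) (S : Mask) : val (scaleR c v) S = c * val v S := by
  induction v with
  | nil => simp [val, scaleR]
  | cons e v ih =>
    simp only [val, scaleR, List.map_cons, List.sum_cons] at ih ⊢
    rw [ih]
    split_ifs <;> ring

theorem dot_scaleR (c : ℚ) (a v : RV) : dot (scaleR c a) v = c * dot a v := by
  induction a with
  | nil => simp [dot, scaleR]
  | cons e a ih =>
    simp only [dot, scaleR, List.map_cons, List.sum_cons] at ih ⊢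
    rw [ih]
    ring

theorem dot_eq {a : RV} (h : ∀ e ∈ a, e.1.length = n) (v : RV) :
    dot a v = ∑ S : Finset (Fin n), val a (toMask S) * val v (toMask S) := by
  induction a with
  | nil => simp [dot, val]
  | cons e a ih =>
    have h1 : ∀ S, val (e :: a) S = (if e.1 = S then e.2 else 0) + val a S := fun S => rfl
    have h2 := toMask_toSet (h e List.mem_cons_self)
    rw [show dot (e :: a) v = e.2 * val v e.1 + dot a v from rfl,
      ih fun e he => h e (List.mem_cons_of_mem _ he)]
    simp only [h1, add_mul, Finset.sum_add_distrib]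
    congr 1
    rw [Finset.sum_eq_single (toSet n e.1) (fun S _ hS => ?_) (by simp), h2, if_pos rfl]
    rw [if_neg, zero_mul]
    intro h3
    exact hS (by rw [h3, toSet_toMask])

theorem card_small_le (n N : ℕ) :
    ((univ : Finset (Finset (Fin n))).filter fun S => S.card ≤ N).card ≤ (n + 1) ^ N := by
  induction N with
  | zero =>
    rw [pow_zero, Finset.card_le_one]
    intro a ha b hb
    simp only [mem_filter, mem_univ, true_and, Nat.le_zero, card_eq_zero] at ha hb
    rw [ha, hb]
  | succ N ih =>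
    have h : ((univ : Finset (Finset (Fin n))).filter fun S => S.card ≤ N + 1) ⊆
        (((univ : Finset (Finset (Fin n))).filter fun S => S.card ≤ N) ×ˢ
          (univ : Finset (Option (Fin n)))).image fun p => p.2.elim p.1 fun i => insert i p.1 := by
      intro S hS
      simp only [mem_filter, mem_univ, true_and] at hS
      rcases S.eq_empty_or_nonempty with rfl | ⟨i, hi⟩
      · exact mem_image.2 ⟨(∅, none), by simp, rfl⟩
      · refine mem_image.2 ⟨(S.erase i, some i), ?_, insert_erase hi⟩
        simp only [mem_product, mem_filter, mem_univ, true_and, and_true, card_erase_of_mem hi]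
        omega
    refine (card_le_card h).trans (card_image_le.trans ?_)
    rw [card_product, card_univ, Fintype.card_option, Fintype.card_fin, pow_succ]
    exact Nat.mul_le_mul_right _ ih

theorem Sat.left {ζ : ℚ} {cs cs' : List Con} {v : RV} (h : Sat ζ (cs ++ cs') v) : Sat ζ cs v := by
  exact fun c hc => h c (List.mem_append_left _ hc)

theorem Sat.right {ζ : ℚ} {cs cs' : List Con} {v : RV} (h : Sat ζ (cs ++ cs') v) : Sat ζ cs' v := by
  exact fun c hc => h c (List.mem_append_right _ hc)

theorem conOK_con2 {N : ℕ} {x : Fin n → Bool} {a : RV} {c r : ℚ} (h₁ : ∀ e ∈ a, e.1.length = n)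
    (h₂ : ∀ S : Finset (Fin n), N < S.card → val a (toMask S) = 0)
    (h₃ : ∑ S : Finset (Fin n), |val a (toMask S)| ≤ 1)
    (h₄ : |∑ S : Finset (Fin n), val a (toMask S) * (if ∀ i ∈ S, x i = true then 1 else 0) - c| ≤ r) :
    ∀ c' ∈ con2 a c r, ConOK N x c' := by
  obtain ⟨h5, h6⟩ := abs_le.1 h₄
  intro c' hc'
  simp only [con2, List.mem_cons, List.not_mem_nil, or_false] at hc'
  rcases hc' with rfl | rfl
  · exact ⟨h₁, h₂, h₃, by linarith⟩
  · refine ⟨fun e he => ?_, fun S hS => ?_, ?_, ?_⟩
    · obtain ⟨e', he', rfl⟩ := List.mem_map.1 he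
      exact h₁ e' he'
    · rw [val_scaleR, h₂ S hS, mul_zero]
    · simpa only [val_scaleR, neg_one_mul, abs_neg] using h₃
    · simp only [val_scaleR, neg_mul, one_mul, Finset.sum_neg_distrib]
      linarith

theorem sat_con2 {ζ : ℚ} {a v : RV} {c r : ℚ} (h : ∀ c' ∈ con2 a c r, dot c'.1 v ≤ c'.2 + ζ) :
    |dot a v - c| ≤ r + ζ := by
  have h1 := h (a, c + r) (by simp [con2])
  have h2 := h (scaleR (-1) a, -c + r) (by simp [con2])
  simp only [dot_scaleR] at h1 h2
  exact abs_le.2 ⟨by linarith, by linarith⟩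

private theorem lpStep_of_sat {ζ : ℚ} {cs : List Con} {v : RV} (h : Sat ζ cs v) :
    lpStep ζ cs v = v := by
  rw [lpStep, List.filter_eq_nil_iff.2 fun c hc => by simpa using h c hc]
  simp [scaleR]

private theorem lpStep_of_not_sat {ζ : ℚ} {cs : List Con} {v : RV} (h : ¬ Sat ζ cs v) :
    ∃ c ∈ cs, c.2 + ζ < dot c.1 v ∧ lpStep ζ cs v = v ++ scaleR (-ζ) c.1 := by
  rw [lpStep]
  cases e : cs.filter fun c => decide (c.2 + ζ < dot c.1 v) with
  | nil => exact (h fun c hc => by simpa using List.filter_eq_nil_iff.1 e c hc).elim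
  | cons c l =>
    have h1 : c ∈ cs.filter fun c => decide (c.2 + ζ < dot c.1 v) := e ▸ List.mem_cons_self
    rw [List.mem_filter] at h1
    exact ⟨c, h1.1, by simpa using h1.2, rfl⟩

/-- the potential -/
private def pot (N : ℕ) (x : Fin n → Bool) (v : RV) : ℚ :=
  ∑ S : Finset (Fin n),
    if S.card ≤ N then (val v (toMask S) - if ∀ i ∈ S, x i = true then 1 else 0) ^ 2 else 0

private theorem pot_step {N : ℕ} {x : Fin n → Bool} {ζ : ℚ} (hζ : 0 < ζ) {c : Con}
    (hc : ConOK N x c) {v : RV} (h : c.2 + ζ < dot c.1 v) :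
    pot N x (v ++ scaleR (-ζ) c.1) + ζ ^ 2 ≤ pot N x v := by
  obtain ⟨h1, h2, h3, h4⟩ := hc
  have h5 : pot N x (v ++ scaleR (-ζ) c.1) = pot N x v - 2 * ζ * (dot c.1 v -
      ∑ S : Finset (Fin n), val c.1 (toMask S) * (if ∀ i ∈ S, x i = true then 1 else 0)) +
      ζ ^ 2 * ∑ S : Finset (Fin n), val c.1 (toMask S) ^ 2 := by
    rw [dot_eq h1, pot, pot, ← Finset.sum_sub_distrib, Finset.mul_sum, Finset.mul_sum,
      ← Finset.sum_sub_distrib, ← Finset.sum_add_distrib]
    refine Finset.sum_congr rfl fun S _ => ?_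
    rw [val_append, val_scaleR]
    by_cases hS : S.card ≤ N
    · rw [if_pos hS, if_pos hS]; ring
    · rw [if_neg hS, if_neg hS, h2 S (not_le.1 hS)]; ring
  have h6 : ∑ S : Finset (Fin n), val c.1 (toMask S) ^ 2 ≤ 1 := by
    refine le_trans (Finset.sum_le_sum fun S _ => ?_) h3
    have h7 := (Finset.single_le_sum (f := fun S : Finset (Fin n) => |val c.1 (toMask S)|)
      (fun _ _ => abs_nonneg _) (mem_univ S)).trans h3
    rw [← sq_abs]
    nlinarith [abs_nonneg (val c.1 (toMask S))]
  rw [h5]
  nlinarith [mul_le_mul_of_nonneg_left h6 (sq_nonneg ζ)]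

/-- The potential `Φ v = ∑_{|S| ≤ N} (val v S - x_S)²` starts at most at `(n+1)^N` and drops by more than
`ζ²` at every step that finds a violated constraint `(a, b)`:
`Φ (v - ζ a) = Φ v - 2 ζ (⟨a, v⟩ - ⟨a, x⟩) + ζ² ‖a‖₂²` with `⟨a, v⟩ > b + ζ ≥ ⟨a, x⟩ + ζ`, `‖a‖₂ ≤ ‖a‖₁ ≤ 1`.
If no constraint is violated, `lpStep` fixes `v`. -/
theorem lp_sat {N : ℕ} {x : Fin n → Bool} {ζ : ℚ} (hζ : 0 < ζ) {cs : List Con}
    (h : ∀ c ∈ cs, ConOK N x c) {T : ℕ} (hT : ((n : ℚ) + 1) ^ N ≤ T * ζ ^ 2) :
    Sat ζ cs (lp ζ cs T) := by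
  have h0 : pot N x [] ≤ ((n : ℚ) + 1) ^ N := by
    have h1 : pot N x [] ≤ ∑ S : Finset (Fin n), if S.card ≤ N then 1 else 0 :=
      Finset.sum_le_sum fun S _ => by
        split_ifs <;> simp [val]
    rw [Finset.sum_boole] at h1
    exact h1.trans (by exact_mod_cast card_small_le n N)
  have step : ∀ v, ¬ Sat ζ cs v → pot N x (lpStep ζ cs v) + ζ ^ 2 ≤ pot N x v := fun v hv => by
    obtain ⟨c, hc, h1, h2⟩ := lpStep_of_not_sat hv
    rw [h2]
    exact pot_step hζ (h c hc) h1
  have key : ∀ t : ℕ, Sat ζ cs (lp ζ cs t) ∨ pot N x (lp ζ cs t) + t * ζ ^ 2 ≤ pot N x [] := by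
    intro t
    induction t with
    | zero => exact Or.inr (by simp [lp])
    | succ t ih =>
      rw [show lp ζ cs (t + 1) = lpStep ζ cs (lp ζ cs t) from Function.iterate_succ_apply' _ _ _]
      by_cases hs : Sat ζ cs (lp ζ cs t)
      · rw [lpStep_of_sat hs]; exact Or.inl hs
      · have := step _ hs
        have := ih.resolve_left hs
        right
        push_cast
        linarith
  by_contra hs
  have h1 := step _ hs
  have h2 := (key T).resolve_left hs
  have h3 : 0 ≤ pot N x (lpStep ζ cs (lp ζ cs T)) :=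
    Finset.sum_nonneg fun S _ => by split_ifs <;> positivity
  have h4 := pow_pos hζ 2
  linarith

end Crest.Agent.R300
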