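import Crest.Agent.R300.USem1
import Crest.Agent.R300.UAcc1

/-!
# R300 upper bound: box, prefix and trace constraints (task USem3)
-/

set_option autoImplicit false

namespace Crest.Agent.R300

open Finset

variable {n : ℕ}

theorem usem3_mask_eq {T : Finset (Fin n)} {w : List ℕ} (h : ∀ i : Fin n, i ∈ T ↔ (i : ℕ) ∈ w) :
    ((List.range n).map fun j => decide (j ∈ w)) = toMask T := by
  apply List.ext_getElem
  · simp
  · intro i h1 h2
    simp [toMask, h]

theorem usem3_toMask_inj {S T : Finset (Fin n)} : toMask S = toMask T ↔ S = T :=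
  ⟨fun h => by rw [← toSet_toMask S, h, toSet_toMask], fun h => h ▸ rfl⟩

theorem usem3_count (S : Finset (Fin n)) : (toMask S).count true = S.card := by
  rw [← card_toSet (length_toMask S), toSet_toMask]

theorem usem3_empty : toMask (∅ : Finset (Fin n)) = List.replicate n false := by
  apply List.ext_getElem
  · simp
  · intro i h1 h2
    simp [toMask]

theorem mem_keys {N : ℕ} {S : Mask} : S ∈ keys n N ↔ S.length = n ∧ S.count true ≤ N := by
  rw [keys, List.mem_dedup, List.mem_cons, List.mem_map]
  constructor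
  · rintro (rfl | ⟨w, hw, rfl⟩)
    · simp [List.count_replicate]
    · have hw' := (Crest.Agent.Lib.PT.PT.mem_words.1 hw).1
      rw [usem3_mask_eq (T := univ.filter fun i : Fin n => (i : ℕ) ∈ w) (by simp)]
      refine ⟨length_toMask _, ?_⟩
      rw [usem3_count, ← hw']
      refine le_trans ?_ (List.toFinset_card_le w)
      refine Finset.card_le_card_of_injOn (fun i => (i : ℕ)) ?_ fun a _ b _ h => Fin.ext h
      intro i hi
      simpa using hi
  · rintro ⟨h1, h2⟩
    obtain ⟨T, rfl⟩ : ∃ T : Finset (Fin n), S = toMask T := ⟨_, (toMask_toSet h1).symm⟩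
    rw [usem3_count] at h2
    rcases T.eq_empty_or_nonempty with rfl | ⟨t, ht⟩
    · exact Or.inl usem3_empty
    · refine Or.inr ⟨T.toList.map Fin.val ++ List.replicate (N - T.card) (t : ℕ), ?_, ?_⟩
      · refine Crest.Agent.Lib.PT.PT.mem_words.2 ⟨by simp; omega, ?_⟩
        intro b hb
        rw [List.mem_append, List.mem_map] at hb
        rcases hb with ⟨i, -, rfl⟩ | hb
        · simp
        · rw [List.eq_of_mem_replicate hb]; simp
      · refine usem3_mask_eq fun i => ?_
        rw [List.mem_append, List.mem_map]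
        constructor
        · intro hi
          exact Or.inl ⟨i, by simpa using hi, rfl⟩
        · rintro (⟨j, hj, hji⟩ | hb)
          · rw [← Fin.ext hji]; simpa using hj
          · rw [Fin.ext (List.eq_of_mem_replicate hb)]; exact ht

theorem nodup_keys (n N : ℕ) : (keys n N).Nodup := by
  exact List.nodup_dedup _

theorem usem3_mem_keys {N : ℕ} {T : Finset (Fin n)} : toMask T ∈ keys n N ↔ T.card ≤ N := by
  rw [mem_keys, usem3_count]
  simp

theorem usem3_row (p : ℚ) (U : Mask) (m : ℕ) (S : Mask) :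
    (S.foldr (pmStep p.num p.den U)
      ((List.range (m + 1)).map fun j => if (U.drop j).any (fun b => b) then 0 else 1)).length =
        m + 1 ∧
    ∀ j, j + S.length ≤ m → (((S.foldr (pmStep p.num p.den U)
      ((List.range (m + 1)).map fun j => if (U.drop j).any (fun b => b) then 0 else 1)).getD j 0 :
        ℤ) : ℚ) = (p.den : ℚ) ^ S.length * pm p S (U.drop j) := by
  induction S with
  | nil =>
    refine ⟨by simp, fun j hj => ?_⟩
    have hj' : j < m + 1 := by simpa using Nat.lt_succ_of_le hj
    rw [List.foldr_nil, List.getD_eq_getElem _ _ (by simpa using hj')]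
    simp only [List.getElem_map, List.getElem_range, pm, List.length_nil, pow_zero, one_mul]
    have : (fun b : Bool => b) = id := rfl
    rw [this]
    split_ifs <;> simp
  | cons b S ih =>
    obtain ⟨h1, h2⟩ := ih
    rw [List.foldr_cons]
    generalize (S.foldr (pmStep p.num p.den U)
      ((List.range (m + 1)).map fun j => if (U.drop j).any (fun b => b) then 0 else 1)) = R at h1 h2
    refine ⟨by simp [pmStep, h1], fun j hj => ?_⟩
    rw [List.length_cons] at hj
    rw [List.getD_eq_getElem _ _ (by simp [pmStep, h1]; omega)]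
    simp only [pmStep, List.getElem_map, List.getElem_range, pm, List.tail_drop]
    have hh : (U.drop j).headD false = U.getD j false := by
      simp [List.getD_eq_getElem?_getD]
    have hn : (p.num : ℚ) = p * p.den := (Rat.mul_den_eq_num p).symm
    rw [hh]
    push_cast
    rw [h2 j (by omega), h2 (j + 1) (by omega), hn, List.length_cons, pow_succ]
    split_ifs <;> ring

/-- After processing a suffix `S'` of `S`, entry `j ≤ |S| - |S'|` of the row is
`den ^ |S'| * pm p S' (U.drop j)`. -/
theorem pmQ_eq (p : ℚ) (S U : Mask) : pmQ p S U = pm p S U := by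
  have := (usem3_row p U S.length S).2 0 (by simp)
  rw [pmQ, this, List.drop_zero]
  have hd : (p.den : ℚ) ^ S.length ≠ 0 := pow_ne_zero _ (by exact_mod_cast p.den_nz)
  field_simp

theorem usem3_val_single (S T : Finset (Fin n)) :
    val [(toMask S, 1)] (toMask T) = if T = S then 1 else 0 := by
  simp [val, usem3_toMask_inj, eq_comm]

theorem usem3_drop (T : Finset (Fin n)) (t : ℕ) :
    (!((toMask T).drop t).any fun b => b) = true ↔ ∀ i ∈ T, (i : ℕ) < t := by
  rw [Bool.not_eq_true', List.any_eq_false]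
  constructor
  · intro h i hi
    by_contra hlt
    refine h true ?_ rfl
    rw [List.mem_iff_getElem]
    refine ⟨i - t, by simp; omega, ?_⟩
    have : t + (i - t) = i := by omega
    simp [toMask, this, hi]
  · intro h b hb
    rw [List.mem_iff_getElem] at hb
    obtain ⟨j, hj, rfl⟩ := hb
    simp only [toMask, List.getElem_drop, List.getElem_ofFn, decide_eq_true_eq]
    intro hi
    have := h _ hi
    simp at this

theorem usem3_zip {T : Finset (Fin n)} {t : ℕ} (h : ∀ i ∈ T, (i : ℕ) < t) (x : Fin n → Bool) :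
    (List.zipWith (fun a b => !a || b) (toMask T) ((List.ofFn x).take t)).all (fun b => b) = true ↔
      ∀ i ∈ T, x i = true := by
  rw [List.all_eq_true]
  constructor
  · intro h' i hi
    have hi' := h i hi
    have := h' _ (List.getElem_mem (n := i) (by simp; omega))
    simpa [toMask, hi] using this
  · intro h' b hb
    rw [List.mem_iff_getElem] at hb
    obtain ⟨j, hj, rfl⟩ := hb
    simp only [toMask, List.getElem_zipWith, List.getElem_ofFn, List.getElem_take, Bool.or_eq_true,
      Bool.not_eq_true', decide_eq_false_iff_not]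
    exact or_iff_not_imp_left.2 fun hi => h' _ (not_not.1 hi)

theorem usem3_conOK_single {N : ℕ} {x : Fin n → Bool} {S : Finset (Fin n)} (hS : S.card ≤ N)
    {c r : ℚ} (h : |(if ∀ i ∈ S, x i = true then 1 else 0) - c| ≤ r) :
    ∀ c' ∈ con2 [(toMask S, 1)] c r, ConOK N x c' := by
  refine conOK_con2 (by simp) (fun T hT => ?_) ?_ ?_
  · rw [usem3_val_single, if_neg]
    rintro rfl
    omega
  · simp only [usem3_val_single]
    rw [Finset.sum_eq_single S (fun T _ hT => by simp [hT]) (by simp)]
    simp
  · simp only [usem3_val_single]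
    rw [Finset.sum_eq_single S (fun T _ hT => by simp [hT]) (by simp)]
    simpa using h

theorem usem3_dif (N : ℕ) (x : Fin n → Bool) (v : RV) (S : Finset (Fin n)) :
    dif N x v S = ((if S.card ≤ N then val v (toMask S) - (if ∀ i ∈ S, x i = true then 1 else 0)
      else 0 : ℚ) : ℂ) := by
  simp only [dif, tabV, tabOf]
  split_ifs <;> simp

theorem usem3_norm_le {q r : ℚ} (h : |q| ≤ r) : ‖(q : ℂ)‖ ≤ (r : ℝ) := by
  rw [Complex.norm_ratCast]
  exact_mod_cast h

theorem usem3_dot_single (S : Mask) (v : RV) : dot [(S, 1)] v = val v S := by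
  simp [dot]

theorem base_ok {N : ℕ} (x : Fin n → Bool) (t : ℕ) (ht : t ≤ n) :
    ∀ c ∈ baseCons (keys n N) ((List.ofFn x).take t), ConOK N x c := by
  intro c hc
  have hl : ((List.ofFn x).take t).length = t := by simp [ht]
  rw [baseCons, List.mem_append, List.mem_flatMap, List.mem_flatMap, hl] at hc
  rcases hc with ⟨S, hS, hc⟩ | ⟨S, hS, hc⟩
  · obtain ⟨T, rfl⟩ : ∃ T : Finset (Fin n), S = toMask T :=
      ⟨_, (toMask_toSet (mem_keys.1 hS).1).symm⟩
    refine usem3_conOK_single (usem3_mem_keys.1 hS) ?_ c hc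
    split_ifs <;> norm_num [abs_le]
  · rw [List.mem_filter] at hS
    obtain ⟨T, rfl⟩ : ∃ T : Finset (Fin n), S = toMask T :=
      ⟨_, (toMask_toSet (mem_keys.1 hS.1).1).symm⟩
    refine usem3_conOK_single (usem3_mem_keys.1 hS.1) ?_ c hc
    simp only [usem3_zip ((usem3_drop T t).1 hS.2) x]
    simp

theorem base_diff {N : ℕ} (x : Fin n → Bool) (t : Fin n) {ζ : ℚ} (h0 : 0 ≤ ζ) (h1 : ζ ≤ 1) {v : RV}
    (h : Sat ζ (baseCons (keys n N) ((List.ofFn x).take t)) v) : Diff t ζ (dif N x v) := by
  have hl : ((List.ofFn x).take t).length = t := by simp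
  refine ⟨fun S => ?_, fun S => ?_, fun S hS => ?_⟩
  · rw [usem3_dif]; simp
  · rw [usem3_dif]
    refine (usem3_norm_le (r := 2) ?_).trans (by norm_num)
    split_ifs with hN hx
    all_goals first
      | (have := sat_con2 (ζ := ζ) (a := [(toMask S, 1)]) (v := v) (c := 1 / 2) (r := 1 / 2)
          fun c' hc' => h.left c' (List.mem_flatMap.2 ⟨_, usem3_mem_keys.2 hN, hc'⟩)
         rw [usem3_dot_single, abs_le] at this
         rw [abs_le]
         constructor <;> linarith [this.1, this.2])
      | norm_num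
  · rw [usem3_dif]
    refine usem3_norm_le ?_
    split_ifs with hN hx
    · have := sat_con2 (ζ := ζ) (a := [(toMask S, 1)]) (v := v) (r := 0)
        fun c' hc' => h.right c' (List.mem_flatMap.2 ⟨_, List.mem_filter.2
          ⟨usem3_mem_keys.2 hN, by rw [hl]; exact (usem3_drop S t).2 hS⟩, hc'⟩)
      rw [usem3_dot_single, if_pos ((usem3_zip hS x).2 hx), zero_add] at this
      exact this
    · have := sat_con2 (ζ := ζ) (a := [(toMask S, 1)]) (v := v) (r := 0)
        fun c' hc' => h.right c' (List.mem_flatMap.2 ⟨_, List.mem_filter.2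
          ⟨usem3_mem_keys.2 hN, by rw [hl]; exact (usem3_drop S t).2 hS⟩, hc'⟩)
      rw [usem3_dot_single, if_neg (fun h' => hx ((usem3_zip hS x).1 h')), zero_add] at this
      exact this
    · simpa using h0

theorem usem3_val_map {ks : List Mask} (hks : ks.Nodup) (f : Mask → ℚ) (M : Mask) :
    val (ks.map fun S => (S, f S)) M = if M ∈ ks then f M else 0 := by
  induction ks with
  | nil => simp [val]
  | cons S ks ih =>
    rw [List.nodup_cons] at hks
    have := ih hks.2
    simp only [val, List.map_cons, List.sum_cons, List.mem_cons] at this ⊢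
    rw [this]
    by_cases hM : S = M
    · subst hM
      simp [hks.1]
    · simp [hM, Ne.symm hM]

theorem usem3_pm_zero (p : ℚ) {N : ℕ} {S U : Finset (Fin n)} (hU : U.card ≤ N) (hS : N < S.card) :
    pm p (toMask S) (toMask U) = 0 :=
  pm_eq_zero p (by rw [usem3_count, usem3_count]; omega)

theorem usem3_val_tr (p : ℚ) {N : ℕ} {U : Finset (Fin n)} (hU : U.card ≤ N) (S : Finset (Fin n)) :
    val ((keys n N).map fun S => (S, pmQ p S (toMask U))) (toMask S) =
      pm p (toMask S) (toMask U) := by
  rw [usem3_val_map (nodup_keys n N), pmQ_eq]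
  split_ifs with h
  · rfl
  · rw [usem3_mem_keys, not_le] at h
    exact (usem3_pm_zero p hU h).symm

theorem usem3_len_tr (p : ℚ) (N : ℕ) (U : Mask) :
    ∀ e ∈ (keys n N).map fun S => (S, pmQ p S U), e.1.length = n := by
  intro e he
  obtain ⟨S, hS, rfl⟩ := List.mem_map.1 he
  exact (mem_keys.1 hS).1

theorem tr_ok {p ε : ℚ} (hp0 : 0 ≤ p) (hp1 : p ≤ 1) {N : ℕ} {x : Fin n → Bool}
    {τs : List (List Bool)} (h : GoodTr p ε N x τs) :
    ∀ c ∈ trCons p ε (keys n N) τs, ConOK N x c := by
  intro c hc
  obtain ⟨U, hU, hc⟩ := List.mem_flatMap.1 hc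
  obtain ⟨T, rfl⟩ : ∃ T : Finset (Fin n), U = toMask T :=
    ⟨_, (toMask_toSet (mem_keys.1 hU).1).symm⟩
  have hT := usem3_mem_keys.1 hU
  refine conOK_con2 (usem3_len_tr p N _) (fun S hS => ?_) ?_ ?_ c hc
  · rw [usem3_val_tr p hT, usem3_pm_zero p hT hS]
  · simp only [usem3_val_tr p hT, abs_of_nonneg (pm_nonneg hp0 hp1 _ _)]
    exact sum_pm_le hp0 hp1 _
  · simp only [usem3_val_tr p hT]
    rw [abs_sub_comm]
    exact h T hT

theorem tr_traceOK {p ε ζ : ℚ} {N : ℕ} {x : Fin n → Bool} {τs : List (List Bool)}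
    (h : GoodTr p ε N x τs) {v : RV} (hs : Sat ζ (trCons p ε (keys n N) τs) v) :
    TraceOK p N (2 * ε + ζ) (dif N x v) := by
  intro U hU
  have h1 := sat_con2 (ζ := ζ) (v := v) fun c' hc' =>
    hs c' (List.mem_flatMap.2 ⟨_, usem3_mem_keys.2 hU, hc'⟩)
  rw [dot_eq (usem3_len_tr p N _)] at h1
  simp only [usem3_val_tr p hU] at h1
  have h2 := h U hU
  have h3 : ∑ S, ((pm p (toMask S) (toMask U) : ℚ) : ℂ) * dif N x v S =
      ((∑ S : Finset (Fin n), pm p (toMask S) (toMask U) * val v (toMask S) -
        ∑ S : Finset (Fin n), pm p (toMask S) (toMask U) *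
          (if ∀ i ∈ S, x i = true then 1 else 0) : ℚ) : ℂ) := by
    rw [← Finset.sum_sub_distrib, Rat.cast_sum]
    refine Finset.sum_congr rfl fun S _ => ?_
    rw [usem3_dif, ← Rat.cast_mul]
    congr 1
    by_cases hS : S.card ≤ N
    · rw [if_pos hS, mul_sub]
    · rw [usem3_pm_zero p hU (not_le.1 hS)]
      simp
  rw [h3]
  refine (usem3_norm_le (r := 2 * ε + ζ) ?_).trans (by push_cast; exact le_rfl)
  rw [abs_le] at h1 h2 ⊢
  constructor <;> linarith [h1.1, h1.2, h2.1, h2.2]

end Crest.Agent.R300
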