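import Crest.Agent.R300.ULevel
import Crest.Agent.R300.UAcc2
import Crest.Agent.R300.UAcc3

/-!
# R300 upper bound: the top level (task UTop)
-/

set_option autoImplicit false

namespace Crest.Agent.R300

open Finset

variable {n : ℕ}

private theorem utop_beta {s l ν : ℕ} (hν : ν + s ≤ 2 ^ (l + 1) * s) {β : ℝ}
    (hβ : |β| * pLA s (l + 1) l ≤ 256 * pE s (l + 1) (l + 1)) :
    2 * ((4 ^ (l + 1) : ℕ) : ℝ) * (1 / 2 ^ s) * β ^ 2 ≤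
      (pJ s (l + 1) (l + 1) : ℝ) / (32 * ((2 ^ ν : ℕ) : ℝ)) := by
  have h1 : 2 ^ ν ≤ pLA s (l + 1) (l + 1) := Nat.pow_le_pow_right (by norm_num) (le_pLam hν)
  have h2 := acc_succ s (l + 1) l
  have h3 : 0 < pLA s (l + 1) l := Nat.two_pow_pos _
  have h4 : 1 ≤ pE s (l + 1) (l + 1) := le_trans (by norm_num) (pE_ge _ _ _)
  have h5 : 0 < 2 ^ ν := Nat.two_pow_pos _
  generalize pLA s (l + 1) (l + 1) = A' at *
  generalize pLA s (l + 1) l = A at *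
  generalize pE s (l + 1) (l + 1) = e at *
  generalize pJ s (l + 1) (l + 1) = J at *
  generalize 2 ^ ν = L at *
  generalize 4 ^ (l + 1) = N at *
  have h6 : 64 * N * (256 * e) ^ 2 * L ≤ J * 2 ^ s * A ^ 2 := by
    refine le_trans ?_ h2
    have : 256 * e ≤ 2 ^ 40 * e ^ 2 := by nlinarith
    gcongr
  have h7 : (64 : ℝ) * N * (256 * e) ^ 2 * L ≤ J * 2 ^ s * A ^ 2 := by exact_mod_cast h6
  have hA : (0 : ℝ) < A := by exact_mod_cast h3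
  have hL : (0 : ℝ) < L := by exact_mod_cast h5
  have h8 : (|β| * A) ^ 2 ≤ (256 * (e : ℝ)) ^ 2 := by gcongr
  rw [mul_pow, sq_abs] at h8
  have h9 : (64 * N * β ^ 2 * L) * (A : ℝ) ^ 2 ≤ (J * 2 ^ s) * (A : ℝ) ^ 2 := by
    calc (64 * N * β ^ 2 * L) * (A : ℝ) ^ 2 = 64 * N * (β ^ 2 * A ^ 2) * L := by ring
      _ ≤ (64 : ℝ) * N * (256 * e) ^ 2 * L := by gcongr
      _ ≤ _ := h7
  have h10 := le_of_mul_le_mul_right h9 (by positivity)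
  rw [le_div_iff₀ (by positivity)]
  have h11 : (0 : ℝ) < 2 ^ s := by positivity
  calc 2 * (N : ℝ) * (1 / 2 ^ s) * β ^ 2 * (32 * L) = (64 * N * β ^ 2 * L) / 2 ^ s := by ring
    _ ≤ (J : ℝ) := by rw [div_le_iff₀ h11]; exact h10

private theorem utop_eps {p : ℚ} (hp0 : 0 < p) {r J B : ℕ} (hr : r + 1 ≤ J) :
    (3 : ℝ) / 2 ^ (⌈7 / p⌉₊ * (B + J)) ≤ 2 * (p : ℝ) ^ r / 2 ^ (⌈7 / p⌉₊ * B) := by
  have hc1 : 1 ≤ ⌈7 / p⌉₊ := Nat.ceil_pos.2 (by positivity)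
  have hc2 : (7 / p : ℚ) ≤ ⌈7 / p⌉₊ := Nat.le_ceil _
  generalize ⌈7 / p⌉₊ = c at *
  have hp : (0 : ℝ) < p := by exact_mod_cast hp0
  have h1 : (7 : ℝ) ≤ c * p := by
    rw [div_le_iff₀ hp0] at hc2
    exact_mod_cast hc2
  have h2 : (c : ℝ) ≤ 2 ^ c := by exact_mod_cast (Nat.lt_two_pow_self (n := c)).le
  have h3 : (1 : ℝ) ≤ 2 ^ c * p := by nlinarith
  have h4 : (1 : ℝ) ≤ (2 ^ c * p) ^ r := one_le_pow₀ h3
  have h5 : (2 : ℝ) ^ (c * r + 1) ≤ 2 ^ (c * J) :=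
    pow_le_pow_right₀ (by norm_num) (by nlinarith)
  rw [mul_pow, ← pow_mul] at h4
  rw [div_le_div_iff₀ (by positivity) (by positivity), mul_add, pow_add]
  have h6 : (2 : ℝ) ≤ p ^ r * 2 ^ (c * J) := by
    calc (2 : ℝ) = 1 * 2 := by ring
      _ ≤ (2 ^ (c * r) * p ^ r) * 2 := by gcongr
      _ = p ^ r * 2 ^ (c * r + 1) := by ring
      _ ≤ _ := by gcongr
  have h7 : (0 : ℝ) < 2 ^ (c * B) := by positivity
  nlinarith

private theorem utop_final {k J e ν B : ℕ} (hk : 1 ≤ k) (h1 : 4 ^ k * (ν + 1) ≤ J)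
    (h2 : 100 * e ≤ J) (h3 : (2 * k + 2) * 4 ^ k ≤ J) (hB : B + J = 32 * (k + 1) * J) :
    (9 : ℝ) ^ J * 2 ^ (3 * k * J) * ((4 ^ k : ℕ) : ℝ) ^ (4 ^ k + 1) *
      (2 * 2 ^ (ν * 4 ^ k) / 2 ^ B) ≤ 2 * (1 / 2 ^ e) := by
  have hkN : k ≤ 4 ^ k := (Nat.lt_pow_self (by norm_num)).le
  have e1 : (9 : ℝ) ^ J ≤ 2 ^ (4 * J) := by
    rw [pow_mul]; gcongr; norm_num
  have e2 : ((4 ^ k : ℕ) : ℝ) ^ (4 ^ k + 1) = 2 ^ (2 * k * (4 ^ k + 1)) := by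
    rw [pow_mul, pow_mul]; norm_num
  rw [e2]
  generalize 4 ^ k = N at *
  have e3 : 4 * J + 3 * k * J + 2 * k * (N + 1) + ν * N + e ≤ B := by nlinarith
  have e4 : (2 : ℝ) ^ (4 * J + 3 * k * J + 2 * k * (N + 1) + ν * N + e) ≤ 2 ^ B :=
    pow_le_pow_right₀ (by norm_num) e3
  calc (9 : ℝ) ^ J * 2 ^ (3 * k * J) * 2 ^ (2 * k * (N + 1)) * (2 * 2 ^ (ν * N) / 2 ^ B)
      ≤ 2 ^ (4 * J) * 2 ^ (3 * k * J) * 2 ^ (2 * k * (N + 1)) * (2 * 2 ^ (ν * N) / 2 ^ B) := by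
        gcongr
    _ = 2 * (1 / 2 ^ e) *
        (2 ^ (4 * J + 3 * k * J + 2 * k * (N + 1) + ν * N + e) / 2 ^ B) := by
        simp only [pow_add]; field_simp
    _ ≤ 2 * (1 / 2 ^ e) * 1 := by
        gcongr
        exact div_le_one_of_le₀ e4 (by positivity)
    _ = _ := mul_one _

private theorem utop_aux {p : ℚ} (hp0 : 0 < p) (hp1 : p < 1) {s l ν : ℕ} (hs : 3 ≤ s)
    (hn : n ≤ 2 ^ ν) (hν : ν + s ≤ 2 ^ (l + 1) * s) (hsp : (1 - p : ℚ) ≤ 1 / 2 ^ s ∨ s = 3)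
    (t : Fin n) {Δ : Tab n} (hΔ : ∀ S, ‖Δ S‖ ≤ 2)
    (h : TraceOK p (4 ^ (l + 1)) (3 / 2 ^ (⌈7 / p⌉₊ * pB2 s (l + 1))) Δ) :
    Inv s (l + 1) l (lwin s (l + 1) l true t) t Δ := by
  refine inv_A hs (Nat.lt_succ_self l) t (upWin_top hn hν t) hΔ fun K hK β hβ => ?_
  have hk : 1 ≤ l + 1 := Nat.le_add_left 1 l
  obtain ⟨h1, h2, h3⟩ := le_pJ_top hk hν
  obtain ⟨B, hB⟩ : ∃ B, B + pJ s (l + 1) (l + 1) = pB2 s (l + 1) :=
    ⟨pB2 s (l + 1) - pJ s (l + 1) (l + 1), Nat.sub_add_cancel (by unfold pB2; nlinarith)⟩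
  have hN : 1 ≤ 4 ^ (l + 1) := Nat.one_le_pow _ _ (by norm_num)
  have hNJ : 4 ^ (l + 1) + 1 ≤ pJ s (l + 1) (l + 1) := by nlinarith
  have hq1 : (1 : ℝ) / 2 ^ s ≤ 1 / 8 := by
    have : (2 : ℝ) ^ 3 ≤ 2 ^ s := pow_le_pow_right₀ (by norm_num) hs
    exact one_div_le_one_div_of_le (by norm_num) (by linarith)
  have hq : ((1 - p : ℚ) : ℝ) ≤ 1 / 2 ^ s ∨ (1 : ℝ) / 2 ^ s = 1 / 8 := by
    rcases hsp with h' | h'
    · left
      have := (Rat.cast_le (K := ℝ)).2 h'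
      simpa using this
    · right; rw [h']; norm_num
  have key := top_le (q' := 1 / 2 ^ s) (by positivity) (N := 4 ^ (l + 1)) (m := 4 ^ (l + 1) - 1)
    (J := pJ s (l + 1) (l + 1)) (L := 2 ^ ν) Nat.one_le_two_pow (by omega) (by positivity)
    (fam_acc hs hk hK) (fam_deg hK) (utop_beta hν hβ) t (Δ := Δ)
    (Y := 2 * 2 ^ (ν * 4 ^ (l + 1)) / 2 ^ B) (by positivity) ?_
  · have hG : (topG s (l + 1) ν : Fin n → ℝ) =
        fun i : Fin n => uu (pJ s (l + 1) (l + 1)) (2 ^ ν) i / ((2 ^ ν : ℕ) : ℝ) := by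
      funext i; simp [topG]
    rw [hG]
    exact key.trans (utop_final hk h1 h2 h3 hB)
  · intro r hr a θ hg
    have hε := utop_eps hp0 (B := B) (le_trans (Nat.succ_le_succ hr) hNJ)
    rw [hB] at hε
    refine (gapF_le hp0 hp1 hq hq1 hr (by positivity) hε hΔ h fun j =>
      good_mem_disc (by positivity) hq1 hN (hg j)).trans ?_
    have e1 : (n : ℝ) ≤ 2 ^ ν := by exact_mod_cast hn
    have e2 : (n : ℝ) ^ r ≤ 2 ^ (ν * 4 ^ (l + 1)) := by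
      calc (n : ℝ) ^ r ≤ (2 ^ ν) ^ r := by gcongr
        _ ≤ (2 ^ ν) ^ 4 ^ (l + 1) := pow_le_pow_right₀ (one_le_pow₀ (by norm_num)) hr
        _ = _ := by rw [← pow_mul]
    gcongr

/-- Let `s = pSs n p`, `k = pK n p = l + 1`, `ν = pNu n`, `N = 4^k`, `J = pJ k`.  `inv_A` with `upWin_top`;
its hypothesis follows from `top_le` (`fam_acc`, `fam_deg`, `acc_succ` and `2^ν ≤ pLA k` for `hβ`) with
`Y = 2 · 2^(ν N) / 2^B'`, `B' = pB2 - J`, from `good_mem_disc` and `gapF_le` (`pSs_spec`).  The hypothesis on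
`ε = 3 / 2^pB` holds because `p ≥ 2 ^ (-⌈7/p⌉)` and `N + 1 ≤ J`; and
`4 J + 3 k J + 2 k (N + 1) + 1 + ν N + e_k ≤ B'` by `le_pJ_top`. -/
theorem inv_top {p : ℚ} (hp0 : 0 < p) (hp1 : p < 1) (t : Fin n) {Δ : Tab n}
    (hΔ : ∀ S, ‖Δ S‖ ≤ 2) (h : TraceOK p (4 ^ pK n p) (3 / 2 ^ pB n p) Δ) :
    Inv (pSs n p) (pK n p) (pK n p - 1) (lwin (pSs n p) (pK n p) (pK n p - 1) true t) t Δ := by
  have h1 := pK_pos n p
  have h2 := pNu_add_le n p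
  unfold pB at h
  obtain ⟨l, hl⟩ : ∃ l, pK n p = l + 1 := ⟨pK n p - 1, by omega⟩
  rw [hl] at h h2 ⊢
  exact utop_aux hp0 hp1 (pSs_ge n p) (lt_two_pow_pNu n).le h2 (pSs_spec n hp1) t hΔ h

end Crest.Agent.R300
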