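import Crest.Agent.R300.UInv
import Crest.Agent.R300.USem3
import Crest.Agent.R300.UBase
import Crest.Agent.R300.UTop

/-!
# R300 upper bound: correctness of the decoder on good samples (task UMain)
-/

set_option autoImplicit false

namespace Crest.Agent.R300

open Finset Crest.TraceRecon

variable {n : ℕ}

private theorem umain_zeta_pos (p : ℚ) : 0 < zetaQ n p := by unfold zetaQ; positivity

private theorem umain_zeta_le_one (p : ℚ) : zetaQ n p ≤ 1 := by
  unfold zetaQ
  rw [div_le_one (by positivity)]
  exact one_le_pow₀ one_le_two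

private theorem umain_lp {p : ℚ} (hp0 : 0 < p) {x : Fin n → Bool} {cs : List Con}
    (h : ∀ c ∈ cs, ConOK (4 ^ pK n p) x c) : Sat (zetaQ n p) cs (lp (zetaQ n p) cs (itQ n p)) := by
  refine lp_sat (umain_zeta_pos p) h ?_
  have h1 : ((n : ℚ) + 1) ^ 4 ^ pK n p ≤ 2 ^ pB n p := by exact_mod_cast keys_bound n hp0
  refine h1.trans (le_of_eq ?_)
  unfold itQ zetaQ
  rw [mul_comm 3, Nat.cast_pow, pow_mul, Nat.cast_ofNat]
  field_simp

private theorem umain_zeta_le {p : ℚ} (hp0 : 0 < p) {l : ℕ} (hl : l ≤ pK n p) :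
    ((zetaQ n p : ℚ) : ℝ) ≤ kap (pSs n p) (pK n p) l ^ 8 := by
  have h1 := (le_pJ_top (pK_pos n p) (pNu_add_le n p)).2.1
  have h2 : pJ (pSs n p) (pK n p) (pK n p) ≤ pB2 (pSs n p) (pK n p) :=
    Nat.le_mul_of_pos_left _ (by positivity)
  have h3 := pB2_le_pB n hp0
  have h4 : pE (pSs n p) (pK n p) l ≤ pE (pSs n p) (pK n p) (pK n p) :=
    Nat.mul_le_mul_right _ (Nat.pow_le_pow_right (by norm_num) hl)
  unfold zetaQ kap
  push_cast
  rw [div_pow, one_pow, ← pow_mul]
  exact one_div_le_one_div_of_le (by positivity) (pow_le_pow_right₀ one_le_two (by omega))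

private theorem umain_len (x : Fin n → Bool) (t : Fin n) : ((List.ofFn x).take t).length = t := by
  rw [List.length_take, List.length_ofFn]
  exact min_eq_left t.2.le

private theorem umain_step {p : ℚ} (hp0 : 0 < p) (x : Fin n → Bool) (t : Fin n) {l : ℕ}
    (hl : l < pK n p) (st : RV × Bool)
    (h : Inv (pSs n p) (pK n p) l (lwin (pSs n p) (pK n p) l st.2 t) t (dif (4 ^ pK n p) x st.1)) :
    Diff t (zetaQ n p) (dif (4 ^ pK n p) x (levelStep n p ((List.ofFn x).take t) st l).1) ∧
      Grid (pSs n p) (pK n p) l (levelStep n p ((List.ofFn x).take t) st l).2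
        (lwin (pSs n p) (pK n p) l st.2 t) t
        (dif (4 ^ pK n p) x (levelStep n p ((List.ofFn x).take t) st l).1) := by
  obtain ⟨h1, h2⟩ := lvl_spec (pSs_ge n p) hl x st.2 t st.1 h (umain_zeta_pos p).le
    (umain_zeta_le hp0 hl.le)
  have h3 := umain_lp hp0 (x := x) (cs := baseCons (keysQ n p) ((List.ofFn x).take t) ++
      (lvl n (pSs n p) (pK n p) l st.2 t st.1).2) fun c hc =>
    (List.mem_append.1 hc).elim (base_ok x t t.2.le c) (h1 c)
  simp only [levelStep, umain_len]
  exact ⟨base_diff x t (umain_zeta_pos p).le (umain_zeta_le_one p) h3.left, h2 _ h3.right⟩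

private theorem umain_loop {p : ℚ} (hp0 : 0 < p) (x : Fin n → Bool) (t : Fin n) (l : ℕ)
    (hl : l < pK n p) (st : RV × Bool)
    (h : Inv (pSs n p) (pK n p) l (lwin (pSs n p) (pK n p) l st.2 t) t (dif (4 ^ pK n p) x st.1)) :
    ‖dif (4 ^ pK n p) x ((List.range (l + 1)).reverse.foldl
      (levelStep n p ((List.ofFn x).take t)) st).1 {t}‖ ≤ 1 / 4 := by
  have z0 : (0 : ℝ) ≤ (zetaQ n p : ℚ) := by exact_mod_cast (umain_zeta_pos p).le
  induction l generalizing st with
  | zero =>
    obtain ⟨h1, h2⟩ := umain_step hp0 x t hl st h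
    exact bit_of_grid (pSs_ge n p) (pK_pos n p) _ _ t h1 z0 (umain_zeta_le hp0 hl.le) h2
  | succ l ih =>
    obtain ⟨h1, h2⟩ := umain_step hp0 x t hl st h
    rw [List.range_succ, List.reverse_append, List.reverse_singleton, List.singleton_append,
      List.foldl_cons]
    exact ih (by omega) _
      (inv_of_grid (pSs_ge n p) (by omega) _ _ t h1 z0 (umain_zeta_le hp0 hl.le) h2)

/-- `lp_sat` (`keys_bound`), `base_ok`, `base_diff`, `tr_ok`, `tr_traceOK`, `inv_top` for the first table.
Downward induction on the level: before level `l` is processed the state `(v, b)` satisfies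
`Inv l (lwin l b t) t (dif x v)`; `lvl_spec`, `lp_sat`, then `inv_of_grid` (`l ≥ 1`) or `bit_of_grid`
(`l = 0`).  `ζ = 2^(-pB) ≤ κ_l⁸` by `le_pJ_top`, `pB2_le_pB`.  `unitM_eq`. -/
theorem bit_correct {p : ℚ} (hp0 : 0 < p) (hp1 : p < 1) {x : Fin n → Bool}
    {τs : List (List Bool)} (h : GoodTr p (zetaQ n p) (4 ^ pK n p) x τs) (t : Fin n) :
    bitStep n p τs ((List.ofFn x).take t) = x t := by
  have h3 := umain_lp hp0 (x := x) (cs := baseCons (keysQ n p) ((List.ofFn x).take t) ++
      trCons p (zetaQ n p) (keysQ n p) τs) fun c hc =>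
    (List.mem_append.1 hc).elim (base_ok x t t.2.le c) (tr_ok hp0.le hp1.le h c)
  have h4 := base_diff x t (umain_zeta_pos p).le (umain_zeta_le_one p) h3.left
  have h5 := tr_traceOK h h3.right
  have e : (2 * ((zetaQ n p : ℚ) : ℝ) + (zetaQ n p : ℚ)) = 3 / 2 ^ pB n p := by
    unfold zetaQ; push_cast; ring
  rw [e] at h5
  have h6 := inv_top hp0 hp1 t h4.bd h5
  have hk := pK_pos n p
  have h7 := umain_loop hp0 x t (pK n p - 1) (by omega)
    (topV n p τs ((List.ofFn x).take t), true) h6
  rw [Nat.sub_add_cancel hk] at h7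
  rw [bitStep, umain_len, unitM_eq]
  set v := ((List.range (pK n p)).reverse.foldl (levelStep n p ((List.ofFn x).take t))
    (topV n p τs ((List.ofFn x).take t), true)).1
  have h8 : ({t} : Finset (Fin n)).card ≤ 4 ^ pK n p := by
    rw [card_singleton]; exact Nat.one_le_pow _ _ (by norm_num)
  simp only [dif, if_pos h8, tabV, tabOf, mem_singleton, forall_eq] at h7
  have h9 : |val v (toMask {t}) - if x t = true then 1 else 0| ≤ 1 / 4 := by
    have e2 : ((val v (toMask {t}) : ℚ) : ℂ) - (if x t = true then 1 else 0) =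
        (((val v (toMask {t}) - if x t = true then 1 else 0 : ℚ) : ℝ) : ℂ) := by
      split_ifs <;> simp
    rw [e2, Complex.norm_real, Real.norm_eq_abs] at h7
    have e3 : (1 / 4 : ℝ) = ((1 / 4 : ℚ) : ℝ) := by norm_num
    rw [e3] at h7
    exact_mod_cast h7
  rw [abs_le] at h9
  cases hx : x t
  · simp only [hx, Bool.false_eq_true, if_false] at h9
    exact decide_eq_false (by linarith [h9.2])
  · simp only [hx, if_true] at h9
    exact decide_eq_true (by linarith [h9.1])

theorem decode_correct {p : ℚ} (hp0 : 0 < p) (hp1 : p < 1) {x : Fin n → Bool}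
    {τs : List (List Bool)} (h : GoodTr p (zetaQ n p) (4 ^ pK n p) x τs) :
    decode n p τs = List.ofFn x := by
  have key : ∀ m, m ≤ n → (List.range m).foldl (fun known _ => known ++ [bitStep n p τs known]) []
      = (List.ofFn x).take m := by
    intro m hm
    induction m with
    | zero => simp
    | succ m ih =>
      rw [List.range_succ, List.foldl_append, ih (by omega), List.foldl_cons, List.foldl_nil,
        bit_correct hp0 hp1 h ⟨m, hm⟩, List.take_succ_eq_append_getElem (by simpa using hm)]
      simp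
  rw [decode, key n le_rfl, List.take_of_length_le (by simp)]

/-- `parseNat_natCode`, `parseRat_ratCode`, `parseList_flatten`, `parseN_parseBool`. -/
theorem alg_input (p : ℚ) {m : ℕ} (τ : Fin m → List Bool) :
    alg (decoderInput n p τ) = decodeG n p (List.ofFn τ) := by
  have h := Lib.PT.parseList_flatten (p := Lib.PT.parseList Lib.PT.parseBool)
    (code := fun w : List Bool => Crest.Enc.natCode w.length ++ w) (val := id) (List.ofFn τ)
    (fun w _ r => by
      rw [Lib.PT.parseList, List.append_assoc, Lib.PT.parseNat_natCode, Lib.PT.parseN_parseBool]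
      rfl)
    (fun w _ e => by
      have := congrArg List.length e
      rw [List.length_append, Lib.PT.length_natCode] at this
      simp at this) []
  rw [List.append_nil, List.map_id] at h
  simp only [alg, decoderInput, traceListCode, List.append_assoc, Lib.PT.parseNat_natCode,
    Lib.PT.parseRat_ratCode, h]

end Crest.Agent.R300
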