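import Mathlib

/-!
# R300 upper bound: from products on the real line to values in the upper half plane (task UPP)
-/

set_option autoImplicit false

namespace Crest.Agent.R300

open Finset

private theorem pp_step1 {H : ℂ → ℂ} (hd : Differentiable ℂ H) (hb : ∀ z : ℂ, 0 ≤ z.im → ‖H z‖ ≤ 1)
    {E Θ : ℝ} (hE : 1 ≤ E) (hΘ : 0 < Θ) (h : ∀ β : ℝ, |β| ≤ Θ → ‖H β‖ ≤ Real.exp (-(2 * E)))
    {z : ℂ} (h1 : |z.re| ≤ Θ / 2) (h2 : 0 ≤ z.im) (h3 : z.im ≤ Θ / 50) :
    ‖H z‖ ≤ Real.exp (-(46 / 25 * E)) := by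
  obtain ⟨A, hA⟩ : ∃ A : ℝ, A = 8 * E / Θ ^ 2 := ⟨_, rfl⟩
  have hA0 : 0 ≤ A := by rw [hA]; positivity
  have hAΘ : A * (Θ / 2) ^ 2 = 2 * E := by rw [hA]; field_simp; ring
  obtain ⟨f, hf⟩ : ∃ f : ℂ → ℂ, ∀ w, f w = H (z.re + Complex.I * w) * Complex.exp (A * w ^ 2) :=
    ⟨_, fun _ => rfl⟩
  have hfd : Differentiable ℂ f := by
    rw [show f = _ from funext hf]
    fun_prop
  have hn : ∀ w : ℂ, ‖f w‖ = ‖H (z.re + Complex.I * w)‖ * Real.exp (A * (w.re ^ 2 - w.im ^ 2)) := by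
    intro w
    rw [hf, norm_mul, Complex.norm_exp]
    congr 2
    simp [sq]
  have hup : ∀ w : ℂ, 0 ≤ w.re → w.re ≤ Θ / 2 → ‖f w‖ ≤ Real.exp (2 * E) := by
    intro w a1 a2
    rw [hn]
    refine (mul_le_of_le_one_left (Real.exp_pos _).le (hb _ (by simpa using a1))).trans ?_
    rw [Real.exp_le_exp, ← hAΘ]
    refine mul_le_mul_of_nonneg_left ?_ hA0
    nlinarith [sq_nonneg w.im]
  have key := Complex.HadamardThreeLines.norm_le_interp_of_mem_verticalClosedStrip' (f := f)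
    (z := (z.im : ℂ)) (a := Real.exp (-(2 * E))) (b := Real.exp (2 * E)) (l := 0) (u := Θ / 2)
    (by positivity) ⟨by simpa using h2, by simp only [Complex.ofReal_re]; linarith⟩
    hfd.diffContOnCl ⟨Real.exp (2 * E), by
      rintro _ ⟨w, hw, rfl⟩
      exact hup w hw.1 hw.2⟩
    (fun w hw => by
      have hw0 : w.re = 0 := hw
      have e : (z.re : ℂ) + Complex.I * w = ((z.re - w.im : ℝ) : ℂ) := by
        apply Complex.ext <;> simp [hw0, sub_eq_add_neg]
      rw [hn, e, hw0]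
      by_cases hc : |z.re - w.im| ≤ Θ
      · refine (mul_le_of_le_one_right (norm_nonneg _) ?_).trans (h _ hc)
        rw [Real.exp_le_one_iff]
        nlinarith [sq_nonneg w.im]
      · refine (mul_le_of_le_one_left (Real.exp_pos _).le (hb _ (by simp))).trans ?_
        rw [Real.exp_le_exp, ← hAΘ, ← mul_neg]
        refine mul_le_mul_of_nonneg_left ?_ hA0
        have a1 : Θ / 2 ≤ |w.im| := by
          have := abs_sub z.re w.im
          linarith [not_le.1 hc]
        have a2 : (Θ / 2) ^ 2 ≤ |w.im| ^ 2 := by gcongr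
        rw [sq_abs] at a2
        linarith)
    (fun w hw => by
      have hw0 : w.re = Θ / 2 := hw
      exact hup w (by rw [hw0]; positivity) hw0.le)
  rw [hn, ← Real.exp_mul, ← Real.exp_mul, ← Real.exp_add] at key
  have e : (z.re : ℂ) + Complex.I * (z.im : ℂ) = z := by
    rw [mul_comm]; exact Complex.re_add_im z
  rw [e] at key
  simp only [Complex.ofReal_re, Complex.ofReal_im, sub_zero] at key
  refine le_trans (le_mul_of_one_le_right (norm_nonneg _) ?_) (key.trans ?_)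
  · rw [Real.one_le_exp_iff]
    nlinarith [sq_nonneg z.im]
  · rw [Real.exp_le_exp]
    have a1 : z.im / (Θ / 2) ≤ 1 / 25 := by
      rw [div_le_iff₀ (by positivity)]; linarith
    nlinarith

private theorem pp_step2 {F : ℂ → ℂ} (hd : Differentiable ℂ F) {z₀ : ℂ} {a Δ η : ℝ} {m : ℕ}
    (ha : 0 ≤ a) (hΔ : 0 < Δ) (hη : 6 * |η| ≤ Δ)
    (h1 : ∀ z : ℂ, dist z z₀ ≤ m * Δ → ‖F z‖ ≤ 1 ∧ ‖F z‖ * ‖F (z + η)‖ ≤ a ^ 2) :
    ‖F z₀‖ ≤ 3 / 2 * a + (1 / 3) ^ m := by
  have key : ∀ k j : ℕ, k + j = m → ∀ z : ℂ, dist z z₀ ≤ j * Δ →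
      ‖F z‖ ≤ 3 / 2 * a + (1 / 3) ^ k := by
    intro k
    induction k with
    | zero =>
      intro j hj z hz
      rw [zero_add] at hj
      subst hj
      have := (h1 z hz).1
      rw [pow_zero]; linarith
    | succ k ih =>
      intro j hj z hz
      obtain ⟨B, hB⟩ : ∃ B : ℝ, B = 3 / 2 * a + (1 / 3) ^ k := ⟨_, rfl⟩
      have hB0 : 0 ≤ B := by rw [hB]; positivity
      have ih' : ∀ w : ℂ, dist w z ≤ Δ → ‖F w‖ ≤ B := by
        intro w hw
        rw [hB]
        refine ih (j + 1) (by omega) w ((dist_triangle w z z₀).trans ?_)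
        push_cast; linarith
      have hz' : ‖F z‖ ≤ B := ih' z (by rw [dist_self]; exact hΔ.le)
      have hdist : dist (z + η) z = |η| := by
        rw [dist_eq_norm, add_sub_cancel_left, Complex.norm_real, Real.norm_eq_abs]
      have hs := Complex.dist_le_div_mul_dist_of_mapsTo_ball (f := F) (c := z) (R₁ := Δ)
        (R₂ := 2 * B) (z := z + η) hd.differentiableOn (fun w hw => by
          rw [Metric.mem_closedBall, dist_eq_norm]
          have := ih' w (Metric.mem_ball.1 hw).le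
          linarith [norm_sub_le (F w) (F z)])
        (by rw [Metric.mem_ball, hdist]; linarith [abs_nonneg η])
      rw [hdist, dist_eq_norm] at hs
      have hs' : ‖F (z + η) - F z‖ ≤ B / 3 := by
        refine hs.trans ?_
        rw [div_mul_eq_mul_div, div_le_iff₀ hΔ]
        nlinarith [abs_nonneg η]
      have hjm : (j : ℝ) * Δ ≤ m * Δ := by
        gcongr; omega
      have h2 := (h1 z (hz.trans hjm)).2
      have h3 : ‖F z‖ - B / 3 ≤ ‖F (z + η)‖ := by
        have := norm_sub_norm_le (F z) (F (z + η))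
        rw [norm_sub_rev] at this
        linarith
      have h4 : ‖F z‖ ≤ a + B / 3 := by
        by_contra hc
        rw [not_le] at hc
        have h5 : a * a < ‖F z‖ * ‖F (z + η)‖ :=
          mul_lt_mul'' (by linarith) (by linarith) ha ha
        nlinarith
      rw [hB] at h4
      rw [pow_succ]; linarith
  exact key m 0 rfl z₀ (by simp)

/-- Let `F z = ∑ c d exp (i z d)` with `d ≥ 0`, `∑ |c d| ≤ 1`, so `|F| ≤ 1` on `Im z ≥ 0`.
Step 1.  `H z = F z * F (z + η)` satisfies `|H (ξ' + i y')| ≤ exp (-1.84 E)` for `|ξ'| ≤ Θ/2`,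
`0 ≤ y' ≤ Θ/50`: apply the three lines theorem
(`Complex.HadamardThreeLines.norm_le_interp_of_mem_verticalClosedStrip'`, after a linear change of
variable) on the strip `0 ≤ Im z ≤ Θ/2` to `H z * exp (-A (z - ξ')²)`, `A = 8 E / Θ²`; it is at most
`exp (-2 E)` on the real line and at most `exp (2 E)` on the upper line.
Step 2.  Let `z₀ = ξ + i y`, `m = ⌈E⌉`, `Δ = y / m`, `M j = sup {|F z| : |z - z₀| ≤ j Δ}`, `M m ≤ 1`.  For
`|z - z₀| ≤ j Δ`, `j < m`, the Schwarz lemma (`Complex.dist_le_div_mul_dist_of_mapsTo_ball`, or a Cauchy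
estimate) gives `|F (z + η) - F z| ≤ 2 M (j+1) |η| / Δ ≤ M (j+1) / e` (up to a harmless strict
inequality), hence `|F z|² ≤ exp (-1.84 E) + |F z| M (j+1) / e` and `M j ≤ exp (-0.92 E) + M (j+1) / e`.
So `M 0 ≤ 1.6 exp (-0.92 E) + exp (-E)`. -/
theorem pp_bound {ι : Type} (I : Finset ι) (c : ι → ℂ) (d : ι → ℕ) (hc : ∑ i ∈ I, ‖c i‖ ≤ 1)
    {E Θ y η ξ : ℝ} (hE : 1 ≤ E) (hy : 0 < y) (hyΘ : 100 * y ≤ Θ)
    (hη : 6 * (E + 1) * |η| ≤ y) (hξ : |ξ| ≤ Θ / 4)
    (h : ∀ β : ℝ, |β| ≤ Θ →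
      ‖∑ i ∈ I, c i * Complex.exp (Complex.I * β * d i)‖ *
        ‖∑ i ∈ I, c i * Complex.exp (Complex.I * (β + η) * d i)‖ ≤ Real.exp (-(2 * E))) :
    ‖∑ i ∈ I, c i * Complex.exp (Complex.I * (ξ + Complex.I * y) * d i)‖ ≤
      3 * Real.exp (-(9 / 10 * E)) := by
  obtain ⟨F, hF⟩ : ∃ F : ℂ → ℂ, ∀ z, F z = ∑ i ∈ I, c i * Complex.exp (Complex.I * z * d i) :=
    ⟨_, fun _ => rfl⟩
  simp only [← hF] at h ⊢
  have hd : Differentiable ℂ F := by
    rw [show F = _ from funext hF]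
    fun_prop
  have hb : ∀ z : ℂ, 0 ≤ z.im → ‖F z‖ ≤ 1 := by
    intro z hz
    rw [hF]
    refine (norm_sum_le _ _).trans (le_trans (sum_le_sum fun i _ => ?_) hc)
    rw [norm_mul, Complex.norm_exp]
    refine mul_le_of_le_one_right (norm_nonneg _) ?_
    rw [Real.exp_le_one_iff]
    simp only [Complex.mul_re, Complex.I_re, zero_mul, Complex.I_im, one_mul, zero_sub,
      Complex.natCast_re, Complex.natCast_im, mul_zero, sub_zero, neg_mul, neg_nonpos]
    positivity
  have hΘ : 0 < Θ := by linarith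
  have hm1 : E ≤ (⌈E⌉₊ : ℝ) := Nat.le_ceil E
  have hm2 : (⌈E⌉₊ : ℝ) ≤ E + 1 := (Nat.ceil_lt_add_one (by linarith)).le
  generalize ⌈E⌉₊ = m at hm1 hm2
  have hm0 : (0 : ℝ) < m := by linarith
  have key := pp_step2 hd (z₀ := ξ + Complex.I * y) (a := Real.exp (-(23 / 25 * E))) (Δ := y / m)
    (η := η) (m := m) (Real.exp_pos _).le (by positivity)
    (by rw [le_div_iff₀ hm0]; nlinarith [abs_nonneg η]) fun z hz => by
      rw [mul_div_cancel₀ _ hm0.ne', dist_eq_norm] at hz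
      have a1 := abs_le.1 ((Complex.abs_re_le_norm _).trans hz)
      have a2 := abs_le.1 ((Complex.abs_im_le_norm _).trans hz)
      simp only [Complex.sub_re, Complex.add_re, Complex.ofReal_re, Complex.mul_re, Complex.I_re,
        zero_mul, Complex.I_im, Complex.ofReal_im, mul_zero, sub_self, add_zero, Complex.sub_im,
        Complex.add_im, Complex.mul_im, one_mul, zero_add] at a1 a2
      have a3 := abs_le.1 hξ
      have a4 : 0 ≤ z.im := by linarith
      refine ⟨hb z a4, ?_⟩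
      have a5 := pp_step1 (H := fun z => F z * F (z + η)) (by fun_prop)
        (fun z hz => by
          rw [norm_mul]
          exact mul_le_one₀ (hb z hz) (norm_nonneg _) (hb _ (by simpa using hz)))
        hE hΘ (fun β hβ => by rw [norm_mul]; exact h β hβ) (z := z)
        (abs_le.2 ⟨by linarith, by linarith⟩) a4 (by linarith)
      rw [norm_mul] at a5
      refine a5.trans (le_of_eq ?_)
      rw [← Real.exp_nat_mul]; congr 1; push_cast; ring
  have b1 : Real.exp (-(23 / 25 * E)) ≤ Real.exp (-(9 / 10 * E)) := by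
    rw [Real.exp_le_exp]; linarith
  have b2 : (1 / 3 : ℝ) ^ m ≤ Real.exp (-(9 / 10 * E)) := by
    calc (1 / 3 : ℝ) ^ m ≤ Real.exp (-1) ^ m := by
          gcongr
          rw [Real.exp_neg, one_div]
          exact inv_anti₀ (Real.exp_pos _) (Real.exp_one_lt_d9.le.trans (by norm_num))
      _ = Real.exp (-m) := by rw [← Real.exp_nat_mul]; congr 1; ring
      _ ≤ _ := by rw [Real.exp_le_exp]; linarith
  linarith [Real.exp_pos (-(9 / 10 * E))]

end Crest.Agent.R300
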