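import Crest.Agent.R300.UAlg

/-!
# R300 upper bound: polynomial time, first-order functions (task UPT1)

Read the user guide in `Lib/PT/All.lean`.  Most proofs are `unfold foo; fun_prop`.  Make tuple-valued
functions irreducible locally if `fun_prop` unfolds them.
-/

set_option autoImplicit false

namespace Crest.Agent.R300

open Crest.Agent.Lib.PT

variable {α : Type} [Enc α]

@[fun_prop] theorem qmul_pt {z w : α → QC} (hz : PT z) (hw : PT w) :
    PT fun a => qmul (z a) (w a) := by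
  unfold qmul; fun_prop

@[fun_prop] theorem qcj_pt {z : α → QC} (hz : PT z) : PT fun a => qcj (z a) := by
  unfold qcj; fun_prop

@[fun_prop] theorem qsm_pt {r : α → ℚ} {z : α → QC} (hr : PT r) (hz : PT z) :
    PT fun a => qsm (r a) (z a) := by
  unfold qsm; fun_prop

@[fun_prop] theorem qdiv_pt {z w : α → QC} (hz : PT z) (hw : PT w) :
    PT fun a => qdiv (z a) (w a) := by
  unfold qdiv; fun_prop

@[fun_prop] theorem staQ_pt {φ ψ : α → QFn} (h : PT φ) (h' : PT ψ) :
    PT fun a => staQ (φ a) (ψ a) := by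
  unfold staQ; fun_prop

@[fun_prop] theorem cjQ_pt {φ : α → QFn} (h : PT φ) : PT fun a => cjQ (φ a) := by
  unfold cjQ; fun_prop

@[fun_prop] theorem gamT_pt {pw : α → List QC} {z : α → ℤ} (h : PT pw) (h' : PT z) :
    PT fun a => gamT (pw a) (z a) := by
  unfold gamT; fun_prop

@[fun_prop] theorem wfQ_pt {pw : α → List QC} {g : α → List ℚ} {i : α → ℕ} {z : α → ℤ}
    {K : α → QFeat} (h₁ : PT pw) (h₂ : PT g) (h₃ : PT i) (h₄ : PT z) (h₅ : PT K) :
    PT fun a => wfQ (pw a) (g a) (i a) (z a) (K a) := by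
  unfold wfQ; fun_prop

@[fun_prop] theorem edgeQ_pt {pw : α → List QC} {ut : α → List ℚ} {z : α → ℤ} {K : α → QFeat}
    (h₁ : PT pw) (h₂ : PT ut) (h₃ : PT z) (h₄ : PT K) :
    PT fun a => edgeQ (pw a) (ut a) (z a) (K a) := by
  unfold edgeQ; fun_prop

@[fun_prop] theorem staF_pt {K K' : α → QFeat} (h : PT K) (h' : PT K') :
    PT fun a => staF (K a) (K' a) := by
  unfold staF; fun_prop

@[fun_prop] theorem edgesQ_pt {one : α → QFeat} {pw : α → List QC} {ut : α → List ℚ}
    {zs : α → List ℤ} {F : α → List QFeat} (h₁ : PT one) (h₂ : PT pw) (h₃ : PT ut) (h₄ : PT zs)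
    (h₅ : PT F) : PT fun a => edgesQ (one a) (pw a) (ut a) (zs a) (F a) := by
  unfold edgesQ; fun_prop

@[fun_prop] theorem nodesQ_pt {E F : α → List QFeat} (h : PT E) (h' : PT F) :
    PT fun a => nodesQ (E a) (F a) := by
  unfold nodesQ; fun_prop

@[fun_prop] theorem val_pt {v : α → RV} {S : α → Mask} (h : PT v) (h' : PT S) :
    PT fun a => val (v a) (S a) := by
  unfold val; fun_prop

@[fun_prop] theorem dot_pt {u v : α → RV} (h : PT u) (h' : PT v) : PT fun a => dot (u a) (v a) := by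
  unfold dot; fun_prop

@[fun_prop] theorem reQ_pt {φ : α → QFn} (h : PT φ) : PT fun a => reQ (φ a) := by
  unfold reQ; fun_prop

@[fun_prop] theorem imQ_pt {φ : α → QFn} (h : PT φ) : PT fun a => imQ (φ a) := by
  unfold imQ; fun_prop

@[fun_prop] theorem evQ_pt {φ : α → QFn} {v : α → RV} (h : PT φ) (h' : PT v) :
    PT fun a => evQ (φ a) (v a) := by
  unfold evQ; fun_prop

@[fun_prop] theorem scaleR_pt {c : α → ℚ} {v : α → RV} (h : PT c) (h' : PT v) :
    PT fun a => scaleR (c a) (v a) := by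
  unfold scaleR; fun_prop

@[fun_prop] theorem con2_pt {v : α → RV} {c r : α → ℚ} (h₁ : PT v) (h₂ : PT c) (h₃ : PT r) :
    PT fun a => con2 (v a) (c a) (r a) := by
  unfold con2; fun_prop

@[fun_prop] theorem conC_pt {φ : α → QFn} {c : α → QC} {r : α → ℚ} (h₁ : PT φ) (h₂ : PT c)
    (h₃ : PT r) : PT fun a => conC (φ a) (c a) (r a) := by
  unfold conC; fun_prop

@[fun_prop] theorem lpStep_pt {ζ : α → ℚ} {cs : α → List Con} {v : α → RV} (h₁ : PT ζ)
    (h₂ : PT cs) (h₃ : PT v) : PT fun a => lpStep (ζ a) (cs a) (v a) := by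
  unfold lpStep; fun_prop

theorem sz_lpStep_le {ζ : ℚ} {cs : List Con} {G : ℕ} (h : ∀ c ∈ cs, sz (scaleR (-ζ) c.1) ≤ G)
    (v : RV) : sz (lpStep ζ cs v) ≤ sz v + G := by
  unfold lpStep
  have hsub : ∀ c ∈ cs.filter fun c => decide (c.2 + ζ < dot c.1 v), c ∈ cs :=
    fun c hc => List.mem_of_mem_filter hc
  generalize (cs.filter fun c => decide (c.2 + ζ < dot c.1 v)) = l at hsub
  rcases l with _ | ⟨c, l⟩
  · simp [scaleR]
  · have h1 := sz_append v (scaleR (-ζ) c.1)
    have := h c (hsub c List.mem_cons_self)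
    simp only [List.headD_cons]
    omega

/-- Every step appends `scaleR (-ζ) a` for a constraint vector `a` (or `[]`). -/
theorem sz_lp_le {ζ : ℚ} {cs : List Con} {G : ℕ} (h : ∀ c ∈ cs, sz (scaleR (-ζ) c.1) ≤ G) (T : ℕ) :
    sz (lp ζ cs T) ≤ T * G + 1 := by
  unfold lp
  induction T with
  | zero => simp
  | succ T ih =>
    rw [Function.iterate_succ_apply']
    have := sz_lpStep_le h ((lpStep ζ cs)^[T] [])
    rw [Nat.succ_mul]; omega

theorem lp_pt {ζ : α → ℚ} {cs : α → List Con} {T : α → ℕ} (h₁ : PT ζ) (h₂ : PT cs) (h₃ : PT T)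
    (h₄ : PB T) : PT fun a => lp (ζ a) (cs a) (T a) := by
  obtain ⟨G, hG, hG'⟩ := PB.mem_bound (G := fun p : α × Con => sz (scaleR (-ζ p.1) p.2.1)) h₂
    (PB.sz (by fun_prop))
  unfold lp
  exact PT.iterate_grow (f := fun a => lpStep (ζ a) (cs a)) h₃ h₄ (PT.const _) (by fun_prop) hG
    fun a v => sz_lpStep_le (hG' a) v

@[fun_prop] theorem baseCons_pt {ks : α → List Mask} {kn : α → List Bool} (h : PT ks) (h' : PT kn) :
    PT fun a => baseCons (ks a) (kn a) := by
  unfold baseCons; fun_prop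

@[fun_prop] theorem hit_pt {U τ : α → List Bool} (h : PT U) (h' : PT τ) :
    PT fun a => hit (U a) (τ a) := by
  unfold hit; fun_prop

@[fun_prop] theorem freq_pt {U : α → Mask} {τs : α → List (List Bool)} (h : PT U) (h' : PT τs) :
    PT fun a => freq (U a) (τs a) := by
  unfold freq; fun_prop

@[fun_prop] theorem pmStep_pt {x d : α → ℤ} {U : α → Mask} {b : α → Bool} {row : α → List ℤ}
    (h₁ : PT x) (h₂ : PT d) (h₃ : PT U) (h₄ : PT b) (h₅ : PT row) :
    PT fun a => pmStep (x a) (d a) (U a) (b a) (row a) := by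
  unfold pmStep; fun_prop

theorem natAbs_getD_le {row : List ℤ} {B : ℕ} (h : ∀ z ∈ row, z.natAbs ≤ B) (j : ℕ) :
    (row.getD j 0).natAbs ≤ B := by
  rw [List.getD_eq_getElem?_getD]
  rcases hj : row[j]? with _ | z
  · simp
  · exact h z (List.mem_of_getElem? hj)

theorem pmStep_bound {x d : ℤ} {U : Mask} {b : Bool} {row : List ℤ} {B : ℕ}
    (h : ∀ z ∈ row, z.natAbs ≤ B) :
    ∀ z ∈ pmStep x d U b row, z.natAbs ≤ (2 * x.natAbs + d.natAbs + 1) * B := by
  intro z hz
  unfold pmStep at hz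
  obtain ⟨j, -, rfl⟩ := List.mem_map.1 hz
  have h1 := natAbs_getD_le h j
  have h2 := natAbs_getD_le h (j + 1)
  have h3 : (d - x).natAbs ≤ d.natAbs + x.natAbs := Int.natAbs_sub_le _ _
  have h4 : ((d - x) * row.getD j 0).natAbs ≤ (d.natAbs + x.natAbs) * B := by
    rw [Int.natAbs_mul]; exact Nat.mul_le_mul h3 h1
  have h5 : (x * row.getD (j + 1) 0).natAbs ≤ x.natAbs * B := by
    rw [Int.natAbs_mul]; exact Nat.mul_le_mul_left _ h2
  refine (Int.natAbs_add_le _ _).trans ?_
  have h6 : (2 * x.natAbs + d.natAbs + 1) * B = (d.natAbs + x.natAbs) * B + x.natAbs * B + B := by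
    ring
  split_ifs <;> (try simp only [Int.natAbs_zero]) <;> omega

/-- `foldr_inv`: the row keeps its length, and after `j` rounds its entries are at most
`(2 (|num| + den)) ^ j` in absolute value. -/
@[fun_prop] theorem pmQ_pt {p : α → ℚ} {S U : α → Mask} (h₁ : PT p) (h₂ : PT S) (h₃ : PT U) :
    PT fun a => pmQ (p a) (S a) (U a) := by
  have key : PT fun a => (S a).foldr (pmStep (p a).num (p a).den (U a))
      ((List.range ((S a).length + 1)).map fun j =>
        if ((U a).drop j).any (fun b => b) then (0 : ℤ) else 1) := by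
    refine PT.foldr_inv (f := fun a => pmStep (p a).num (p a).den (U a))
      (fun a k c => c.length = (S a).length + 1 ∧
        ∀ z ∈ c, z.natAbs ≤ (2 * (p a).num.natAbs + (p a).den + 1) ^ k) h₂ (by fun_prop) ?_ ?_
      (PT.restrict (f := fun q : α × Bool × List ℤ =>
        pmStep (p q.1).num (p q.1).den (U q.1) q.2.1 q.2.2) (by fun_prop) _)
      (B := fun a => ((S a).length + 1) * (4 * (sz (2 * (p a).num.natAbs + (p a).den + 1) *
        (S a).length + 1) + 5 + 1) + 1) (by fun_prop) ?_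
    · intro a
      refine ⟨by simp, fun z hz => ?_⟩
      obtain ⟨j, -, rfl⟩ := List.mem_map.1 hz
      split_ifs <;> simp
    · rintro a k c b - - ⟨h1, h2⟩
      refine ⟨by simp [pmStep, h1], fun z hz => ?_⟩
      have := pmStep_bound h2 z hz
      rw [pow_succ']; simpa using this
    · rintro a k c hk ⟨h1, h2⟩
      rw [← h1]
      refine sz_list_le fun z hz => sz_int_le_of_lt ((h2 z hz).trans_lt ?_)
      set X := 2 * (p a).num.natAbs + (p a).den + 1
      calc X ^ k ≤ (2 ^ sz X) ^ k := Nat.pow_le_pow_left (lt_two_pow_sz X).le _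
        _ ≤ (2 ^ sz X) ^ (S a).length := Nat.pow_le_pow_right (by positivity) hk
        _ < 2 ^ (sz X * (S a).length + 1) := by
          rw [← pow_mul]; exact Nat.pow_lt_pow_right (by norm_num) (by omega)
  unfold pmQ; fun_prop

@[fun_prop] theorem trCons_pt {p ε : α → ℚ} {ks : α → List Mask} {τs : α → List (List Bool)}
    (h₁ : PT p) (h₂ : PT ε) (h₃ : PT ks) (h₄ : PT τs) :
    PT fun a => trCons (p a) (ε a) (ks a) (τs a) := by
  unfold trCons; fun_prop

@[fun_prop] theorem fw_pt {D : α → Orc} {K : α → QFeat} {z : α → ℤ} (h₁ : PT D) (h₂ : PT K)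
    (h₃ : PT z) : PT fun a => fw (D a) (K a) (z a) := by
  unfold fw; fun_prop

@[fun_prop] theorem car_pt {D : α → Orc} {c : α → QFeat × ℤ} {m : α → ℕ} (h₁ : PT D) (h₂ : PT c)
    (h₃ : PT m) : PT fun a => car (D a) (c a) (m a) := by
  unfold car; fun_prop

@[fun_prop] theorem e2_pt {D : α → Orc} {c : α → QFeat × ℤ} (h₁ : PT D) (h₂ : PT c) :
    PT fun a => e2 (D a) (c a) := by
  unfold e2; fun_prop

@[fun_prop] theorem e3_pt {D : α → Orc} {K : α → QFeat} {z : α → ℤ} {c : α → QFeat × ℤ}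
    {m : α → ℕ} (h₁ : PT D) (h₂ : PT K) (h₃ : PT z) (h₄ : PT c) (h₅ : PT m) :
    PT fun a => e3 (D a) (K a) (z a) (c a) (m a) := by
  unfold e3; fun_prop

@[fun_prop] theorem e4_pt {D : α → Orc} {c c' : α → QFeat × ℤ} {m m' : α → ℕ} (h₁ : PT D)
    (h₂ : PT c) (h₃ : PT m) (h₄ : PT c') (h₅ : PT m') :
    PT fun a => e4 (D a) (c a) (m a) (c' a) (m' a) := by
  unfold e4; fun_prop

@[fun_prop] theorem best_pt {D : α → Orc} {cand : α → List (QFeat × ℤ)} {m : α → ℕ} (h₁ : PT D)
    (h₂ : PT cand) (h₃ : PT m) : PT fun a => best (D a) (cand a) (m a) := by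
  unfold best; fun_prop

@[fun_prop] theorem isA_pt {D : α → Orc} {cand : α → List (QFeat × ℤ)} {ms : α → List ℕ}
    {κ : α → ℚ} (h₁ : PT D) (h₂ : PT cand) (h₃ : PT ms) (h₄ : PT κ) :
    PT fun a => isA (D a) (cand a) (ms a) (κ a) := by
  unfold isA; fun_prop

@[fun_prop] theorem rnd_pt {u : α → ℕ} {z : α → QC} (h : PT u) (h' : PT z) :
    PT fun a => rnd (u a) (z a) := by
  unfold rnd rnd1; fun_prop

theorem ratH_rnd1_le (u : ℕ) (x : ℚ) : ratH (rnd1 u x) ≤ 3 * u + 3 := by
  unfold rnd1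
  rcases le_total ((⌊x * u⌋ : ℚ) / u) 2 with h | h
  · rw [min_eq_right h]
    rcases le_total (-2) ((⌊x * u⌋ : ℚ) / u) with h' | h'
    · rw [max_eq_right h']
      rcases Nat.eq_zero_or_pos u with rfl | hu
      · simp
      · have hu' : (0 : ℚ) < u := by exact_mod_cast hu
        have e : ((⌊x * u⌋ : ℚ) / u) = mkRat ⌊x * u⌋ u := by rw [Rat.mkRat_eq_div]
        rw [div_le_iff₀ hu'] at h
        rw [le_div_iff₀ hu'] at h'
        have h1 : ⌊x * u⌋ ≤ 2 * (u : ℤ) := by exact_mod_cast h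
        have h2 : -2 * (u : ℤ) ≤ ⌊x * u⌋ := by exact_mod_cast h'
        rw [e]
        have := ratH_mkRat_le ⌊x * u⌋ hu.ne'
        omega
    · rw [max_eq_left h']
      have : ratH (-2) = 3 := by decide
      omega
  · rw [min_eq_left h, max_eq_right (by norm_num)]
    have : ratH 2 = 3 := by decide
    omega

theorem sz_rnd_le (u : ℕ) (z : QC) : sz (rnd u z) ≤ 16 * sz (3 * u + 3) + 15 := by
  unfold rnd
  have h1 := sz_rat_le_of_lt ((ratH_rnd1_le u z.1).trans_lt (lt_two_pow_sz _))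
  have h2 := sz_rat_le_of_lt ((ratH_rnd1_le u z.2).trans_lt (lt_two_pow_sz _))
  rw [sz_mk]; omega

attribute [local irreducible] rnd qdiv qcj e2 e3 e4 best

/-- `foldl_grow`: a rounded number has height at most `3 u + 3`. -/
@[fun_prop] theorem chain_pt {D : α → Orc} {cand : α → List (QFeat × ℤ)} {ms : α → List ℕ}
    {u : α → ℕ} (h₁ : PT D) (h₂ : PT cand) (h₃ : PT ms) (h₄ : PT u) :
    PT fun a => chain (D a) (cand a) (ms a) (u a) := by
  unfold chain
  have hstep : PT fun p : α × List QC × ℕ => p.2.1 ++ [rnd (u p.1) (qdiv (e4 (D p.1)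
      (best (D p.1) (cand p.1) (p.2.2 + 1)) (p.2.2 + 1) (best (D p.1) (cand p.1) p.2.2) p.2.2)
      (qcj (p.2.1.getD p.2.2 (0, 0))))] := by
    refine PT.append (by fun_prop) (PT.cons (rnd_pt (by fun_prop) (qdiv_pt (e4_pt (by fun_prop)
      (best_pt (by fun_prop) (by fun_prop) (by fun_prop)) (by fun_prop)
      (best_pt (by fun_prop) (by fun_prop) (by fun_prop)) (by fun_prop))
      (qcj_pt (by fun_prop)))) (PT.const _))
  have hinit : PT fun a => [rnd (u a) (e2 (D a) (best (D a) (cand a) 0))] :=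
    PT.cons (rnd_pt h₄ (e2_pt h₁ (best_pt h₁ h₂ (PT.const _)))) (PT.const _)
  refine PT.foldl_grow (f := fun a cs m => cs ++ [rnd (u a) (qdiv (e4 (D a) (best (D a) (cand a) (m + 1))
      (m + 1) (best (D a) (cand a) m) m) (qcj (cs.getD m (0, 0))))]) h₃ hinit hstep
    (G := fun p => 16 * sz (3 * u p.1 + 3) + 16) (by fun_prop) fun a c b _ => ?_
  have h1 := sz_append c [rnd (u a) (qdiv (e4 (D a) (best (D a) (cand a) (b + 1))
      (b + 1) (best (D a) (cand a) b) b) (qcj (c.getD b (0, 0))))]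
  have h2 := sz_rnd_le (u a) (qdiv (e4 (D a) (best (D a) (cand a) (b + 1))
      (b + 1) (best (D a) (cand a) b) b) (qcj (c.getD b (0, 0))))
  simp only [sz_cons, sz_nil] at h1
  dsimp only
  omega

@[fun_prop] theorem fhat_pt {D : α → Orc} {cand : α → List (QFeat × ℤ)} {cs : α → List QC}
    {K : α → QFeat} {b : α → ℕ} (h₁ : PT D) (h₂ : PT cand) (h₃ : PT cs) (h₄ : PT K) (h₅ : PT b) :
    PT fun a => fhat (D a) (cand a) (cs a) (K a) (b a) := by
  unfold fhat; fun_prop

@[fun_prop] theorem rad_pt {ps : α → List ℚ} {y : α → ℚ} (h : PT ps) (h' : PT y) :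
    PT fun a => rad (ps a) (y a) := by
  unfold rad; fun_prop

@[fun_prop] theorem candQ_pt {F : α → List QFeat} {zs : α → List ℤ} (h : PT F) (h' : PT zs) :
    PT fun a => candQ (F a) (zs a) := by
  unfold candQ; fun_prop

@[fun_prop] theorem consA_pt {D : α → Orc} {F : α → List QFeat} {cand : α → List (QFeat × ℤ)}
    {ms bs : α → List ℕ} {u : α → ℕ} {κ : α → ℚ} (h₁ : PT D) (h₂ : PT F) (h₃ : PT cand)
    (h₄ : PT ms) (h₅ : PT bs) (h₆ : PT u) (h₇ : PT κ) :
    PT fun a => consA (D a) (F a) (cand a) (ms a) (bs a) (u a) (κ a) := by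
  unfold consA; fun_prop

@[fun_prop] theorem consB_pt {D : α → Orc} {cand : α → List (QFeat × ℤ)} {ps : α → List ℚ}
    {κ : α → ℚ} (h₁ : PT D) (h₂ : PT cand) (h₃ : PT ps) (h₄ : PT κ) :
    PT fun a => consB (D a) (cand a) (ps a) (κ a) := by
  unfold consB; fun_prop

end Crest.Agent.R300
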