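import Crest.Agent.R300.UAlg
import Crest.Agent.R300.UPar

/-!
# R300 upper bound: polynomial time, tables and parameters (task UPT2)

Read the user guide in `Lib/PT/All.lean`.
-/

set_option autoImplicit false

namespace Crest.Agent.R300

open Crest.Agent.Lib.PT

variable {α : Type} [Enc α]

theorem unitM_pt {n i : α → ℕ} (hn : PT n) (hb : PB n) (hi : PT i) :
    PT fun a => unitM (n a) (i a) := by
  unfold unitM; fun_prop

theorem oneQ_pt {n : α → ℕ} (hn : PT n) (hb : PB n) : PT fun a => oneQ (n a) := by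
  unfold oneQ; fun_prop

theorem leafQ_pt {n : α → ℕ} (hn : PT n) (hb : PB n) : PT fun a => leafQ (n a) := by
  unfold leafQ
  exact PT.map (hn.range hb) (PT.cons (PT.pair (unitM_pt (by fun_prop) (by fun_prop) (by fun_prop))
    (PT.const _)) (PT.const _))

theorem natAbs_gpw_le (S m : ℕ) :
    (gpw S m).1.natAbs ≤ (S * S + 2 * S + 1) ^ m ∧ (gpw S m).2.natAbs ≤ (S * S + 2 * S + 1) ^ m := by
  induction m with
  | zero => simp [gpw]
  | succ m ih =>
    obtain ⟨h1, h2⟩ := ih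
    have e : gpw S (m + 1) = ((gpw S m).1 * ((S : ℤ) * S - 1) - (gpw S m).2 * (2 * S),
        (gpw S m).1 * (2 * S) + (gpw S m).2 * ((S : ℤ) * S - 1)) := by
      rw [gpw, Function.iterate_succ_apply']; rfl
    have a1 : ((S : ℤ) * S - 1).natAbs ≤ S * S + 1 := by
      have := Int.natAbs_sub_le ((S : ℤ) * S) 1
      simpa [Int.natAbs_mul] using this
    have a2 : (2 * (S : ℤ)).natAbs = 2 * S := by simp [Int.natAbs_mul]
    have b1 := Nat.mul_le_mul h1 a1
    have b2 := Nat.mul_le_mul h2 a1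
    have b3 := Nat.mul_le_mul_right (2 * S) h1
    have b4 := Nat.mul_le_mul_right (2 * S) h2
    rw [e, pow_succ]
    refine ⟨(Int.natAbs_sub_le _ _).trans ?_, (Int.natAbs_add_le _ _).trans ?_⟩ <;>
      rw [Int.natAbs_mul (gpw S m).1, Int.natAbs_mul (gpw S m).2, a2] <;> nlinarith

private theorem gpw_pt {S m : α → ℕ} (hS : PT S) (hm : PT m) (hb : PB m) :
    PT fun a => gpw (S a) (m a) := by
  have hB : PT fun a => (S a * S a + 2 * S a + 1) ^ m a := by fun_prop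
  refine PT.iterate (f := fun a (z : ℤ × ℤ) => (z.1 * ((S a : ℤ) * S a - 1) - z.2 * (2 * S a),
    z.1 * (2 * S a) + z.2 * ((S a : ℤ) * S a - 1))) hm hb (PT.const (1, 0)) (by fun_prop)
    (B := fun a => 4 * sz ((S a * S a + 2 * S a + 1) ^ m a) + 9) (by fun_prop) fun a k hk => ?_
  obtain ⟨h1, h2⟩ := natAbs_gpw_le (S a) k
  have h3 : (S a * S a + 2 * S a + 1) ^ k ≤ (S a * S a + 2 * S a + 1) ^ m a :=
    Nat.pow_le_pow_right (by omega) hk
  have h4 := sz_int_le_of_le (h1.trans h3)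
  have h5 := sz_int_le_of_le (h2.trans h3)
  change sz (gpw (S a) k) ≤ _
  rw [sz_prod]
  omega

theorem pwTab_pt {S cap : α → ℕ} (hS : PT S) (hc : PT cap) (hb : PB cap) :
    PT fun a => pwTab (S a) (cap a) := by
  unfold pwTab
  have hi := PB.idx (n := fun a => cap a + 1) (by fun_prop)
  have hg : PT fun p : {p : α × ℕ // p.2 < cap p.1 + 1} => gpw (S p.1.1) p.1.2 :=
    gpw_pt (by fun_prop) (by fun_prop) hi
  have hq : PT fun p : {p : α × ℕ // p.2 < cap p.1 + 1} =>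
      ((S p.1.1 * S p.1.1 + 1 : ℕ) : ℚ) ^ p.1.2 := PT.rat_pow (by fun_prop) (by fun_prop) hi
  exact PT.map_range (by fun_prop) (by fun_prop)
    ((hg.fst.rat_intCast.rat_div hq).pair (hg.snd.rat_intCast.rat_div hq))

private theorem uuQ_pt {J L d : α → ℕ} (hJ : PT J) (hJ' : PB J) (hL : PT L) (hd : PT d)
    (hd' : PB d) : PT fun a => uuQ (J a) (L a) (d a) := by
  have hq : PT fun a => (1 - 1 / (32 * (L a : ℚ))) ^ d a := by fun_prop
  have hi := PB.idx (n := fun a => J a + 1) (by fun_prop)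
  have h1 : PB fun p : {p : α × ℕ // p.2 < J p.1 + 1} => J p.1.1 := by fun_prop
  have h2 : PT fun p : {p : α × ℕ // p.2 < J p.1 + 1} => (1 - 1 / (32 * (L p.1.1 : ℚ))) ^ d p.1.1 :=
    hq.comp (f := fun p : {p : α × ℕ // p.2 < J p.1 + 1} => p.1.1) (by fun_prop)
  unfold uuQ
  exact (PT.map_range (by fun_prop) (by fun_prop)
    (((PT.choose (by fun_prop) (by fun_prop) (h1.add hi)).rat_natCast.rat_mul
      (h2.rat_pow (by fun_prop) (h1.add hi))).rat_mul
      (((PT.const 1).rat_sub h2).rat_pow (by fun_prop) (h1.sub _)))).rat_sum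

theorem uTab_pt {n J L : α → ℕ} (hn : PT n) (hb : PB n) (hJ : PT J) (hJ' : PB J) (hL : PT L) :
    PT fun a => uTab (n a) (J a) (L a) := by
  unfold uTab
  exact PT.map_range hn hb ((uuQ_pt (by fun_prop) (by fun_prop) (by fun_prop) (by fun_prop)
    (PB.idx hb)).rat_div (by fun_prop))

theorem zrange_pt {M : α → ℕ} (hM : PT M) (hb : PB M) : PT fun a => zrange (M a) := by
  unfold zrange; fun_prop

private theorem winStep_le {h B : ℕ} {row : List ℕ} (hr : ∀ x ∈ row, x ≤ B) :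
    ∀ x ∈ winStep h row, x ≤ (2 * h + 1) * B := by
  intro x hx
  obtain ⟨d, -, rfl⟩ := List.mem_map.1 hx
  refine (List.sum_le_card_nsmul _ B fun y hy => ?_).trans_eq (by simp)
  obtain ⟨u, -, rfl⟩ := List.mem_map.1 hy
  split_ifs
  · rw [List.getD_eq_getElem?_getD]
    cases e : row[d - u]? with
    | none => exact Nat.zero_le _
    | some z => exact hr z (List.mem_of_getElem? e)
  · exact Nat.zero_le _

private theorem winRow_pt {L h r : α → ℕ} (hL : PT L) (hL' : PB L) (hh : PT h)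
    (hh' : PB h) (hr : PT r) (hr' : PB r) : PT fun a => winRow (L a) (h a) (r a) := by
  have hB : PT fun a => (2 * h a + 1) ^ r a := by fun_prop
  unfold winRow
  refine PT.iterate_inv (f := fun a => winStep (h a))
    (fun a k row => row.length = 2 * L a + 1 ∧ ∀ x ∈ row, x ≤ (2 * h a + 1) ^ k) hr hr'
    (by fun_prop) (fun a => ⟨by simp, fun x hx => ?_⟩)
    (fun a k c _ hc => ⟨by rw [winStep, List.length_map, List.length_range, hc.1], fun x hx => ?_⟩)
    (PT.restrict (f := fun p : α × List ℕ => winStep (h p.1) p.2) (by unfold winStep; fun_prop) _)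
    (B := fun a => (2 * L a + 1) * (2 * sz ((2 * h a + 1) ^ r a) + 1) + 1) (by fun_prop)
    fun a k c hk hc => ?_
  · obtain ⟨d, -, rfl⟩ := List.mem_map.1 hx
    split_ifs <;> simp
  · rw [pow_succ']
    exact winStep_le hc.2 x hx
  · rw [← hc.1]
    exact sz_list_le fun x hx => sz_nat_le_of_le ((hc.2 x hx).trans
      (Nat.pow_le_pow_right (by omega) hk))

/-- The row keeps its length `2 L + 1`; after `j` rounds its entries are at most `(2 h + 1) ^ j`. -/
theorem winQ_pt {n L h r t : α → ℕ} (hn : PT n) (hn' : PB n) (hL : PT L) (hL' : PB L) (hh : PT h)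
    (hh' : PB h) (hr : PT r) (hr' : PB r) (ht : PT t) :
    PT fun a => winQ (n a) (L a) (h a) (r a) (t a) := by
  have hw := winRow_pt hL hL' hh hh' hr hr'
  have hd : PT fun a => ((2 * h a + 1 : ℕ) : ℚ) ^ r a * (2 * L a) := by fun_prop
  unfold winQ
  exact PT.map (hn.range hn') (PT.ite (by fun_prop) (((hw.comp PT.id.fst).getD (by fun_prop)
    (PT.const 0)).rat_natCast.rat_div (hd.comp PT.id.fst)) (PT.const 0))

theorem keys_pt {n N : α → ℕ} (hn : PT n) (hn' : PB n) (hN : PT N) (hN' : PB N)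
    (h : PB fun a => (n a + 1) ^ N a) : PT fun a => keys (n a) (N a) := by
  have hw : PT fun a => PT.words (List.range (n a)) (N a) :=
    PT.words_pt (hn.range hn') hN hN' (by simpa using h)
  unfold keys
  fun_prop

/-- On all inputs: `pNu`, `pSs`, `pK` are polynomially bounded (`pSs ≤ pNu + 3`, `2 ^ pK ≤ 2 (pNu + 1)`). -/
theorem pSs_pt {n : α → ℕ} {p : α → ℚ} (hn : PT n) (hp : PT p) :
    (PT fun a => pSs (n a) (p a)) ∧ PB fun a => pSs (n a) (p a) := by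
  unfold pSs pNu
  exact ⟨by fun_prop, (PB.const 3).max (PB.min_right _ (by fun_prop))⟩

theorem pK_pt {n : α → ℕ} {p : α → ℚ} (hn : PT n) (hp : PT p) :
    (PT fun a => pK (n a) (p a)) ∧ PB fun a => pK (n a) (p a) := by
  have := (pSs_pt hn hp).1
  unfold pK pNu
  exact ⟨by fun_prop, by fun_prop⟩

private theorem pEps_pt {s k : α → ℕ} (hs : PT s) (hk : PT k) :
    (PT fun a => pEps (s a) (k a)) ∧ PB fun a => pEps (s a) (k a) := by
  unfold pEps
  exact ⟨by fun_prop, by fun_prop⟩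

private theorem pJ_pt {s k l : α → ℕ} (hs : PT s) (_hs' : PB s) (hk : PT k) (hk' : PB k) (hl : PT l)
    (hl' : PB l) : PT fun a => pJ (s a) (k a) (l a) := by
  obtain ⟨h1, h2⟩ := pEps_pt hs hk
  unfold pJ pT pTau
  fun_prop

private theorem pE_pt {s k l : α → ℕ} (hs : PT s) (hk : PT k) (hl : PT l)
    (hl' : PB l) : PT fun a => pE (s a) (k a) (l a) := by
  obtain ⟨h1, h2⟩ := pEps_pt hs hk
  unfold pE
  fun_prop

private theorem pLam_pt {s k l : α → ℕ} (hs : PT s) (hk : PT k) (hl : PT l)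
    (hl' : PB l) : PT fun a => pLam (s a) (k a) (l a) := by
  obtain ⟨h1, h2⟩ := pEps_pt hs hk
  unfold pLam pH pRho pTau
  fun_prop

theorem pB_pt {n : α → ℕ} {p : α → ℚ} (hn : PT n) (hp : PT p) : PT fun a => pB (n a) (p a) := by
  obtain ⟨h1, h2⟩ := pSs_pt hn hp
  obtain ⟨h3, h4⟩ := pK_pt hn hp
  have := pJ_pt h1 h2 h3 h4 h3 h4
  unfold pB pB2
  fun_prop

theorem okQ_pt {n m : α → ℕ} {p : α → ℚ} (hn : PT n) (hp : PT p) (hm : PT m) :
    PT fun a => okQ (n a) (p a) (m a) := by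
  have := pB_pt hn hp
  unfold okQ
  fun_prop

/-- All parameters of the levels `l ≤ k` are at most `2 ^ pB` (`le_pJ_top`, `pLam_le`, `pMT_le`,
`pB2_le_pB`, `keys_bound`). -/
theorem par_le (n : ℕ) {p : ℚ} (hp : 0 < p) {l : ℕ} (hl : l ≤ pK n p) :
    n ≤ 2 ^ pB n p ∧ 4 ^ pK n p ≤ pB n p ∧ pJ (pSs n p) (pK n p) l ≤ pB n p ∧
      20 * pE (pSs n p) (pK n p) (l + 1) ≤ pB n p ∧ pLA (pSs n p) (pK n p) l ≤ 2 ^ pB n p ∧
      16 * pS (pSs n p) (pK n p) l ≤ 2 ^ pB n p ∧ 4 * pMT (pSs n p) (pK n p) l ≤ 2 ^ pB n p := by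
  have hs := pSs_ge n p
  have hk := pK_pos n p
  have h0 := keys_bound n hp
  have h1 := pB2_le_pB n hp
  have h2 := (le_pJ_top hk (pNu_add_le n p)).1
  have h3 := pJ_mono (s := pSs n p) (k := pK n p) hl
  have h4 := pE_le_pJ (s := pSs n p) hl
  have h5 := pLam_le hs hk l
  have h6 := pLam_succ (pSs n p) (pK n p) l
  have h7 := pE_succ (pSs n p) (pK n p) l
  have h8 := pE_ge (pSs n p) (pK n p) l
  have h9 := pMT_le (pSs n p) (pK n p) l
  have hJ : pJ (pSs n p) (pK n p) (pK n p) ≤ pB n p :=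
    le_trans (Nat.le_mul_of_pos_left _ (by omega)) h1
  have hS : 16 * pS (pSs n p) (pK n p) l ≤ 2 ^ pB n p := by
    rw [pS, show 16 = 2 ^ 4 from rfl, ← pow_add]
    exact Nat.pow_le_pow_right (by omega) (by omega)
  refine ⟨?_, ?_, by omega, by omega, Nat.pow_le_pow_right (by omega) (by omega), hS, by omega⟩
  · have := Nat.le_self_pow (n := 4 ^ pK n p) (by positivity) (n + 1)
    omega
  · exact (Nat.le_mul_of_pos_right _ (Nat.succ_pos _)).trans (h2.trans hJ)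

/-- The standing assumptions on the inputs. -/
structure Inp (n : α → ℕ) (p : α → ℚ) : Prop where
  hn : PT n
  hp : PT p
  h0 : ∀ a, 0 < p a
  hM : PB fun a => 2 ^ pB (n a) (p a)

theorem Inp.comp {β : Type} [Enc β] {n : α → ℕ} {p : α → ℚ} (h : Inp n p) {f : β → α} (hf : PT f) :
    Inp (fun b => n (f b)) (fun b => p (f b)) := by
  exact ⟨h.hn.comp hf, h.hp.comp hf, fun b => h.h0 _, h.hM.comp hf⟩

theorem Inp.pb_n {n : α → ℕ} {p : α → ℚ} (h : Inp n p) : PB n := by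
  exact h.hM.mono fun a => (par_le _ (h.h0 a) (Nat.zero_le _)).1

private theorem Inp.pLA_pt {n l : α → ℕ} {p : α → ℚ} (h : Inp n p) (hl : PT l)
    (hlk : ∀ a, l a ≤ pK (n a) (p a)) :
    (PT fun a => pLA (pSs (n a) (p a)) (pK (n a) (p a)) (l a)) ∧
      PB fun a => pLA (pSs (n a) (p a)) (pK (n a) (p a)) (l a) := by
  obtain ⟨k1, k2⟩ := pK_pt h.hn h.hp
  have b : PB fun a => pLA (pSs (n a) (p a)) (pK (n a) (p a)) (l a) :=
    h.hM.mono fun a => (par_le (n a) (h.h0 a) (hlk a)).2.2.2.2.1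
  exact ⟨(PT.const 2).nat_pow (pLam_pt (pSs_pt h.hn h.hp).1 k1 hl (k2.mono hlk))
    (b.mono fun a => Nat.lt_two_pow_self.le), b⟩

/-- The level parameters are computable and bounded. -/
theorem Inp.par {n l : α → ℕ} {p : α → ℚ} (h : Inp n p) (hl : PT l)
    (hlk : ∀ a, l a ≤ pK (n a) (p a)) :
    ((PT fun a => pJ (pSs (n a) (p a)) (pK (n a) (p a)) (l a)) ∧
      PB fun a => pJ (pSs (n a) (p a)) (pK (n a) (p a)) (l a)) ∧
    ((PT fun a => pE (pSs (n a) (p a)) (pK (n a) (p a)) (l a)) ∧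
      PB fun a => pE (pSs (n a) (p a)) (pK (n a) (p a)) (l a)) ∧
    ((PT fun a => pE (pSs (n a) (p a)) (pK (n a) (p a)) (l a + 1)) ∧
      PB fun a => pE (pSs (n a) (p a)) (pK (n a) (p a)) (l a + 1)) ∧
    ((PT fun a => pLA (pSs (n a) (p a)) (pK (n a) (p a)) (l a)) ∧
      PB fun a => pLA (pSs (n a) (p a)) (pK (n a) (p a)) (l a)) ∧
    ((PT fun a => pLB (pSs (n a) (p a)) (pK (n a) (p a)) (l a)) ∧
      PB fun a => pLB (pSs (n a) (p a)) (pK (n a) (p a)) (l a)) ∧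
    ((PT fun a => pS (pSs (n a) (p a)) (pK (n a) (p a)) (l a)) ∧
      PB fun a => pS (pSs (n a) (p a)) (pK (n a) (p a)) (l a)) ∧
    ((PT fun a => pMA (pSs (n a) (p a)) (pK (n a) (p a)) (l a)) ∧
      PB fun a => pMA (pSs (n a) (p a)) (pK (n a) (p a)) (l a)) ∧
    ((PT fun a => pMT (pSs (n a) (p a)) (pK (n a) (p a)) (l a)) ∧
      PB fun a => pMT (pSs (n a) (p a)) (pK (n a) (p a)) (l a)) ∧
    (PT fun a => pSg (pSs (n a) (p a)) (pK (n a) (p a)) (l a)) := by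
  obtain ⟨s1, s2⟩ := pSs_pt h.hn h.hp
  obtain ⟨k1, k2⟩ := pK_pt h.hn h.hp
  have l2 : PB l := k2.mono hlk
  have P := fun a => par_le (n a) (h.h0 a) (hlk a)
  have hB : ∀ a, pB (n a) (p a) ≤ 2 ^ pB (n a) (p a) := fun a => Nat.lt_two_pow_self.le
  have bE1 : PB fun a => pE (pSs (n a) (p a)) (pK (n a) (p a)) (l a + 1) :=
    h.hM.mono fun a => by have := P a; have := hB a; omega
  have bE : PB fun a => pE (pSs (n a) (p a)) (pK (n a) (p a)) (l a) :=
    bE1.mono fun a => by rw [pE_succ]; omega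
  have tE := pE_pt s1 k1 hl l2
  have tE1 := pE_pt s1 k1 (l := fun a => l a + 1) (by fun_prop) (by fun_prop)
  obtain ⟨tA, bA⟩ := h.pLA_pt hl hlk
  have tA' := (h.pLA_pt (l := fun a => l a - 1) (by fun_prop)
    fun a => (Nat.sub_le _ _).trans (hlk a)).1
  have tS : PT fun a => pS (pSs (n a) (p a)) (pK (n a) (p a)) (l a) :=
    (PT.const 2).nat_pow ((PT.const 8).nat_mul tE) ((PB.const 8).mul bE)
  have bT : PB fun a => pMT (pSs (n a) (p a)) (pK (n a) (p a)) (l a) :=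
    h.hM.mono fun a => by have := P a; omega
  have tS0 : PT fun a => if l a = 0 then 4 * pS (pSs (n a) (p a)) (pK (n a) (p a)) (l a) else
      256 * pE (pSs (n a) (p a)) (pK (n a) (p a)) (l a) * pS (pSs (n a) (p a)) (pK (n a) (p a)) (l a) /
        pLA (pSs (n a) (p a)) (pK (n a) (p a)) (l a - 1) :=
    PT.ite (hl.eq (PT.const 0)) ((PT.const 4).nat_mul tS)
      ((((PT.const 256).nat_mul tE).nat_mul tS).nat_div tA')
  have tT0 : PT fun a => if l a = 0 then 4 * pS (pSs (n a) (p a)) (pK (n a) (p a)) (l a) else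
      2 ^ 37 * pE (pSs (n a) (p a)) (pK (n a) (p a)) (l a) ^ 2 *
        pS (pSs (n a) (p a)) (pK (n a) (p a)) (l a) /
        pLA (pSs (n a) (p a)) (pK (n a) (p a)) (l a - 1) :=
    PT.ite (hl.eq (PT.const 0)) ((PT.const 4).nat_mul tS)
      ((((PT.const (2 ^ 37)).nat_mul (tE.nat_pow (PT.const 2) (PB.const 2))).nat_mul tS).nat_div tA')
  refine ⟨⟨pJ_pt s1 s2 k1 k2 hl l2, h.hM.mono fun a => (P a).2.2.1.trans (hB a)⟩, ⟨tE, bE⟩,
    ⟨tE1, bE1⟩, ⟨tA, bA⟩, ⟨tA.nat_div ((PT.const (2 ^ 27)).nat_mul tE1), bA.div _⟩,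
    ⟨tS, h.hM.mono fun a => by have := P a; omega⟩,
    ⟨tS0.of_eq fun a => ?_, bT.mono fun a => pMA_le_pMT (pSs_ge _ _) (pK_pos _ _) _⟩,
    ⟨tT0.of_eq fun a => ?_, bT⟩, (tE1.nat_mul tS).nat_div ((PT.const 2).nat_mul tA)⟩
  · unfold pMA
    split_ifs with h0
    · rw [h0]
    · rfl
  · unfold pMT
    split_ifs with h0
    · rw [h0]
    · rfl

theorem Inp.lvPw {n l : α → ℕ} {p : α → ℚ} (h : Inp n p) (hl : PT l)
    (hlk : ∀ a, l a ≤ pK (n a) (p a)) :
    PT fun a => lvPw (n a) (pSs (n a) (p a)) (pK (n a) (p a)) (l a) := by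
  obtain ⟨-, -, -, -, -, ⟨h1, -⟩, -, ⟨h2, h3⟩, -⟩ := h.par hl hlk
  have := h.hn
  have := h.pb_n
  exact pwTab_pt h1 (by fun_prop) (by fun_prop)

theorem Inp.lwinQ {n l t : α → ℕ} {p : α → ℚ} {b : α → Bool} (h : Inp n p) (hl : PT l)
    (hlk : ∀ a, l a ≤ pK (n a) (p a)) (hb : PT b) (ht : PT t) :
    PT fun a => lwinQ (n a) (pSs (n a) (p a)) (pK (n a) (p a)) (l a) (b a) (t a) := by
  obtain ⟨-, -, ⟨h1, h2⟩, ⟨h3, h4⟩, ⟨h5, -⟩, -⟩ := h.par hl hlk
  have h6 : PT fun a => pL (pSs (n a) (p a)) (pK (n a) (p a)) (l a) (b a) :=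
    PT.ite hb.eq_true h3 h5
  have h7 : PB fun a => pL (pSs (n a) (p a)) (pK (n a) (p a)) (l a) (b a) :=
    h4.mono fun a => pL_le _ _ _ _
  exact winQ_pt h.hn h.pb_n h6 h7 (h6.nat_div ((PT.const 4).nat_mul h1)) (h7.div _) h1 h2 ht

theorem Inp.keysQ {n : α → ℕ} {p : α → ℚ} (h : Inp n p) : PT fun a => keysQ (n a) (p a) := by
  obtain ⟨k1, k2⟩ := pK_pt h.hn h.hp
  exact keys_pt h.hn h.pb_n ((PT.const 4).nat_pow k1 k2)
    (h.hM.mono fun a => (par_le _ (h.h0 a) (Nat.zero_le _)).2.1.trans Nat.lt_two_pow_self.le)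
    (h.hM.mono fun a => keys_bound _ (h.h0 a))

theorem Inp.zetaQ {n : α → ℕ} {p : α → ℚ} (h : Inp n p) : PT fun a => zetaQ (n a) (p a) := by
  exact (PT.const 1).rat_div ((PT.const 2).rat_pow (pB_pt h.hn h.hp)
    (h.hM.mono fun a => Nat.lt_two_pow_self.le))

theorem Inp.itQ {n : α → ℕ} {p : α → ℚ} (h : Inp n p) :
    (PT fun a => itQ (n a) (p a)) ∧ PB fun a => itQ (n a) (p a) := by
  exact ⟨(PT.const 2).nat_pow ((PT.const 3).nat_mul (pB_pt h.hn h.hp))
    ((PB.const 3).mul (h.hM.mono fun a => Nat.lt_two_pow_self.le)),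
    (h.hM.pow 3).mono fun a => by rw [R300.itQ, ← pow_mul, mul_comm]⟩

end Crest.Agent.R300
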