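import Crest.Agent.R300.UPT1
import Crest.Agent.R300.UPT2

/-!
# R300 upper bound: the size of the families (task UPT3)
-/

set_option autoImplicit false

namespace Crest.Agent.R300

open Crest.Agent.Lib.PT

variable {α : Type} [Enc α]

/-- Logarithmic height bound of a rational number. -/
private def LH (h : ℕ) (q : ℚ) : Prop := ratH q ≤ 2 ^ h

private theorem LH.mono {h h' : ℕ} {q : ℚ} (hq : LH h q) (hh : h ≤ h') : LH h' q :=
  le_trans hq (Nat.pow_le_pow_right two_pos hh)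

private theorem LH.mul {h h' : ℕ} {q r : ℚ} (hq : LH h q) (hr : LH h' r) : LH (h + h') (q * r) := by
  unfold LH at *
  rw [pow_add]
  exact (ratH_mul_le _ _).trans (Nat.mul_le_mul hq hr)

private theorem LH.add {h h' : ℕ} {q r : ℚ} (hq : LH h q) (hr : LH h' r) : LH (h + h') (q + r) := by
  unfold LH at *
  rw [pow_add]
  exact (ratH_add_le _ _).trans (Nat.mul_le_mul hq hr)

private theorem LH.sub {h h' : ℕ} {q r : ℚ} (hq : LH h q) (hr : LH h' r) : LH (h + h') (q - r) := by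
  unfold LH at *
  rw [pow_add]
  exact (ratH_sub_le _ _).trans (Nat.mul_le_mul hq hr)

private theorem LH.div {h h' : ℕ} {q r : ℚ} (hq : LH h q) (hr : LH h' r) : LH (h + h') (q / r) := by
  unfold LH at *
  rw [pow_add]
  exact (ratH_div_le _ _).trans (Nat.mul_le_mul hq hr)

private theorem LH.neg {h : ℕ} {q : ℚ} (hq : LH h q) : LH h (-q) := by
  unfold LH at *
  rwa [ratH_neg]

private theorem LH.zero (h : ℕ) : LH h 0 := by
  unfold LH
  rw [ratH_zero]
  exact Nat.one_le_two_pow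

private theorem LH.one : LH 1 1 := by
  unfold LH
  rw [ratH_one]
  rfl

private theorem LH.pow {h : ℕ} {q : ℚ} (hq : LH h q) (d : ℕ) : LH (h * d + 1) (q ^ d) := by
  induction d with
  | zero => simpa using LH.one
  | succ d ih =>
    rw [pow_succ]
    exact (ih.mul hq).mono (le_of_eq (by ring))

private theorem LH.nat {h m : ℕ} (hm : m ≤ 2 ^ h) : LH (h + 1) (m : ℚ) := by
  unfold LH
  rw [ratH_natCast, pow_succ]
  have : 1 ≤ 2 ^ h := Nat.one_le_two_pow
  omega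

private theorem LH.int {h : ℕ} {m : ℤ} (hm : m.natAbs ≤ 2 ^ h) : LH (h + 1) (m : ℚ) := by
  unfold LH
  rw [ratH_intCast, pow_succ]
  have : 1 ≤ 2 ^ h := Nat.one_le_two_pow
  omega

private theorem LH.sum {h : ℕ} {l : List ℚ} (hl : ∀ q ∈ l, LH h q) : LH (l.length * h) l.sum := by
  induction l with
  | nil => simpa using LH.zero 0
  | cons a l ih =>
    rw [List.sum_cons, List.length_cons]
    exact ((hl a (by simp)).add (ih fun q hq => hl q (by simp [hq]))).mono (le_of_eq (by ring))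

private theorem LH.getD {h : ℕ} {l : List ℚ} (hl : ∀ q ∈ l, LH h q) (i : ℕ) : LH h (l.getD i 0) := by
  rcases lt_or_ge i l.length with hi | hi
  · rw [List.getD_eq_getElem _ _ hi]
    exact hl _ (List.getElem_mem hi)
  · rw [List.getD_eq_default _ _ hi]
    exact LH.zero h

private theorem LH.sz_le {h : ℕ} {q : ℚ} (hq : LH h q) : sz q ≤ 8 * h + 15 := by
  have h1 : ratH q < 2 ^ (h + 1) := lt_of_le_of_lt hq (Nat.pow_lt_pow_right one_lt_two (by omega))
  have := sz_rat_le_of_lt h1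
  omega

/-- Logarithmic height bound of a complex rational number. -/
private def HB (h : ℕ) (z : QC) : Prop := LH h z.1 ∧ LH h z.2

private theorem HB.mono {h h' : ℕ} {z : QC} (hz : HB h z) (hh : h ≤ h') : HB h' z :=
  ⟨hz.1.mono hh, hz.2.mono hh⟩

private theorem HB.qmul {h h' : ℕ} {z w : QC} (hz : HB h z) (hw : HB h' w) :
    HB (2 * (h + h')) (qmul z w) :=
  ⟨((hz.1.mul hw.1).sub (hz.2.mul hw.2)).mono (le_of_eq (by ring)),
    ((hz.1.mul hw.2).add (hz.2.mul hw.1)).mono (le_of_eq (by ring))⟩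

private theorem HB.qsm {h h' : ℕ} {r : ℚ} {z : QC} (hr : LH h r) (hz : HB h' z) :
    HB (h + h') (qsm r z) :=
  ⟨hr.mul hz.1, hr.mul hz.2⟩

private theorem HB.gamT {h : ℕ} {pw : List QC} (hp : ∀ z ∈ pw, HB h z) (a : ℤ) :
    HB h (gamT pw a) := by
  have key : HB h (pw.getD a.natAbs (0, 0)) := by
    rcases lt_or_ge a.natAbs pw.length with hi | hi
    · rw [List.getD_eq_getElem _ _ hi]
      exact hp _ (List.getElem_mem hi)
    · rw [List.getD_eq_default _ _ hi]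
      exact ⟨LH.zero h, LH.zero h⟩
  unfold R300.gamT
  split_ifs
  · exact ⟨key.1, key.2.neg⟩
  · exact key

private theorem HB.sz_le {h : ℕ} {z : QC} (hz : HB h z) : sz z ≤ 16 * h + 31 := by
  have h1 := hz.1.sz_le
  have h2 := hz.2.sz_le
  rw [sz_prod]
  omega

/-- Bounds for a functional. -/
private def FB (n T h : ℕ) (φ : QFn) : Prop :=
  φ.length ≤ T ∧ ∀ e ∈ φ, e.1.length ≤ n ∧ HB h e.2

/-- Bounds for a feature. -/
private def KB (n T h : ℕ) (K : QFeat) : Prop := K.length ≤ n ∧ ∀ φ ∈ K, FB n T h φ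

private theorem FB.mono {n T T' h h' : ℕ} {φ : QFn} (hφ : FB n T h φ) (hT : T ≤ T') (hh : h ≤ h') :
    FB n T' h' φ :=
  ⟨hφ.1.trans hT, fun e he => ⟨(hφ.2 e he).1, (hφ.2 e he).2.mono hh⟩⟩

private theorem KB.mono {n T T' h h' : ℕ} {K : QFeat} (hK : KB n T h K) (hT : T ≤ T') (hh : h ≤ h') :
    KB n T' h' K :=
  ⟨hK.1, fun φ hφ => (hK.2 φ hφ).mono hT hh⟩

private theorem KB.getD {n T h : ℕ} {K : QFeat} (hK : KB n T h K) (i : ℕ) :
    FB n T h (K.getD i []) := by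
  rcases lt_or_ge i K.length with hi | hi
  · rw [List.getD_eq_getElem _ _ hi]
    exact hK.2 _ (List.getElem_mem hi)
  · rw [List.getD_eq_default _ _ hi]
    exact ⟨Nat.zero_le _, fun e he => by simp at he⟩

private theorem length_flatMap_le {β γ : Type} {l : List β} {f : β → List γ} {B : ℕ}
    (h : ∀ b ∈ l, (f b).length ≤ B) : (l.flatMap f).length ≤ l.length * B := by
  induction l with
  | nil => simp
  | cons a l ih =>
    rw [List.flatMap_cons, List.length_append, List.length_cons, add_mul, one_mul, add_comm]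
    exact Nat.add_le_add (ih fun b hb => h b (by simp [hb])) (h a (by simp))

private theorem FB.staQ {n T T' h h' : ℕ} {φ ψ : QFn} (hφ : FB n T h φ) (hψ : FB n T' h' ψ) :
    FB n (T * T') (2 * (h + h')) (staQ φ ψ) := by
  refine ⟨?_, ?_⟩
  · unfold R300.staQ
    refine (length_flatMap_le (B := T') fun a _ => ?_).trans (Nat.mul_le_mul_right _ hφ.1)
    rw [List.length_map]
    exact hψ.1
  · intro e he
    unfold R300.staQ at he
    obtain ⟨a, ha, he⟩ := List.mem_flatMap.1 he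
    obtain ⟨b, hb, rfl⟩ := List.mem_map.1 he
    refine ⟨?_, (hφ.2 a ha).2.qmul (hψ.2 b hb).2⟩
    rw [List.length_zipWith]
    exact (min_le_left _ _).trans (hφ.2 a ha).1

private theorem KB.staF {n T T' h h' : ℕ} {K K' : QFeat} (hK : KB n T h K) (hK' : KB n T' h' K') :
    KB n (T * T') (2 * (h + h')) (staF K K') := by
  refine ⟨?_, ?_⟩
  · unfold R300.staF
    rw [List.length_map, List.length_range]
    exact hK.1
  · intro φ hφ
    unfold R300.staF at hφ
    obtain ⟨i, _, rfl⟩ := List.mem_map.1 hφ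
    exact (hK.getD i).staQ (hK'.getD i)

private theorem KB.wfQ {n T h H : ℕ} {K : QFeat} (hK : KB n T h K) {pw : List QC} {g : List ℚ}
    (hp : ∀ z ∈ pw, HB H z) (hg : ∀ q ∈ g, LH H q) (hl : g.length ≤ n) (i : ℕ) (a : ℤ) :
    FB n (n * T) (2 * (H + H + h)) (wfQ pw g i a K) := by
  refine ⟨?_, ?_⟩
  · unfold R300.wfQ
    refine (length_flatMap_le (B := T) fun j _ => ?_).trans (Nat.mul_le_mul_right _ ?_)
    · rw [List.length_map]
      exact (hK.getD j).1
    · rwa [List.length_range]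
  · intro e he
    unfold R300.wfQ at he
    obtain ⟨j, _, he⟩ := List.mem_flatMap.1 he
    obtain ⟨b, hb, rfl⟩ := List.mem_map.1 he
    exact ⟨((hK.getD j).2 b hb).1,
      (HB.qsm (LH.getD hg j) (HB.gamT hp _)).qmul ((hK.getD j).2 b hb).2⟩

private theorem KB.edgeQ {n T h H : ℕ} {K : QFeat} (hK : KB n T h K) {pw : List QC} {ut : List ℚ}
    (hp : ∀ z ∈ pw, HB H z) (hu : ∀ q ∈ ut, LH H q) (hl : ut.length ≤ n) (a : ℤ) :
    KB n (n * T) (2 * (H + H + h)) (edgeQ pw ut a K) := by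
  refine ⟨?_, ?_⟩
  · unfold R300.edgeQ
    rwa [List.length_map, List.length_range]
  · intro φ hφ
    unfold R300.edgeQ at hφ
    obtain ⟨i, _, rfl⟩ := List.mem_map.1 hφ
    refine hK.wfQ hp (fun q hq => ?_) (by rwa [List.length_map, List.length_range]) i a
    obtain ⟨j, _, rfl⟩ := List.mem_map.1 hq
    exact LH.getD hu _

private theorem KB.one (n : ℕ) : KB n 1 1 (List.replicate n (oneQ n)) := by
  refine ⟨by simp, fun φ hφ => ?_⟩
  rw [List.eq_of_mem_replicate hφ]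
  refine ⟨by simp [oneQ], fun e he => ?_⟩
  unfold oneQ at he
  rw [List.mem_singleton] at he
  subst he
  exact ⟨by simp, LH.one, LH.zero 1⟩

private theorem KB.leaf (n : ℕ) : KB n 1 1 (leafQ n) := by
  refine ⟨by simp [leafQ], fun φ hφ => ?_⟩
  unfold leafQ at hφ
  obtain ⟨i, _, rfl⟩ := List.mem_map.1 hφ
  refine ⟨by simp, fun e he => ?_⟩
  rw [List.mem_singleton] at he
  subst he
  exact ⟨by simp [unitM], LH.one, LH.zero 1⟩

private theorem edges_bd {n T h H : ℕ} {F : List QFeat} (hF : ∀ K ∈ F, KB n T h K) (hT : 1 ≤ T)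
    (hH : 1 ≤ H) {pw : List QC} {ut : List ℚ} (hp : ∀ z ∈ pw, HB H z) (hu : ∀ q ∈ ut, LH H q)
    (hl : ut.length ≤ n) (zs : List ℤ) :
    (edgesQ (List.replicate n (oneQ n)) pw ut zs F).length ≤ F.length * zs.length + 1 ∧
      ∀ e ∈ edgesQ (List.replicate n (oneQ n)) pw ut zs F,
        KB n ((n + 1) * T) (2 * (H + H + h)) e := by
  refine ⟨?_, fun e he => ?_⟩
  · unfold edgesQ
    rw [List.length_cons]
    exact Nat.add_le_add_right (length_flatMap_le fun K _ => by rw [List.length_map]) 1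
  · unfold edgesQ at he
    rcases List.mem_cons.1 he with rfl | he
    · exact (KB.one n).mono (Nat.mul_pos n.succ_pos hT) (by omega)
    · obtain ⟨K, hK, he⟩ := List.mem_flatMap.1 he
      obtain ⟨a, _, rfl⟩ := List.mem_map.1 he
      exact ((hF K hK).edgeQ hp hu hl a).mono (Nat.mul_le_mul_right _ n.le_succ) le_rfl

private theorem nodes_bd {n T h T' h' : ℕ} {E F : List QFeat} (hF : ∀ K ∈ F, KB n T h K)
    (hE : ∀ K ∈ E, KB n T' h' K) :
    (nodesQ E F).length ≤ F.length * E.length ^ 3 ∧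
      ∀ K ∈ nodesQ E F, KB n (T * T' ^ 3) (8 * h + 14 * h') K := by
  refine ⟨?_, fun K hK => ?_⟩
  · unfold nodesQ
    refine length_flatMap_le fun K _ => ?_
    refine (length_flatMap_le (B := E.length * E.length) fun e₁ _ => ?_).trans (le_of_eq (by ring))
    exact length_flatMap_le fun e₂ _ => by rw [List.length_map]
  · unfold nodesQ at hK
    obtain ⟨K₀, h₀, hK⟩ := List.mem_flatMap.1 hK
    obtain ⟨e₁, h₁, hK⟩ := List.mem_flatMap.1 hK
    obtain ⟨e₂, h₂, hK⟩ := List.mem_flatMap.1 hK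
    obtain ⟨e₃, h₃, rfl⟩ := List.mem_map.1 hK
    exact ((((hF _ h₀).staF (hE _ h₁)).staF (hE _ h₂)).staF (hE _ h₃)).mono
      (le_of_eq (by ring)) (le_of_eq (by ring))

private theorem count_step {c m e : ℕ} (hc : c ≤ 2 ^ (10 * e)) (hm : m ≤ 4 * 2 ^ (8 * e))
    (he : 2 ≤ e) :
    c * (c * (2 * (3 * m) + 1) + 1) ^ 3 + c * (c * (2 * (3 * m) + 1) + 1) ^ 3 ≤ 2 ^ (10 * (8 * e)) := by
  have h1 : 1 ≤ 2 ^ (8 * e) := Nat.one_le_two_pow
  have h2 : 2 * (3 * m) + 1 ≤ 2 ^ (8 * e + 5) := by rw [pow_add]; omega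
  have h3 : c * (2 * (3 * m) + 1) ≤ 2 ^ (18 * e + 5) := by
    refine (Nat.mul_le_mul hc h2).trans (le_of_eq ?_)
    rw [← pow_add]; congr 1; ring
  have h4 : c * (2 * (3 * m) + 1) + 1 ≤ 2 ^ (18 * e + 6) := by
    have : 1 ≤ 2 ^ (18 * e + 5) := Nat.one_le_two_pow
    rw [pow_succ]; omega
  have h5 : c * (c * (2 * (3 * m) + 1) + 1) ^ 3 ≤ 2 ^ (64 * e + 18) := by
    refine (Nat.mul_le_mul hc (Nat.pow_le_pow_left h4 3)).trans (le_of_eq ?_)
    rw [← pow_mul, ← pow_add]; congr 1; ring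
  have h6 : 2 ^ (64 * e + 18 + 1) ≤ 2 ^ (10 * (8 * e)) := Nat.pow_le_pow_right two_pos (by omega)
  rw [pow_succ] at h6
  omega

private theorem fam_bd {n s k H m : ℕ} (hH : 1 ≤ H)
    (hp : ∀ l < m, ∀ z ∈ lvPw n s k l, HB H z)
    (hA : ∀ l < m, ∀ q ∈ uTab n (pJ s k l) (pLA s k l), LH H q)
    (hB : ∀ l < m, ∀ q ∈ uTab n (pJ s k l) (pLB s k l), LH H q) (l : ℕ) (hl : l ≤ m) :
    (famQ n s k l).length ≤ 2 ^ (10 * pE s k l) ∧
      ∀ K ∈ famQ n s k l, KB n ((n + 1) ^ (4 ^ l - 1)) (256 ^ l * H) K := by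
  induction l with
  | zero =>
    refine ⟨Nat.one_le_two_pow, fun K hK => ?_⟩
    rw [famQ, List.mem_singleton] at hK
    subst hK
    exact (KB.leaf n).mono (by simp) (by simpa using hH)
  | succ l ih =>
    obtain ⟨h1, h2⟩ := ih (by omega)
    have hT : 1 ≤ (n + 1) ^ (4 ^ l - 1) := Nat.one_le_pow _ _ n.succ_pos
    have hu : ∀ L, (uTab n (pJ s k l) L).length ≤ n := fun L => by simp [uTab]
    have hz : (zrange (3 * pMT s k l)).length = 2 * (3 * pMT s k l) + 1 := by simp [zrange]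
    obtain ⟨a1, a2⟩ := edges_bd h2 hT hH (hp l (by omega)) (hA l (by omega)) (hu _)
      (zrange (3 * pMT s k l))
    obtain ⟨b1, b2⟩ := edges_bd h2 hT hH (hp l (by omega)) (hB l (by omega)) (hu _)
      (zrange (3 * pMT s k l))
    obtain ⟨c1, c2⟩ := nodes_bd h2 a2
    obtain ⟨d1, d2⟩ := nodes_bd h2 b2
    rw [hz] at a1 b1
    have eT : (n + 1) ^ (4 ^ l - 1) * ((n + 1) * (n + 1) ^ (4 ^ l - 1)) ^ 3 ≤
        (n + 1) ^ (4 ^ (l + 1) - 1) := by
      have : 1 ≤ 4 ^ l := Nat.one_le_pow _ _ (by norm_num)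
      rw [← pow_succ', ← pow_mul, ← pow_add, pow_succ]
      exact le_of_eq (by congr 1; omega)
    have eH : 8 * (256 ^ l * H) + 14 * (2 * (H + H + 256 ^ l * H)) ≤ 256 ^ (l + 1) * H := by
      have : H ≤ 256 ^ l * H := Nat.le_mul_of_pos_left _ (by positivity)
      rw [pow_succ, mul_right_comm]
      omega
    refine ⟨?_, fun K hK => ?_⟩
    · rw [famQ, famStep, List.length_append, pE_succ]
      refine le_trans (Nat.add_le_add (c1.trans ?_) (d1.trans ?_))
        (count_step h1 (pMT_le s k l) (le_trans (by norm_num) (pE_ge s k l)))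
      · exact Nat.mul_le_mul_left _ (Nat.pow_le_pow_left a1 3)
      · exact Nat.mul_le_mul_left _ (Nat.pow_le_pow_left b1 3)
    · rw [famQ, famStep] at hK
      rcases List.mem_append.1 hK with hK | hK
      · exact (c2 K hK).mono eT eH
      · exact (d2 K hK).mono eT eH

private theorem pwTab_bd {S cap b : ℕ} (hS : S + 1 ≤ 2 ^ b) :
    ∀ z ∈ pwTab S cap, HB (4 * b * cap + 2) z := by
  intro z hz
  unfold pwTab at hz
  obtain ⟨j, hj, rfl⟩ := List.mem_map.1 hz
  have hj' : j ≤ cap := Nat.lt_succ_iff.1 (List.mem_range.1 hj)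
  have h1 : S * S + 2 * S + 1 ≤ 2 ^ (2 * b) := by
    have := Nat.mul_le_mul hS hS
    rw [two_mul b, pow_add]
    nlinarith
  have h2 : (S * S + 2 * S + 1) ^ j ≤ 2 ^ (2 * b * j) := by
    rw [pow_mul]; exact Nat.pow_le_pow_left h1 j
  have h3 : (S * S + 1) ^ j ≤ 2 ^ (2 * b * j) :=
    (Nat.pow_le_pow_left (by omega) j).trans h2
  have h4 : LH (2 * b * j + 1) (((S * S + 1 : ℕ) : ℚ) ^ j) := by
    rw [← Nat.cast_pow]; exact LH.nat h3
  have h5 : 2 * b * j + 1 + (2 * b * j + 1) ≤ 4 * b * cap + 2 := by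
    have := Nat.mul_le_mul_left (4 * b) hj'
    nlinarith
  obtain ⟨g1, g2⟩ := natAbs_gpw_le S j
  exact ⟨((LH.int (g1.trans h2)).div h4).mono h5, ((LH.int (g2.trans h2)).div h4).mono h5⟩

private theorem uTab_bd {n J L b M : ℕ} (hL : L ≤ 2 ^ b) (hn : n ≤ M) (hJ : J ≤ M) (hb : b ≤ M)
    (hM : 1 ≤ M) : ∀ q ∈ uTab n J L, LH (82 * M ^ 4) q := by
  intro q hq
  unfold uTab at hq
  obtain ⟨d, hd, rfl⟩ := List.mem_map.1 hq
  have hd' : d ≤ M := (List.mem_range.1 hd).le.trans hn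
  have h1 : LH (b + 5 + 1) (32 * (L : ℚ)) := by
    have : LH (b + 5 + 1) ((32 * L : ℕ) : ℚ) := LH.nat (by rw [pow_add]; omega)
    simpa using this
  have h2 : LH (b + 8 + 1) (256 * (L : ℚ)) := by
    have : LH (b + 8 + 1) ((256 * L : ℕ) : ℚ) := LH.nat (by rw [pow_add]; omega)
    simpa using this
  have h3 : LH (9 * M) (1 - 1 / (32 * (L : ℚ))) := (LH.one.sub (LH.one.div h1)).mono (by omega)
  have h4 : LH (10 * M ^ 2) ((1 - 1 / (32 * (L : ℚ))) ^ d) := by
    refine (h3.pow d).mono ?_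
    have := Nat.mul_le_mul_left (9 * M) hd'
    nlinarith
  have h5 : LH (11 * M ^ 2) (1 - (1 - 1 / (32 * (L : ℚ))) ^ d) :=
    (LH.one.sub h4).mono (by nlinarith)
  have M2 : M ≤ M ^ 2 := Nat.le_self_pow (by norm_num) M
  have M3 : M ≤ M ^ 3 := Nat.le_self_pow (by norm_num) M
  have M4 : M ≤ M ^ 4 := Nat.le_self_pow (by norm_num) M
  have h6 : LH (72 * M ^ 4) (uuQ J L d) := by
    unfold uuQ
    refine (LH.sum (h := 36 * M ^ 3) fun r hr => ?_).mono ?_
    · obtain ⟨j, hj, rfl⟩ := List.mem_map.1 hr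
      have hj' : j ≤ J := Nat.lt_succ_iff.1 (List.mem_range.1 hj)
      have c1 : LH (2 * J + 1) (((2 * J).choose (J + j) : ℕ) : ℚ) :=
        LH.nat (Nat.choose_le_two_pow _ _)
      refine ((c1.mul (h4.pow (J + j))).mul (h5.pow (J - j))).mono ?_
      have e1 : 10 * M ^ 2 * (J + j) ≤ 10 * M ^ 2 * (2 * M) := Nat.mul_le_mul_left _ (by omega)
      have e2 : 11 * M ^ 2 * (J - j) ≤ 11 * M ^ 2 * M := Nat.mul_le_mul_left _ (by omega)
      have e3 : 10 * M ^ 2 * (2 * M) = 20 * M ^ 3 := by ring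
      have e4 : 11 * M ^ 2 * M = 11 * M ^ 3 := by ring
      omega
    · rw [List.length_map, List.length_range]
      refine (Nat.mul_le_mul_right _ (show J + 1 ≤ 2 * M by omega)).trans (le_of_eq (by ring))
  exact (h6.div h2).mono (by omega)

private theorem sz_fam_le {n T h M : ℕ} {F : List QFeat} (hF : ∀ K ∈ F, KB n T h K)
    (hc : F.length ≤ M) (hn : n ≤ M) (hT : T ≤ M) (hh : h ≤ 82 * M ^ 8) (hM : 2 ≤ M) :
    sz F ≤ M ^ 22 := by
  have M8 : M ≤ M ^ 8 := Nat.le_self_pow (by norm_num) M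
  have M9 : M ≤ M ^ 9 := Nat.le_self_pow (by norm_num) M
  have M10 : M ≤ M ^ 10 := Nat.le_self_pow (by norm_num) M
  have M11 : M ≤ M ^ 11 := Nat.le_self_pow (by norm_num) M
  have h1 : ∀ φ, FB n T h φ → sz φ + 1 ≤ 1340 * M ^ 9 := by
    intro φ hφ
    have g := sz_list_le (l := φ) (B := 4 * n + 16 * h + 33) fun e he => by
      have := sz_boolList_le e.1
      have := (hφ.2 e he).1
      have := (hφ.2 e he).2.sz_le
      rw [sz_prod]
      omega
    have g2 : φ.length * (4 * n + 16 * h + 33 + 1) ≤ M * (1339 * M ^ 8) :=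
      Nat.mul_le_mul (hφ.1.trans hT) (by omega)
    have g3 : M * (1339 * M ^ 8) = 1339 * M ^ 9 := by ring
    omega
  have h2 : ∀ K, KB n T h K → sz K + 1 ≤ 1341 * M ^ 10 := by
    intro K hK
    have g := sz_list_le (l := K) (B := 1340 * M ^ 9 - 1) fun φ hφ => by
      have := h1 φ (hK.2 φ hφ)
      omega
    have g2 : K.length * (1340 * M ^ 9 - 1 + 1) ≤ M * (1340 * M ^ 9) :=
      Nat.mul_le_mul (hK.1.trans hn) (by omega)
    have g3 : M * (1340 * M ^ 9) = 1340 * M ^ 10 := by ring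
    omega
  have g := sz_list_le (l := F) (B := 1341 * M ^ 10 - 1) fun K hK => by
    have := h2 K (hF K hK)
    omega
  have g2 : F.length * (1341 * M ^ 10 - 1 + 1) ≤ M * (1341 * M ^ 10) :=
    Nat.mul_le_mul hc (by omega)
  have g3 : M * (1341 * M ^ 10) = 1341 * M ^ 11 := by ring
  have g4 : 2 ^ 11 * M ^ 11 ≤ M ^ 22 := by
    rw [show M ^ 22 = M ^ 11 * M ^ 11 by ring]
    exact Nat.mul_le_mul_right _ (Nat.pow_le_pow_left hM 11)
  omega

/-- Let `M = 2 ^ pB`.  By induction on `l`: `famQ l` has at most `2 ^ (10 e_l)` members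
(`c' ≤ 2 c (1 + c (6 pMT + 1))³`, `pMT ≤ 4 · 2^(8 e_l)`, `e_{l+1} = 8 e_l`); each member has `n` functionals
with at most `(n+1) ^ (4^l - 1)` terms, masks of length `≤ n`, and coefficients with
`hq z := ratH z.1 * ratH z.2 ≤ 2 ^ (36^l H)`, where `2 ^ H` bounds `hq (1, 0)` and the heights of the entries
of the tables (`hq (qmul z w) ≤ (hq z * hq w)²`, `hq (qsm r z) ≤ ratH r ^ 2 * hq z`; one level maps the
logarithmic height `h` to `36 h + 28 (2 h_u + h_γ)`); `36 ^ k ≤ M`.  For `H` one can use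
`ratH q < 2 ^ sz q` with the sizes of `lvPw`, `uTab`, or direct estimates (`natAbs_gpw_le`). -/
theorem sz_famQ_le : ∃ c : ℕ, ∀ (n : ℕ) (p : ℚ), 0 < p → ∀ l ≤ pK n p,
    sz (famQ n (pSs n p) (pK n p) l) ≤ (2 ^ pB n p) ^ c := by
  refine ⟨22, fun n p hp l hl => ?_⟩
  obtain ⟨q1, q2, -, q4, -, -, -⟩ := par_le n hp hl
  have hb : pB n p ≤ 2 ^ pB n p := Nat.lt_two_pow_self.le
  have hb1 : 1 ≤ pB n p := le_trans (Nat.one_le_pow _ _ (by norm_num)) q2
  have hM : 2 ≤ 2 ^ pB n p := by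
    calc 2 = 2 ^ 1 := rfl
      _ ≤ 2 ^ pB n p := Nat.pow_le_pow_right two_pos hb1
  have hk := keys_bound n hp
  generalize hMe : 2 ^ pB n p = M at *
  have M3 : M ≤ M ^ 3 := Nat.le_self_pow (by norm_num) M
  have M4 : M ^ 3 ≤ M ^ 4 := Nat.pow_le_pow_right (by omega) (by norm_num)
  obtain ⟨f1, f2⟩ := fam_bd (n := n) (s := pSs n p) (k := pK n p) (H := 82 * M ^ 4) (m := pK n p)
    (by omega)
    (fun j hj z hz => by
      obtain ⟨-, -, -, -, -, r6, r7⟩ := par_le n hp hj.le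
      have hS : 1 ≤ pS (pSs n p) (pK n p) j := Nat.one_le_two_pow
      refine (pwTab_bd (b := pB n p) (by omega) z hz).mono ?_
      have e1 : 4 * pB n p * (3 * pMT (pSs n p) (pK n p) j * n) ≤ 4 * M * (M * M) :=
        Nat.mul_le_mul (by omega) (Nat.mul_le_mul (by omega) q1)
      have e2 : 4 * M * (M * M) = 4 * M ^ 3 := by ring
      omega)
    (fun j hj => by
      obtain ⟨-, -, r3, -, r5, -, -⟩ := par_le n hp hj.le
      exact uTab_bd r5 q1 (r3.trans hb) hb (by omega))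
    (fun j hj => by
      obtain ⟨-, -, r3, -, r5, -, -⟩ := par_le n hp hj.le
      exact uTab_bd ((Nat.div_le_self _ _).trans r5) q1 (r3.trans hb) hb (by omega))
    l hl
  refine sz_fam_le f2 (f1.trans ?_) q1 (le_trans ?_ hk) ?_ hM
  · rw [← hMe]
    rw [pE_succ] at q4
    exact Nat.pow_le_pow_right two_pos (by omega)
  · exact Nat.pow_le_pow_right n.succ_pos
      ((Nat.sub_le _ _).trans (Nat.pow_le_pow_right (by norm_num) hl))
  · have e1 : 256 ^ l ≤ M ^ 4 := by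
      calc 256 ^ l ≤ 256 ^ pK n p := Nat.pow_le_pow_right (by norm_num) hl
        _ = (4 ^ pK n p) ^ 4 := by rw [← pow_mul, mul_comm, pow_mul]; norm_num
        _ ≤ M ^ 4 := Nat.pow_le_pow_left (q2.trans hb) 4
    exact (Nat.mul_le_mul_right _ e1).trans (le_of_eq (by ring))

private theorem Inp.famStep {n l : α → ℕ} {p : α → ℚ} {F : α → List QFeat} (h : Inp n p)
    (hl : PT l) (hlk : ∀ a, l a ≤ pK (n a) (p a)) (hF : PT F) :
    PT fun a => famStep (n a) (pSs (n a) (p a)) (pK (n a) (p a)) (l a) (F a) := by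
  obtain ⟨⟨hJ, hJ'⟩, -, -, ⟨hA, -⟩, ⟨hB, -⟩, -, -, ⟨hT, hT'⟩, -⟩ := h.par hl hlk
  have h1 : PT fun a => List.replicate (n a) (oneQ (n a)) :=
    PT.replicate h.hn h.pb_n (oneQ_pt h.hn h.pb_n)
  have h2 := h.lvPw hl hlk
  have h3 : PT fun a => zrange (3 * pMT (pSs (n a) (p a)) (pK (n a) (p a)) (l a)) :=
    zrange_pt (PT.nat_mul (PT.const 3) hT) ((PB.const 3).mul hT')
  exact PT.append (nodesQ_pt (edgesQ_pt h1 h2 (uTab_pt h.hn h.pb_n hJ hJ' hA) h3 hF) hF)
    (nodesQ_pt (edgesQ_pt h1 h2 (uTab_pt h.hn h.pb_n hJ hJ' hB) h3 hF) hF)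

theorem Inp.famQ {n l : α → ℕ} {p : α → ℚ} (h : Inp n p) (hl : PT l)
    (hlk : ∀ a, l a ≤ pK (n a) (p a)) :
    PT fun a => famQ (n a) (pSs (n a) (p a)) (pK (n a) (p a)) (l a) := by
  obtain ⟨c, hc⟩ := sz_famQ_le
  refine PT.nat_rec' (F := fun a j => R300.famQ (n a) (pSs (n a) (p a)) (pK (n a) (p a)) j)
    (z := fun a => [leafQ (n a)])
    (f := fun a j G => R300.famStep (n a) (pSs (n a) (p a)) (pK (n a) (p a)) j G)
    hl ((pK_pt h.hn h.hp).2.mono hlk) (PT.cons (leafQ_pt h.hn h.pb_n) (PT.const [])) ?_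
    (fun _ => rfl) (fun _ _ _ => rfl) (h.hM.pow c)
    (fun a j hj => hc _ _ (h.h0 a) j (hj.trans (hlk a)))
  exact Inp.famStep (h.comp (f := fun x : {x : α × ℕ × List QFeat // x.2.1 < l x.1 ∧
      x.2.2 = R300.famQ (n x.1) (pSs (n x.1) (p x.1)) (pK (n x.1) (p x.1)) x.2.1} => x.1.1)
      (by fun_prop)) (by fun_prop) (fun x => x.2.1.le.trans (hlk _)) (by fun_prop)

end Crest.Agent.R300
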