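import Crest.Agent.R300.ULP
import Crest.Agent.R300.UEdge

/-!
# R300 upper bound: semantics of the basic operations (task USem1)
-/

set_option autoImplicit false

namespace Crest.Agent.R300

open Finset

variable {n : ℕ}

theorem toC_qmul (z w : QC) : toC (qmul z w) = toC z * toC w := by
  apply Complex.ext <;> simp [toC, qmul]

theorem toC_qcj (z : QC) : toC (qcj z) = starRingEnd ℂ (toC z) := by
  apply Complex.ext <;> simp [toC, qcj]

theorem toC_qsm (r : ℚ) (z : QC) : toC (qsm r z) = (r : ℂ) * toC z := by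
  apply Complex.ext <;> simp [toC, qsm]

theorem toC_qdiv (z w : QC) : toC (qdiv z w) = toC z / toC w := by
  rw [qdiv, toC_qsm, toC_qmul, toC_qcj, div_eq_mul_inv (toC z), Complex.inv_def]
  have : ((Complex.normSq (toC w))⁻¹ : ℝ) = ((1 / (w.1 * w.1 + w.2 * w.2) : ℚ) : ℝ) := by
    simp [toC, Complex.normSq_mk]
  rw [this, Complex.ofReal_ratCast]
  ring

theorem sem1_nil : semFn n [] = 0 := rfl

theorem sem1_cons (e : Mask × QC) (φ : QFn) :
    semFn n (e :: φ) = toC e.2 • (LinearMap.proj (toSet n e.1) : Fn n) + semFn n φ := rfl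

theorem sem1_append (φ ψ : QFn) : semFn n (φ ++ ψ) = semFn n φ + semFn n ψ := by
  simp [semFn]

theorem sem1_flatMap {α : Type} (l : List α) (f : α → QFn) :
    semFn n (l.flatMap f) = (l.map fun a => semFn n (f a)).sum := by
  induction l with
  | nil => rfl
  | cons a l ih => rw [List.flatMap_cons, sem1_append, ih, List.map_cons, List.sum_cons]

theorem sem1_sum_range {M : Type} [AddCommMonoid M] (f : ℕ → M) :
    ((List.range n).map f).sum = ∑ j : Fin n, f j := by
  rw [← Finset.sum_range]; rfl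

theorem sem1_toC_one : toC (1, 0) = 1 := by
  apply Complex.ext <;> simp [toC]

theorem sem1_map_mul (c : QC) (φ : QFn) :
    semFn n (φ.map fun e => (e.1, qmul c e.2)) = toC c • semFn n φ := by
  induction φ with
  | nil => simp [sem1_nil]
  | cons a φ ih => rw [List.map_cons, sem1_cons, sem1_cons, ih, toC_qmul, smul_add, mul_smul]

theorem sem1_zip {a b : Mask} (ha : a.length = n) (hb : b.length = n) :
    toSet n (List.zipWith (fun x y => x || y) a b) = toSet n a ∪ toSet n b := by
  ext i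
  have h1 : (i : ℕ) < a.length := ha ▸ i.2
  have h2 : (i : ℕ) < b.length := hb ▸ i.2
  simp [toSet, List.getD_eq_getElem?_getD, List.getElem?_zipWith, List.getElem?_eq_getElem h1,
    List.getElem?_eq_getElem h2]

theorem sem1_row {a : Mask × QC} (ha : a.1.length = n) {ψ : QFn} (h' : WF n ψ) :
    semFn n (ψ.map fun b => (List.zipWith (fun x y => x || y) a.1 b.1, qmul a.2 b.2)) =
      sta (toC a.2 • (LinearMap.proj (toSet n a.1) : Fn n)) (semFn n ψ) := by
  induction ψ with
  | nil => exact LinearMap.ext fun Λ => by simp [sem1_nil, sta_apply]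
  | cons b ψ ih =>
    rw [List.map_cons, sem1_cons, sem1_cons, sta_add_right,
      ih fun e he => h' e (List.mem_cons_of_mem _ he), sem1_zip ha (h' b List.mem_cons_self),
      toC_qmul, sta_smul_left, sta_smul_left, sta_smul_right, sta_proj, mul_smul]

theorem sem1_wf_getD {K : QFeat} (h : WFF n K) (i : ℕ) : WF n (K.getD i []) := by
  rw [List.getD_eq_getElem?_getD]
  cases hi : K[i]? with
  | none => intro e he; simp at he
  | some φ => exact h.2 φ (List.mem_of_getElem? hi)

theorem sem1_single {m : Mask} (hm : m.length = n) (S : Finset (Fin n)) :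
    (Pi.single S 1 : Tab n) (toSet n m) = if m = toMask S then 1 else 0 := by
  rw [Pi.single_apply]
  refine if_congr ⟨?_, ?_⟩ rfl rfl
  · rintro rfl
    exact (toMask_toSet hm).symm
  · rintro rfl
    exact toSet_toMask S

theorem sem1_expand (φ : Fn n) (Λ : Tab n) : φ Λ = ∑ S, φ (Pi.single S 1) * Λ S := by
  conv_lhs => rw [pi_eq_sum_univ' Λ, map_sum]
  refine Finset.sum_congr rfl fun S _ => ?_
  rw [map_smul, smul_eq_mul, mul_comm]

theorem sem1_gpw (S m : ℕ) : ((gpw S m).1 : ℂ) + (gpw S m).2 * Complex.I =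
    ((S : ℂ) * S - 1 + 2 * S * Complex.I) ^ m := by
  induction m with
  | zero => simp [gpw]
  | succ m ih =>
    have e : gpw S (m + 1) = ((gpw S m).1 * ((S : ℤ) * S - 1) - (gpw S m).2 * (2 * S),
        (gpw S m).1 * (2 * S) + (gpw S m).2 * ((S : ℤ) * S - 1)) :=
      Function.iterate_succ_apply' _ _ _
    rw [pow_succ, ← ih, e]
    push_cast
    linear_combination (-2 * (S : ℂ) * ((gpw S m).2 : ℂ)) * Complex.I_mul_I

theorem sem1_pw {S cap m : ℕ} (hS : 1 ≤ S) (hm : m ≤ cap) :
    toC ((pwTab S cap).getD m (0, 0)) = Complex.exp (Complex.I * ((m : ℝ) * eta S : ℝ)) := by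
  have h1 : (pwTab S cap).getD m (0, 0) = (((gpw S m).1 : ℚ) / ((S * S + 1 : ℕ) : ℚ) ^ m,
      ((gpw S m).2 : ℚ) / ((S * S + 1 : ℕ) : ℚ) ^ m) := by
    simp [pwTab, List.getD_eq_getElem?_getD, Nat.lt_succ_of_le hm]
  have h2 : Complex.I * ((m : ℝ) * eta S : ℝ) = m * (Complex.I * eta S) := by
    push_cast; ring
  rw [h1, h2, Complex.exp_nat_mul, exp_eta hS, div_pow, ← sem1_gpw, toC, Complex.mk_eq_add_mul_I]
  push_cast
  ring

theorem WF.staQ {φ ψ : QFn} (h : WF n φ) (h' : WF n ψ) : WF n (staQ φ ψ) := by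
  intro e he
  simp only [R300.staQ, List.mem_flatMap, List.mem_map] at he
  obtain ⟨a, ha, b, hb, rfl⟩ := he
  simp [h a ha, h' b hb]

theorem sem_staQ {φ ψ : QFn} (h : WF n φ) (h' : WF n ψ) :
    semFn n (staQ φ ψ) = sta (semFn n φ) (semFn n ψ) := by
  induction φ with
  | nil => rfl
  | cons a φ ih =>
    rw [staQ, List.flatMap_cons, sem1_append, sem1_cons, sta_add_left,
      sem1_row (h a List.mem_cons_self) h']
    exact congrArg _ (ih fun e he => h e (List.mem_cons_of_mem _ he))

theorem WF.cjQ {φ : QFn} (h : WF n φ) : WF n (cjQ φ) := by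
  intro e he
  simp only [R300.cjQ, List.mem_map] at he
  obtain ⟨a, ha, rfl⟩ := he
  exact h a ha

theorem sem_cjQ (φ : QFn) : semFn n (cjQ φ) = cj (semFn n φ) := by
  induction φ with
  | nil => exact LinearMap.ext fun Λ => by simp [cjQ, sem1_nil, cj_apply]
  | cons a φ ih =>
    rw [cjQ, List.map_cons, sem1_cons, sem1_cons, cj_add, cj_smul, cj_proj, toC_qcj]
    exact congrArg _ ih

theorem wf_oneQ : WF n (oneQ n) := by
  intro e he
  simp only [oneQ, List.mem_singleton] at he
  simp [he]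

theorem sem_oneQ : semFn n (oneQ n) = oneF := by
  have : toSet n (List.replicate n false) = ∅ := by
    ext i
    simp [toSet, List.getD_eq_getElem?_getD]
  rw [oneQ, sem1_cons, sem1_nil, add_zero, this, sem1_toC_one, one_smul, oneF]

theorem wff_leafQ : WFF n (leafQ n) := by
  refine ⟨by simp [leafQ], fun φ hφ e he => ?_⟩
  simp only [leafQ, List.mem_map] at hφ
  obtain ⟨i, -, rfl⟩ := hφ
  simp only [List.mem_singleton] at he
  simp [he, unitM]

theorem sem_leafQ : semF n (leafQ n) = leaf := by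
  funext i
  have : (leafQ n).getD i [] = [(unitM n i, (1, 0))] := by
    simp [leafQ, List.getD_eq_getElem?_getD]
  rw [semF, this, sem1_cons, sem1_nil, add_zero, unitM_eq, toSet_toMask, sem1_toC_one, one_smul,
    leaf]

theorem WFF.staF {K K' : QFeat} (h : WFF n K) (h' : WFF n K') : WFF n (staF K K') := by
  refine ⟨by simp [R300.staF, h.1], fun φ hφ => ?_⟩
  simp only [R300.staF, List.mem_map] at hφ
  obtain ⟨i, -, rfl⟩ := hφ
  exact (sem1_wf_getD h i).staQ (sem1_wf_getD h' i)

theorem sem_staF {K K' : QFeat} (h : WFF n K) (h' : WFF n K') (i : Fin n) :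
    semF n (staF K K') i = sta (semF n K i) (semF n K' i) := by
  have : (staF K K').getD i [] = staQ (K.getD i []) (K'.getD i []) := by
    simp [staF, List.getD_eq_getElem?_getD, h.1]
  rw [semF, this, sem_staQ (sem1_wf_getD h i) (sem1_wf_getD h' i)]
  rfl

theorem tabV_im (v : RV) (S : Finset (Fin n)) : (tabV n v S).im = 0 := by
  simp [tabV]

theorem evQ_eq {φ : QFn} (h : WF n φ) (v : RV) : toC (evQ φ v) = semFn n φ (tabV n v) := by
  induction φ with
  | nil => apply Complex.ext <;> simp [evQ, reQ, imQ, dot, toC, sem1_nil]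
  | cons a φ ih =>
    rw [sem1_cons, LinearMap.add_apply, ← ih fun e he => h e (List.mem_cons_of_mem _ he),
      LinearMap.smul_apply, LinearMap.proj_apply, tabV, toMask_toSet (h a List.mem_cons_self)]
    apply Complex.ext <;> simp [evQ, reQ, imQ, dot, toC]

theorem val_reQ {φ : QFn} (h : WF n φ) (S : Finset (Fin n)) :
    ((val (reQ φ) (toMask S) : ℚ) : ℝ) = (semFn n φ (Pi.single S 1)).re := by
  induction φ with
  | nil => simp [val, reQ, sem1_nil]
  | cons a φ ih =>
    rw [sem1_cons, LinearMap.add_apply, Complex.add_re,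
      ← ih fun e he => h e (List.mem_cons_of_mem _ he), LinearMap.smul_apply, LinearMap.proj_apply,
      sem1_single (h a List.mem_cons_self)]
    by_cases ha : a.1 = toMask S <;> simp [val, reQ, toC, ha]

theorem val_imQ {φ : QFn} (h : WF n φ) (S : Finset (Fin n)) :
    ((val (imQ φ) (toMask S) : ℚ) : ℝ) = (semFn n φ (Pi.single S 1)).im := by
  induction φ with
  | nil => simp [val, imQ, sem1_nil]
  | cons a φ ih =>
    rw [sem1_cons, LinearMap.add_apply, Complex.add_im,
      ← ih fun e he => h e (List.mem_cons_of_mem _ he), LinearMap.smul_apply, LinearMap.proj_apply,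
      sem1_single (h a List.mem_cons_self)]
    by_cases ha : a.1 = toMask S <;> simp [val, imQ, toC, ha]

/-- `conOK_con2` with `val_reQ`, `val_imQ`, `Bd0.sum_norm_le`; `φ Λ = ∑ S, Λ S * φ (Pi.single S 1)`. -/
theorem conOK_conC {N : ℕ} {x : Fin n → Bool} {φ : QFn} (h : WF n φ) (h0 : Bd0 (semFn n φ))
    (hd : Deg (semFn n φ) N) {c : QC} {r : ℚ} (hc : ‖semFn n φ (tabOf x) - toC c‖ ≤ r) :
    ∀ c' ∈ conC φ c r, ConOK N x c' := by
  have hz : ∀ S : Finset (Fin n), N < S.card → semFn n φ (Pi.single S 1) = 0 := by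
    intro S hS
    refine hd _ fun S' hS' => Pi.single_eq_of_ne ?_ _
    rintro rfl
    omega
  have hx : semFn n φ (tabOf x) = ∑ S : Finset (Fin n), semFn n φ (Pi.single S 1) *
      (((if ∀ i ∈ S, x i = true then 1 else 0 : ℚ) : ℝ) : ℂ) := by
    rw [sem1_expand]
    refine Finset.sum_congr rfl fun S _ => ?_
    unfold tabOf
    split_ifs <;> simp
  intro c' hc'
  rcases List.mem_append.1 hc' with hc' | hc'
  · refine conOK_con2 ?_ ?_ ?_ ?_ c' hc'
    · intro e he
      obtain ⟨a, ha, rfl⟩ := List.mem_map.1 he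
      exact h a ha
    · intro S hS
      have := val_reQ h S
      rw [hz S hS] at this
      exact_mod_cast this
    · have : ∑ S : Finset (Fin n), |((val (reQ φ) (toMask S) : ℚ) : ℝ)| ≤ 1 := by
        refine le_trans (Finset.sum_le_sum fun S _ => ?_) h0.sum_norm_le
        rw [val_reQ h]
        exact Complex.abs_re_le_norm _
      exact_mod_cast this
    · have h1 := (Complex.abs_re_le_norm _).trans hc
      rw [hx, Complex.sub_re, Complex.re_sum] at h1
      simp only [Complex.re_mul_ofReal, ← val_reQ h] at h1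
      have h2 : (toC c).re = (c.1 : ℝ) := rfl
      rw [h2] at h1
      exact_mod_cast h1
  · refine conOK_con2 ?_ ?_ ?_ ?_ c' hc'
    · intro e he
      obtain ⟨a, ha, rfl⟩ := List.mem_map.1 he
      exact h a ha
    · intro S hS
      have := val_imQ h S
      rw [hz S hS] at this
      exact_mod_cast this
    · have : ∑ S : Finset (Fin n), |((val (imQ φ) (toMask S) : ℚ) : ℝ)| ≤ 1 := by
        refine le_trans (Finset.sum_le_sum fun S _ => ?_) h0.sum_norm_le
        rw [val_imQ h]
        exact Complex.abs_im_le_norm _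
      exact_mod_cast this
    · have h1 := (Complex.abs_im_le_norm _).trans hc
      rw [hx, Complex.sub_im, Complex.im_sum] at h1
      simp only [Complex.im_mul_ofReal, ← val_imQ h] at h1
      have h2 : (toC c).im = (c.2 : ℝ) := rfl
      rw [h2] at h1
      exact_mod_cast h1

theorem sat_conC {ζ : ℚ} {φ : QFn} (h : WF n φ) {c : QC} {r : ℚ} {v : RV}
    (hs : ∀ c' ∈ conC φ c r, dot c'.1 v ≤ c'.2 + ζ) :
    ‖semFn n φ (tabV n v) - toC c‖ ≤ Real.sqrt 2 * (r + ζ) := by
  have h1 := sat_con2 fun c' hc' => hs c' (List.mem_append_left _ hc')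
  have h2 := sat_con2 fun c' hc' => hs c' (List.mem_append_right _ hc')
  rw [← evQ_eq h]
  refine (Complex.norm_le_sqrt_two_mul_max _).trans
    (mul_le_mul_of_nonneg_left (max_le ?_ ?_) (Real.sqrt_nonneg _))
  · have : (toC (evQ φ v) - toC c).re = ((dot (reQ φ) v - c.1 : ℚ) : ℝ) := by simp [toC, evQ]
    rw [this]
    exact_mod_cast h1
  · have : (toC (evQ φ v) - toC c).im = ((dot (imQ φ) v - c.2 : ℚ) : ℝ) := by simp [toC, evQ]
    rw [this]
    exact_mod_cast h2

theorem dif_eq {N : ℕ} (x : Fin n → Bool) (v : RV) {φ : Fn n} (hd : Deg φ N) :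
    φ (dif N x v) = φ (tabV n v) - φ (tabOf x) := by
  rw [← map_sub]
  exact hd.congr fun S hS => by simp [dif, hS]

/-- `gpw S m = (S + i) ^ (2 m)`, `exp_eta`. -/
theorem toC_gamT {S cap : ℕ} (hS : 1 ≤ S) {a : ℤ} (ha : |a| ≤ cap) :
    toC (gamT (pwTab S cap) a) = Complex.exp (Complex.I * ((a : ℝ) * eta S : ℝ)) := by
  have hm : a.natAbs ≤ cap := by
    rw [Int.abs_eq_natAbs] at ha
    exact_mod_cast ha
  have h1 := sem1_pw hS hm
  unfold gamT
  split_ifs with h
  · rw [toC_qcj, h1, ← Complex.exp_conj]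
    congr 1
    have : ((a.natAbs : ℕ) : ℝ) = -(a : ℝ) := by
      rw [← Int.cast_natCast, Int.natCast_natAbs, abs_of_neg h, Int.cast_neg]
    rw [this, map_mul, Complex.conj_I, Complex.conj_ofReal]
    push_cast; ring
  · rw [h1]
    have : ((a.natAbs : ℕ) : ℝ) = (a : ℝ) := by
      rw [← Int.cast_natCast, Int.natCast_natAbs, abs_of_nonneg (not_lt.1 h)]
    rw [this]

theorem WFF.wfQ {K : QFeat} (h : WFF n K) (pw : List QC) (g : List ℚ) (i : ℕ) (a : ℤ) :
    WF n (wfQ pw g i a K) := by
  intro e he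
  simp only [R300.wfQ, List.mem_flatMap, List.mem_map] at he
  obtain ⟨j, -, b, hb, rfl⟩ := he
  exact sem1_wf_getD h j b hb

theorem sem_wfQ {S cap : ℕ} (hS : 1 ≤ S) {g : List ℚ} (hg : g.length = n) (K : QFeat) (i : Fin n)
    {a : ℤ} (ha : |a| * n ≤ cap) :
    semFn n (wfQ (pwTab S cap) g i a K) =
      wf (fun j => ((g.getD j 0 : ℚ) : ℝ)) i ((a : ℝ) * eta S) (semF n K) := by
  rw [wfQ, sem1_flatMap, hg, wf, sem1_sum_range]
  refine Finset.sum_congr rfl fun j _ => ?_
  have hj : |a * (((j : ℕ) : ℤ) - ((i : ℕ) : ℤ))| ≤ cap := by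
    rw [abs_mul]
    refine le_trans (mul_le_mul_of_nonneg_left ?_ (abs_nonneg _)) ha
    have := i.2
    have := j.2
    rw [abs_le]
    constructor <;> omega
  rw [sem1_map_mul, toC_qsm, toC_gamT hS hj, ph, Complex.ofReal_ratCast]
  congr 4
  push_cast; ring

end Crest.Agent.R300
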