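import Crest.Agent.R300.UDefs

/-!
# R300 upper bound: the window and its Fourier transform (task UWin)

`wN M h r d` is the coefficient of `X ^ d` in `(∑_{j ≤ 2M} X^j) (∑_{u ≤ 2h} X^u) ^ r`.
-/

set_option autoImplicit false

namespace Crest.Agent.R300

open Finset

variable {n : ℕ}

theorem wN_eq_zero {M h r d : ℕ} (hd : 2 * M + 2 * r * h < d) : wN M h r d = 0 := by
  induction r generalizing d with
  | zero => rw [wN, if_neg (by omega)]
  | succ r ih =>
    rw [wN]
    refine Finset.sum_eq_zero fun u hu => ?_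
    rw [mem_range] at hu
    split_ifs with h1
    · refine ih ?_
      have : 2 * (r + 1) * h = 2 * r * h + 2 * h := by ring
      omega
    · rfl

theorem wN_le (M h r d : ℕ) : wN M h r d ≤ (2 * h + 1) ^ r := by
  induction r generalizing d with
  | zero => rw [wN]; split_ifs <;> simp
  | succ r ih =>
    rw [wN, pow_succ']
    refine (Finset.sum_le_card_nsmul _ _ ((2 * h + 1) ^ r) fun u _ => ?_).trans (by simp)
    split_ifs
    · exact ih _
    · exact Nat.zero_le _

theorem wN_plateau {M h r d : ℕ} (h₁ : 2 * r * h ≤ d) (h₂ : d ≤ 2 * M) :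
    wN M h r d = (2 * h + 1) ^ r := by
  induction r generalizing d with
  | zero => rw [wN, if_pos h₂, pow_zero]
  | succ r ih =>
    rw [wN, pow_succ', Finset.sum_congr rfl (g := fun _ => (2 * h + 1) ^ r)]
    · simp
    · intro u hu
      rw [mem_range] at hu
      have : 2 * (r + 1) * h = 2 * r * h + 2 * h := by ring
      rw [if_pos (by omega)]
      exact ih (by omega) (by omega)

private theorem sum_wN_aux (M h r : ℕ) (z : ℂ) : ∀ N, 2 * M + 2 * r * h + 1 ≤ N →
    ∑ d ∈ range N, (wN M h r d : ℂ) * z ^ d =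
      (∑ j ∈ range (2 * M + 1), z ^ j) * (∑ u ∈ range (2 * h + 1), z ^ u) ^ r := by
  induction r with
  | zero =>
    intro N hN
    rw [pow_zero, mul_one]
    symm
    refine Finset.sum_subset_zero_on_sdiff (range_subset_range.2 (by omega)) (fun d hd => ?_)
      fun d hd => ?_
    · rw [mem_sdiff, mem_range, mem_range] at hd
      rw [wN, if_neg (by omega)]; simp
    · rw [mem_range] at hd
      rw [wN, if_pos (by omega)]; simp
  | succ r ih =>
    intro N hN
    have e0 : 2 * (r + 1) * h = 2 * r * h + 2 * h := by ring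
    simp only [wN, Nat.cast_sum, Finset.sum_mul (range (2 * h + 1))]
    rw [Finset.sum_comm, pow_succ, ← mul_assoc, Finset.mul_sum (range (2 * h + 1))]
    refine Finset.sum_congr rfl fun u hu => ?_
    rw [mem_range] at hu
    rw [← ih (N - u) (by omega), show N = u + (N - u) by omega, Finset.sum_range_add,
      Finset.sum_eq_zero, zero_add, Finset.sum_mul, Nat.add_sub_cancel_left]
    · refine Finset.sum_congr rfl fun e _ => ?_
      rw [if_pos (by omega), Nat.add_sub_cancel_left, pow_add]; ring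
    · intro d hd
      rw [mem_range] at hd
      rw [if_neg (by omega)]; simp

/-- The generating function. -/
theorem sum_wN (M h r : ℕ) (z : ℂ) :
    ∑ d ∈ range (2 * M + 2 * r * h + 1), (wN M h r d : ℂ) * z ^ d =
      (∑ j ∈ range (2 * M + 1), z ^ j) * (∑ u ∈ range (2 * h + 1), z ^ u) ^ r := by
  exact sum_wN_aux M h r z _ le_rfl

theorem gwin_nonneg (L h r : ℕ) (t i : Fin n) : 0 ≤ gwin L h r t i := by
  unfold gwin
  split_ifs
  · positivity
  · exact le_rfl

theorem gwin_le {L h r : ℕ} (t i : Fin n) : gwin L h r t i ≤ 1 / (2 * L) := by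
  unfold gwin
  split_ifs
  · have h1 : (wN (L - r * h) h r (i + L - t) : ℝ) ≤ ((2 * h + 1 : ℕ) : ℝ) ^ r := by
      exact_mod_cast wN_le _ _ _ _
    rw [← div_div]
    exact div_le_div_of_nonneg_right ((div_le_one (by positivity)).2 h1) (by positivity)
  · positivity

theorem gwin_eq_zero {L h r : ℕ} (hL : r * h ≤ L) {t i : Fin n} (hi : L < Nat.dist i t) :
    gwin L h r t i = 0 := by
  unfold gwin
  split_ifs with h1
  · rw [wN_eq_zero, Nat.cast_zero, zero_div]
    unfold Nat.dist at hi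
    rw [mul_assoc]
    omega
  · rfl

theorem gwin_plateau {L h r : ℕ} {t i : Fin n} (hi : Nat.dist i t + 2 * (r * h) ≤ L) :
    gwin L h r t i = 1 / (2 * L) := by
  unfold gwin
  unfold Nat.dist at hi
  rw [if_pos (by omega), wN_plateau (by rw [mul_assoc]; omega) (by omega), ← div_div, Nat.cast_pow,
    div_self (by positivity)]

theorem sum_gwin_le {L h r : ℕ} (h1 : 1 ≤ r * h) (hL : r * h ≤ L) (t : Fin n) :
    ∑ i, gwin L h r t i ≤ 1 := by
  set c : ℝ := ((2 * h + 1 : ℕ) : ℝ) ^ r * (2 * L) with hc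
  have hL1 : (1 : ℝ) ≤ L := by exact_mod_cast h1.trans hL
  have hc0 : 0 < c := by positivity
  set S : Finset (Fin n) := univ.filter fun i => (t : ℕ) ≤ i + L with hS
  have e1 : ∑ i, gwin L h r t i =
      ∑ d ∈ S.image (fun i : Fin n => i + L - t), (wN (L - r * h) h r d : ℝ) / c := by
    rw [Finset.sum_image, hS, Finset.sum_filter]
    · rfl
    · intro i hi j hj e
      simp only [hS, coe_filter, mem_univ, true_and, Set.mem_ofPred_eq] at hi hj e
      exact Fin.ext (by omega)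
  have e2 := sum_wN_aux (L - r * h) h r 1 (n + 2 * L + 1) (by rw [mul_assoc]; omega)
  simp only [one_pow, mul_one, sum_const, card_range, nsmul_eq_mul] at e2
  have e3 : ∑ d ∈ range (n + 2 * L + 1), (wN (L - r * h) h r d : ℝ) =
      ((2 * (L - r * h) + 1 : ℕ) : ℝ) * ((2 * h + 1 : ℕ) : ℝ) ^ r := by exact_mod_cast e2
  rw [e1, ← Finset.sum_div, div_le_one hc0]
  refine (Finset.sum_le_sum_of_subset_of_nonneg (t := range (n + 2 * L + 1)) (fun d hd => ?_)
    fun _ _ _ => Nat.cast_nonneg _).trans ?_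
  · obtain ⟨i, -, rfl⟩ := mem_image.1 hd
    rw [mem_range]
    have := i.2
    omega
  · rw [e3, hc, mul_comm]
    refine mul_le_mul_of_nonneg_left ?_ (by positivity)
    exact_mod_cast (show 2 * (L - r * h) + 1 ≤ 2 * L by omega)

private theorem norm_geom_le {w : ℂ} {ρ : ℝ} (hw : ‖w‖ = ρ) (h1 : 1 ≤ ρ) (m : ℕ) :
    ‖∑ j ∈ range (m + 1), w ^ j‖ ≤ ((m + 1 : ℕ) : ℝ) * ρ ^ m := by
  refine (norm_sum_le _ _).trans ((Finset.sum_le_card_nsmul _ _ (ρ ^ m) fun j hj => ?_).trans
    (by simp))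
  rw [norm_pow, hw]
  exact pow_le_pow_right₀ h1 (by rw [mem_range] at hj; omega)

private theorem norm_geom_far {ξ y : ℝ} {h : ℕ} (hy : 0 ≤ y) (hy1 : y ≤ 1) (hξ : |ξ| ≤ Real.pi)
    (hξ' : 24 / (2 * (h : ℝ) + 1) ≤ |ξ|) :
    ‖∑ j ∈ range (2 * h + 1), Complex.exp (-(Complex.I * (ξ + Complex.I * y))) ^ j‖ ≤
      ((2 * h + 1 : ℕ) : ℝ) * Real.exp y ^ (2 * h) * Real.exp (-1) := by
  set w := Complex.exp (-(Complex.I * (ξ + Complex.I * y))) with hw
  have hre : w.re = Real.exp y * Real.cos ξ := by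
    rw [hw, Complex.exp_re]; simp
  have hn : ‖w‖ = Real.exp y := by rw [hw, Complex.norm_exp]; simp
  have h1 : 1 ≤ Real.exp y := Real.one_le_exp hy
  have hpi := Real.pi_pos
  have h2 : 2 * |ξ| / Real.pi ≤ ‖w - 1‖ := by
    refine le_of_sq_le_sq ?_ (norm_nonneg _)
    have a1 : ‖w - 1‖ ^ 2 = ‖w‖ ^ 2 + 1 - 2 * w.re := by
      rw [Complex.sq_norm, Complex.sq_norm, Complex.normSq_apply, Complex.normSq_apply]
      simp; ring
    have a2 := Real.cos_le_one_sub_mul_cos_sq hξ
    have a3 : (2 * |ξ| / Real.pi) ^ 2 = 2 * (2 / Real.pi ^ 2 * ξ ^ 2) := by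
      rw [div_pow, mul_pow, sq_abs]; ring
    have a4 : 0 ≤ 2 / Real.pi ^ 2 * ξ ^ 2 := by positivity
    rw [a1, a3, hn, hre]
    nlinarith [sq_nonneg (Real.exp y - 1), mul_le_mul_of_nonneg_left a2 (Real.exp_pos y).le,
      mul_le_mul_of_nonneg_right h1 a4]
  have hN : (0 : ℝ) < 2 * h + 1 := by positivity
  have h3 : 48 / ((2 * (h : ℝ) + 1) * Real.pi) ≤ ‖w - 1‖ := by
    refine le_trans ?_ h2
    rw [← div_div]
    refine div_le_div_of_nonneg_right ?_ hpi.le
    have : 48 / (2 * (h : ℝ) + 1) = 2 * (24 / (2 * h + 1)) := by ring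
    linarith
  have h4 : ‖∑ j ∈ range (2 * h + 1), w ^ j‖ * ‖w - 1‖ ≤ 2 * (Real.exp y ^ (2 * h) * Real.exp y) := by
    rw [← norm_mul, geom_sum_mul]
    refine (norm_sub_le _ _).trans ?_
    rw [norm_pow, hn, norm_one, ← pow_succ]
    have := one_le_pow₀ (n := 2 * h + 1) h1
    linarith
  have h5 := (mul_le_mul_of_nonneg_left h3 (norm_nonneg _)).trans h4
  rw [← le_div_iff₀ (by positivity)] at h5
  refine h5.trans ?_
  have h6 : Real.exp y * Real.pi ≤ 24 * Real.exp (-1) := by
    have a1 : Real.exp y ≤ Real.exp 1 := Real.exp_le_exp.2 hy1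
    have a2 := Real.exp_one_lt_d9
    have a3 := Real.pi_lt_d4
    have a4 := Real.exp_pos 1
    rw [Real.exp_neg, ← div_eq_mul_inv, le_div_iff₀ a4]
    have a5 : Real.exp y * Real.pi ≤ 2.7182818286 * 3.1416 :=
      mul_le_mul (by linarith) a3.le hpi.le (by norm_num)
    have a6 : Real.exp y * Real.pi * Real.exp 1 ≤ 2.7182818286 * 3.1416 * 2.7182818286 :=
      mul_le_mul a5 a2.le a4.le (by norm_num)
    linarith
  have h7 : 0 ≤ (2 * (h : ℝ) + 1) * Real.exp y ^ (2 * h) := by positivity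
  have h8 := mul_le_mul_of_nonneg_left h6 h7
  push_cast
  calc 2 * (Real.exp y ^ (2 * h) * Real.exp y) / (48 / ((2 * (h : ℝ) + 1) * Real.pi))
      = (2 * (h : ℝ) + 1) * Real.exp y ^ (2 * h) * (Real.exp y * Real.pi) / 24 := by
        field_simp; ring
    _ ≤ _ := by linarith

private theorem orth_int (y : ℝ) (m : ℤ) :
    ∫ ξ in (-Real.pi)..Real.pi, Complex.exp (Complex.I * (ξ + Complex.I * y) * m) =
      if m = 0 then (2 * Real.pi : ℂ) else 0 := by
  split_ifs with hm
  · subst hm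
    simp
    ring
  · have e : ∀ ξ : ℝ, Complex.exp (Complex.I * (ξ + Complex.I * y) * m) =
        Complex.exp (Complex.I * (Complex.I * y) * m) * Complex.exp (Complex.I * m * ξ) := by
      intro ξ
      rw [← Complex.exp_add]; congr 1; ring
    simp only [e]
    rw [intervalIntegral.integral_const_mul, integral_exp_mul_complex
      (mul_ne_zero Complex.I_ne_zero (Int.cast_ne_zero.2 hm))]
    have e2 : Complex.exp (Complex.I * m * Real.pi) =
        Complex.exp (Complex.I * m * (-Real.pi : ℝ)) := by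
      rw [← mul_one (Complex.exp (Complex.I * m * (-Real.pi : ℝ))),
        ← Complex.exp_int_mul_two_pi_mul_I m, ← Complex.exp_add]
      congr 1
      push_cast
      ring
    rw [e2, sub_self, zero_div, mul_zero]

/-- Domination of a windowed sum by the Fourier transform on a short band, at height `y`.
Let `g d` (`|d| ≤ L`) be the normalized window, `ĝ z = ∑ g d exp (-i z d)`, `ĉ z = ∑ c i exp (i z (i - t))`.
Orthogonality gives `∑ g (i - t) c i = (1 / 2π) ∫_{-π}^{π} ĝ (ξ + i y) ĉ (ξ + i y) dξ`.  Always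
`|ĝ (ξ + i y)| ≤ exp (y L)`.  By `sum_wN`, `ĝ` is a normalized box transform (at most `exp (y L)`) times
`Û ^ r`, `|Û z| = |sin ((h + 1/2) z)| / ((2h+1) |sin (z/2)|) ≤ cosh 1 · π / ((2h+1) |ξ|) ≤ 1 / e` for
`24 / (2h+1) ≤ |ξ| ≤ π` (`|sin (a + i b)| ≥ |sin a|`, `|sin (a + i b)| ≤ cosh b`, Jordan's inequality). -/
theorem gwin_dom {L h r : ℕ} (h1 : 1 ≤ r * h) (hL : r * h ≤ L) (t : Fin n) (c : Fin n → ℂ)
    {y X : ℝ} (hy : 0 ≤ y) (hyh : (h + 1 / 2) * y ≤ 1)
    (hX : ∀ ξ : ℝ, |ξ| ≤ 24 / (2 * h + 1) →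
      ‖∑ i, c i * Complex.exp (Complex.I * (ξ + Complex.I * y) *
        ((((i : ℕ) : ℝ) - ((t : ℕ) : ℝ) : ℝ) : ℂ))‖ ≤ X) :
    ‖∑ i, (gwin L h r t i : ℂ) * c i‖ ≤ Real.exp (y * L) * (X + Real.exp (-(r : ℝ)) *
      ∑ i, ‖c i‖ * Real.exp (-(y * (((i : ℕ) : ℝ) - ((t : ℕ) : ℝ))))) := by
  set M : ℕ := L - r * h with hM
  set κ : ℝ := ((2 * h + 1 : ℕ) : ℝ) ^ r * (2 * L) with hκ
  have hL1 : (1 : ℝ) ≤ L := by exact_mod_cast h1.trans hL
  have hκ0 : 0 < κ := by positivity
  have hh : (1 : ℝ) ≤ h := by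
    have : 1 ≤ h := Nat.pos_of_ne_zero fun h0 => by simp [h0] at h1
    exact_mod_cast this
  have hy1 : y ≤ 1 := by nlinarith
  have hML : 2 * M + 2 * r * h = 2 * L := by rw [mul_assoc]; omega
  set ch : ℝ → ℂ := fun ξ => ∑ i, c i * Complex.exp (Complex.I * (ξ + Complex.I * y) *
    ((((i : ℕ) : ℝ) - ((t : ℕ) : ℝ) : ℝ) : ℂ)) with hch
  set gh : ℝ → ℂ := fun ξ => Complex.exp (Complex.I * (ξ + Complex.I * y) * L) *
    (∑ d ∈ range (2 * L + 1), (wN M h r d : ℂ) *
      Complex.exp (-(Complex.I * (ξ + Complex.I * y))) ^ d) / κ with hgh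
  set Z : ℝ := ∑ i, ‖c i‖ * Real.exp (-(y * (((i : ℕ) : ℝ) - ((t : ℕ) : ℝ)))) with hZ
  have hZ0 : 0 ≤ Z := Finset.sum_nonneg fun i _ => by positivity
  have hX0 : 0 ≤ X := (norm_nonneg _).trans (hX 0 (by rw [abs_zero]; positivity))
  have hc : ∀ ξ, ‖ch ξ‖ ≤ Z := by
    intro ξ
    refine (norm_sum_le _ _).trans (Finset.sum_le_sum fun i _ => le_of_eq ?_)
    rw [norm_mul, Complex.norm_exp]
    congr 2
    simp only [Complex.mul_re, Complex.mul_im, Complex.add_re, Complex.add_im, Complex.I_re,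
      Complex.I_im, Complex.ofReal_re, Complex.ofReal_im]
    ring
  have he1 : 1 ≤ Real.exp y := Real.one_le_exp hy
  have hg : ∀ (ξ ρ : ℝ), 0 ≤ ρ →
      ‖∑ j ∈ range (2 * h + 1), Complex.exp (-(Complex.I * (ξ + Complex.I * y))) ^ j‖ ≤
        ((2 * h + 1 : ℕ) : ℝ) * Real.exp y ^ (2 * h) * ρ → ‖gh ξ‖ ≤ Real.exp (y * L) * ρ ^ r := by
    intro ξ ρ hρ hB
    have hn : ‖Complex.exp (-(Complex.I * (ξ + Complex.I * y)))‖ = Real.exp y := by
      rw [Complex.norm_exp]; simp
    have hA := norm_geom_le hn he1 (2 * M)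
    have hA' : ((2 * M + 1 : ℕ) : ℝ) ≤ 2 * L := by
      exact_mod_cast (show 2 * M + 1 ≤ 2 * L by omega)
    have hA2 := hA.trans (mul_le_mul_of_nonneg_right hA' (by positivity))
    have hE : ‖Complex.exp (Complex.I * (ξ + Complex.I * y) * L)‖ = Real.exp (-(y * L)) := by
      rw [Complex.norm_exp]; simp
    simp only [hgh]
    rw [← hML, sum_wN, norm_div, norm_mul, norm_mul, norm_pow, hE, Complex.norm_real,
      Real.norm_of_nonneg hκ0.le, div_le_iff₀ hκ0]
    have a1 := mul_le_mul hA2 (pow_le_pow_left₀ (norm_nonneg _) hB r) (by positivity)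
      (by positivity)
    refine (mul_le_mul_of_nonneg_left a1 (Real.exp_pos _).le).trans (le_of_eq ?_)
    have a2 : Real.exp (y * L) = Real.exp (-(y * L)) * (Real.exp y ^ (2 * M) *
        (Real.exp y ^ (2 * h)) ^ r) := by
      rw [← pow_mul, ← pow_add, show 2 * M + 2 * h * r = 2 * L by rw [← hML]; ring,
        ← Real.exp_nat_mul, ← Real.exp_add]
      congr 1
      push_cast
      ring
    rw [a2, hκ, mul_pow, mul_pow]
    ring
  have hbd : ∀ ξ ∈ Set.uIoc (-Real.pi) Real.pi, ‖gh ξ * ch ξ‖ ≤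
      Real.exp (y * L) * (X + Real.exp (-(r : ℝ)) * Z) := by
    intro ξ hξ
    have hpi := Real.pi_pos
    rw [Set.uIoc_of_le (by linarith)] at hξ
    have hξ' : |ξ| ≤ Real.pi := abs_le.2 ⟨hξ.1.le, hξ.2⟩
    rw [norm_mul]
    rcases le_total |ξ| (24 / (2 * (h : ℝ) + 1)) with h2 | h2
    · have hn : ‖Complex.exp (-(Complex.I * (ξ + Complex.I * y)))‖ = Real.exp y := by
        rw [Complex.norm_exp]; simp
      have a1 := hg ξ 1 zero_le_one (by rw [mul_one]; exact norm_geom_le hn he1 (2 * h))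
      rw [one_pow, mul_one] at a1
      refine mul_le_mul a1 ((hX ξ h2).trans ?_) (norm_nonneg _) (Real.exp_pos _).le
      have : 0 ≤ Real.exp (-(r : ℝ)) * Z := by positivity
      linarith
    · have a1 := hg ξ _ (Real.exp_pos _).le (norm_geom_far hy hy1 hξ' h2)
      rw [← Real.exp_nat_mul, mul_neg_one] at a1
      refine (mul_le_mul a1 (hc ξ) (norm_nonneg _) (by positivity)).trans ?_
      rw [mul_assoc]
      exact mul_le_mul_of_nonneg_left (by linarith) (Real.exp_pos _).le
  have e1 : ∀ ξ : ℝ, gh ξ * ch ξ = ∑ i : Fin n, ∑ d ∈ range (2 * L + 1),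
      ((wN M h r d : ℂ) / κ * c i) * Complex.exp (Complex.I * (ξ + Complex.I * y) *
        (((i : ℕ) + L - (t : ℕ) - d : ℤ) : ℂ)) := by
    intro ξ
    simp only [hgh, hch]
    rw [Finset.mul_sum Finset.univ]
    refine Finset.sum_congr rfl fun i _ => ?_
    rw [Finset.mul_sum, Finset.sum_div, Finset.sum_mul]
    refine Finset.sum_congr rfl fun d _ => ?_
    rw [← Complex.exp_nat_mul]
    have : Complex.exp (Complex.I * (ξ + Complex.I * y) * (((i : ℕ) + L - (t : ℕ) - d : ℤ) : ℂ)) =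
        Complex.exp (Complex.I * (ξ + Complex.I * y) * L) *
          Complex.exp (d * -(Complex.I * (ξ + Complex.I * y))) *
          Complex.exp (Complex.I * (ξ + Complex.I * y) *
            ((((i : ℕ) : ℝ) - ((t : ℕ) : ℝ) : ℝ) : ℂ)) := by
      rw [← Complex.exp_add, ← Complex.exp_add]
      congr 1
      push_cast
      ring
    rw [this]
    ring
  have hint : ∀ (a : ℂ) (m : ℤ), IntervalIntegrable (fun ξ : ℝ => a *
      Complex.exp (Complex.I * (ξ + Complex.I * y) * m)) MeasureTheory.volume (-Real.pi) Real.pi :=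
    fun a m => Continuous.intervalIntegrable (by fun_prop) _ _
  have e2 : ∫ ξ in (-Real.pi)..Real.pi, gh ξ * ch ξ =
      (2 * Real.pi : ℂ) * ∑ i, (gwin L h r t i : ℂ) * c i := by
    simp only [e1]
    rw [intervalIntegral.integral_finsetSum fun i _ => Continuous.intervalIntegrable
      (by fun_prop) _ _, Finset.mul_sum]
    refine Finset.sum_congr rfl fun i _ => ?_
    rw [intervalIntegral.integral_finsetSum fun d _ => hint _ _]
    simp only [intervalIntegral.integral_const_mul, orth_int]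
    unfold gwin
    split_ifs with hi
    · by_cases hd : i + L - t ∈ range (2 * L + 1)
      · rw [Finset.sum_eq_single_of_mem _ hd, if_pos (by omega)]
        · simp only [hκ, hM]
          push_cast
          ring
        · intro d _ hd'
          rw [if_neg (by omega), mul_zero]
      · rw [mem_range] at hd
        rw [wN_eq_zero (by rw [← hM, hML]; omega), Finset.sum_eq_zero]
        · simp
        · intro d hd'
          rw [mem_range] at hd'
          rw [if_neg (by omega), mul_zero]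
    · rw [Finset.sum_eq_zero]
      · simp
      · intro d _
        rw [if_neg (by omega), mul_zero]
  have h3 := intervalIntegral.norm_integral_le_of_norm_le_const hbd
  have hpi := Real.pi_pos
  rw [e2, norm_mul, show (2 * Real.pi : ℂ) = ((2 * Real.pi : ℝ) : ℂ) by push_cast; rfl,
    Complex.norm_real, Real.norm_of_nonneg (by positivity), sub_neg_eq_add,
    abs_of_pos (by positivity), ← two_mul, mul_comm] at h3
  exact le_of_mul_le_mul_right h3 (by positivity)

end Crest.Agent.R300
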