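import Crest.Agent.R300.USem1
import Crest.Agent.R300.UWin

/-!
# R300 upper bound: semantics of the windows and of the families (task USem2)
-/

set_option autoImplicit false

namespace Crest.Agent.R300

open Finset

variable {n : ℕ}

private theorem usem2_sum {M : Type} [AddCommMonoid M] (f : ℕ → M) (m : ℕ) :
    ((List.range m).map f).sum = ∑ i ∈ range m, f i := by
  induction m with
  | zero => rfl
  | succ m ih => rw [List.range_succ, List.map_append, List.sum_append, ih, sum_range_succ]; simp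

private theorem usem2_getD {α : Type} (f : ℕ → α) {m i : ℕ} (hi : i < m) (d : α) :
    ((List.range m).map f).getD i d = f i := by
  rw [List.getD_eq_getElem _ _ (by simpa using hi)]
  simp

private theorem usem2_pS (s k l : ℕ) : 1 ≤ pS s k l := Nat.one_le_two_pow

theorem uuQ_cast (J L d : ℕ) : ((uuQ J L d : ℚ) : ℝ) = uu J L d := by
  unfold uuQ uu
  rw [usem2_sum, ← Finset.Ico_add_one_right_eq_Icc, Finset.sum_Ico_eq_sum_range,
    show 2 * J + 1 - J = J + 1 by omega]
  push_cast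
  refine sum_congr rfl fun j _ => ?_
  rw [show 2 * J - (J + j) = J - j by omega]

theorem mem_zrange {M : ℕ} {a : ℤ} : a ∈ zrange M ↔ |a| ≤ M := by
  simp only [zrange, List.mem_map, List.mem_range, abs_le]
  constructor
  · rintro ⟨j, hj, rfl⟩
    omega
  · rintro ⟨h1, h2⟩
    exact ⟨(a + M).toNat, by omega, by omega⟩

theorem mem_candQ {F : List QFeat} {zs : List ℤ} {c : QFeat × ℤ} :
    c ∈ candQ F zs ↔ c.1 ∈ F ∧ c.2 ∈ zs := by
  simp only [candQ, List.mem_flatMap, List.mem_map]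
  constructor
  · rintro ⟨K, hK, a, ha, rfl⟩
    exact ⟨hK, ha⟩
  · rintro ⟨h1, h2⟩
    exact ⟨c.1, h1, c.2, h2, rfl⟩

/-- Induction on the number of convolutions; `wN_eq_zero` beyond the end of the row. -/
theorem winRow_getD {L h r : ℕ} (hL : r * h ≤ L) (d : ℕ) :
    (winRow L h r).getD d 0 = wN (L - r * h) h r d := by
  have key : ∀ (M r' : ℕ), M + r' * h ≤ L →
      ((winStep h)^[r'] ((List.range (2 * L + 1)).map fun d => if d ≤ 2 * M then 1 else 0)).length =
        2 * L + 1 ∧ ∀ d, ((winStep h)^[r'] ((List.range (2 * L + 1)).map fun d =>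
          if d ≤ 2 * M then 1 else 0)).getD d 0 = wN M h r' d := by
    intro M r'
    induction r' with
    | zero =>
      intro hM
      refine ⟨by simp, fun d => ?_⟩
      rw [Function.iterate_zero, id]
      by_cases hd : d < 2 * L + 1
      · rw [usem2_getD _ hd, wN]
      · rw [List.getD_eq_default _ _ (by simpa using hd), wN_eq_zero (by omega)]
    | succ r' ih =>
      intro hM
      rw [add_mul, one_mul] at hM
      obtain ⟨h1, h2⟩ := ih (by omega)
      rw [Function.iterate_succ_apply']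
      generalize (winStep h)^[r'] _ = row at h1 h2
      refine ⟨by simp [winStep, h1], fun d => ?_⟩
      unfold winStep
      by_cases hd : d < 2 * L + 1
      · rw [usem2_getD _ (h1 ▸ hd), usem2_sum, wN]
        simp only [h2]
      · rw [List.getD_eq_default _ _ (by simpa [h1] using hd),
          wN_eq_zero (by rw [mul_assoc, add_mul, one_mul]; omega)]
  exact (key (L - r * h) r (by omega)).2 d

theorem length_lwinQ (n s k l : ℕ) (b : Bool) (t : ℕ) : (lwinQ n s k l b t).length = n := by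
  simp [lwinQ, winQ]

theorem lwinQ_cast (s k l : ℕ) (b : Bool) (t i : Fin n) :
    (((lwinQ n s k l b t).getD i 0 : ℚ) : ℝ) = lwin s k l b t i := by
  have h : pE s k (l + 1) * (pL s k l b / (4 * pE s k (l + 1))) ≤ pL s k l b :=
    le_trans (Nat.mul_le_mul_right _ (by omega)) (Nat.mul_div_le _ (4 * pE s k (l + 1)))
  unfold lwinQ winQ lwin gwin
  rw [usem2_getD _ i.2, winRow_getD h]
  split_ifs
  · push_cast
    rfl
  · simp

theorem WFF.edgeQ {K : QFeat} (h : WFF n K) (pw : List QC) (J L : ℕ) (a : ℤ) :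
    WFF n (edgeQ pw (uTab n J L) a K) := by
  refine ⟨by simp [Crest.Agent.R300.edgeQ, uTab], fun φ hφ => ?_⟩
  obtain ⟨i, -, rfl⟩ := List.mem_map.1 hφ
  exact h.wfQ _ _ _ _

theorem sem_edgeQ {S cap : ℕ} (hS : 1 ≤ S) (J L : ℕ) (K : QFeat) {a : ℤ} (ha : |a| * n ≤ cap) :
    semF n (edgeQ (pwTab S cap) (uTab n J L) a K) = edge J L ((a : ℝ) * eta S) (semF n K) := by
  funext i
  have hl : (uTab n J L).length = n := by simp [uTab]
  unfold semF edgeQ edge
  rw [hl, usem2_getD _ i.2, sem_wfQ hS (by simp) K i ha]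
  congr 1
  funext j
  have h1 : (i : ℕ) - j + (j - i) < n := by omega
  rw [usem2_getD _ j.2, uTab, usem2_getD _ h1]
  push_cast
  rw [uuQ_cast]
  rfl

private theorem usem2_bound {M : ℕ} {a : ℤ} (ha : |a| ≤ 3 * M) :
    |a| * n ≤ ((3 * M * n : ℕ) : ℤ) := by
  push_cast
  exact mul_le_mul_of_nonneg_right ha (Int.natCast_nonneg n)

private theorem usem2_one : WFF n (List.replicate n (oneQ n)) ∧
    ∀ i, semF n (List.replicate n (oneQ n)) i = oneF := by
  refine ⟨⟨by simp, fun φ hφ => ?_⟩, fun i => ?_⟩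
  · rw [List.eq_of_mem_replicate hφ]
    exact wf_oneQ
  · unfold semF
    rw [List.getD_eq_getElem _ _ (by simp), List.getElem_replicate, sem_oneQ]

/-- the list of edges of level `l` -/
private def usem2E (n s k l : ℕ) (b : Bool) : List QFeat :=
  edgesQ (List.replicate n (oneQ n)) (lvPw n s k l) (uTab n (pJ s k l) (pL s k l b))
    (zrange (3 * pMT s k l)) (famQ n s k l)

private theorem usem2_mem {s k l : ℕ} {K : QFeat} : K ∈ famQ n s k (l + 1) ↔
    ∃ b, ∃ K₁ ∈ famQ n s k l, ∃ e₁ ∈ usem2E n s k l b, ∃ e₂ ∈ usem2E n s k l b,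
      ∃ e₃ ∈ usem2E n s k l b, staF (staF (staF K₁ e₁) e₂) e₃ = K := by
  simp only [famQ, famStep, List.mem_append, nodesQ, List.mem_flatMap, List.mem_map, Bool.exists_bool]
  exact or_comm

private theorem usem2_memE {s k l : ℕ} {b : Bool} {e : QFeat} : e ∈ usem2E n s k l b ↔
    e = List.replicate n (oneQ n) ∨ ∃ K ∈ famQ n s k l, ∃ a : ℤ, |a| ≤ 3 * pMT s k l ∧
      edgeQ (lvPw n s k l) (uTab n (pJ s k l) (pL s k l b)) a K = e := by
  simp only [usem2E, edgesQ, List.mem_cons, List.mem_flatMap, List.mem_map, mem_zrange]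
  push_cast
  rfl

private theorem usem2_node_append (J L : ℕ) (K : Feat n) (l l' : List (Feat n × ℝ)) :
    node J L K (l ++ l') = node J L (node J L K l) l' := by
  funext i
  simp only [node, List.foldl_append]

private theorem usem2_onGrid_append (η : ℝ) (l l' : List (Feat n × ℤ)) :
    onGrid η (l ++ l') = onGrid η l ++ onGrid η l' := List.map_append

/-- multiplying by a member of the list of edges -/
private theorem usem2_step {s k l : ℕ} {b : Bool}
    (ih : ∀ K ∈ famQ n s k l, WFF n K ∧ semF n K ∈ famS n s k l) {e : QFeat}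
    (he : e ∈ usem2E n s k l b) {K : QFeat} (hK : WFF n K) :
    WFF n (staF K e) ∧ ∃ es : List (Feat n × ℤ), es.length ≤ 1 ∧
      (∀ x ∈ es, x.1 ∈ famS n s k l ∧ |x.2| ≤ 3 * pMT s k l) ∧
      semF n (staF K e) = node (pJ s k l) (pL s k l b) (semF n K) (onGrid (eta (pS s k l)) es) := by
  rcases usem2_memE.1 he with rfl | ⟨K', hK', a, ha, rfl⟩
  · refine ⟨hK.staF usem2_one.1, [], by simp, by simp, funext fun i => ?_⟩
    rw [sem_staF hK usem2_one.1, usem2_one.2, sta_oneF]
    rfl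
  · have h1 := (ih K' hK').1.edgeQ (lvPw n s k l) (pJ s k l) (pL s k l b) a
    refine ⟨hK.staF h1, [(semF n K', a)], by simp, by simpa using ⟨(ih K' hK').2, ha⟩,
      funext fun i => ?_⟩
    rw [sem_staF hK h1, lvPw, sem_edgeQ (usem2_pS s k l) _ _ _ (usem2_bound ha)]
    rfl

/-- The trivial edges are dropped from the list (`sta_oneF`). -/
theorem famQ_sound {s k l : ℕ} {K : QFeat} (h : K ∈ famQ n s k l) :
    WFF n K ∧ semF n K ∈ famS n s k l := by
  induction l generalizing K with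
  | zero =>
    obtain rfl : K = leafQ n := by simpa [famQ] using h
    exact ⟨wff_leafQ, sem_leafQ⟩
  | succ l ih =>
    obtain ⟨b, K₁, hK₁, e₁, h₁, e₂, h₂, e₃, h₃, rfl⟩ := usem2_mem.1 h
    obtain ⟨w₁, l₁, a₁, b₁, c₁⟩ := usem2_step (fun _ h => ih h) h₁ (ih hK₁).1
    obtain ⟨w₂, l₂, a₂, b₂, c₂⟩ := usem2_step (fun _ h => ih h) h₂ w₁
    obtain ⟨w₃, l₃, a₃, b₃, c₃⟩ := usem2_step (fun _ h => ih h) h₃ w₂
    refine ⟨w₃, b, semF n K₁, l₁ ++ l₂ ++ l₃, (ih hK₁).2, ?_, ?_, ?_⟩
    · simp only [List.length_append]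
      omega
    · intro e he
      simp only [List.mem_append] at he
      rcases he with (he | he) | he
      exacts [b₁ e he, b₂ e he, b₃ e he]
    · rw [usem2_onGrid_append, usem2_onGrid_append, usem2_node_append, usem2_node_append, c₃, c₂, c₁]

/-- one edge, or none -/
private theorem usem2_step' {s k l : ℕ} (b : Bool)
    (ih : ∀ K ∈ famS n s k l, ∃ K' ∈ famQ n s k l, semF n K' = K) (es : List (Feat n × ℤ))
    (hes : ∀ x ∈ es, x.1 ∈ famS n s k l ∧ |x.2| ≤ 3 * pMT s k l) {K : QFeat} (hK : WFF n K) :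
    ∃ e ∈ usem2E n s k l b, WFF n (staF K e) ∧
      node (pJ s k l) (pL s k l b) (semF n (staF K e)) (onGrid (eta (pS s k l)) es.tail) =
        node (pJ s k l) (pL s k l b) (semF n K) (onGrid (eta (pS s k l)) es) := by
  rcases es with _ | ⟨⟨K₂, a⟩, es⟩
  · refine ⟨_, usem2_memE.2 (Or.inl rfl), hK.staF usem2_one.1, funext fun i => ?_⟩
    show semF n _ i = semF n K i
    rw [sem_staF hK usem2_one.1, usem2_one.2, sta_oneF]
  · obtain ⟨h1, h2⟩ := hes _ List.mem_cons_self
    obtain ⟨K', hK', rfl⟩ := ih _ h1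
    have h3 := (famQ_sound hK').1.edgeQ (lvPw n s k l) (pJ s k l) (pL s k l b) a
    refine ⟨_, usem2_memE.2 (Or.inr ⟨K', hK', a, h2, rfl⟩), hK.staF h3, ?_⟩
    rw [List.tail_cons, onGrid, onGrid, List.map_cons, node_cons]
    congr 1
    funext i
    rw [sem_staF hK h3, lvPw, sem_edgeQ (usem2_pS s k l) _ _ _ (usem2_bound h2)]

/-- Lists of at most three edges are padded with trivial edges. -/
theorem famQ_complete {s k l : ℕ} {K : Feat n} (h : K ∈ famS n s k l) :
    ∃ K' ∈ famQ n s k l, semF n K' = K := by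
  induction l generalizing K with
  | zero =>
    obtain rfl : K = leaf := h
    exact ⟨leafQ n, by simp [famQ], sem_leafQ⟩
  | succ l ih =>
    obtain ⟨b, K₁, es, hK₁, hl, hes, rfl⟩ := h
    obtain ⟨K', hK', rfl⟩ := ih hK₁
    have ht : ∀ x ∈ es.tail, x.1 ∈ famS n s k l ∧ |x.2| ≤ 3 * pMT s k l :=
      fun x hx => hes x (List.mem_of_mem_tail hx)
    obtain ⟨e₁, h₁, w₁, c₁⟩ := usem2_step' b (fun _ h => ih h) es hes (famQ_sound hK').1
    obtain ⟨e₂, h₂, w₂, c₂⟩ := usem2_step' b (fun _ h => ih h) es.tail ht w₁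
    obtain ⟨e₃, h₃, -, c₃⟩ := usem2_step' b (fun _ h => ih h) es.tail.tail
      (fun x hx => ht x (List.mem_of_mem_tail hx)) w₂
    refine ⟨_, usem2_mem.2 ⟨b, K', hK', e₁, h₁, e₂, h₂, e₃, h₃, rfl⟩, ?_⟩
    rw [← c₁, ← c₂, ← c₃, show es.tail.tail.tail = [] from
      List.eq_nil_of_length_eq_zero (by simp only [List.length_tail]; omega)]
    rfl

theorem famQ_ne_nil (n s k l : ℕ) : famQ n s k l ≠ [] := by
  induction l with
  | zero => simp [famQ]
  | succ l ih =>
    obtain ⟨K, hK⟩ := List.exists_mem_of_ne_nil _ ih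
    have h := usem2_memE (n := n) (s := s) (k := k) (l := l) (b := true).2 (Or.inl rfl)
    exact List.ne_nil_of_mem (usem2_mem.2 ⟨true, K, hK, _, h, _, h, _, h, rfl⟩)

theorem sem_fw {s k l : ℕ} (b : Bool) (t : Fin n) (sg : ℕ) (v : RV) {K : QFeat}
    (hK : K ∈ famQ n s k l) {a : ℤ} (ha : |a| ≤ 3 * pMT s k l) :
    WF n (fw (lvPw n s k l, lwinQ n s k l b t, t, sg, v) K a) ∧
      semFn n (fw (lvPw n s k l, lwinQ n s k l b t, t, sg, v) K a) =
        wf (lwin s k l b t) t ((a : ℝ) * eta (pS s k l)) (semF n K) := by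
  refine ⟨(famQ_sound hK).1.wfQ _ _ _ _, ?_⟩
  show semFn n (wfQ (pwTab _ _) (lwinQ n s k l b t) t a K) = _
  rw [sem_wfQ (usem2_pS s k l) (length_lwinQ n s k l b t) K t (usem2_bound ha)]
  simp only [lwinQ_cast]

end Crest.Agent.R300
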