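import Crest.Agent.R300.UEdge
import Crest.Agent.R300.UWin
import Crest.Agent.R300.UPP

/-!
# R300 upper bound: products of windowed transforms from transforms of nodes (task UStep)
-/

set_option autoImplicit false

namespace Crest.Agent.R300

open Finset

variable {n : ℕ}

namespace UStepAux

/-- Plain `ℓ¹` bound `N` (dual form). -/
def BdN (φ : Fn n) (N : ℝ) : Prop :=
  ∀ (Λ : Tab n) (c : ℝ), 0 ≤ c → (∀ S, ‖Λ S‖ ≤ c) → ‖φ Λ‖ ≤ N * c

theorem BdN.sta_left {φ ψ : Fn n} {N : ℝ} (h : BdN φ N) (h' : Bd0 ψ) : BdN (sta φ ψ) N := by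
  intro Λ c hc hΛ
  rw [sta_apply]
  exact h _ c hc fun S => h' _ c hc fun S' => hΛ _

theorem BdN.sta_right {φ ψ : Fn n} {N : ℝ} (hN : 0 ≤ N) (h : Bd0 φ) (h' : BdN ψ N) :
    BdN (sta φ ψ) N := by
  intro Λ c hc hΛ
  rw [sta_apply]
  exact h _ (N * c) (mul_nonneg hN hc) fun S => h' _ c hc fun S' => hΛ _

theorem BdN.add {φ ψ : Fn n} {N N' : ℝ} (h : BdN φ N) (h' : BdN ψ N') : BdN (φ + ψ) (N + N') := by
  intro Λ c hc hΛ
  rw [LinearMap.add_apply, add_mul]
  exact (norm_add_le _ _).trans (add_le_add (h _ c hc hΛ) (h' _ c hc hΛ))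

theorem bdN_zero : BdN (0 : Fn n) 0 := by
  intro Λ c _ _
  simp

/-- Iterated product. -/
def fo {ε : Type} (f : ε → Fn n) (l : List ε) (φ : Fn n) : Fn n :=
  l.foldl (fun acc e => sta acc (f e)) φ

theorem fo_nil {ε : Type} (f : ε → Fn n) (φ : Fn n) : fo f [] φ = φ := rfl

theorem fo_cons {ε : Type} (f : ε → Fn n) (e : ε) (l : List ε) (φ : Fn n) :
    fo f (e :: l) φ = fo f l (sta φ (f e)) := rfl

theorem fo_eq {ε : Type} (f : ε → Fn n) (l : List ε) (φ : Fn n) :
    fo f l φ = sta φ (fo f l oneF) := by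
  induction l generalizing φ with
  | nil => rw [fo_nil, fo_nil, sta_oneF]
  | cons e l ih => rw [fo_cons, fo_cons, ih, ih (sta oneF (f e)), oneF_sta, sta_assoc]

theorem fo_smul {ε : Type} (f : ε → Fn n) (l : List ε) (c : ℂ) (φ : Fn n) :
    fo f l (c • φ) = c • fo f l φ := by
  rw [fo_eq, fo_eq f l φ, sta_smul_left]

theorem fo_sub {ε : Type} (f : ε → Fn n) (l : List ε) (φ ψ : Fn n) :
    fo f l (φ - ψ) = fo f l φ - fo f l ψ := by
  rw [fo_eq, fo_eq f l φ, fo_eq f l ψ, sta_sub_left]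

theorem fo_sum {ε ι : Type} (f : ε → Fn n) (l : List ε) (I : Finset ι) (φ : ι → Fn n) :
    fo f l (∑ i ∈ I, φ i) = ∑ i ∈ I, fo f l (φ i) := by
  rw [fo_eq, sta_sum_left]
  exact Finset.sum_congr rfl fun i _ => (fo_eq f l (φ i)).symm

theorem BdN.fo {ε : Type} {f : ε → Fn n} {l : List ε} (hl : ∀ e ∈ l, Bd0 (f e)) {φ : Fn n} {N : ℝ}
    (h : BdN φ N) : BdN (fo f l φ) N := by
  induction l generalizing φ with
  | nil => exact h
  | cons e l ih =>
    rw [fo_cons]
    exact ih (fun e' he' => hl e' (List.mem_cons_of_mem _ he'))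
      (h.sta_left (hl e List.mem_cons_self))

theorem bd0_fo {ε : Type} {f : ε → Fn n} {l : List ε} (hl : ∀ e ∈ l, Bd0 (f e)) {φ : Fn n}
    (h : Bd0 φ) : Bd0 (fo f l φ) := by
  induction l generalizing φ with
  | nil => exact h
  | cons e l ih =>
    rw [fo_cons]
    exact ih (fun e' he' => hl e' (List.mem_cons_of_mem _ he'))
      (h.sta (hl e List.mem_cons_self))

theorem fo_tele {ε : Type} {f f' : ε → Fn n} {l : List ε} {δ : ℝ} (hδ : 0 ≤ δ)
    (hl : ∀ e ∈ l, Bd0 (f e)) (hl' : ∀ e ∈ l, Bd0 (f' e)) (hd : ∀ e ∈ l, BdN (f e - f' e) δ)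
    {φ φ' : Fn n} {δ₀ : ℝ} (h' : Bd0 φ') (h : BdN (φ - φ') δ₀) :
    BdN (fo f l φ - fo f' l φ') (δ₀ + l.length * δ) := by
  induction l generalizing φ φ' δ₀ with
  | nil => simpa [fo_nil] using h
  | cons e l ih =>
    rw [fo_cons, fo_cons]
    have h1 : sta φ (f e) - sta φ' (f' e) = sta (φ - φ') (f e) + sta φ' (f e - f' e) := by
      rw [sta_sub_left, sta_sub_right]; abel
    have h2 : BdN (sta φ (f e) - sta φ' (f' e)) (δ₀ + δ) := by
      rw [h1]
      exact (h.sta_left (hl e List.mem_cons_self)).add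
        (BdN.sta_right hδ h' (hd e List.mem_cons_self))
    have h3 := ih (fun e' he' => hl e' (List.mem_cons_of_mem _ he'))
      (fun e' he' => hl' e' (List.mem_cons_of_mem _ he'))
      (fun e' he' => hd e' (List.mem_cons_of_mem _ he'))
      (h'.sta (hl' e List.mem_cons_self)) h2
    have h4 : δ₀ + ((e :: l).length : ℝ) * δ = δ₀ + δ + l.length * δ := by
      rw [List.length_cons]; push_cast; ring
    rw [h4]; exact h3

theorem ph_zero (i j : Fin n) : ph 0 i j = 1 := by simp [ph]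

theorem fo_scal (U : ℂ) (η : ℝ) (t i : Fin n) (f : Feat n × ℤ → Fn n) (l : List (Feat n × ℤ))
    (φ : Fn n) :
    fo (fun e => (U * ph ((e.2 : ℝ) * η) t i) • f e) l φ =
      (U ^ l.length * ph ((((l.map Prod.snd).sum : ℤ) : ℝ) * η) t i) • fo f l φ := by
  induction l generalizing φ with
  | nil => simp [fo_nil, ph_zero]
  | cons e l ih =>
    rw [fo_cons, fo_cons, ih, sta_smul_right, fo_smul, smul_smul]
    congr 1
    rw [List.map_cons, List.sum_cons, Int.cast_add, add_mul, ph_add, List.length_cons, pow_succ]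
    ring

theorem exp_zero_height (ξ : ℝ) (t j : Fin n) :
    Complex.exp (Complex.I * (ξ + Complex.I * (0 : ℝ)) *
      ((((j : ℕ) : ℝ) - ((t : ℕ) : ℝ) : ℝ) : ℂ)) = ph ξ t j := by
  unfold ph
  congr 1
  push_cast
  ring

/-- `gwin_dom` on the real line. -/
theorem gwin_dom0 {L h r : ℕ} (h1 : 1 ≤ r * h) (hL : r * h ≤ L) (t : Fin n) (c : Fin n → ℂ)
    {X M : ℝ} (hX : ∀ ξ : ℝ, |ξ| ≤ 24 / (2 * h + 1) → ‖∑ i, c i * ph ξ t i‖ ≤ X)
    (hM : ∑ i, ‖c i‖ ≤ M) :
    ‖∑ i, (gwin L h r t i : ℂ) * c i‖ ≤ X + M * Real.exp (-(r : ℝ)) := by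
  have h := gwin_dom h1 hL t c (y := 0) (X := X) le_rfl (by simp) (by
    intro ξ hξ
    simp only [exp_zero_height]
    exact hX ξ hξ)
  simp only [zero_mul, neg_zero, Real.exp_zero, mul_one, one_mul] at h
  refine h.trans ?_
  have := mul_le_mul_of_nonneg_left hM (Real.exp_pos (-(r : ℝ))).le
  linarith

theorem sum_uu_le {J L : ℕ} (hJ : 1 ≤ J) (hL : 1 ≤ L) (i : Fin n) :
    ∑ j : Fin n, uu J L (Nat.dist i j) / (256 * L) ≤ 1 := by
  have h := uu_moment (n := n) hJ hL (μ := 0) le_rfl (by simp) i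
  simpa using h

theorem gwin_le_one {L h r : ℕ} (hL : 1 ≤ L) (t i : Fin n) : gwin L h r t i ≤ 1 := by
  refine (gwin_le t i).trans ?_
  have : (1 : ℝ) ≤ L := by exact_mod_cast hL
  rw [div_le_one (by linarith)]
  linarith

/-- An edge that still carries the window `g`. -/
noncomputable def ew (J L : ℕ) (g : Fin n → ℝ) (α : ℝ) (K : Feat n) (i : Fin n) : Fn n :=
  wf (fun j => g j * (uu J L (Nat.dist i j) / (256 * L))) i α K

theorem uuU_nonneg {J L : ℕ} (hL : 1 ≤ L) (d : ℕ) : 0 ≤ uu J L d / (256 * L) :=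
  div_nonneg (uu_nonneg hL d) (by positivity)

theorem bd0_ew {J L : ℕ} (hJ : 1 ≤ J) (hL : 1 ≤ L) {g : Fin n → ℝ} (hg : ∀ j, 0 ≤ g j)
    (hg1 : ∀ j, g j ≤ 1) (α : ℝ) {K : Feat n} (hK : ∀ j, Bd0 (K j)) (i : Fin n) :
    Bd0 (ew J L g α K i) := by
  refine Bd0.wf (fun j => mul_nonneg (hg j) (uuU_nonneg hL _)) ?_ hK i α
  refine le_trans (Finset.sum_le_sum fun j _ => ?_) (sum_uu_le hJ hL i)
  exact mul_le_of_le_one_left (uuU_nonneg hL _) (hg1 j)

theorem norm_wf_le {G : Fin n → ℝ} (hG : ∀ i, 0 ≤ G i) (hG1 : ∑ i, G i ≤ 1) (t : Fin n) (σ : ℝ)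
    (K : Feat n) (Δ : Tab n) {M : ℝ} (hM : 0 ≤ M) (hK : ∀ i, ‖K i Δ‖ ≤ M) :
    ‖wf G t σ K Δ‖ ≤ M := by
  rw [wf_apply]
  refine (norm_sum_le _ _).trans ?_
  calc ∑ j, ‖(G j : ℂ) * ph σ t j * K j Δ‖ ≤ ∑ j, G j * M := by
        refine Finset.sum_le_sum fun j _ => ?_
        rw [norm_mul, norm_mul, norm_ph, mul_one, Complex.norm_real, Real.norm_of_nonneg (hG j)]
        exact mul_le_mul_of_nonneg_left (hK j) (hG j)
    _ = (∑ j, G j) * M := by rw [Finset.sum_mul]
    _ ≤ M := mul_le_of_le_one_left hM hG1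

theorem wf_sub (G : Fin n → ℝ) (t : Fin n) (σ : ℝ) (K K' : Feat n) (Δ : Tab n) :
    wf G t σ K Δ - wf G t σ K' Δ = wf G t σ (fun i => K i - K' i) Δ := by
  rw [wf_apply, wf_apply, wf_apply, ← Finset.sum_sub_distrib]
  refine Finset.sum_congr rfl fun j _ => ?_
  rw [LinearMap.sub_apply]; ring

theorem fo_sta_wf {ε : Type} (f : ε → Fn n) (l : List ε) (φ : Fn n) (u : Fin n → ℝ) (i : Fin n)
    (β : ℝ) (K : Feat n) (Δ : Tab n) :
    fo f l (sta φ (wf u i β K)) Δ = ∑ j, (u j : ℂ) * ph β i j * fo f l (sta φ (K j)) Δ := by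
  unfold wf
  rw [sta_sum_right, fo_sum, LinearMap.sum_apply]
  refine Finset.sum_congr rfl fun j _ => ?_
  rw [sta_smul_right, fo_smul, LinearMap.smul_apply, smul_eq_mul]

theorem remove_win {J L h r ME : ℕ} (hJ : 1 ≤ J) (h1 : 1 ≤ r * h) (hL : r * h ≤ L) (t : Fin n)
    {G : Fin n → ℝ} (hG : ∀ i, 0 ≤ G i) (hG1 : ∑ i, G i ≤ 1) {η : ℝ} (hη : 0 < η) {Δ : Tab n}
    (hΔ : ∀ S, ‖Δ S‖ ≤ 2) {Y : ℝ} (es : List (Feat n × ℤ)) :
    ∀ (K₁ : Feat n) (σ : ℝ), (∀ i, Bd0 (K₁ i)) → (∀ e ∈ es, ∀ i, Bd0 (e.1 i)) →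
      (∀ e ∈ es, ((|e.2| : ℤ) : ℝ) + 24 / (2 * h + 1) / η + 1 ≤ ME) →
      (∀ es' : List (Feat n × ℤ), es'.map Prod.fst = es.map Prod.fst →
        (∀ e ∈ es', |e.2| ≤ ME) → ∀ σ' : ℝ, |σ' - σ| ≤ es.length * (24 / (2 * h + 1)) →
        ‖wf G t σ' (node J L K₁ (onGrid η es')) Δ‖ ≤ Y) →
      ‖wf G t σ (fun i => fo (fun e => ew J L (gwin L h r t) ((e.2 : ℝ) * η) e.1 i) es (K₁ i)) Δ‖ ≤
        Y + es.length * (2 * (Real.exp (-(r : ℝ)) + 96 * L * η)) := by
  have hL1 : 1 ≤ L := h1.trans hL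
  induction es with
  | nil =>
    intro K₁ σ _ _ _ hY
    have := hY [] rfl (by simp) σ (by simp)
    rw [List.length_nil, Nat.cast_zero, zero_mul, add_zero]
    exact this
  | cons e l ih =>
    intro K₁ σ hK₁ hes hME hY
    set g := gwin L h r t with hg
    set F : Fin n → Feat n × ℤ → Fn n := fun i e => ew J L g ((e.2 : ℝ) * η) e.1 i with hF
    have hFb : ∀ i, ∀ e' ∈ l, Bd0 (F i e') := fun i e' he' =>
      bd0_ew hJ hL1 (gwin_nonneg L h r t) (gwin_le_one hL1 t) _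
        (hes e' (List.mem_cons_of_mem _ he')) i
    have he : ∀ i, Bd0 (e.1 i) := hes e List.mem_cons_self
    set A : Fin n → Fin n → ℂ := fun i j => fo (F i) l (sta (K₁ i) (e.1 j)) Δ with hA
    have hAb : ∀ i j, ‖A i j‖ ≤ 2 := fun i j =>
      bd0_fo (hFb i) ((hK₁ i).sta (he j)) Δ 2 (by norm_num) hΔ
    set u : Fin n → Fin n → ℝ := fun i j => uu J L (Nat.dist i j) / (256 * L) with hu
    set c : Fin n → ℂ := fun j =>
      ∑ i, (G i : ℂ) * ph σ t i * ((u i j : ℂ) * ph ((e.2 : ℝ) * η) i j * A i j) with hc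
    have e1 : wf G t σ (fun i => fo (F i) (e :: l) (K₁ i)) Δ = ∑ j, (g j : ℂ) * c j := by
      rw [wf_apply]
      have : ∀ i, fo (F i) (e :: l) (K₁ i) Δ =
          ∑ j, (g j : ℂ) * ((u i j : ℂ) * ph ((e.2 : ℝ) * η) i j * A i j) := by
        intro i
        rw [fo_cons]
        have : F i e = wf (fun j => g j * u i j) i ((e.2 : ℝ) * η) e.1 := rfl
        rw [this, fo_sta_wf]
        refine Finset.sum_congr rfl fun j _ => ?_
        push_cast
        ring
      simp only [this, hc, Finset.mul_sum]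
      rw [Finset.sum_comm]
      refine Finset.sum_congr rfl fun j _ => Finset.sum_congr rfl fun i _ => ?_
      ring
    have e2 : ∀ ξ : ℝ, ∑ j, c j * ph ξ t j = wf G t (σ + ξ)
        (fun i => fo (F i) l (sta (K₁ i) (edge J L ((e.2 : ℝ) * η + ξ) e.1 i))) Δ := by
      intro ξ
      rw [wf_apply]
      have : ∀ i, fo (F i) l (sta (K₁ i) (edge J L ((e.2 : ℝ) * η + ξ) e.1 i)) Δ =
          ∑ j, (u i j : ℂ) * ph ((e.2 : ℝ) * η + ξ) i j * A i j := by
        intro i
        have : edge J L ((e.2 : ℝ) * η + ξ) e.1 i = wf (u i) i ((e.2 : ℝ) * η + ξ) e.1 := rfl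
        rw [this, fo_sta_wf]
      simp only [this, hc, Finset.mul_sum, Finset.sum_mul]
      rw [Finset.sum_comm]
      refine Finset.sum_congr rfl fun i _ => Finset.sum_congr rfl fun j _ => ?_
      rw [ph_add, ph_add, ph_trans ξ t i j]
      ring
    have e3 : ∑ j, ‖c j‖ ≤ 2 := by
      calc ∑ j, ‖c j‖ ≤ ∑ j, ∑ i, G i * (u i j * 2) := by
            refine Finset.sum_le_sum fun j _ => (norm_sum_le _ _).trans
              (Finset.sum_le_sum fun i _ => ?_)
            have hu0 : 0 ≤ u i j := uuU_nonneg hL1 _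
            rw [norm_mul, norm_mul, norm_mul, norm_mul, norm_ph, norm_ph, mul_one, mul_one,
              Complex.norm_real, Complex.norm_real, Real.norm_of_nonneg (hG i),
              Real.norm_of_nonneg hu0]
            exact mul_le_mul_of_nonneg_left (mul_le_mul_of_nonneg_left (hAb i j) hu0) (hG i)
        _ = ∑ i, G i * ((∑ j, u i j) * 2) := by
            rw [Finset.sum_comm]
            refine Finset.sum_congr rfl fun i _ => ?_
            rw [Finset.sum_mul, Finset.mul_sum]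
        _ ≤ ∑ i, G i * 2 := by
            refine Finset.sum_le_sum fun i _ => mul_le_mul_of_nonneg_left ?_ (hG i)
            have := sum_uu_le (n := n) hJ hL1 i
            have h2 : ∑ j, u i j ≤ 1 := this
            linarith
        _ = (∑ i, G i) * 2 := by rw [Finset.sum_mul]
        _ ≤ 2 := by linarith
    have e4 : ∀ ξ : ℝ, |ξ| ≤ 24 / (2 * h + 1) → ‖∑ j, c j * ph ξ t j‖ ≤
        Y + l.length * (2 * (Real.exp (-(r : ℝ)) + 96 * L * η)) + η * (96 * L) * 2 := by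
      intro ξ hξ
      rw [e2]
      set a' : ℤ := e.2 + round (ξ / η) with ha'
      have hrd : |ξ / η - round (ξ / η)| ≤ 1 / 2 := abs_sub_round _
      have hβ : |((e.2 : ℝ) * η + ξ) - (a' : ℝ) * η| ≤ η := by
        have : ((e.2 : ℝ) * η + ξ) - (a' : ℝ) * η = (ξ / η - round (ξ / η)) * η := by
          rw [ha']; push_cast; field_simp; ring
        rw [this, abs_mul, abs_of_pos hη]
        exact mul_le_of_le_one_left hη.le (by linarith)
      have ha'M : |a'| ≤ ME := by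
        have h2 := hME e List.mem_cons_self
        have h3 : |ξ / η| ≤ 24 / (2 * h + 1) / η := by
          rw [abs_div, abs_of_pos hη]
          exact div_le_div_of_nonneg_right hξ hη.le
        have h4 : |((round (ξ / η) : ℤ) : ℝ)| ≤ |ξ / η| + 1 / 2 := by
          have := abs_sub_abs_le_abs_sub ((round (ξ / η) : ℤ) : ℝ) (ξ / η)
          rw [abs_sub_comm] at this
          linarith
        have h5 : |(a' : ℝ)| ≤ |(e.2 : ℝ)| + |((round (ξ / η) : ℤ) : ℝ)| := by
          rw [ha']; push_cast; exact abs_add_le _ _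
        have h6 : ((|a'| : ℤ) : ℝ) ≤ ((ME : ℤ) : ℝ) := by
          push_cast at h2 ⊢
          linarith
        exact_mod_cast h6
      have hIH := ih (fun i => sta (K₁ i) (edge J L ((a' : ℝ) * η) e.1 i)) (σ + ξ)
        (fun i => (hK₁ i).sta (bd0_edge hJ hL1 _ he i))
        (fun e' he' => hes e' (List.mem_cons_of_mem _ he'))
        (fun e' he' => hME e' (List.mem_cons_of_mem _ he')) (by
          intro es' h' hM' σ' hσ'
          have := hY ((e.1, a') :: es') (by simp [h']) (by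
            intro e' he'
            rcases List.mem_cons.1 he' with rfl | he'
            · exact ha'M
            · exact hM' e' he') σ' (by
            have h7 : |σ' - σ| ≤ |σ' - (σ + ξ)| + |ξ| := by
              have := abs_add_le (σ' - (σ + ξ)) ξ
              rwa [show σ' - (σ + ξ) + ξ = σ' - σ by ring] at this
            rw [List.length_cons]; push_cast
            linarith)
          exact this)
      have hdiff : ‖wf G t (σ + ξ)
          (fun i => fo (F i) l (sta (K₁ i) (edge J L ((e.2 : ℝ) * η + ξ) e.1 i))) Δ -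
          wf G t (σ + ξ)
          (fun i => fo (F i) l (sta (K₁ i) (edge J L ((a' : ℝ) * η) e.1 i))) Δ‖ ≤
          η * (96 * L) * 2 := by
        rw [wf_sub]
        refine norm_wf_le hG hG1 t _ _ Δ (by positivity) fun i => ?_
        rw [← fo_sub, ← sta_sub_right]
        have hb : BdN (edge J L ((e.2 : ℝ) * η + ξ) e.1 i - edge J L ((a' : ℝ) * η) e.1 i)
            (η * (96 * L)) := by
          intro Λ c' hc' hΛ
          rw [LinearMap.sub_apply]
          have := wf_lip (G := u i) (fun j => uuU_nonneg hL1 _) (t := i) (Lw := 96 * L)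
            (uu_first_moment hJ hL1 i) he hc' hΛ ((e.2 : ℝ) * η + ξ) ((a' : ℝ) * η)
          refine this.trans ?_
          exact mul_le_mul_of_nonneg_right (mul_le_mul_of_nonneg_right hβ (by positivity)) hc'
        exact (BdN.sta_right (by positivity) (hK₁ i) hb).fo (hFb i) Δ 2 (by norm_num) hΔ
      have := norm_le_insert' (wf G t (σ + ξ)
          (fun i => fo (F i) l (sta (K₁ i) (edge J L ((e.2 : ℝ) * η + ξ) e.1 i))) Δ)
          (wf G t (σ + ξ)
          (fun i => fo (F i) l (sta (K₁ i) (edge J L ((a' : ℝ) * η) e.1 i))) Δ)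
      linarith
    have := gwin_dom0 h1 hL t c e4 e3
    rw [e1]
    refine this.trans (le_of_eq ?_)
    rw [List.length_cons]; push_cast; ring

end UStepAux

open UStepAux

/-- `gwin_dom` with `y = 0` and `c i = G i * ph σ t i * K i Δ`. -/
theorem win_A {L h r : ℕ} (h1 : 1 ≤ r * h) (hL : r * h ≤ L) (t : Fin n) {G : Fin n → ℝ}
    (hG : ∀ i, 0 ≤ G i) (hG1 : ∑ i, G i ≤ 1) {K : Feat n} (hK : ∀ i, Bd0 (K i)) {Δ : Tab n}
    (hΔ : ∀ S, ‖Δ S‖ ≤ 2) {σ X : ℝ}
    (hX : ∀ β : ℝ, |β - σ| ≤ 24 / (2 * h + 1) → ‖wf G t β K Δ‖ ≤ X) :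
    ‖wf (fun i => gwin L h r t i * G i) t σ K Δ‖ ≤ X + 2 * Real.exp (-(r : ℝ)) := by
  have e1 : wf (fun i => gwin L h r t i * G i) t σ K Δ =
      ∑ i, (gwin L h r t i : ℂ) * ((G i : ℂ) * ph σ t i * K i Δ) := by
    rw [wf_apply]
    refine Finset.sum_congr rfl fun j _ => ?_
    push_cast; ring
  rw [e1]
  refine gwin_dom0 h1 hL t _ (fun ξ hξ => ?_) ?_
  · have := hX (σ + ξ) (by simpa using hξ)
    rw [wf_apply] at this
    refine le_of_eq_of_le ?_ this
    congr 1
    refine Finset.sum_congr rfl fun j _ => ?_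
    rw [ph_add]; ring
  · calc ∑ i, ‖(G i : ℂ) * ph σ t i * K i Δ‖ ≤ ∑ j, G j * 2 := by
          refine Finset.sum_le_sum fun j _ => ?_
          rw [norm_mul, norm_mul, norm_ph, mul_one, Complex.norm_real, Real.norm_of_nonneg (hG j)]
          exact mul_le_mul_of_nonneg_left (hK j Δ 2 (by norm_num) hΔ) (hG j)
      _ = (∑ j, G j) * 2 := by rw [Finset.sum_mul]
      _ ≤ 2 := by linarith

/-- Let `c i = G i * K i Δ` for `t ≤ i + Ext` and `c i = 0` otherwise, `d i = i + Ext - t`,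
`F z = ∑ (c i / 2) exp (i z d i)`.  By `Diff.local` the omitted terms sum to at most
`loc = ζ + 2 exp (-μ (Ext - R))`, so `|F β| ≤ (‖wf G t β K Δ‖ + loc) / 2` for real `β`, and
`|F β| |F (β + η₀)| ≤ (X² + 4 loc + loc²) / 4`.  `pp_bound` bounds `F (σ + ξ + i y)`; since the window
vanishes for `i + L < t`, `gwin_dom` applied to `c i * ph σ t i` finishes the proof
(`exp (-y (i - t)) ≤ exp (y Ext)` on the support of `c`). -/
theorem win_B {L h r Ext : ℕ} (h1 : 1 ≤ r * h) (hL : r * h ≤ L) (hExt : L ≤ Ext) (t : Fin n)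
    {G : Fin n → ℝ} (hG : ∀ i, 0 ≤ G i) (hG1 : ∑ i, G i ≤ 1) {K : Feat n} (hK : ∀ i, Bd0 (K i))
    {μ R ζ : ℝ} (hμ : 0 ≤ μ) (hKμ : ∀ i, Bd (K i) i μ (Real.exp (μ * R))) {Δ : Tab n}
    (hΔ : Diff t ζ Δ) (hζ : 0 ≤ ζ) {σ X E Θ y η₀ loc : ℝ}
    (hloc : ζ + 2 * Real.exp (-(μ * (Ext - R))) ≤ loc) (hE : 1 ≤ E)
    (hXE : (X ^ 2 + 4 * loc + loc ^ 2) / 4 ≤ Real.exp (-(2 * E))) (hy : 0 < y)
    (hyh : (h + 1 / 2) * y ≤ 1) (hyΘ : 100 * y ≤ Θ) (hη : 6 * (E + 1) * |η₀| ≤ y)
    (hσ : |σ| + 24 / (2 * h + 1) ≤ Θ / 4)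
    (hX : ∀ β : ℝ, |β| ≤ Θ → ‖wf G t β K Δ‖ * ‖wf G t (β + η₀) K Δ‖ ≤ X ^ 2) :
    ‖wf (fun i => gwin L h r t i * G i) t σ K Δ‖ ≤
      2 * Real.exp (y * (L + Ext)) * (3 * Real.exp (-(9 / 10 * E)) + Real.exp (-(r : ℝ))) := by
  have hloc0 : 0 ≤ loc := le_trans (by positivity) hloc
  have hK2 : ∀ i, ‖K i Δ‖ ≤ 2 := fun i => hK i Δ 2 (by norm_num) hΔ.bd
  set c : Fin n → ℂ := fun i => if (t : ℕ) ≤ i + Ext then (G i : ℂ) * K i Δ else 0 with hc
  set d : Fin n → ℕ := fun i => i + Ext - t with hd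
  have hcn : ∀ i, ‖c i‖ ≤ G i * 2 := by
    intro i
    simp only [hc]
    split_ifs
    · rw [norm_mul, Complex.norm_real, Real.norm_of_nonneg (hG i)]
      exact mul_le_mul_of_nonneg_left (hK2 i) (hG i)
    · rw [norm_zero]; exact mul_nonneg (hG i) (by norm_num)
  have hcs : ∑ i, ‖c i‖ ≤ 2 := by
    calc ∑ i, ‖c i‖ ≤ ∑ i, G i * 2 := Finset.sum_le_sum fun i _ => hcn i
      _ = (∑ j, G j) * 2 := by rw [Finset.sum_mul]
      _ ≤ 2 := by linarith
  have hc2 : ∑ i, ‖c i / 2‖ ≤ 1 := by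
    have : ∑ i, ‖c i / 2‖ = (∑ i, ‖c i‖) / 2 := by
      rw [Finset.sum_div]
      refine Finset.sum_congr rfl fun i _ => ?_
      rw [norm_div]; simp
    rw [this]; linarith
  -- shifting the phase
  have hshift : ∀ z : ℂ, ∑ i, c i / 2 * Complex.exp (Complex.I * z * d i) =
      Complex.exp (Complex.I * z * Ext) / 2 * ∑ i, c i * Complex.exp (Complex.I * z *
        ((((i : ℕ) : ℝ) - ((t : ℕ) : ℝ) : ℝ) : ℂ)) := by
    intro z
    rw [Finset.mul_sum]
    refine Finset.sum_congr rfl fun i _ => ?_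
    by_cases hi : (t : ℕ) ≤ i + Ext
    · have h2 : ((d i : ℕ) : ℂ) = (Ext : ℂ) + ((((i : ℕ) : ℝ) - ((t : ℕ) : ℝ) : ℝ) : ℂ) := by
        simp only [hd]
        rw [Nat.cast_sub hi]; push_cast; ring
      rw [h2, mul_add, Complex.exp_add]; ring
    · simp only [hc, if_neg hi]; simp
  have hreal : ∀ β : ℝ, ‖∑ i, c i / 2 * Complex.exp (Complex.I * β * d i)‖ ≤
      (‖wf G t β K Δ‖ + loc) / 2 := by
    intro β
    rw [hshift, norm_mul, norm_div]
    have h2 : ‖Complex.exp (Complex.I * β * Ext)‖ = 1 := by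
      rw [Complex.norm_exp]; simp
    have h3 : ‖wf G t β K Δ - ∑ i, c i * Complex.exp (Complex.I * β *
        ((((i : ℕ) : ℝ) - ((t : ℕ) : ℝ) : ℝ) : ℂ))‖ ≤ loc := by
      rw [wf_apply, ← Finset.sum_sub_distrib]
      refine (norm_sum_le _ _).trans ?_
      calc _ ≤ ∑ i, G i * loc := by
            refine Finset.sum_le_sum fun i _ => ?_
            have hph : Complex.exp (Complex.I * β * ((((i : ℕ) : ℝ) - ((t : ℕ) : ℝ) : ℝ) : ℂ)) =
                ph β t i := by
              unfold ph; congr 1; push_cast; ring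
            rw [hph]
            by_cases hi : (t : ℕ) ≤ i + Ext
            · simp only [hc, if_pos hi]
              rw [show (G i : ℂ) * ph β t i * K i Δ - (G i : ℂ) * K i Δ * ph β t i = 0 by ring,
                norm_zero]
              exact mul_nonneg (hG i) hloc0
            · simp only [hc, if_neg hi]
              rw [zero_mul, sub_zero, norm_mul, norm_mul, norm_ph, mul_one, Complex.norm_real,
                Real.norm_of_nonneg (hG i)]
              refine mul_le_mul_of_nonneg_left ?_ (hG i)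
              have hit : i ≤ t := by
                rw [Fin.le_def]; omega
              refine (hΔ.local hζ hμ (hK i) (hKμ i) hit).trans (le_trans ?_ hloc)
              have h4 : (Ext : ℝ) ≤ ((t : ℕ) : ℝ) - ((i : ℕ) : ℝ) := by
                have : (i : ℕ) + Ext ≤ t := by omega
                have : ((i : ℕ) : ℝ) + Ext ≤ ((t : ℕ) : ℝ) := by exact_mod_cast this
                linarith
              have h5 : Real.exp (μ * R) * Real.exp (-(μ * (((t : ℕ) : ℝ) - ((i : ℕ) : ℝ)))) ≤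
                  Real.exp (-(μ * (Ext - R))) := by
                rw [← Real.exp_add]
                refine Real.exp_le_exp.2 ?_
                have := mul_le_mul_of_nonneg_left h4 hμ
                linarith
              linarith
        _ = (∑ j, G j) * loc := by rw [Finset.sum_mul]
        _ ≤ loc := mul_le_of_le_one_left hloc0 hG1
    have h4 := norm_le_insert (wf G t β K Δ) (∑ i, c i * Complex.exp (Complex.I * β *
        ((((i : ℕ) : ℝ) - ((t : ℕ) : ℝ) : ℝ) : ℂ)))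
    rw [h2]
    simp only [Complex.norm_ofNat]
    linarith
  have hw2 : ∀ β : ℝ, ‖wf G t β K Δ‖ ≤ 2 := fun β =>
    norm_wf_le hG hG1 t β K Δ (by norm_num) hK2
  have hpp : ∀ ξ : ℝ, |ξ| ≤ Θ / 4 →
      ‖∑ i, c i / 2 * Complex.exp (Complex.I * (ξ + Complex.I * y) * d i)‖ ≤
        3 * Real.exp (-(9 / 10 * E)) := by
    intro ξ hξ
    refine pp_bound univ (fun i => c i / 2) d hc2 hE hy hyΘ hη hξ fun β hβ => ?_
    have a1 := hreal β
    have a2 := hreal (β + η₀)
    rw [Complex.ofReal_add] at a2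
    have a3 := hX β hβ
    have a4 := hw2 β
    have a5 := hw2 (β + η₀)
    refine (mul_le_mul a1 a2 (norm_nonneg _) (by positivity)).trans (le_trans ?_ hXE)
    have a6 := mul_le_mul_of_nonneg_left a4 hloc0
    have a7 := mul_le_mul_of_nonneg_left a5 hloc0
    have a8 : (‖wf G t β K Δ‖ + loc) / 2 * ((‖wf G t (β + η₀) K Δ‖ + loc) / 2) =
        (‖wf G t β K Δ‖ * ‖wf G t (β + η₀) K Δ‖ + loc * ‖wf G t β K Δ‖ +
          loc * ‖wf G t (β + η₀) K Δ‖ + loc ^ 2) / 4 := by ring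
    rw [a8]
    linarith
  have e1 : wf (fun i => gwin L h r t i * G i) t σ K Δ =
      ∑ i, (gwin L h r t i : ℂ) * (c i * ph σ t i) := by
    rw [wf_apply]
    refine Finset.sum_congr rfl fun i _ => ?_
    by_cases hi : (t : ℕ) ≤ i + Ext
    · simp only [hc, if_pos hi]; push_cast; ring
    · have : gwin L h r t i = 0 := gwin_eq_zero hL (by unfold Nat.dist; omega)
      rw [this]; simp
  have hdom := gwin_dom h1 hL t (fun i => c i * ph σ t i) hy.le hyh
    (X := Real.exp (y * Ext) * (2 * (3 * Real.exp (-(9 / 10 * E))))) (by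
      intro ξ hξ
      have b1 := hpp (σ + ξ) (by
        have := abs_add_le σ ξ
        linarith)
      rw [hshift, norm_mul, norm_div, Complex.norm_exp] at b1
      have b2 : (Complex.I * (((σ + ξ : ℝ) : ℂ) + Complex.I * y) * Ext).re = -(y * Ext) := by
        simp
      rw [b2] at b1
      simp only [Complex.norm_ofNat] at b1
      have b3 : ∑ i, c i * ph σ t i * Complex.exp (Complex.I * (ξ + Complex.I * y) *
          ((((i : ℕ) : ℝ) - ((t : ℕ) : ℝ) : ℝ) : ℂ)) =
          ∑ i, c i * Complex.exp (Complex.I * (((σ + ξ : ℝ) : ℂ) + Complex.I * y) *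
          ((((i : ℕ) : ℝ) - ((t : ℕ) : ℝ) : ℝ) : ℂ)) := by
        refine Finset.sum_congr rfl fun i _ => ?_
        unfold ph
        rw [mul_assoc, ← Complex.exp_add]
        congr 2
        push_cast; ring
      rw [b3]
      have b4 : Real.exp (y * Ext) * Real.exp (-(y * Ext)) = 1 := by
        rw [← Real.exp_add]; simp
      have b5 := mul_le_mul_of_nonneg_left b1 (Real.exp_pos (y * Ext)).le
      rw [← mul_assoc, ← mul_div_assoc, b4] at b5
      linarith)
  have hsum : ∑ i, ‖c i * ph σ t i‖ * Real.exp (-(y * (((i : ℕ) : ℝ) - ((t : ℕ) : ℝ)))) ≤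
      2 * Real.exp (y * Ext) := by
    calc _ ≤ ∑ i, ‖c i‖ * Real.exp (y * Ext) := by
          refine Finset.sum_le_sum fun i _ => ?_
          rw [norm_mul, norm_ph, mul_one]
          by_cases hi : (t : ℕ) ≤ i + Ext
          · refine mul_le_mul_of_nonneg_left (Real.exp_le_exp.2 ?_) (norm_nonneg _)
            have : ((t : ℕ) : ℝ) ≤ ((i : ℕ) : ℝ) + Ext := by exact_mod_cast hi
            have := mul_le_mul_of_nonneg_left this hy.le
            linarith
          · simp only [hc, if_neg hi]; simp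
      _ = (∑ i, ‖c i‖) * Real.exp (y * Ext) := by rw [Finset.sum_mul]
      _ ≤ _ := mul_le_mul_of_nonneg_right hcs (Real.exp_pos _).le
  rw [e1]
  refine hdom.trans ?_
  have hs2 := mul_le_mul_of_nonneg_left hsum (Real.exp_pos (-(r : ℝ))).le
  refine (mul_le_mul_of_nonneg_left (add_le_add_right hs2 _) (Real.exp_pos _).le).trans
    (le_of_eq ?_)
  rw [mul_add y, Real.exp_add]
  ring

/-- Write `g = gwin L h r t`, `U = 256 L`.  Expanding the product,
`prodF = ∑_{i} g i ph β₁ t i • K₁ i ⋆ ∏_m (∑_j g j ph β_m t j • K_m j)`.  For `i, j` in the support of `g`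
(`dist i j ≤ 2 L`) one has `|W G i - 1| ≤ ζG` and `|uu J L (dist i j) - 1| ≤ 4^(-J)`; inserting these
factors costs `2 (ζG + 6 / 4^J)`.  With `ph β_m t j = ph β_m t i * ph β_m i j` the result is
`W U^|es| ∑_i g i G i ph σ t i • (K₁ i ⋆ ∏_m ew_m i) Δ`, where `σ = (a₁ + ∑ a_m) η` and
`ew_m i = wf (fun j => g j * uu J L (dist i j) / U) i β_m K_m`.  Remove the windows `g j` one edge at a
time (induction on the list, moving the treated edge into the root, cf. `node_cons`): by `gwin_dom`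
with `y = 0` in the variable `j`, at the cost `2 exp (-r)`, the edge frequency becomes `β_m + ξ` and
the total frequency `σ + ξ` with `|ξ| ≤ 24 / (2h+1)`; round `β_m + ξ` to the grid
(`a_m + round (ξ / η)`) at the cost `2 · 96 L η` (`wf_lip`-type bound with `uu_first_moment`). -/
theorem step_core {J L h r ME : ℕ} (hJ : 1 ≤ J) (h1 : 1 ≤ r * h) (hL : r * h ≤ L) (t : Fin n)
    {G : Fin n → ℝ} (hG : ∀ i, 0 ≤ G i) (hG1 : ∑ i, G i ≤ 1) {W ζG : ℝ} (hW : 0 < W)
    (hζG0 : 0 ≤ ζG) (hζG : ζG ≤ 1) (hGW : ∀ i : Fin n, Nat.dist i t ≤ L → |W * G i - 1| ≤ ζG)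
    {η : ℝ} (hη : 0 < η) {K₁ : Feat n} (a₁ : ℤ) {es : List (Feat n × ℤ)} (hlen : es.length ≤ 3)
    (hK₁ : ∀ i, Bd0 (K₁ i)) (hes : ∀ e ∈ es, ∀ i, Bd0 (e.1 i))
    (hME : ∀ e ∈ es, ((|e.2| : ℤ) : ℝ) + 24 / (2 * h + 1) / η + 1 ≤ ME) {Δ : Tab n}
    (hΔ : ∀ S, ‖Δ S‖ ≤ 2) {Y : ℝ}
    (hY : ∀ es' : List (Feat n × ℤ), es'.map Prod.fst = es.map Prod.fst →
      (∀ e ∈ es', |e.2| ≤ ME) → ∀ σ' : ℝ,
      |σ' - ((a₁ + (es.map Prod.snd).sum : ℤ) : ℝ) * η| ≤ 3 * (24 / (2 * h + 1)) →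
      ‖wf (fun i => gwin L h r t i * G i) t σ' (node J L K₁ (onGrid η es')) Δ‖ ≤ Y) :
    ‖prodF (gwin L h r t) t (onGrid η ((K₁, a₁) :: es)) Δ‖ ≤
      W * (256 * L) ^ 3 * (Y + 6 * (Real.exp (-(r : ℝ)) + 96 * L * η)) +
        2 * (ζG + 6 / 4 ^ J) := by
  have hL1 : 1 ≤ L := h1.trans hL
  have hL1' : (1 : ℝ) ≤ L := by exact_mod_cast hL1
  set g := gwin L h r t with hg
  have hg0 : ∀ i, 0 ≤ g i := gwin_nonneg L h r t
  have hg1 : ∀ i, g i ≤ 1 := gwin_le_one hL1 t
  have hgs : ∑ i, g i ≤ 1 := sum_gwin_le h1 hL t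
  set σ : ℝ := ((a₁ + (es.map Prod.snd).sum : ℤ) : ℝ) * η with hσ
  set f : Feat n × ℤ → Fn n := fun e => wf g t ((e.2 : ℝ) * η) e.1 with hf
  set f' : Fin n → Feat n × ℤ → Fn n := fun i e =>
    wf (fun j => g j * uu J L (Nat.dist i j)) t ((e.2 : ℝ) * η) e.1 with hf'
  set F : Fin n → Feat n × ℤ → Fn n := fun i e => ew J L g ((e.2 : ℝ) * η) e.1 i with hF
  have hlen' : (es.length : ℝ) ≤ 3 := by exact_mod_cast hlen
  -- expansion of the product
  have e1 : prodF g t (onGrid η ((K₁, a₁) :: es)) Δ =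
      ∑ i, (g i : ℂ) * ph ((a₁ : ℝ) * η) t i * fo f es (K₁ i) Δ := by
    have : prodF g t (onGrid η ((K₁, a₁) :: es)) = fo f es (sta oneF (wf g t ((a₁ : ℝ) * η) K₁)) := by
      unfold prodF onGrid fo
      rw [List.foldl_map, List.foldl_cons]
    rw [this, fo_sta_wf]
    simp only [oneF_sta]
  have e2 : ∀ i e, f' i e = ((256 * L : ℂ) * ph ((e.2 : ℝ) * η) t i) • F i e := by
    intro i e
    simp only [hf', hF, ew, wf]
    rw [Finset.smul_sum]
    refine Finset.sum_congr rfl fun j _ => ?_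
    rw [smul_smul, ph_trans _ t i j]
    congr 1
    have : (L : ℂ) ≠ 0 := by exact_mod_cast (by omega : L ≠ 0)
    push_cast
    field_simp
  have e3 : ∑ i, (g i : ℂ) * ph ((a₁ : ℝ) * η) t i * ((W * G i : ℝ) * fo (f' i) es (K₁ i) Δ) =
      (W : ℂ) * (256 * L : ℂ) ^ es.length *
        wf (fun i => g i * G i) t σ (fun i => fo (F i) es (K₁ i)) Δ := by
    rw [wf_apply, Finset.mul_sum]
    refine Finset.sum_congr rfl fun i _ => ?_
    have : f' i = fun e => ((256 * L : ℂ) * ph ((e.2 : ℝ) * η) t i) • F i e := funext (e2 i)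
    rw [this, fo_scal, LinearMap.smul_apply, smul_eq_mul, hσ, Int.cast_add, add_mul, ph_add]
    push_cast
    ring
  have hgG0 : ∀ i, 0 ≤ g i * G i := fun i => mul_nonneg (hg0 i) (hG i)
  have hgG1 : ∑ i, g i * G i ≤ 1 :=
    le_trans (Finset.sum_le_sum fun i _ => mul_le_of_le_one_left (hG i) (hg1 i)) hG1
  have e4 := remove_win (ME := ME) (Y := Y) hJ h1 hL t hgG0 hgG1 hη hΔ es K₁ σ hK₁ hes hME (by
    intro es' h' hM' σ' hσ'
    refine hY es' h' hM' σ' (hσ'.trans ?_)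
    exact mul_le_mul_of_nonneg_right hlen' (by positivity))
  have e5 : ‖(W : ℂ) * (256 * L : ℂ) ^ es.length *
        wf (fun i => g i * G i) t σ (fun i => fo (F i) es (K₁ i)) Δ‖ ≤
      W * (256 * L) ^ 3 * (Y + 6 * (Real.exp (-(r : ℝ)) + 96 * L * η)) := by
    rw [norm_mul, norm_mul, norm_pow, Complex.norm_real, Real.norm_of_nonneg hW.le]
    have b1 : ‖(256 * L : ℂ)‖ = 256 * L := by
      rw [norm_mul]; simp
    rw [b1]
    have b2 : (256 * (L : ℝ)) ^ es.length ≤ (256 * L) ^ 3 :=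
      pow_le_pow_right₀ (by linarith) hlen
    have b3 : (es.length : ℝ) * (2 * (Real.exp (-(r : ℝ)) + 96 * L * η)) ≤
        3 * (2 * (Real.exp (-(r : ℝ)) + 96 * L * η)) :=
      mul_le_mul_of_nonneg_right hlen' (by positivity)
    refine mul_le_mul (mul_le_mul_of_nonneg_left b2 hW.le) (e4.trans ?_) (norm_nonneg _)
      (by positivity)
    linarith
  have hfb : ∀ e ∈ es, Bd0 (f e) := fun e he => Bd0.wf hg0 hgs (hes e he) t _
  have hf'b : ∀ i, ∀ e ∈ es, Bd0 (f' i e) := fun i e he =>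
    Bd0.wf (fun j => mul_nonneg (hg0 j) (uu_nonneg hL1 _))
      (le_trans (Finset.sum_le_sum fun j _ => mul_le_of_le_one_right (hg0 j) (uu_le_one hL1 _)) hgs)
      (hes e he) t _
  have e6 : ∀ i : Fin n, Nat.dist i t ≤ L →
      ‖fo f es (K₁ i) Δ - (W * G i : ℝ) * fo (f' i) es (K₁ i) Δ‖ ≤ 2 * (ζG + 6 / 4 ^ J) := by
    intro i hi
    have hd : ∀ e ∈ es, BdN (f e - f' i e) (1 / 4 ^ J) := by
      intro e he Λ c hc hΛ
      simp only [hf, hf']
      rw [LinearMap.sub_apply, wf_apply, wf_apply, ← Finset.sum_sub_distrib]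
      refine (norm_sum_le _ _).trans ?_
      calc _ ≤ ∑ j, g j * (1 / 4 ^ J * c) := by
            refine Finset.sum_le_sum fun j _ => ?_
            by_cases hj : L < Nat.dist j t
            · have : g j = 0 := gwin_eq_zero hL hj
              simp [this]
            · have hij : Nat.dist i j ≤ 2 * L := by
                unfold Nat.dist at *; omega
              have u1 := uu_plateau (J := J) hL1 hij
              have u2 := uu_le_one (J := J) hL1 (Nat.dist i j)
              have : (g j : ℂ) * ph ((e.2 : ℝ) * η) t j * e.1 j Λ -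
                  ((g j * uu J L (Nat.dist i j) : ℝ) : ℂ) * ph ((e.2 : ℝ) * η) t j * e.1 j Λ =
                  ((g j * (1 - uu J L (Nat.dist i j)) : ℝ) : ℂ) * ph ((e.2 : ℝ) * η) t j *
                    e.1 j Λ := by
                push_cast; ring
              rw [this, norm_mul, norm_mul, norm_ph, mul_one, Complex.norm_real,
                Real.norm_of_nonneg (mul_nonneg (hg0 j) (by linarith)), mul_assoc]
              refine mul_le_mul_of_nonneg_left ?_ (hg0 j)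
              exact mul_le_mul (by linarith) (hes e he j Λ c hc hΛ) (norm_nonneg _)
                (by positivity)
        _ = (∑ j, g j) * (1 / 4 ^ J * c) := by rw [Finset.sum_mul]
        _ ≤ _ := mul_le_of_le_one_left (by positivity) hgs
    have t1 := fo_tele (δ := 1 / 4 ^ J) (by positivity) hfb (hf'b i) hd (φ := K₁ i) (φ' := K₁ i)
      (δ₀ := 0) (hK₁ i) (by rw [sub_self]; exact bdN_zero) Δ 2 (by norm_num) hΔ
    rw [LinearMap.sub_apply] at t1
    have t2 : ‖fo (f' i) es (K₁ i) Δ‖ ≤ 2 := bd0_fo (hf'b i) (hK₁ i) Δ 2 (by norm_num) hΔ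
    have t3 : fo f es (K₁ i) Δ - (W * G i : ℝ) * fo (f' i) es (K₁ i) Δ =
        (fo f es (K₁ i) Δ - fo (f' i) es (K₁ i) Δ) -
          ((W * G i - 1 : ℝ) : ℂ) * fo (f' i) es (K₁ i) Δ := by
      push_cast; ring
    rw [t3]
    refine (norm_sub_le _ _).trans ?_
    rw [norm_mul, Complex.norm_real, Real.norm_eq_abs]
    have t4 := mul_le_mul (hGW i hi) t2 (norm_nonneg _) hζG0
    have t5 : (0 : ℝ) ≤ 1 / 4 ^ J := by positivity
    have t6 := mul_le_mul_of_nonneg_right hlen' t5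
    have t7 : (6 : ℝ) / 4 ^ J = 6 * (1 / 4 ^ J) := by ring
    rw [t7]
    linarith
  have e7 : ‖∑ i, (g i : ℂ) * ph ((a₁ : ℝ) * η) t i * fo f es (K₁ i) Δ -
      ∑ i, (g i : ℂ) * ph ((a₁ : ℝ) * η) t i * ((W * G i : ℝ) * fo (f' i) es (K₁ i) Δ)‖ ≤
      2 * (ζG + 6 / 4 ^ J) := by
    rw [← Finset.sum_sub_distrib]
    refine (norm_sum_le _ _).trans ?_
    calc _ ≤ ∑ i, g i * (2 * (ζG + 6 / 4 ^ J)) := by
          refine Finset.sum_le_sum fun i _ => ?_
          by_cases hi : L < Nat.dist i t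
          · have : g i = 0 := gwin_eq_zero hL hi
            simp [this]
          · rw [← mul_sub, norm_mul, norm_mul, norm_ph, mul_one, Complex.norm_real,
              Real.norm_of_nonneg (hg0 i)]
            exact mul_le_mul_of_nonneg_left (e6 i (by omega)) (hg0 i)
      _ = (∑ j, g j) * (2 * (ζG + 6 / 4 ^ J)) := by rw [Finset.sum_mul]
      _ ≤ _ := mul_le_of_le_one_left (by positivity) hgs
  rw [e3] at e7
  rw [e1]
  refine (norm_le_insert' _ _).trans (add_le_add e5 e7)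

end Crest.Agent.R300
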